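import Vale.Agent.P338.CallA

/-!
# P338: the program that runs a multiplying machine under a clock
-/

namespace Vale.Agent.P338

/-! ### Facts on words, numbers and halting -/

theorem exists_ofFn {m : ℕ} (l : List Bool) (h : l.length = m) :
    ∃ x : Fin m → Bool, List.ofFn x = l := by
  subst h
  exact ⟨l.get, List.ofFn_get l⟩

theorem val_reverse (l : List Bool) : val l.reverse = natOf l := by
  unfold val
  rw [List.foldl_reverse]
  induction l with
  | nil => rfl
  | cons b l ih =>
    rw [List.foldr_cons, ih, natOf]
    omega

theorem bin_reverse (k z : ℕ) : (bin k z).reverse = bitsOf k z := by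
  unfold bin bitsOf
  apply List.ext_getElem
  · simp
  · intro i h1 h2
    simp only [List.length_reverse, List.length_map, List.length_range] at h1
    simp only [List.getElem_reverse, List.getElem_map, List.getElem_range, List.length_map,
      List.length_range]
    congr 1
    omega

theorem length_bin (k z : ℕ) : (bin k z).length = k := by simp [bin]

theorem TM.run_succ (M : TM) (w : List Sym) (t : ℕ) : M.run w (t + 1) = M.next (M.run w t) := by
  unfold TM.run
  rw [Function.iterate_succ_apply']

theorem TM.run_of_halted (M : TM) (w : List Sym) {t : ℕ} (h : M.Halted (M.run w t)) (u : ℕ) :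
    M.run w (t + u) = M.run w t := by
  induction u with
  | zero => rfl
  | succ u ih =>
    rw [← Nat.add_assoc, TM.run_succ, ih]
    unfold TM.next
    unfold TM.Halted at h
    rw [h]

theorem TM.time_le (M : TM) {w : List Sym} {t : ℕ} (h : M.Halted (M.run w t)) :
    M.time w ≤ t := Nat.sInf_le h

theorem TM.halted_time (M : TM) {w : List Sym} (h : M.HaltsOn w) :
    M.Halted (M.run w (M.time w)) := Nat.sInf_mem (s := {t | M.Halted (M.run w t)}) h

theorem TM.not_halted (M : TM) {w : List Sym} {t : ℕ} (h : t < M.time w) :
    ¬ M.Halted (M.run w t) := fun h' => absurd (M.time_le h') (by omega)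

theorem TM.Writes.run_time {M : TM} {w v : List Sym} (h : M.Writes w v) :
    M.Halted (M.run w (M.time w)) ∧
      ∀ i < v.length, (M.run w (M.time w)).tape M.out i = M.sym (v.getD i Sym.blank) := by
  obtain ⟨t, ht, hv⟩ := h
  have h1 := M.halted_time ⟨t, ht⟩
  refine ⟨h1, ?_⟩
  obtain ⟨u, hu⟩ := Nat.exists_eq_add_of_le (M.time_le ht)
  have h2 := M.run_of_halted w h1 u
  rw [← hu] at h2
  rwa [← h2]

theorem exists_rest {A : TM} (v : List Sym) (hv : ∀ a ∈ v, a ≠ Sym.blank) (l : List A.Γ)
    (h : ∀ i < v.length, l.getD i (A.sym Sym.blank) = A.sym (v.getD i Sym.blank)) :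
    ∃ rest, l = v.map A.sym ++ rest := by
  induction v generalizing l with
  | nil => exact ⟨l, rfl⟩
  | cons a v ih =>
    have h0 := h 0 (by simp)
    cases l with
    | nil =>
      rw [List.getD_nil, List.getD_cons_zero] at h0
      exact absurd (A.sym_inj h0).symm (hv a List.mem_cons_self)
    | cons b l =>
      rw [List.getD_cons_zero, List.getD_cons_zero] at h0
      obtain ⟨rest, hr⟩ := ih (fun a ha => hv a (List.mem_cons_of_mem _ ha)) l
        (fun i hi => by
          have := h (i + 1) (by simp only [List.length_cons]; omega)
          rwa [List.getD_cons_succ, List.getD_cons_succ] at this)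
      exact ⟨rest, by rw [hr, h0]; rfl⟩

theorem bitWord_ne_blank (l : List Bool) : ∀ a ∈ bitWord l, a ≠ Sym.blank := by
  intro a ha
  obtain ⟨b, -, rfl⟩ := List.mem_map.mp ha
  cases b <;> simp [Sym.ofBit]

theorem mulInput_eq {m : ℕ} (x y : Fin m → Bool) (xs ys : List Bool)
    (hx : List.ofFn x = xs.reverse) (hy : List.ofFn y = ys.reverse) :
    mulInput x y = bitWord xs.reverse ++ Sym.sep :: bitWord ys.reverse := by
  unfold mulInput
  rw [hx, hy]

/-! ### The outer loop -/

section

variable (A : TM)

/-- The outer loop: as long as `A` has not halted and `v` is not empty, set the inner clock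
to the contents of `u`, run `A`, and remove a mark from `v`. -/
def callOuter (u v : R) : Pr (AReg A.k) (ASym A) :=
  Prog.loop (fun tp => (tp (Sum.inl v)).isSome && (callTrans A tp).isSome)
    ((callRefill A u Base.mark).seq ((callInner A).seq (Prog.pop (Sum.inl v))))

theorem runs_callOuter {u v : R} (huv : u ≠ v) (b : R → List (SSym (ASym A)))
    (w : List Sym) (c d : ℕ) (hc : 1 ≤ c) (hclk : b u = una c) (hk : b v = una d) (hh : A.HaltsOn w) :
    ∃ J t : ℕ, t ≤ A.time w ∧ t ≤ c * d ∧ c * J ≤ t + c ∧
      (t = A.time w ∨ (c * J - t = 0 ∧ t < A.time w ∧ c * d < A.time w)) ∧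
      Runs (callOuter A u v) (Sum.elim b ((Sim.init A w).areg []))
        (Sum.elim (Function.update b v (una (d - J)))
          ((Sim.at' A w t).areg (una (c * J - t))))
        (12 * c + 19 * min (A.time w) (c * d)) := by
  classical
  have hT := A.halted_time hh
  have hnT : ∀ t < A.time w, ¬ A.Halted (A.run w t) := fun t ht => A.not_halted ht
  generalize A.time w = T at hT hnT ⊢
  have ex : ∃ j, d ≤ j ∨ T ≤ c * j := ⟨d, Or.inl le_rfl⟩
  obtain ⟨J, hJ, hJm⟩ : ∃ J, (d ≤ J ∨ T ≤ c * J) ∧ ∀ j < J, j < d ∧ c * j < T :=
    ⟨Nat.find ex, Nat.find_spec ex, fun j hj => by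
      have := Nat.find_min ex hj
      omega⟩
  have hJd : J ≤ d := by
    by_contra h
    have := (hJm d (by omega)).1
    omega
  have hcJ : c * J ≤ c * d := Nat.mul_le_mul_left c hJd
  have hback : c * J ≤ min T (c * J) + c := by
    rcases Nat.eq_zero_or_pos J with h | h
    · subst h; omega
    · have h1 := (hJm (J - 1) (by omega)).2
      have h2 : c * J = c * (J - 1) + c := by
        obtain ⟨z, rfl⟩ : ∃ z, J = z + 1 := ⟨J - 1, by omega⟩
        rw [Nat.add_sub_cancel, Nat.mul_succ]
      omega
  have hrun := Runs.loop_iter (c := fun tp => (tp (Sum.inl v)).isSome &&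
      (callTrans A tp).isSome)
    (p := (callRefill A u Base.mark).seq ((callInner A).seq (Prog.pop (Sum.inl v)))) J
    (fun j => Sum.elim (Function.update b v (una (d - j)))
      ((Sim.at' A w (min T (c * j))).areg (una (c * j - min T (c * j)))))
    (fun j => 6 * c + 4 + 7 * (min T (c * (j + 1)) - min T (c * j))) ?_ ?_ ?_
  · refine ⟨J, min T (c * J), by omega, by omega, hback, ?_, ?_⟩
    · rcases hJ with h | h
      · have : J = d := le_antisymm hJd h
        subst this
        omega
      · left; omega
    · have e0 : (Sum.elim (Function.update b v (una (d - 0)))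
          ((Sim.at' A w (min T (c * 0))).areg (una (c * 0 - min T (c * 0)))) :
          R ⊕ AReg A.k → List (SSym (ASym A))) = Sum.elim b ((Sim.init A w).areg []) := by
        rw [Nat.sub_zero, ← hk, Function.update_eq_self, Nat.mul_zero, Nat.min_zero]
        rfl
      rw [e0] at hrun
      refine hrun.mono ?_
      rw [Finset.sum_congr rfl (fun j _ => (by ring :
        6 * c + 4 + 7 * (min T (c * (j + 1)) - min T (c * j)) + 2 =
          (6 * c + 6) + 7 * (min T (c * (j + 1)) - min T (c * j)))), Finset.sum_add_distrib,
        ← Finset.mul_sum, Finset.sum_const, Finset.card_range, smul_eq_mul,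
        Finset.sum_range_tsub (f := fun j => min T (c * j)) (fun i j hij =>
          min_le_min_left T (Nat.mul_le_mul_left c hij))]
      have h1 : J * (6 * c + 6) ≤ 12 * (c * J) := by
        have : J * 6 ≤ 6 * (c * J) := by nlinarith
        nlinarith
      have h2 : min T (c * J) ≤ min T (c * d) := min_le_min_left T hcJ
      omega
  · intro j hj
    obtain ⟨hjd, hjT⟩ := hJm j hj
    have hmin : min T (c * j) = c * j := by omega
    have h1 : A.δ (Sim.at' A w (c * j)).q (Sim.at' A w (c * j)).rd ≠ none := by
      rw [Ne, Sim.at_halted]
      exact hnT _ hjT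
    obtain ⟨r, hr'⟩ := Option.ne_none_iff_exists'.mp h1
    obtain ⟨z, hz⟩ : ∃ z, d - j = z + 1 := ⟨d - j - 1, by omega⟩
    simp only [callTrans_tops, tops_apply, Sum.elim_inl, Function.update_self, hmin, hr', hz]
    rfl
  · rcases hJ with h | h
    · have hz : d - J = 0 := by omega
      simp only [callTrans_tops, tops_apply, Sum.elim_inl, Function.update_self, hz]
      rfl
    · have hmin : min T (c * J) = T := by omega
      have h1 : A.δ (Sim.at' A w T).q (Sim.at' A w T).rd = none := by
        rw [Sim.at_halted]
        exact hT
      simp only [callTrans_tops, tops_apply, hmin, h1, Option.isSome_none, Bool.and_false]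
  · intro j hj
    obtain ⟨hjd, hjT⟩ := hJm j hj
    have hmin : min T (c * j) = c * j := by omega
    have hsucc : c * (j + 1) = c * j + c := Nat.mul_succ c j
    set b' : R → List (SSym (ASym A)) := Function.update b v (una (d - j)) with hb'
    have hclk' : b' u = una c := by
      rw [hb', Function.update_of_ne huv, hclk]
    obtain ⟨k, hkdef⟩ : ∃ k, k = min T (c * (j + 1)) - c * j := ⟨_, rfl⟩
    have hkc : k ≤ c := by omega
    have h1 := Runs.callRefill A u Base.mark c b' (Sim.at' A w (c * j)) hclk'
    have h2 := Runs.callInner A b' w (Sum.inl Base.mark) (c * j) c k hkc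
      (fun t ht => hnT _ (by omega)) (by
        by_cases h : T ≤ c * (j + 1)
        · right
          have : c * j + k = T := by omega
          rw [this]; exact hT
        · left; omega)
    have h3 := Runs.pop (Sum.inl v) (Sum.elim b' ((Sim.at' A w (c * j + k)).areg
      (List.replicate (c - k) (Sum.inl Base.mark))))
    simp only [hmin]
    have hnil : (una (c * j - c * j) : List (SSym (ASym A))) = [] := by
      rw [Nat.sub_self]; rfl
    rw [hnil]
    refine ((h1.seq (h2.seq h3)).mono ?_).of_eq ?_
    · omega
    · have e1 : c * j + k = min T (c * (j + 1)) := by omega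
      have e2 : c - k = c * (j + 1) - min T (c * (j + 1)) := by omega
      obtain ⟨z, hz⟩ : ∃ z, d - j = z + 1 := ⟨d - j - 1, by omega⟩
      have hz' : d - (j + 1) = z := by omega
      rw [Sum.update_elim_inl, Sum.elim_inl, hb', Function.update_self, Function.update_idem,
        e1, e2, hz, hz']
      rfl

/-- What is done when `A` has halted. -/
noncomputable def callDone : Pr (AReg A.k) (ASym A) :=
  (Prog.rev (Sum.inr (AReg.L A.out)) (Sum.inr (AReg.R A.out))).seq
    ((callExtract A R.AZ R.CNT Base.bit).seq ((callClean A).seq (callClear A R.CLK)))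

/-- What is done when the clock has run out. -/
noncomputable def callLate : Pr (AReg A.k) (ASym A) :=
  (callClean A).seq
    ((callClear A R.CNT).seq ((callClear A R.CLK).seq (Prog.push (Sum.inl R.FLAG) mk)))

/-- The program that runs `A` under a clock. -/
noncomputable def callA : Pr (AReg A.k) (ASym A) :=
  (callLoad A R.AY R.CNT Base.bit Base.mark).seq
    ((callMid A).seq
      ((callLoad A R.AX R.CNT Base.bit Base.mark).seq
        ((callOuter A R.CNT R.CLK).seq
          (Prog.ite (fun tp => (callTrans A tp).isNone) (callDone A) (callLate A)))))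

theorem areg_length (w : List Sym) (t n : ℕ) (a : AReg A.k) :
    ((Sim.at' A w t).areg (una n) a : List (SSym (ASym A))).length ≤ w.length + t + n + 1 := by
  rcases a with i | i | _ | _ | _ | _
  · have := Sim.at_size (A := A) w t i
    unfold Sim.size at this
    simp only [Sim.areg, List.length_map]
    omega
  · have := Sim.at_size (A := A) w t i
    unfold Sim.size at this
    simp only [Sim.areg, List.length_map]
    omega
  · simp [Sim.areg]
  · simp [Sim.areg]
  · simp only [Sim.areg, length_una]; omega
  · simp [Sim.areg]

theorem runs_callDone (b : R → List (SSym (ASym A))) (w : List Sym) (vs : List Bool)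
    (hw : A.Writes w (bitWord vs)) (n : ℕ) (hcnt : b R.CNT = una vs.length)
    (haz : b R.AZ = []) :
    Runs (callDone A) (Sum.elim b ((Sim.at' A w (A.time w)).areg (una n)))
      (Sum.elim (Function.update (Function.update (Function.update b R.CNT [])
        R.AZ (bits vs.reverse)) R.CLK []) fun _ => [])
      (6 * (w.length + A.time w + n + 1) + 3 * vs.length + 3 * (b R.CLK).length + 3) := by
  obtain ⟨-, hv⟩ := hw.run_time
  rw [← Sim.at_cfg] at hv
  obtain ⟨rest, hrest⟩ := exists_rest (bitWord vs) (bitWord_ne_blank vs)
    (((Sim.at' A w (A.time w)).L A.out).reverse ++ (Sim.at' A w (A.time w)).R A.out) hv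
  have hlen := fun a => areg_length A w (A.time w) n a
  have hsz := Sim.at_size (A := A) w (A.time w) A.out
  unfold Sim.size at hsz
  generalize Sim.at' A w (A.time w) = S at hrest hlen hsz ⊢
  have h1 := Runs.rev (i := Sum.inr (AReg.L A.out)) (j := Sum.inr (AReg.R A.out)) (by simp)
    (Sum.elim b (S.areg (una n)))
  rw [Sum.update_elim_inr, Sum.update_elim_inr, Sum.elim_inr] at h1
  have hg : (S.areg (una n) (AReg.L A.out)).reverse ++ (S.areg (una n) (AReg.R A.out)) =
      callTape A (bitWord vs) ++ (rest.map fun a => Sum.inr (ASym.tp a) :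
        List (SSym (ASym A))) := by
    have := congrArg (List.map fun a => (Sum.inr (ASym.tp a) : SSym (ASym A))) hrest
    simpa [Sim.areg, callTape, Function.comp_def] using this
  rw [Sum.elim_inr, hg] at h1
  have h2 := Runs.callExtract A R.AZ R.CNT (by decide) Base.bit mk vs
    (rest.map fun a => Sum.inr (ASym.tp a)) b
    (Function.update (Function.update (S.areg (una n)) (AReg.L A.out) []) (AReg.R A.out)
      (callTape A (bitWord vs) ++ (rest.map fun a => Sum.inr (ASym.tp a)))) hcnt
    (Function.update_self _ _ _)
  rw [Function.update_idem, haz] at h2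
  have hlr := congrArg List.length hrest
  simp only [List.length_append, List.length_reverse, List.length_map] at hlr
  have h3 := Runs.callClean A (Function.update (Function.update b R.CNT []) R.AZ
      (callBits A Base.bit vs.reverse ++ [])) (w.length + A.time w + n + 1)
    (Function.update (Function.update (S.areg (una n)) (AReg.L A.out) []) (AReg.R A.out)
      (rest.map fun a => Sum.inr (ASym.tp a))) (by
      intro a
      by_cases ha : a = AReg.R A.out
      · subst ha
        rw [Function.update_self, List.length_map]
        omega
      · rw [Function.update_of_ne ha]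
        by_cases ha' : a = AReg.L A.out
        · subst ha'
          simp
        · rw [Function.update_of_ne ha']
          exact hlen a)
  have h4 := Runs.callClear A R.CLK (Function.update (Function.update b R.CNT []) R.AZ
      (callBits A Base.bit vs.reverse ++ [])) (fun _ => [])
  refine ((h1.seq (h2.seq (h3.seq h4))).mono ?_).of_eq ?_
  · have e1 : (Function.update (Function.update b R.CNT []) R.AZ
      (callBits A Base.bit vs.reverse ++ [])) R.CLK = b R.CLK := by
      rw [Function.update_of_ne (by decide), Function.update_of_ne (by decide)]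
    have e3 : (S.areg (una n) (AReg.L A.out) : List (SSym (ASym A))).length =
      (S.L A.out).length := by simp [Sim.areg]
    rw [e1, e3]
    omega
  · rw [List.append_nil]
    rfl

theorem runs_callLate (b : R → List (SSym (ASym A))) (w : List Sym) (t n : ℕ)
    (hflag : b R.FLAG = []) :
    Runs (callLate A) (Sum.elim b ((Sim.at' A w t).areg (una n)))
      (Sum.elim (Function.update (Function.update (Function.update b R.CNT [])
        R.CLK []) R.FLAG [mk]) fun _ => [])
      (3 * (w.length + t + n + 1) + 3 * (b R.CNT).length + 3 * (b R.CLK).length + 4) := by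
  have h1 := Runs.callClean A b (w.length + t + n + 1) ((Sim.at' A w t).areg (una n))
    (fun a => areg_length A w t n a)
  have h2 := Runs.callClear A R.CNT b (fun _ => [])
  have h3 := Runs.callClear A R.CLK (Function.update b R.CNT []) (fun _ => [])
  have h5 := Runs.push (Sum.inl R.FLAG) mk (Sum.elim (Function.update
    (Function.update b R.CNT []) R.CLK []) (fun _ : AReg A.k => []))
  refine ((h1.seq (h2.seq (h3.seq h5))).mono ?_).of_eq ?_
  · have e1 : (Function.update b R.CNT []) R.CLK = b R.CLK := by
      rw [Function.update_of_ne (by decide)]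
    rw [e1]
    omega
  · rw [Sum.update_elim_inl, Sum.elim_inl, Function.update_of_ne (by decide),
      Function.update_of_ne (by decide), hflag]

theorem time_le_mulTime {m : ℕ} (x y : Fin m → Bool) :
    A.time (mulInput x y) ≤ mulTime A m := by
  have h := Finset.le_sup (s := (Finset.univ : Finset ((Fin m → Bool) × (Fin m → Bool))))
    (f := fun p : (Fin m → Bool) × (Fin m → Bool) => A.time (mulInput p.1 p.2)) (b := (x, y))
    (Finset.mem_univ (x, y))
  exact h

theorem update_done {α : Type} (b : R → α) (e p q u z : α) (h : b R.CNT = e) :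
    Function.update (Function.update (Function.update (Function.update (Function.update
      (Function.update (Function.update (Function.update b R.AY e) R.CNT p) R.AX e) R.CNT q)
        R.CLK u) R.CNT e) R.AZ z) R.CLK e =
    Function.update (Function.update (Function.update (Function.update b
      R.AX e) R.AY e) R.CLK e) R.AZ z := by
  funext r
  rcases eq_or_ne r R.CNT with rfl | h1
  · simp [h]
  rcases eq_or_ne r R.AX with rfl | h2
  · simp
  rcases eq_or_ne r R.AY with rfl | h3
  · simp
  rcases eq_or_ne r R.CLK with rfl | h4
  · simp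
  rcases eq_or_ne r R.AZ with rfl | h6
  · simp
  simp [h1, h2, h3, h4, h6]

theorem update_late {α : Type} (b : R → α) (e p q u z : α) (h : b R.CNT = e) :
    Function.update (Function.update (Function.update (Function.update (Function.update
      (Function.update (Function.update (Function.update b R.AY e) R.CNT p) R.AX e) R.CNT q)
        R.CLK u) R.CNT e) R.CLK e) R.FLAG z =
    Function.update (Function.update (Function.update (Function.update b
      R.AX e) R.AY e) R.CLK e) R.FLAG z := by
  funext r
  rcases eq_or_ne r R.CNT with rfl | h1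
  · simp [h]
  rcases eq_or_ne r R.AX with rfl | h2
  · simp
  rcases eq_or_ne r R.AY with rfl | h3
  · simp
  rcases eq_or_ne r R.CLK with rfl | h4
  · simp
  rcases eq_or_ne r R.FLAG with rfl | h6
  · simp
  simp [h1, h2, h3, h4, h6]

theorem bit_injective : Function.Injective Base.bit := fun a b h => by injection h

/-- The program `callA` meets its specification. -/
theorem callSpec (hA : Multiplies A) : CallSpec (callA A) (mulTime A) 100 := by
  intro m xs ys β s hm hx hy hidle hemp hax hay hclk
  obtain ⟨b, rfl⟩ : ∃ b : R → List (SSym (ASym A)), s = Sum.elim b (fun _ => []) :=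
    ⟨fun r => s (Sum.inl r), by
      funext j
      rcases j with j | j
      · rfl
      · exact hidle j⟩
  have haz : b R.AZ = [] := hemp R.AZ (by simp)
  have hflag : b R.FLAG = [] := hemp R.FLAG (by simp)
  have hcnt : b R.CNT = [] := hemp R.CNT (by simp)
  replace hax : b R.AX = bits xs := hax
  replace hay : b R.AY = bits ys := hay
  replace hclk : b R.CLK = una β := hclk
  -- the word and its properties
  obtain ⟨x, hxw⟩ := exists_ofFn (m := m) xs.reverse (by simp [hx])
  obtain ⟨y, hyw⟩ := exists_ofFn (m := m) ys.reverse (by simp [hy])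
  obtain ⟨w, hw⟩ : ∃ w, w = bitWord xs.reverse ++ Sym.sep :: bitWord ys.reverse := ⟨_, rfl⟩
  have hmi : mulInput x y = w := by rw [hw]; exact mulInput_eq x y xs ys hxw hyw
  have hwr := hA m hm x y
  rw [hmi, hxw, hyw, val_reverse, val_reverse] at hwr
  have htime : A.time w ≤ mulTime A m := by
    rw [← hmi]
    exact time_le_mulTime A x y
  have hwlen : w.length = 2 * m + 1 := by
    rw [hw]
    simp only [bitWord, List.length_append, List.length_map, List.length_reverse,
      List.length_cons]
    omega
  -- loading the input
  have h1 := Runs.callLoad A R.AY R.CNT (by decide) Base.bit bit_injective Base.mark ys b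
    (fun _ => []) hay
  rw [hcnt, List.append_nil, List.append_nil, hy] at h1
  have h2 := Runs.callMid A (Function.update (Function.update b R.AY []) R.CNT
    (List.replicate m (Sum.inl Base.mark))) (bitWord ys.reverse)
  have h3 := Runs.callLoad A R.AX R.CNT (by decide) Base.bit bit_injective Base.mark xs
    (Function.update (Function.update b R.AY []) R.CNT (List.replicate m (Sum.inl Base.mark)))
    ((Sim.init A (Sym.sep :: bitWord ys.reverse)).areg [])
    (by rw [Function.update_of_ne (by decide), Function.update_of_ne (by decide)]; exact hax)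
  rw [areg_init_append, ← hw, hx] at h3
  generalize hb₂ : (Function.update (Function.update (Function.update (Function.update b R.AY [])
    R.CNT (List.replicate m (Sum.inl Base.mark))) R.AX []) R.CNT
    (List.replicate m (Sum.inl Base.mark) ++ (Function.update (Function.update b R.AY []) R.CNT
    (List.replicate m (Sum.inl Base.mark))) R.CNT) : R → List (SSym (ASym A))) = b₂ at h3
  have hb₂clk : b₂ R.CLK = una β := by
    rw [← hb₂, Function.update_of_ne (by decide), Function.update_of_ne (by decide),
      Function.update_of_ne (by decide), Function.update_of_ne (by decide), hclk]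
  have hb₂az : b₂ R.AZ = [] := by
    rw [← hb₂, Function.update_of_ne (by decide), Function.update_of_ne (by decide),
      Function.update_of_ne (by decide), Function.update_of_ne (by decide), haz]
  have hb₂flag : b₂ R.FLAG = [] := by
    rw [← hb₂, Function.update_of_ne (by decide), Function.update_of_ne (by decide),
      Function.update_of_ne (by decide), Function.update_of_ne (by decide), hflag]
  have hb₂cnt : b₂ R.CNT = una (2 * m) := by
    rw [← hb₂, Function.update_self, Function.update_self, two_mul]
    exact (List.replicate_add ..).symm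
  obtain ⟨J, t, htT, htcd, hJt, hend, h4⟩ := runs_callOuter A (by decide) b₂ w (2 * m) β
    (by omega) hb₂cnt hb₂clk ⟨_, hwr.run_time.1⟩
  have hβ : 2 * m * β = 2 * (β * m) := by ring
  rw [hβ] at htcd hend h4
  have hmin : min (A.time w) (β * m) ≤ min (mulTime A m) (β * m) := min_le_min_right _ htime
  have hmin2 : min (A.time w) (2 * (β * m)) ≤ 2 * min (A.time w) (β * m) := by omega
  have htmin : t ≤ min (A.time w) (2 * (β * m)) := le_min htT htcd
  have hlate : 2 * (β * m) < A.time w → β * m < mulTime A m := fun h => by omega
  generalize min (mulTime A m) (β * m) = M at hmin ⊢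
  have hb₃clk : (Function.update b₂ R.CLK (una (β - J))) R.CLK = una (β - J) :=
    Function.update_self _ _ _
  have hb₃cnt : (Function.update b₂ R.CLK (una (β - J))) R.CNT = una (2 * m) := by
    rw [Function.update_of_ne (by decide), hb₂cnt]
  have hb₃az : (Function.update b₂ R.CLK (una (β - J))) R.AZ = [] := by
    rw [Function.update_of_ne (by decide), hb₂az]
  have hb₃flag : (Function.update b₂ R.CLK (una (β - J))) R.FLAG = [] := by
    rw [Function.update_of_ne (by decide), hb₂flag]
  rcases hend with hend | ⟨hn0, hlt, hcd⟩
  · -- success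
    subst hend
    have hlenv : (bin (2 * m) (natOf xs * natOf ys)).length = 2 * m := length_bin _ _
    have h5 := runs_callDone A (Function.update b₂ R.CLK (una (β - J))) w
      (bin (2 * m) (natOf xs * natOf ys)) hwr (2 * m * J - A.time w)
      (by rw [hlenv]; exact hb₃cnt) hb₃az
    have h6 := Runs.iteT (c := fun tp => (callTrans A tp).isNone) (q := callLate A) (by
      rw [callTrans_tops, (Sim.at_halted w (A.time w)).mpr hwr.run_time.1]; rfl) h5
    refine ⟨_, (h1.seq (h2.seq (h3.seq (h4.seq h6)))).mono ?_, Or.inl ?_⟩
    · rw [hb₃clk, length_una, hlenv, hwlen]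
      omega
    · unfold St.set
      rw [Sum.update_elim_inl, Sum.update_elim_inl, Sum.update_elim_inl, Sum.update_elim_inl,
        bin_reverse, ← hb₂, update_done _ _ _ _ _ _ hcnt]
  · -- timeout
    have h5 := runs_callLate A (Function.update b₂ R.CLK (una (β - J))) w t (2 * m * J - t)
      hb₃flag
    have h6 := Runs.iteF (c := fun tp => (callTrans A tp).isNone) (p := callDone A) (by
      have h7 := A.not_halted hlt
      rw [← Sim.at_halted] at h7
      obtain ⟨r, hr⟩ := Option.ne_none_iff_exists'.mp h7
      rw [callTrans_tops, hr]; rfl) h5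
    refine ⟨_, (h1.seq (h2.seq (h3.seq (h4.seq h6)))).mono ?_, Or.inr ⟨hlate hcd, ?_⟩⟩
    · rw [hb₃clk, hb₃cnt, length_una, length_una, hwlen]
      omega
    · unfold St.set
      rw [Sum.update_elim_inl, Sum.update_elim_inl, Sum.update_elim_inl, Sum.update_elim_inl,
        ← hb₂, update_late _ _ _ _ _ _ hcnt]

end

end Vale.Agent.P338
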