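import Mathlib

/-!
# P338: absorbing the `log log n` term
-/

namespace Vale.Agent.P338

theorem log_le_add (l J : ℕ) : (Nat.log 2 l : ℝ) ≤ J + l / 2 ^ J := by
  rcases Nat.eq_zero_or_pos l with rfl | hl
  · simp
  rcases Nat.le_total (Nat.log 2 l) J with h | h
  · have h1 : (Nat.log 2 l : ℝ) ≤ J := by exact_mod_cast h
    have h2 : (0 : ℝ) ≤ l / 2 ^ J := by positivity
    linarith
  · obtain ⟨b, hb⟩ := Nat.exists_eq_add_of_le h
    have h1 : 2 ^ (J + b) ≤ l := by rw [← hb]; exact Nat.pow_log_le_self 2 (by omega)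
    have h2 : (b : ℝ) ≤ l / 2 ^ J := by
      rw [le_div_iff₀ (by positivity)]
      have h3 : b ≤ 2 ^ b := (Nat.lt_two_pow_self (n := b)).le
      have h4 : b * 2 ^ J ≤ l := by
        calc b * 2 ^ J ≤ 2 ^ b * 2 ^ J := Nat.mul_le_mul_right _ h3
          _ = 2 ^ (J + b) := by rw [pow_add, Nat.mul_comm]
          _ ≤ l := h1
      exact_mod_cast h4
    rw [hb]
    push_cast
    linarith

/-- The `log log` term and the additive terms are absorbed. -/
theorem clean_bound {t Tm m J l : ℕ} (hJ : 1 ≤ J) (hT : m ≤ Tm)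
    (h : (t : ℝ) ≤ J * Tm + m * (2 * Nat.log 2 l + 1 + l / 2 ^ J)) :
    (t : ℝ) ≤ 4 * (J * Tm + m * l / 2 ^ J) := by
  have h1 := log_le_add l J
  have h2 : (m : ℝ) ≤ Tm := by exact_mod_cast hT
  have h3 : (1 : ℝ) ≤ J := by exact_mod_cast hJ
  have h4 : (0 : ℝ) ≤ m := by positivity
  have h5 : (m : ℝ) * (2 * Nat.log 2 l + 1 + l / 2 ^ J) ≤
      m * (2 * (J + l / 2 ^ J) + 1 + l / 2 ^ J) := by
    apply mul_le_mul_of_nonneg_left _ h4
    linarith
  have h6 : (m : ℝ) * J ≤ Tm * J := by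
    apply mul_le_mul_of_nonneg_right h2; linarith
  have h7 : (m : ℝ) ≤ m * J := by nlinarith
  have h8 : (m : ℝ) * (2 * (J + l / 2 ^ J) + 1 + l / 2 ^ J) =
    2 * (m * J) + m + 3 * (m * l / 2 ^ J) := by ring
  have h9 : (0 : ℝ) ≤ m * l / 2 ^ J := by positivity
  nlinarith

end Vale.Agent.P338
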