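import Vale.Agent.P338.CallB

/-!
# P338: a multiplying machine needs more than `n` steps
-/

namespace Vale.Agent.P338

theorem TM.next_head_le (M : TM) (c : M.Cfg) (i : Fin (M.k + 1)) :
    (M.next c).head i ≤ c.head i + 1 := by
  unfold TM.next
  split
  · omega
  · rename_i r _
    show (r.2 i).2.move (c.head i) ≤ _
    cases (r.2 i).2 <;> simp [Dir.move]
    omega

theorem TM.next_tape (M : TM) (c : M.Cfg) (i : Fin (M.k + 1)) (p : ℕ) (hp : p ≠ c.head i) :
    (M.next c).tape i p = c.tape i p := by
  unfold TM.next
  split
  · rfl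
  · exact Function.update_of_ne hp _ _

theorem TM.run_head_le (M : TM) (w : List Sym) (t : ℕ) (i : Fin (M.k + 1)) :
    (M.run w t).head i ≤ t := by
  induction t with
  | zero => exact le_rfl
  | succ t ih =>
    rw [TM.run_succ]
    have := M.next_head_le (M.run w t) i
    omega

/-- A cell that cannot have been reached is unchanged. -/
theorem TM.run_tape (M : TM) (w : List Sym) (t : ℕ) (i : Fin (M.k + 1)) (p : ℕ) (hp : t ≤ p) :
    (M.run w t).tape i p = (M.init w).tape i p := by
  induction t with
  | zero => rfl
  | succ t ih =>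
    rw [TM.run_succ, M.next_tape _ _ _ (by have := M.run_head_le w t i; omega),
      ih (by omega)]

/-- A multiplying machine needs more than `n` steps on every input `x # y`. -/
theorem lt_time {A : TM} (hA : Multiplies A) {n : ℕ} (hn : 1 ≤ n) (x y : Fin n → Bool) :
    n < A.time (mulInput x y) := by
  have hw := hA n hn x y
  obtain ⟨hh, hv⟩ := hw.run_time
  by_contra hlt
  rw [not_lt] at hlt
  have h1 := hv n (by simp [bitWord, length_bin]; omega)
  rw [A.run_tape _ _ _ _ hlt] at h1
  have h2 : (bitWord (bin (2 * n) (val (List.ofFn x) * val (List.ofFn y)))).getD n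
      Sym.blank = Sym.zero ∨
      (bitWord (bin (2 * n) (val (List.ofFn x) * val (List.ofFn y)))).getD n
      Sym.blank = Sym.one := by
    have hl : n < (bin (2 * n) (val (List.ofFn x) * val (List.ofFn y))).length := by
      rw [length_bin]; omega
    rw [bitWord, List.getD_eq_getElem _ _ (by simpa using hl), List.getElem_map]
    unfold Sym.ofBit
    split_ifs <;> simp
  have h3 : (A.init (mulInput x y)).tape A.out n = A.sym Sym.blank ∨
      (A.init (mulInput x y)).tape A.out n = A.sym Sym.sep := by
    show (if A.out = 0 then A.sym ((mulInput x y).getD n Sym.blank) else A.sym Sym.blank) = _ ∨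
      (if A.out = 0 then A.sym ((mulInput x y).getD n Sym.blank) else A.sym Sym.blank) = _
    split_ifs with h0
    · right
      congr 1
      unfold mulInput
      rw [List.getD_append_right _ _ _ _ (by simp [bitWord])]
      simp [bitWord]
    · left; rfl
  rcases h3 with h3 | h3 <;> rw [h3] at h1 <;> have h4 := A.sym_inj h1 <;>
    rcases h2 with h2 | h2 <;> rw [h2] at h4 <;> simp at h4

/-- `n < T_A(n)`. -/
theorem lt_mulTime {A : TM} (hA : Multiplies A) {n : ℕ} (hn : 1 ≤ n) : n < mulTime A n :=
  lt_of_lt_of_le (lt_time hA hn (fun _ => false) fun _ => false) (time_le_mulTime A _ _)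

end Vale.Agent.P338
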