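import Vale.Agent.P338.Basic

/-!
# P338: renaming the stacks of a program (frame rule)

A program on few stacks (type `ι`) is run on a bigger store (type `κ`) through an injection
`e : ι → κ`; the other stacks are not touched.
-/

namespace Vale.Agent.P338

variable {ι κ Γ : Type}

open Classical in
/-- The action `f` acting on the stacks `e i`. -/
noncomputable def mapAct (e : ι → κ) (f : (ι → Option Γ) → ι → Op Γ) :
    (κ → Option Γ) → κ → Op Γ :=
  fun tp k => if h : ∃ i, e i = k then f (fun i => tp (e i)) (Classical.choose h) else Op.keep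

theorem mapAct_apply {e : ι → κ} (he : Function.Injective e)
    (f : (ι → Option Γ) → ι → Op Γ) (tp : κ → Option Γ) (i : ι) :
    mapAct e f tp (e i) = f (fun i => tp (e i)) i := by
  have h : ∃ j, e j = e i := ⟨i, rfl⟩
  unfold mapAct
  rw [dif_pos h]
  congr 1
  exact he (Classical.choose_spec h)

theorem mapAct_of_not {e : ι → κ} (f : (ι → Option Γ) → ι → Op Γ) (tp : κ → Option Γ) {k : κ}
    (hk : ¬ ∃ i, e i = k) : mapAct e f tp k = Op.keep := by
  unfold mapAct
  rw [dif_neg hk]

/-- The program `p` acting on the stacks `e i`. -/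
noncomputable def Prog.map (e : ι → κ) : Prog ι Γ → Prog κ Γ
  | Prog.act f => Prog.act (mapAct e f)
  | Prog.seq p q => Prog.seq (p.map e) (q.map e)
  | Prog.ite c p q => Prog.ite (fun tp => c fun i => tp (e i)) (p.map e) (q.map e)
  | Prog.loop c p => Prog.loop (fun tp => c fun i => tp (e i)) (p.map e)

/-- Overwrite the stacks `e i` of `S` by those of `s`. -/
noncomputable def ovw (e : ι → κ) (s : Store ι Γ) (S : Store κ Γ) : Store κ Γ :=
  Function.extend e s S

theorem ovw_apply {e : ι → κ} (he : Function.Injective e) (s : Store ι Γ) (S : Store κ Γ)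
    (i : ι) : ovw e s S (e i) = s i := he.extend_apply s S i

theorem ovw_of_not {e : ι → κ} (s : Store ι Γ) (S : Store κ Γ) {k : κ}
    (hk : ¬ ∃ i, e i = k) : ovw e s S k = S k := Function.extend_apply' s S k hk

theorem ovw_self {e : ι → κ} (he : Function.Injective e) (S : Store κ Γ) :
    ovw e (fun i => S (e i)) S = S := by
  funext k
  by_cases hk : ∃ i, e i = k
  · obtain ⟨i, rfl⟩ := hk
    rw [ovw_apply he]
  · rw [ovw_of_not _ _ hk]

theorem ovw_ovw {e : ι → κ} (he : Function.Injective e) (s s' : Store ι Γ)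
    (S : Store κ Γ) : ovw e s' (ovw e s S) = ovw e s' S := by
  funext k
  by_cases hk : ∃ i, e i = k
  · obtain ⟨i, rfl⟩ := hk
    rw [ovw_apply he, ovw_apply he]
  · rw [ovw_of_not _ _ hk, ovw_of_not _ _ hk, ovw_of_not _ _ hk]

theorem tops_ovw {e : ι → κ} (he : Function.Injective e) (s : Store ι Γ)
    (S : Store κ Γ) : (fun i => tops (ovw e s S) (e i)) = tops s := by
  funext i
  rw [tops_apply, ovw_apply he, tops_apply]

theorem Exec.map {e : ι → κ} (he : Function.Injective e) {p : Prog ι Γ} {s s' : Store ι Γ}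
    {t : ℕ} (h : Exec p s t s') (S : Store κ Γ) :
    Exec (p.map e) (ovw e s S) t (ovw e s' S) := by
  induction h with
  | act f s =>
    have key : ovw e (fun i => (f (tops s) i).app (s i)) S =
        fun k => (mapAct e f (tops (ovw e s S)) k).app (ovw e s S k) := by
      funext k
      by_cases hk : ∃ i, e i = k
      · obtain ⟨i, rfl⟩ := hk
        rw [mapAct_apply he, ovw_apply he, ovw_apply he, tops_ovw he]
      · rw [mapAct_of_not _ _ hk, ovw_of_not _ _ hk, ovw_of_not _ _ hk, Op.app_keep]
    rw [key]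
    exact Exec.act _ _
  | seq _ _ ih₁ ih₂ => exact Exec.seq ih₁ ih₂
  | @iteT c p q s s' t hc _ ih =>
    exact Exec.iteT (by rw [tops_ovw he, hc]) ih
  | @iteF c p q s s' t hc _ ih =>
    exact Exec.iteF (by rw [tops_ovw he, hc]) ih
  | @loopF c p s hc =>
    exact Exec.loopF (by rw [tops_ovw he, hc])
  | @loopT c p s s₁ s₂ t₁ t₂ hc _ _ ih₁ ih₂ =>
    exact Exec.loopT (by rw [tops_ovw he, hc]) ih₁ ih₂

/-- The frame rule: `S` and `S'` are the big stores, `s` and `s'` the small ones. -/
theorem Runs.map {e : ι → κ} (he : Function.Injective e) {p : Prog ι Γ} {s s' : Store ι Γ}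
    {t : ℕ} (h : Runs p s s' t) {S S' : Store κ Γ} (hS : ∀ i, S (e i) = s i)
    (hS' : ∀ i, S' (e i) = s' i) (hrest : ∀ k, (¬ ∃ i, e i = k) → S' k = S k) :
    Runs (p.map e) S S' t := by
  obtain ⟨u, hu, hx⟩ := h
  refine ⟨u, hu, ?_⟩
  have h1 := hx.map he S
  have e1 : ovw e s S = S := by
    have : s = fun i => S (e i) := by funext i; rw [hS]
    rw [this]; exact ovw_self he S
  have e2 : ovw e s' S = S' := by
    funext k
    by_cases hk : ∃ i, e i = k
    · obtain ⟨i, rfl⟩ := hk
      rw [ovw_apply he, hS']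
    · rw [ovw_of_not _ _ hk, hrest k hk]
  rw [e1, e2] at h1
  exact h1

end Vale.Agent.P338
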