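import Vale.Agent.P338.Basic

/-!
# P338: general routines on stacks
-/

namespace Vale.Agent.P338

variable {ι Γ : Type} [DecidableEq ι]

/-! ### Clearing a stack -/

/-- Empty the stack `i`. -/
def Prog.clear (i : ι) : Prog ι Γ := Prog.loop (nonempty i) (Prog.pop i)

theorem Runs.clear (i : ι) (s : Store ι Γ) :
    Runs (Prog.clear i) s (Function.update s i []) (3 * (s i).length) := by
  induction h : s i generalizing s with
  | nil =>
    have : Function.update s i [] = s := by rw [← h]; exact Function.update_eq_self i s
    rw [this]
    exact Runs.loopF (by simp [h])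
  | cons a l ih =>
    have h1 := Runs.pop i s
    have h2 := ih (Function.update s i (s i).tail) (by simp [h])
    have h3 := Runs.loopT (c := nonempty i) (p := Prog.pop i) (by simp [h]) h1 h2
    refine (h3.mono ?_).of_eq ?_
    · simp only [List.length_cons]; omega
    · simp

/-! ### Copying -/

/-- Move the top of `i` to `j` and to `k`. -/
def Prog.mov2 (i j k : ι) : Prog ι Γ :=
  Prog.act fun tp l =>
    match tp i with
    | none => Op.keep
    | some a => if l = i then Op.pop else if l = j then Op.push a
        else if l = k then Op.push a else Op.keep

theorem Runs.mov2 {i j k : ι} (hij : i ≠ j) (hik : i ≠ k) (hjk : j ≠ k) (s : Store ι Γ)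
    {a : Γ} {l : List Γ} (hs : s i = a :: l) :
    Runs (Prog.mov2 i j k) s
      (Function.update (Function.update (Function.update s i l) j (a :: s j)) k (a :: s k))
      1 := by
  refine (Runs.act _ s).of_eq ?_
  funext m
  by_cases h : m = i
  · subst h
    rw [Function.update_of_ne hik, Function.update_of_ne hij, Function.update_self]
    simp [hs]
  · by_cases h' : m = j
    · subst h'
      rw [Function.update_of_ne hjk, Function.update_self]
      simp [hs, h]
    · by_cases h'' : m = k
      · subst h''
        simp [hs, h, h']
      · simp [hs, h, h', h'']

/-- `rev2 i j k`: reverse `i` onto `j` and onto `k`. -/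
def Prog.rev2 (i j k : ι) : Prog ι Γ := Prog.loop (nonempty i) (Prog.mov2 i j k)

theorem Runs.rev2 {i j k : ι} (hij : i ≠ j) (hik : i ≠ k) (hjk : j ≠ k) (s : Store ι Γ) :
    Runs (Prog.rev2 i j k) s
      (Function.update (Function.update (Function.update s i []) j ((s i).reverse ++ s j)) k
        ((s i).reverse ++ s k))
      (3 * (s i).length) := by
  induction h : s i generalizing s with
  | nil =>
    refine (Runs.loopF (by simp [h])).of_eq ?_
    funext m
    simp only [Function.update_apply]
    split_ifs <;> simp_all
  | cons a l ih =>
    have h1 := Runs.mov2 hij hik hjk s h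
    have h2 := ih (Function.update (Function.update (Function.update s i l) j (a :: s j)) k
      (a :: s k)) (by
      rw [Function.update_of_ne hik, Function.update_of_ne hij, Function.update_self])
    have h3 := Runs.loopT (c := nonempty i) (p := Prog.mov2 i j k) (by simp [h]) h1 h2
    refine (h3.mono ?_).of_eq ?_
    · simp only [List.length_cons]; omega
    · funext m
      simp only [Function.update_apply]
      split_ifs <;> simp_all

/-- `copyOnto a b t`: put a copy of `a` on top of `b` (with the scratch stack `t`). -/
def Prog.copyOnto (a b t : ι) : Prog ι Γ := (Prog.rev a t).seq (Prog.rev2 t a b)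

theorem Runs.copyOnto {a b t : ι} (hab : a ≠ b) (hat : a ≠ t) (hbt : b ≠ t)
    (s : Store ι Γ) (ht : s t = []) :
    Runs (Prog.copyOnto a b t) s (Function.update s b (s a ++ s b))
      (6 * (s a).length + 1) := by
  have h1 := Runs.rev hat s
  have h2 := Runs.rev2 hat.symm hbt.symm hab (Function.update (Function.update s a []) t
    ((s a).reverse ++ s t))
  refine ((h1.seq h2).mono ?_).of_eq ?_
  · simp [ht]; omega
  · funext m
    simp only [Function.update_apply]
    split_ifs <;> simp_all

/-- `revOnto a b t`: put the reversal of `a` on top of `b`, keeping `a`. -/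
def Prog.revOnto (a b t : ι) : Prog ι Γ := (Prog.rev2 a t b).seq (Prog.rev t a)

theorem Runs.revOnto {a b t : ι} (hab : a ≠ b) (hat : a ≠ t) (hbt : b ≠ t)
    (s : Store ι Γ) (ht : s t = []) :
    Runs (Prog.revOnto a b t) s (Function.update s b ((s a).reverse ++ s b))
      (6 * (s a).length + 1) := by
  have h1 := Runs.rev2 hat hab hbt.symm s
  have h2 := Runs.rev hat.symm
    (Function.update (Function.update (Function.update s a []) t ((s a).reverse ++ s t)) b
        ((s a).reverse ++ s b))
  refine ((h1.seq h2).mono ?_).of_eq ?_
  · rw [Function.update_of_ne hbt.symm, Function.update_self]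
    simp [ht]; omega
  · funext m
    simp only [Function.update_apply]
    split_ifs <;> simp_all

/-! ### Repeating a program once for every symbol of a stack -/

/-- Do `body` once for every symbol on `u`; `t` is a scratch stack, `u` is preserved. During
the execution of `body` the stacks `u` and `t` must not be changed. -/
def Prog.forr (u t : ι) (body : Prog ι Γ) : Prog ι Γ :=
  (Prog.loop (nonempty u) ((Prog.mov u t).seq body)).seq (Prog.rev t u)

/-- The rule for `forr`: `F k` is the store after `k` rounds, except for the stacks `u` and
`t`. -/
theorem Runs.forr {u t : ι} (hut : u ≠ t) {body : Prog ι Γ} (n : ℕ) (a : Γ)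
    (F : ℕ → Store ι Γ) (T : ℕ → ℕ)
    (h : ∀ k < n, Runs body
      (Function.update (Function.update (F k) u (List.replicate (n - k - 1) a)) t
        (List.replicate (k + 1) a))
      (Function.update (Function.update (F (k + 1)) u (List.replicate (n - k - 1) a)) t
        (List.replicate (k + 1) a)) (T k)) :
    Runs (Prog.forr u t body)
      (Function.update (Function.update (F 0) u (List.replicate n a)) t [])
      (Function.update (Function.update (F n) u (List.replicate n a)) t [])
      (∑ k ∈ Finset.range n, (T k + 4) + 3 * n + 1) := by
  have h1 := Runs.loop_iter (c := nonempty u) (p := (Prog.mov u t).seq body) n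
    (fun k => Function.update (Function.update (F k) u (List.replicate (n - k) a)) t
      (List.replicate k a)) (fun k => T k + 2)
    (by
      intro k hk
      rw [nonempty_tops, Function.update_of_ne hut, Function.update_self]
      obtain ⟨m, hm⟩ : ∃ m, n - k = m + 1 := ⟨n - k - 1, by omega⟩
      simp [hm])
    (by
      rw [nonempty_tops, Function.update_of_ne hut, Function.update_self]
      simp)
    (by
      intro k hk
      obtain ⟨m, hm⟩ : ∃ m, n - k = m + 1 := ⟨n - k - 1, by omega⟩
      have h2 := Runs.mov hut
        (Function.update (Function.update (F k) u (List.replicate (n - k) a)) t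
          (List.replicate k a)) (a := a) (l := List.replicate (n - k - 1) a) (by
            rw [Function.update_of_ne hut, Function.update_self, hm]
            simp [List.replicate_succ])
      have h3 := h k hk
      refine ((h2.of_eq ?_).seq h3).mono (by omega) |>.of_eq ?_
      · funext m
        simp only [Function.update_apply]
        split_ifs <;> simp_all [List.replicate_succ]
      · have : n - (k + 1) = n - k - 1 := by omega
        rw [this])
  have h4 := Runs.rev hut.symm
    (Function.update (Function.update (F n) u (List.replicate (n - n) a)) t
      (List.replicate n a))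
  have e0 : (Function.update (Function.update (F 0) u (List.replicate (n - 0) a)) t
      (List.replicate 0 a)) =
      (Function.update (Function.update (F 0) u (List.replicate n a)) t []) := by
    simp
  have h5 := h1.seq h4
  rw [e0] at h5
  refine (h5.mono ?_).of_eq ?_
  · rw [Function.update_self]
    simp only [List.length_replicate]
    have : ∑ k ∈ Finset.range n, (T k + 2 + 2) = ∑ k ∈ Finset.range n, (T k + 4) := by
      apply Finset.sum_congr rfl
      intros; ring
    omega
  · funext m
    simp only [Function.update_apply]
    split_ifs <;> simp_all

/-- A version of `Runs.forr` for a store that satisfies the obvious conditions. -/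
theorem Runs.forr' {u t : ι} (hut : u ≠ t) {body : Prog ι Γ} (n : ℕ) (a : Γ)
    (F : ℕ → Store ι Γ) (T : ℕ → ℕ)
    (hu : ∀ k ≤ n, F k u = List.replicate n a) (ht : ∀ k ≤ n, F k t = [])
    (h : ∀ k < n, ∀ l l' : List Γ, Runs body
      (Function.update (Function.update (F k) u l) t l')
      (Function.update (Function.update (F (k + 1)) u l) t l') (T k)) :
    Runs (Prog.forr u t body) (F 0) (F n) (∑ k ∈ Finset.range n, (T k + 4) + 3 * n + 1) := by
  have h1 := Runs.forr hut n a F T (fun k hk => h k hk _ _)
  have e : ∀ k ≤ n, Function.update (Function.update (F k) u (List.replicate n a)) t [] = F k := by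
    intro k hk
    rw [← hu k hk, Function.update_eq_self, ← ht k hk, Function.update_eq_self]
  rwa [e 0 (by omega), e n le_rfl] at h1

/-! ### Filling -/

/-- Push the symbol `a` on `b` once for every symbol of `u`. -/
def Prog.fill (u : ι) (a : Γ) (b t : ι) : Prog ι Γ := Prog.forr u t (Prog.push b a)

theorem Runs.fill {u b t : ι} (hub : u ≠ b) (hut : u ≠ t) (hbt : b ≠ t) (a c : Γ)
    (s : Store ι Γ) (n : ℕ) (hu : s u = List.replicate n c) (ht : s t = []) :
    Runs (Prog.fill u a b t) s (Function.update s b (List.replicate n a ++ s b))
      (8 * n + 1) := by
  have h := Runs.forr' hut (body := Prog.push b a) n c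
    (fun k => Function.update s b (List.replicate k a ++ s b)) (fun _ => 1)
    (fun k _ => by rw [Function.update_of_ne hub, hu])
    (fun k _ => by rw [Function.update_of_ne hbt.symm, ht])
    (by
      intro k hk l l'
      refine (Runs.push b a _).of_eq ?_
      funext m
      simp only [Function.update_apply]
      split_ifs <;> simp_all [List.replicate_succ])
  simp only [Finset.sum_const, Finset.card_range, smul_eq_mul] at h
  have e : (Function.update s b (List.replicate 0 a ++ s b)) = s := by simp
  rw [e] at h
  exact h.mono (by omega)

/-- Put `n` copies of the contents of `a` on top of `b`, where `n` is the length of `u`. -/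
def Prog.repOnto (u a b t t' : ι) : Prog ι Γ := Prog.forr u t' (Prog.copyOnto a b t)

/-- `n` copies of a list. -/
def rep {α : Type} (n : ℕ) (l : List α) : List α := (List.replicate n l).flatten

@[simp] theorem rep_zero {α : Type} (l : List α) : rep 0 l = [] := rfl

theorem rep_succ {α : Type} (n : ℕ) (l : List α) : rep (n + 1) l = l ++ rep n l := by
  simp [rep, List.replicate_succ]

@[simp] theorem length_rep {α : Type} (n : ℕ) (l : List α) :
    (rep n l).length = n * l.length := by
  simp [rep]

theorem Runs.repOnto {u a b t t' : ι} (hua : u ≠ a) (hub : u ≠ b) (hut : u ≠ t)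
    (hut' : u ≠ t') (hab : a ≠ b) (hat : a ≠ t) (hat' : a ≠ t') (hbt : b ≠ t)
    (hbt' : b ≠ t') (htt' : t ≠ t') (c : Γ)
    (s : Store ι Γ) (n : ℕ) (hu : s u = List.replicate n c) (ht : s t = [])
    (ht' : s t' = []) :
    Runs (Prog.repOnto u a b t t') s (Function.update s b (rep n (s a) ++ s b))
      (n * (6 * (s a).length + 8) + 1) := by
  have h := Runs.forr' hut' (body := Prog.copyOnto a b t) n c
    (fun k => Function.update s b (rep k (s a) ++ s b)) (fun _ => 6 * (s a).length + 1)
    (fun k _ => by rw [Function.update_of_ne hub, hu])
    (fun k _ => by rw [Function.update_of_ne hbt'.symm, ht'])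
    (by
      intro k hk l l'
      have h1 := Runs.copyOnto hab hat hbt
        (Function.update (Function.update
          (Function.update s b (rep k (s a) ++ s b)) u l) t' l') (by
          rw [Function.update_of_ne htt', Function.update_of_ne hut.symm,
            Function.update_of_ne hbt.symm, ht])
      refine (h1.mono ?_).of_eq ?_
      · rw [Function.update_of_ne hat', Function.update_of_ne hua.symm,
          Function.update_of_ne hab]
      · rw [Function.update_of_ne hat', Function.update_of_ne hua.symm,
          Function.update_of_ne hab]
        funext m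
        simp only [Function.update_apply]
        split_ifs <;> simp_all [rep_succ])
  simp only [Finset.sum_const, Finset.card_range, smul_eq_mul] at h
  have e : (Function.update s b (rep 0 (s a) ++ s b)) = s := by simp
  rw [e] at h
  refine h.mono ?_
  ring_nf
  omega

end Vale.Agent.P338
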