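import Vale.Agent.P338.Iface
import Vale.Agent.P338.Lib
import Vale.Agent.P338.Frame

/-!
# P338: the data driver

`drive` pops the instructions from `SCH` and performs them; its time is linear in the number
of instructions.
-/

namespace Vale.Agent.P338

variable {E J : Type}

/-! ### The stacks of the driver -/

/-- The stacks of the driver. -/
inductive DR : Type
  | x | t | s | out | sch | cy | cy2
  | v (c : Fin 4)
deriving DecidableEq

/-- The contents of `CY` for the carry `n`. -/
def cyL (n : ℕ) : List (SSym E) :=
  if n = 0 then [] else [Sum.inl (Base.num (Fin.ofNat 8 n))]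

/-- The store of the driver. -/
def dst (d : DS) (L : List Instr) : Store DR (SSym E) := fun r =>
  match r with
  | .x => bits d.x
  | .t => bits d.t
  | .s => []
  | .out => bits d.out
  | .sch => sch L
  | .cy => cyL d.cy
  | .cy2 => []
  | .v c => bits (d.v c)

/-! ### Decoding symbols -/

/-- The instruction denoted by a symbol. -/
def insOf : Option (SSym E) → Option Instr
  | some (Sum.inl (Base.ins i)) => some i
  | _ => none

/-- The bit denoted by a symbol. -/
def bitOf : Option (SSym E) → Bool
  | some (Sum.inl (Base.bit b)) => b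
  | _ => false

/-- The number denoted by a symbol. -/
def numOf : Option (SSym E) → ℕ
  | some (Sum.inl (Base.num n)) => n.val
  | _ => 0

/-- Push the symbol read, if there is one. -/
def pushTop {Γ : Type} : Option Γ → Op Γ
  | none => Op.keep
  | some a => Op.push a

/-- Push a number; `0` is represented by the empty stack. -/
def pushNum (n : ℕ) : Op (SSym E) :=
  if n = 0 then Op.keep else Op.push (Sum.inl (Base.num (Fin.ofNat 8 n)))

theorem pushNum_app (n : ℕ) : (pushNum n : Op (SSym E)).app [] = cyL n := by
  unfold pushNum cyL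
  split_ifs <;> simp

@[simp] theorem insOf_si (i : Instr) : insOf (some (si i : SSym E)) = some i := rfl

@[simp] theorem insOf_head_sch (i : Instr) (L : List Instr) :
    insOf (sch (i :: L) : List (SSym E)).head? = some i := by simp [sch, si, insOf]

@[simp] theorem bitOf_head (l : List Bool) :
    bitOf (bits l : List (SSym E)).head? = topBit l := by
  cases l <;> simp [bits, sb, bitOf, topBit]

theorem numOf_cyL {n : ℕ} (h : n ≤ 4) : numOf (cyL n : List (SSym E)).head? = n := by
  unfold cyL
  split_ifs with h0
  · simp [numOf, h0]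
  · simp only [List.head?_cons, numOf]
    exact Nat.mod_eq_of_lt (by omega)

@[simp] theorem tail_cyL (n : ℕ) : (cyL n : List (SSym E)).tail = [] := by
  unfold cyL; split_ifs <;> simp

@[simp] theorem tail_bits (l : List Bool) : (bits l : List (SSym E)).tail = bits l.tail := by
  cases l <;> simp [bits]

@[simp] theorem bits_nil : (bits [] : List (SSym E)) = [] := rfl
@[simp] theorem bits_cons (b : Bool) (l : List Bool) :
    (bits (b :: l) : List (SSym E)) = sb b :: bits l := rfl
@[simp] theorem bits_append (l l' : List Bool) :
    (bits (l ++ l') : List (SSym E)) = bits l ++ bits l' := by simp [bits]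
@[simp] theorem bits_reverse (l : List Bool) :
    (bits l.reverse : List (SSym E)) = (bits l).reverse := by simp [bits]
@[simp] theorem sch_nil : (sch [] : List (SSym E)) = [] := rfl
@[simp] theorem sch_cons (i : Instr) (L : List Instr) :
    (sch (i :: L) : List (SSym E)) = si i :: sch L := rfl

/-! ### The program -/

/-- The simple instructions. -/
def dAct : Prog DR (SSym E) := Prog.act fun tp r =>
  match insOf (tp DR.sch) with
  | some Instr.toT => match r with
    | .x => Op.pop
    | .t => pushTop (tp DR.x)
    | .sch => Op.pop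
    | _ => Op.keep
  | some Instr.toOut => match r with
    | .x => Op.pop
    | .out => pushTop (tp DR.x)
    | .sch => Op.pop
    | _ => Op.keep
  | some Instr.zero => match r with
    | .out => Op.push (sb false)
    | .sch => Op.pop
    | _ => Op.keep
  | some Instr.drop => match r with
    | .x => Op.pop
    | .sch => Op.pop
    | _ => Op.keep
  | some Instr.add => match r with
    | .v _ => Op.pop
    | .out => Op.push (sb (decide
        (colSum (fun c => bitOf (tp (DR.v c))) (numOf (tp DR.cy)) % 2 = 1)))
    | .cy => Op.pop
    | .cy2 => pushNum (colSum (fun c => bitOf (tp (DR.v c))) (numOf (tp DR.cy)) / 2)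
    | .sch => Op.pop
    | _ => Op.keep
  | some Instr.carry => match r with
    | .out => Op.push (sb (decide (numOf (tp DR.cy) % 2 = 1)))
    | .cy => Op.pop
    | .cy2 => pushNum (numOf (tp DR.cy) / 2)
    | .sch => Op.pop
    | _ => Op.keep
  | some (Instr.chunk c) => match r with
    | .cy => if c = 0 then Op.pop else Op.keep
    | .cy2 => if c = 0 then pushNum 4 else Op.keep
    | .sch => Op.pop
    | _ => Op.keep
  | _ => match r with
    | .sch => Op.pop
    | _ => Op.keep

/-- The top of `SCH` is the instruction `i`. -/
def isIns (i : Instr) : (DR → Option (SSym E)) → Bool := fun tp => insOf (tp DR.sch) == some i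

/-- Preparation: the instructions that move a whole block. -/
def dBlock : Prog DR (SSym E) :=
  Prog.ite (isIns Instr.flush) (Prog.seq (Prog.rev DR.t DR.s) (Prog.rev DR.s DR.out))
    (Prog.ite (isIns (Instr.chunk 0)) (Prog.rev DR.t (DR.v 0))
      (Prog.ite (isIns (Instr.chunk 1)) (Prog.rev DR.t (DR.v 1))
        (Prog.ite (isIns (Instr.chunk 2)) (Prog.rev DR.t (DR.v 2))
          (Prog.ite (isIns (Instr.chunk 3)) (Prog.rev DR.t (DR.v 3)) Prog.skip))))

/-- One instruction. -/
def dBody : Prog DR (SSym E) :=
  Prog.seq dBlock (Prog.seq dAct (Prog.mov DR.cy2 DR.cy))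

/-- The driver. -/
def drive0 : Prog DR (SSym E) := Prog.loop (nonempty DR.sch) dBody

/-! ### Correctness -/

/-- `mov` from an empty stack does nothing. -/
theorem Runs.mov_nil {ι Γ : Type} [DecidableEq ι] {i j : ι} (s : Store ι Γ) (hs : s i = []) :
    Runs (Prog.mov i j) s s 1 := by
  refine (Runs.act _ s).of_eq ?_
  funext k
  simp [hs]

/-- The store of the driver, with the contents of `CY` and `CY2` given. -/
def dst3 (d : DS) (L : List Instr) (c₁ c₂ : List (SSym E)) : Store DR (SSym E) := fun r =>
  match r with
  | .x => bits d.x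
  | .t => bits d.t
  | .s => []
  | .out => bits d.out
  | .sch => sch L
  | .cy => c₁
  | .cy2 => c₂
  | .v c => bits (d.v c)

theorem dst_eq (d : DS) (L : List Instr) :
    (dst d L : Store DR (SSym E)) = dst3 d L (cyL d.cy) [] := by
  funext r; cases r <;> rfl

/-- The part of an instruction that is done by `dBlock`. -/
def blk : Instr → DS → DS
  | Instr.flush, d => { d with t := [], out := d.t ++ d.out }
  | Instr.chunk c, d => { d with t := [], v := Function.update d.v c (d.t.reverse ++ d.v c) }
  | _, d => d

theorem rev_flush (d : DS) (L : List Instr) :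
    Runs (Prog.seq (Prog.rev DR.t DR.s) (Prog.rev DR.s DR.out)) (dst d L : Store DR (SSym E))
      (dst (blk Instr.flush d) L) (6 * d.t.length + 1) := by
  have h1 := Runs.rev (i := DR.t) (j := DR.s) (by decide) (dst d L : Store DR (SSym E))
  have h2 := Runs.rev (i := DR.s) (j := DR.out) (by decide)
    (Function.update (Function.update (dst d L : Store DR (SSym E)) DR.t []) DR.s
      ((dst d L DR.t).reverse ++ dst d L DR.s))
  refine ((h1.seq h2).mono ?_).of_eq ?_
  · simp [dst]; omega
  · funext r
    cases r <;> simp [dst, blk, Function.update_of_ne]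

theorem rev_chunk (c : Fin 4) (d : DS) (L : List Instr) :
    Runs (Prog.rev DR.t (DR.v c)) (dst d L : Store DR (SSym E))
      (dst (blk (Instr.chunk c) d) L) (3 * d.t.length) := by
  have h1 := Runs.rev (i := DR.t) (j := DR.v c) (by simp) (dst d L : Store DR (SSym E))
  refine (h1.mono ?_).of_eq ?_
  · simp [dst]
  · funext r
    cases r with
    | v c' =>
      by_cases h : c' = c
      · subst h; simp [dst, blk]
      · have : DR.v c' ≠ DR.v c := by simpa using h
        rw [Function.update_of_ne this, Function.update_of_ne (by simp)]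
        simp [dst, blk, h]
    | _ => simp [dst, blk, Function.update_of_ne]

theorem isIns_tops (i j : Instr) (d : DS) (L : List Instr) :
    isIns i (tops (dst d (j :: L) : Store DR (SSym E))) = decide (j = i) := by
  simp only [isIns, tops_apply, dst, insOf_head_sch]
  by_cases h : j = i <;> simp [h]

theorem dBlock_runs (i : Instr) (d : DS) (L : List Instr) :
    Runs dBlock (dst d (i :: L) : Store DR (SSym E)) (dst (blk i d) (i :: L))
      (6 + 6 * (d.t.length - (blk i d).t.length)) := by
  unfold dBlock
  by_cases h : i = Instr.flush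
  · subst h
    refine (Runs.iteT (by rw [isIns_tops]; simp) (rev_flush _ _)).mono ?_
    simp [blk]; omega
  have hne : isIns Instr.flush (tops (dst d (i :: L) : Store DR (SSym E))) = false := by
    rw [isIns_tops]; simpa using h
  by_cases h0 : i = Instr.chunk 0
  · subst h0
    refine (Runs.iteF hne (Runs.iteT (by rw [isIns_tops]; simp) (rev_chunk _ _ _))).mono ?_
    simp [blk]; omega
  have hne0 : isIns (Instr.chunk 0) (tops (dst d (i :: L) : Store DR (SSym E))) = false := by
    rw [isIns_tops]; simpa using h0
  by_cases h1 : i = Instr.chunk 1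
  · subst h1
    refine (Runs.iteF hne (Runs.iteF hne0 (Runs.iteT (by rw [isIns_tops]; simp)
      (rev_chunk _ _ _)))).mono ?_
    simp [blk]; omega
  have hne1 : isIns (Instr.chunk 1) (tops (dst d (i :: L) : Store DR (SSym E))) = false := by
    rw [isIns_tops]; simpa using h1
  by_cases h2 : i = Instr.chunk 2
  · subst h2
    refine (Runs.iteF hne (Runs.iteF hne0 (Runs.iteF hne1 (Runs.iteT (by rw [isIns_tops]; simp)
      (rev_chunk _ _ _))))).mono ?_
    simp [blk]; omega
  have hne2 : isIns (Instr.chunk 2) (tops (dst d (i :: L) : Store DR (SSym E))) = false := by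
    rw [isIns_tops]; simpa using h2
  by_cases h3 : i = Instr.chunk 3
  · subst h3
    refine (Runs.iteF hne (Runs.iteF hne0 (Runs.iteF hne1 (Runs.iteF hne2
      (Runs.iteT (by rw [isIns_tops]; simp) (rev_chunk _ _ _)))))).mono ?_
    simp [blk]; omega
  have hne3 : isIns (Instr.chunk 3) (tops (dst d (i :: L) : Store DR (SSym E))) = false := by
    rw [isIns_tops]; simpa using h3
  have hb : blk i d = d := by
    cases i with
    | flush => exact absurd rfl h
    | chunk c => fin_cases c <;> simp_all
    | _ => rfl
  rw [hb]
  refine (Runs.iteF hne (Runs.iteF hne0 (Runs.iteF hne1 (Runs.iteF hne2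
    (Runs.iteF hne3 (Runs.skip _)))))).mono ?_
  omega

/-- `CY` after `dAct`. -/
def cyA (i : Instr) (n : ℕ) : List (SSym E) :=
  match i with
  | Instr.add => []
  | Instr.carry => []
  | Instr.chunk c => if c = 0 then [] else cyL n
  | _ => cyL n

/-- `CY2` after `dAct`. -/
def cyB (i : Instr) (d : DS) : List (SSym E) :=
  match i with
  | Instr.add => cyL (d.step i).cy
  | Instr.carry => cyL (d.step i).cy
  | Instr.chunk c => if c = 0 then cyL 4 else []
  | _ => []

theorem dAct_runs (i : Instr) (d : DS) (L : List Instr) (hcy : d.cy ≤ 4) :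
    Runs dAct (dst (blk i d) (i :: L) : Store DR (SSym E))
      (dst3 (d.step i) L (cyA i d.cy) (cyB i d)) 1 := by
  refine (Runs.act _ _).of_eq ?_
  have hsch : insOf (tops (dst (blk i d) (i :: L) : Store DR (SSym E)) DR.sch) = some i := by
    simp [dst]
  have hbit : (fun c => bitOf (tops (dst (blk i d) (i :: L) : Store DR (SSym E)) (DR.v c))) =
      fun c => topBit ((blk i d).v c) := by
    funext c; simp [dst]
  have hx : tops (dst (blk i d) (i :: L) : Store DR (SSym E)) DR.x =
      (bits (blk i d).x : List (SSym E)).head? := rfl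
  have hc : numOf (tops (dst (blk i d) (i :: L) : Store DR (SSym E)) DR.cy) = (blk i d).cy := by
    have : (blk i d).cy ≤ 4 := by cases i <;> exact hcy
    rw [tops_apply]
    exact numOf_cyL this
  funext r
  simp only [hsch, hbit, hx, hc]
  cases i with
  | toT =>
    rcases hdx : d.x with _ | ⟨b, l⟩
    · cases r <;> simp [dst, dst3, blk, DS.step, hdx, cyA, cyB, pushTop]
    · cases r <;> simp [dst, dst3, blk, DS.step, hdx, cyA, cyB, pushTop]
  | toOut =>
    rcases hdx : d.x with _ | ⟨b, l⟩
    · cases r <;> simp [dst, dst3, blk, DS.step, hdx, cyA, cyB, pushTop]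
    · cases r <;> simp [dst, dst3, blk, DS.step, hdx, cyA, cyB, pushTop]
  | zero => cases r <;> simp [dst, dst3, blk, DS.step, cyA, cyB]
  | drop => cases r <;> simp [dst, dst3, blk, DS.step, cyA, cyB]
  | flush => cases r <;> simp [dst, dst3, blk, DS.step, cyA, cyB]
  | chunk c =>
    by_cases h0 : c = 0
    · subst h0
      cases r <;> simp [dst, dst3, blk, DS.step, cyA, cyB, pushNum_app]
    · cases r <;> simp [dst, dst3, blk, DS.step, cyA, cyB, h0]
  | add => cases r <;> simp [dst, dst3, blk, DS.step, cyA, cyB, pushNum_app] <;> rfl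
  | carry => cases r <;> simp [dst, dst3, blk, DS.step, cyA, cyB, pushNum_app] <;> rfl

theorem step_cy_le (i : Instr) (d : DS) (hcy : d.cy ≤ 4) : (d.step i).cy ≤ 4 := by
  cases i with
  | toT => simp only [DS.step]; split <;> simpa using hcy
  | toOut => simp only [DS.step]; split <;> simpa using hcy
  | zero => exact hcy
  | drop => exact hcy
  | flush => exact hcy
  | chunk c => simp only [DS.step]; split_ifs <;> omega
  | add =>
    simp only [DS.step, colSum]
    have h (b : Bool) : b.toNat ≤ 1 := by cases b <;> simp
    have h0 := h (topBit (d.v 0))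
    have h1 := h (!(topBit (d.v 1)))
    have h2 := h (topBit (d.v 2))
    have h3 := h (!(topBit (d.v 3)))
    omega
  | carry => simp only [DS.step]; omega

theorem mov_cy_runs (d : DS) (L : List Instr) (n : ℕ) :
    Runs (Prog.mov DR.cy2 DR.cy) (dst3 d L [] (cyL n) : Store DR (SSym E))
      (dst3 d L (cyL n) []) 1 := by
  by_cases h : n = 0
  · subst h
    exact Runs.mov_nil _ (by simp [dst3, cyL])
  · refine (Runs.mov (i := DR.cy2) (j := DR.cy) (by decide) _
      (a := Sum.inl (Base.num (Fin.ofNat 8 n))) (l := []) (by simp [dst3, cyL, h])).of_eq ?_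
    funext r
    cases r <;> simp [dst3, cyL, h, Function.update_of_ne]

theorem mov_cy_runs' (d : DS) (L : List Instr) (c : List (SSym E)) :
    Runs (Prog.mov DR.cy2 DR.cy) (dst3 d L c [] : Store DR (SSym E))
      (dst3 d L c []) 1 := Runs.mov_nil _ (by simp [dst3])

theorem dBody_runs (i : Instr) (d : DS) (L : List Instr) (hcy : d.cy ≤ 4) :
    Runs dBody (dst d (i :: L) : Store DR (SSym E)) (dst (d.step i) L)
      (10 + 6 * (d.t.length - (blk i d).t.length)) := by
  have h1 := dBlock_runs (E := E) i d L
  have h2 := dAct_runs (E := E) i d L hcy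
  have h3 : Runs (Prog.mov DR.cy2 DR.cy)
      (dst3 (d.step i) L (cyA i d.cy) (cyB i d) : Store DR (SSym E)) (dst (d.step i) L) 1 := by
    rw [dst_eq]
    cases i with
    | toT => exact (mov_cy_runs' _ _ _).of_eq (by simp only [DS.step, cyA]; split <;> rfl)
    | toOut => exact (mov_cy_runs' _ _ _).of_eq (by simp only [DS.step, cyA]; split <;> rfl)
    | zero => exact mov_cy_runs' _ _ _
    | drop => exact mov_cy_runs' _ _ _
    | flush => exact mov_cy_runs' _ _ _
    | chunk c =>
      by_cases h0 : c = 0
      · subst h0
        simpa [cyA, cyB, DS.step] using mov_cy_runs (E := E) (d.step (Instr.chunk 0)) L 4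
      · simpa [cyA, cyB, DS.step, h0] using mov_cy_runs' (E := E) (d.step (Instr.chunk c)) L
          (cyL d.cy)
    | add => exact mov_cy_runs _ _ _
    | carry => exact mov_cy_runs _ _ _
  refine (h1.seq (h2.seq h3)).mono ?_
  omega

theorem step_t (i : Instr) (d : DS) :
    (d.step i).t.length ≤ (blk i d).t.length + 1 := by
  cases i with
  | toT => simp only [DS.step, blk]; split <;> simp
  | toOut => simp only [DS.step, blk]; split <;> simp
  | _ => simp [DS.step, blk]

theorem blk_t (i : Instr) (d : DS) : (blk i d).t.length ≤ d.t.length := by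
  cases i <;> simp [blk]

/-- Correctness and running time of the driver. -/
theorem drive0_runs (L : List Instr) : ∀ (d : DS), d.cy ≤ 4 →
    Runs drive0 (dst d L : Store DR (SSym E)) (dst (DS.run L d) [])
      (18 * L.length + 6 * d.t.length) := by
  induction L with
  | nil =>
    intro d _
    exact (Runs.loopF (by simp [dst])).mono (Nat.zero_le _)
  | cons i L ih =>
    intro d hcy
    have h1 := dBody_runs (E := E) i d L hcy
    have h2 := ih (d.step i) (step_cy_le i d hcy)
    have h3 := Runs.loopT (c := nonempty DR.sch) (by simp [dst]) h1 h2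
    refine h3.mono ?_
    have h4 := step_t i d
    have h5 := blk_t i d
    simp only [List.length_cons]
    omega

/-! ### The pass: run the driver, and put the result back on `X` -/

/-- Run the driver and put its output back on `X`. -/
def pass0 : Prog DR (SSym E) :=
  Prog.seq drive0 (Prog.seq (Prog.clear DR.x) (Prog.seq (Prog.rev DR.out DR.x)
    (Prog.clear DR.cy)))

theorem pass0_runs {L : List Instr} {x y : List Bool} (h : Tr L x y) (rest : List Bool) :
    Runs pass0 (dst ⟨x ++ rest, [], [], fun _ => [], 0⟩ L : Store DR (SSym E))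
      (dst ⟨y, [], [], fun _ => [], 0⟩ []) (20 * (L.length + rest.length + y.length + 1)) := by
  obtain ⟨cy, hcy, hrun⟩ := h rest [] 0 (by omega)
  have h1 := drive0_runs (E := E) L ⟨x ++ rest, [], [], fun _ => [], 0⟩ (by simp)
  rw [hrun] at h1
  have h2 := Runs.clear DR.x (dst ⟨rest, [], y.reverse ++ [], fun _ => [], cy⟩ [] :
    Store DR (SSym E))
  have h3 := Runs.rev (i := DR.out) (j := DR.x) (by decide)
    (Function.update (dst ⟨rest, [], y.reverse ++ [], fun _ => [], cy⟩ [] :
      Store DR (SSym E)) DR.x [])
  have h4 := Runs.clear DR.cy (Function.update (Function.update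
    (Function.update (dst ⟨rest, [], y.reverse ++ [], fun _ => [], cy⟩ [] :
      Store DR (SSym E)) DR.x []) DR.out [])
      DR.x (((Function.update (dst ⟨rest, [], y.reverse ++ [], fun _ => [], cy⟩ [] :
      Store DR (SSym E)) DR.x []) DR.out).reverse ++
        (Function.update (dst ⟨rest, [], y.reverse ++ [], fun _ => [], cy⟩ [] :
      Store DR (SSym E)) DR.x []) DR.x))
  refine ((h1.seq (h2.seq (h3.seq h4))).mono ?_).of_eq ?_
  · have hl : (cyL cy : List (SSym E)).length ≤ 1 := by unfold cyL; split_ifs <;> simp
    simp only [dst, Function.update_of_ne, length_bits, ne_eq, reduceCtorEq, not_false_eq_true,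
      List.append_nil, List.length_reverse, List.length_nil, Function.update_self]
    omega
  · funext r
    cases r <;> simp [dst, cyL, Function.update_of_ne]

/-- The names of the stacks of the driver in the main program. -/
def DR.toR : DR → R
  | .x => R.X
  | .t => R.T
  | .s => R.S
  | .out => R.OUT
  | .sch => R.SCH
  | .cy => R.CY
  | .cy2 => R.CY2
  | .v c => R.V c

/-- Inverse of `DR.toR`. -/
def DR.ofR : R → DR
  | R.X => .x
  | R.T => .t
  | R.S => .s
  | R.OUT => .out
  | R.SCH => .sch
  | R.CY => .cy
  | R.CY2 => .cy2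
  | R.V0 => .v 0
  | R.V1 => .v 1
  | R.V2 => .v 2
  | R.V3 => .v 3
  | _ => .x

theorem DR.toR_injective : Function.Injective DR.toR := by
  refine Function.LeftInverse.injective (g := DR.ofR) fun r => ?_
  cases r with
  | v c => fin_cases c <;> rfl
  | _ => rfl

theorem St.set_of_ne [DecidableEq J] (s : St J E) (r : R) (l : List (SSym E)) {k : Loc J}
    (hk : k ≠ Sum.inl r) : s.set r l k = s k := Function.update_of_ne hk _ _

theorem St.set_self [DecidableEq J] (s : St J E) (r : R) (l : List (SSym E)) :
    s.set r l (Sum.inl r) = l := Function.update_self _ _ _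

/-- The names of the stacks of the driver in the main program. -/
def DR.loc (r : DR) : Loc J := Sum.inl r.toR

theorem DR.loc_injective : Function.Injective (DR.loc : DR → Loc J) :=
  fun _ _ h => DR.toR_injective (Sum.inl_injective h)

/-- The stacks of the driver other than `X` and `SCH`. -/
def driveScratch : List R :=
  [R.T, R.S, R.OUT, R.CY, R.CY2, R.V0, R.V1, R.V2, R.V3]

/-- Run the schedule on `SCH` on the data on `X`. -/
noncomputable def pass : Pr J E := pass0.map DR.loc

theorem pass_runs [DecidableEq J] {L : List Instr} {x y : List Bool} (h : Tr L x y)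
    (rest : List Bool) (s : St J E) (hs : s.Empty driveScratch)
    (hX : s.at R.X = bits (x ++ rest)) (hL : s.at R.SCH = sch L) :
    Runs pass s ((s.set R.X (bits y)).set R.SCH [])
      (20 * (L.length + rest.length + y.length + 1)) := by
  have hs' : ∀ r ∈ driveScratch, s (Sum.inl r) = [] := hs
  have hsame : ∀ r : DR, r ≠ DR.x → r ≠ DR.sch →
      s (DR.loc r) = [] := by
    intro r h1 h2
    cases r with
    | x => exact absurd rfl h1
    | sch => exact absurd rfl h2
    | v c => fin_cases c <;> exact hs' _ (by simp [driveScratch, DR.toR, R.V])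
    | _ => exact hs' _ (by simp [driveScratch, DR.toR])
  refine Runs.map DR.loc_injective (pass0_runs h rest) ?_ ?_ ?_
  · intro r
    cases r with
    | x => exact hX
    | sch => exact hL
    | v c => rw [hsame _ (by simp) (by simp)]; simp [dst]
    | _ => rw [hsame _ (by simp) (by simp)]; simp [dst, cyL]
  · intro r
    by_cases h1 : r = DR.x
    · subst h1
      rw [St.set_of_ne _ _ _ (by simp [DR.loc, DR.toR])]
      exact St.set_self _ _ _
    by_cases h2 : r = DR.sch
    · subst h2
      exact St.set_self _ _ _
    have h3 : (DR.loc r : Loc J) ≠ Sum.inl R.SCH :=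
      fun h => h2 (DR.loc_injective (a₂ := DR.sch) h)
    have h4 : (DR.loc r : Loc J) ≠ Sum.inl R.X :=
      fun h => h1 (DR.loc_injective (a₂ := DR.x) h)
    rw [St.set_of_ne _ _ _ h3, St.set_of_ne _ _ _ h4, hsame r h1 h2]
    cases r with
    | x => exact absurd rfl h1
    | sch => exact absurd rfl h2
    | _ => simp [dst, cyL]
  · intro k hk
    have h1 : k ≠ Sum.inl R.SCH := fun h => hk ⟨DR.sch, h.symm⟩
    have h2 : k ≠ Sum.inl R.X := fun h => hk ⟨DR.x, h.symm⟩
    rw [St.set_of_ne _ _ _ h1, St.set_of_ne _ _ _ h2]

end Vale.Agent.P338
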