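import Vale.Agent.P338.SwapPure
import Vale.Agent.P338.Drive
import Vale.Agent.P338.Lib

/-!
# P338: the conventions for the parts of the program that swaps two adjacent digits
-/

namespace Vale.Agent.P338

variable {J E : Type}

/-- The stacks that are empty before and after every part of the swap program. -/
def envScratch : List R :=
  [R.T, R.S, R.OUT, R.SCH, R.CY, R.CY2, R.V0, R.V1, R.V2, R.V3, R.AX, R.AY, R.AZ,
   R.CLK, R.FLAG, R.CNT, R.GG, R.U1, R.U2, R.AL, R.BE,
   R.CN, R.IN, R.BB, R.TL, R.TM, R.S1, R.S2, R.S3, R.S4, R.S5, R.S6, R.S7, R.S8, R.S9,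
   R.S10, R.S11, R.S12, R.Q1, R.Q2, R.Q3, R.Q4, R.K1, R.K2, R.K4, R.K5, R.K6]

/-- What every part of the swap program may assume about the store. -/
structure Env (s : St J E) (h p q m : ℕ) : Prop where
  HH : s.at R.HH = una h
  PP : s.at R.PP = una p
  MP : s.at R.MP = una q
  MM : s.at R.MM = una m
  RR : s.at R.RR = una (rr p)
  RHO : s.at R.RHO = una (rho p)
  K3 : s.at R.K3 = una (4 * q)
  DD : s.at R.DD = una (4 * q * rr p)
  WW : s.at R.WW = una (16 * q * rr p)
  MU : s.at R.MU = una (p * q)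
  idle : s.Idle
  empty : s.Empty envScratch

variable [DecidableEq J]

/-- `gen` puts the schedule `L h p q` on `SCH`. -/
def GenSpec (gen : Pr J E) (L : ℕ → ℕ → ℕ → List Instr) (C : ℕ) : Prop :=
  ∀ (h p q m : ℕ) (s : St J E), 1 ≤ h → 1 ≤ p → 1 ≤ q → mulSize h p q ≤ m →
    Env s h p q m → Runs gen s (s.set R.SCH (sch (L h p q))) (C * m)

/-- `gk` puts the kernel on `KER`. -/
def KerSpec (gk : Pr J E) (C : ℕ) : Prop :=
  ∀ (h p q m : ℕ) (s : St J E), 1 ≤ h → 1 ≤ p → 1 ≤ q → mulSize h p q ≤ m →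
    Env s h p q m → s.at R.KER = [] →
    Runs gk s (s.set R.KER (bits (kerList (rr p) (4 * q) (16 * q * rr p)))) (C * m)

/-- `cv` replaces the values by their convolutions with the kernel. -/
def ConvSpec (cv : Pr J E) (T : ℕ → ℕ) (C : ℕ) : Prop :=
  ∀ (h p q m : ℕ) (v : ℕ → ℕ → ℕ → ℕ) (s : St J E), 1 ≤ h → 1 ≤ p → 1 ≤ q →
    mulSize h p q ≤ m → Env s h p q m →
    (∀ a < h, ∀ i < rr p, ∀ j < rr p, v a i j ≤ 2 ^ (4 * q * rr p + 2)) →
    s.at R.X = bits (lay h (rr p) (16 * q * rr p) v) →
    s.at R.KER = bits (kerList (rr p) (4 * q) (16 * q * rr p)) →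
    ∃ s', Runs cv s s' (C * (m + min (T m) (m * rho p))) ∧
      (s' = s.set R.X (bits (lay h (rr p) (16 * q * rr p) (conv (4 * q) (rr p) v))) ∨
        (m * rho p < T m ∧ s' = (s.set R.X []).set R.FLAG [mk]))

/-- The store with the parameters. -/
def parSt (s : St J E) (p q : ℕ) : St J E :=
  (((((s.set R.RR (una (rr p))).set R.RHO (una (rho p))).set R.K3 (una (4 * q))).set R.DD
    (una (4 * q * rr p))).set R.WW (una (16 * q * rr p))).set R.MU (una (p * q))

/-- `prm` computes the parameters. -/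
def ParamSpec (prm : Pr J E) (C : ℕ) : Prop :=
  ∀ (h p q m : ℕ) (s : St J E), 1 ≤ h → 1 ≤ p → 1 ≤ q → mulSize h p q ≤ m →
    s.Idle → s.Empty swapScratch →
    s.at R.HH = una h → s.at R.PP = una p → s.at R.MP = una q → s.at R.MM = una m →
    Runs prm s (parSt s p q) (C * m)

/-- `naive` swaps the digits without multiplications: `MU` holds the length `M` of the
entries. -/
def NaiveSpec (naive : Pr J E) (C : ℕ) : Prop :=
  ∀ (h p M : ℕ) (e : ℕ → ℕ → ℕ → List Bool) (s : St J E), 1 ≤ h → 1 ≤ p → 1 ≤ M →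
    (∀ a < h, ∀ i < p, ∀ j < p, (e a i j).length = M) →
    s.Idle → (∀ r ∈ swapScratch, r ≠ R.MU → s (Sum.inl r) = []) →
    s.at R.HH = una h → s.at R.PP = una p → s.at R.MU = una M →
    s.at R.X = bits (data h p e) →
    Runs naive s (s.set R.X (bits (data h p fun a i j => e a j i)))
      (C * (h * rr p ^ 2 * M * rho p))

/-- The working store. -/
def wst (s : St J E) (p q : ℕ) (x k y : List (SSym E)) : St J E :=
  (((parSt s p q).set R.X x).set R.KER k).set R.XS y

/-- What the swap program assumes at the start. -/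
structure Start (s : St J E) (h p q m : ℕ) : Prop where
  hh : 1 ≤ h
  hp : 1 ≤ p
  hq : 1 ≤ q
  hm : mulSize h p q ≤ m
  idle : s.Idle
  empty : s.Empty swapScratch
  HH : s.at R.HH = una h
  PP : s.at R.PP = una p
  MP : s.at R.MP = una q
  MM : s.at R.MM = una m

theorem envScratch_sub : ∀ r ∈ envScratch, r ∈ swapScratch := by decide

theorem envScratch_ne : ∀ r ∈ envScratch,
    r ∉ [R.RR, R.RHO, R.K3, R.DD, R.WW, R.MU, R.X, R.KER, R.XS] := by decide

theorem Start.env {s : St J E} {h p q m : ℕ} (S : Start s h p q m) (x k y : List (SSym E)) :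
    Env (wst s p q x k y) h p q m where
  HH := by have := S.HH; simp only [St.at] at this; simp [wst, parSt, this]
  PP := by have := S.PP; simp only [St.at] at this; simp [wst, parSt, this]
  MP := by have := S.MP; simp only [St.at] at this; simp [wst, parSt, this]
  MM := by have := S.MM; simp only [St.at] at this; simp [wst, parSt, this]
  RR := by simp [wst, parSt]
  RHO := by simp [wst, parSt]
  K3 := by simp [wst, parSt]
  DD := by simp [wst, parSt]
  WW := by simp [wst, parSt]
  MU := by simp [wst, parSt]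
  idle := by intro j; have := S.idle j; simp [wst, parSt, this]
  empty := by
    intro r hr
    have h1 : s (Sum.inl r) = [] := S.empty r (envScratch_sub r hr)
    have h2 := envScratch_ne r hr
    simp only [List.mem_cons, List.not_mem_nil, or_false, not_or] at h2
    obtain ⟨a1, a2, a3, a4, a5, a6, a7, a8, a9⟩ := h2
    simp [wst, parSt, a1, a2, a3, a4, a5, a6, a7, a8, a9, h1]

end Vale.Agent.P338
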