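import Vale.Agent.P338.ConvProg
import Vale.Agent.P338.SwapEnv

/-!
# P338: the convolution program under the conventions of the swap program
-/

namespace Vale.Agent.P338

variable {J E : Type} [DecidableEq J]

theorem Env.set_X {s : St J E} {h p q m : ℕ} (e : Env s h p q m) (x : List (SSym E)) :
    Env (s.set R.X x) h p q m where
  HH := by have := e.HH; simp only [St.at] at this; simp [this]
  PP := by have := e.PP; simp only [St.at] at this; simp [this]
  MP := by have := e.MP; simp only [St.at] at this; simp [this]
  MM := by have := e.MM; simp only [St.at] at this; simp [this]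
  RR := by have := e.RR; simp only [St.at] at this; simp [this]
  RHO := by have := e.RHO; simp only [St.at] at this; simp [this]
  K3 := by have := e.K3; simp only [St.at] at this; simp [this]
  DD := by have := e.DD; simp only [St.at] at this; simp [this]
  WW := by have := e.WW; simp only [St.at] at this; simp [this]
  MU := by have := e.MU; simp only [St.at] at this; simp [this]
  idle := by intro j; have := e.idle j; simp [this]
  empty := by
    intro r hr
    have h1 : s (Sum.inl r) = [] := e.empty r hr
    have h2 := envScratch_ne r hr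
    simp only [List.mem_cons, List.not_mem_nil, or_false, not_or] at h2
    obtain ⟨a1, a2, a3, a4, a5, a6, a7, a8, a9⟩ := h2
    simp [a7, h1]

theorem conv_spec {call gext gmid : Pr J E} {T : ℕ → ℕ} {C C1 C2 : ℕ}
    (hcall : CallSpec call T C)
    (hext : GenSpec gext (fun h p q => extSch h (rr p * rr p * (16 * q * rr p))) C1)
    (hmid : GenSpec gmid (fun h p q => midSch h (rr p * rr p * (16 * q * rr p))) C2) :
    ConvSpec (convP call gext gmid) T (C1 + C2 + 3 * C + 900) := by
  intro h p q m v s hh hp hq hm e hv hX hK
  have P := Par.mk' hp hq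
  have hsize : h * (3 * (rr p * rr p * (16 * q * rr p))) = mulSize h p q := P.size h
  have hm1 : 1 ≤ m := (P.one_le_size hh).trans hm
  have hm2 : 2 * (rr p * rr p * (16 * q * rr p)) ≤ m := by
    refine le_trans ?_ (hsize.le.trans hm)
    calc 2 * (rr p * rr p * (16 * q * rr p)) ≤ 1 * (3 * (rr p * rr p * (16 * q * rr p))) := by
          omega
      _ ≤ h * (3 * (rr p * rr p * (16 * q * rr p))) := Nat.mul_le_mul_right _ hh
  have hρm : rho p ≤ m := by
    have h1 : rho p < rr p := Nat.lt_two_pow_self
    have h2 : rr p ≤ 2 * (rr p * rr p * (16 * q * rr p)) := by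
      have h4 := four_le_rr p
      have h5 : 1 ≤ rr p * (16 * q * rr p) := by
        have : 0 < rr p := by omega
        have : 0 < q := by omega
        exact Nat.one_le_iff_ne_zero.2 (by positivity)
      calc rr p = rr p * 1 := (Nat.mul_one _).symm
        _ ≤ rr p * (rr p * (16 * q * rr p)) := Nat.mul_le_mul_left _ h5
        _ = rr p * rr p * (16 * q * rr p) := by ring
        _ ≤ 2 * (rr p * rr p * (16 * q * rr p)) := by omega
    omega
  have he : ∀ r ∈ envScratch, s (Sum.inl r) = [] := e.empty
  have ready : ConvReady s m (rho p) (kerList (rr p) (4 * q) (16 * q * rr p)) :=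
    { idle := e.idle
      drive := fun r hr => he r (by
        simp only [driveScratch, List.mem_cons, List.not_mem_nil, or_false] at hr
        rcases hr with rfl | rfl | rfl | rfl | rfl | rfl | rfl | rfl | rfl <;>
          simp [envScratch])
      sch := he _ (by simp [envScratch])
      ax := he _ (by simp [envScratch])
      ay := he _ (by simp [envScratch])
      az := he _ (by simp [envScratch])
      clk := he _ (by simp [envScratch])
      flag := he _ (by simp [envScratch])
      cnt := he _ (by simp [envScratch])
      k1 := he _ (by simp [envScratch])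
      k2 := he _ (by simp [envScratch])
      k4 := he _ (by simp [envScratch])
      mm := e.MM
      rho := e.RHO
      ker := hK }
  have hv' : ∀ a < h, ∀ i < rr p, ∀ j < rr p, v a i j ≤ 2 ^ (4 * q * rr p + 2) := hv
  obtain ⟨s', hrun, hs'⟩ := convP_runs (g := 4 * q) (r := rr p) (W := 16 * q * rr p)
    (h := h) (m := m) (ρ := rho p) (v := v) hcall rfl (by ring)
    (by have := P.le; omega) hm1 (hsize.le.trans hm) hm2 hv' s ready hX
    (fun x => hext h p q m (s.set R.X x) hh hp hq hm (e.set_X x))
    (fun x => hmid h p q m (s.set R.X x) hh hp hq hm (e.set_X x))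
  refine ⟨s', hrun.mono ?_, ?_⟩
  · rw [Nat.mul_comm (rho p) m]
    set z := min (T m) (m * rho p) with hz
    have e1 : C * (m + rho p + z + 1) ≤ 3 * C * m + C * z := by
      have : m + rho p + z + 1 ≤ 3 * m + z := by omega
      calc C * (m + rho p + z + 1) ≤ C * (3 * m + z) := Nat.mul_le_mul_left _ this
        _ = 3 * C * m + C * z := by ring
    have e2 : C * z ≤ (C1 + C2 + 3 * C + 900) * z := Nat.mul_le_mul_right _ (by omega)
    have e3 : (C1 + C2 + 3 * C + 900) * (m + z) =
      C1 * m + C2 * m + 3 * C * m + 900 * m + (C1 + C2 + 3 * C + 900) * z := by ring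
    omega
  · rcases hs' with hs' | ⟨hT, hs'⟩
    · exact Or.inl hs'
    · exact Or.inr ⟨by rw [Nat.mul_comm]; exact hT, hs'⟩

end Vale.Agent.P338
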