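import Vale.Agent.P338.GenLib

/-!
# P338: the naive program for swapping two digits
-/

namespace Vale.Agent.P338

variable {E J : Type}

/-- The numbers used: `h`, `p`, `M`, `r`, `r - p`, `r / 2`. -/
inductive NV : Type
  | h | p | m | r | rp | rh

/-- Their stacks. -/
def NV.reg : NV → R
  | .h => R.HH
  | .p => R.PP
  | .m => R.MU
  | .r => R.RR
  | .rp => R.S1
  | .rh => R.S2

/-- Their values. -/
def NV.val (h p M r : ℕ) : NV → ℕ
  | .h => h
  | .p => p
  | .m => M
  | .r => r
  | .rp => r - p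
  | .rh => r / 2

theorem NV.reg_not_mem (n : NV) : n.reg ∉ geScratch := by
  cases n <;> simp [NV.reg, geScratch]

theorem NV.reg_ne (n : NV) : R.SCH ≠ n.reg := by cases n <;> simp [NV.reg]

/-- The padding. -/
def nPadE : SE NV :=
  .rep .h (.app (.rep .p (.app (.rep .p (.rep .m (.ins .toOut))) (.rep .rp (.rep .m (.ins .zero)))))
    (.rep .rp (.rep .r (.rep .m (.ins .zero)))))

/-- One separation of even and odd entries. -/
def nUnshE : SE NV :=
  .rep .h (.app (.rep .r (.rep .rh (.app (.rep .m (.ins .toOut)) (.rep .m (.ins .toT)))))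
    (.ins .flush))

/-- The removal of the padding. -/
def nUnpadE : SE NV :=
  .rep .h (.app (.rep .p (.app (.rep .p (.rep .m (.ins .toOut))) (.rep .rp (.rep .m (.ins .drop)))))
    (.rep .rp (.rep .r (.rep .m (.ins .drop)))))

theorem nPadE_eval (h p M r : ℕ) : nPadE.eval (NV.val h p M r) = padSch h p r M M := by
  simp only [nPadE, SE.eval, rep_singleton, ge_rep_replicate, NV.val]
  simp only [rep_eq_cat, padSch, Nat.sub_self, List.replicate_zero, List.append_nil,
    cat_replicate]

theorem nUnpadE_eval (h p M r : ℕ) :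
    nUnpadE.eval (NV.val h p M r) = unpadSch h p r 0 M M := by
  simp only [nUnpadE, SE.eval, rep_singleton, ge_rep_replicate, NV.val]
  simp only [rep_eq_cat, unpadSch, selSch, Nat.sub_self, Nat.sub_zero, List.replicate_zero,
    List.append_nil, List.nil_append, cat_replicate]

theorem nUnshE_eval (h p M ρ : ℕ) (hρ : 1 ≤ ρ) :
    nUnshE.eval (NV.val h p M (2 ^ ρ)) = nswSch h ρ M := by
  simp only [nUnshE, SE.eval, rep_singleton, ge_rep_replicate, NV.val]
  simp only [rep_eq_cat, nswSch, unshSch]
  refine cat_congr fun a _ => ?_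
  have h1 : 2 ^ (2 * ρ - 1) = 2 ^ ρ * (2 ^ ρ / 2) := by
    obtain ⟨k, rfl⟩ := Nat.exists_eq_add_of_le hρ
    have e1 : 2 * (1 + k) - 1 = (1 + k) + k := by omega
    have e2 : 2 ^ (1 + k) / 2 = 2 ^ k := by
      rw [pow_add, pow_one, Nat.mul_div_cancel_left _ (by norm_num)]
    rw [e1, e2, pow_add]
  rw [h1, cat_mul]

/-- The naive program: swap the two digits of `h` blocks of `p × p` entries of `M` bits
(`HH`, `PP`, `MU`) on `X`. -/
noncomputable def naive [DecidableEq J] : Pr J E :=
  params.seq ((genPass NV.reg NV.reg_not_mem nPadE).seq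
    ((Prog.forr (Sum.inl R.RHO) (Sum.inl R.S5) (genPass NV.reg NV.reg_not_mem nUnshE)).seq
      ((genPass NV.reg NV.reg_not_mem nUnpadE).seq
        ((Prog.clear (Sum.inl R.RR)).seq ((Prog.clear (Sum.inl R.RHO)).seq
          ((Prog.clear (Sum.inl R.S1)).seq (Prog.clear (Sum.inl R.S2))))))))

/-- The stacks that must be empty for `naive`. -/
def naiveScratch : List R :=
  [R.T, R.S, R.OUT, R.SCH, R.CY, R.CY2, R.V0, R.V1, R.V2, R.V3, R.RR, R.RHO,
   R.S1, R.S2, R.S3, R.S4, R.S5, R.S6, R.S7, R.S8, R.S9, R.S10, R.S11, R.S12]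

theorem NV.reg_val [DecidableEq J] {h p M : ℕ} {s : St J E} (hH : s.at R.HH = una h)
    (hP : s.at R.PP = una p) (hM : s.at R.MU = una M) (hR : s.at R.RR = una (rr p))
    (h1 : s.at R.S1 = una (rr p - p)) (h2 : s.at R.S2 = una (rr p / 2)) (n : NV) :
    s.at n.reg = una (NV.val h p M (rr p) n) := by
  cases n <;> assumption

theorem nPadE_big {h p M r : ℕ} (hh : 1 ≤ h) (hM : 1 ≤ M) (hr : 4 ≤ r) (hp : p ≤ r) :
    nPadE.big (NV.val h p M r) ≤ 117 * (h * r ^ 2 * M) := by
  simp only [nPadE, SE.big, NV.val]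
  have e1 : h + 2 ≤ 3 * h := by omega
  have e2 : M + 2 ≤ 3 * M := by omega
  have e3 : p + 2 ≤ 2 * r := by omega
  have e4 : r - p + 2 ≤ 2 * r := by omega
  have e5 : r + 2 ≤ 2 * r := by omega
  have e6 : r * 1 ≤ r * (r * M) := Nat.mul_le_mul_left _ (Nat.mul_pos (by omega) hM)
  have e7 : r * (r * M) = r ^ 2 * M := by ring
  calc (h + 2) * ((p + 2) * ((p + 2) * ((M + 2) * 1) + (r - p + 2) * ((M + 2) * 1) + 1) +
        (r - p + 2) * ((r + 2) * ((M + 2) * 1)) + 1)
      ≤ (3 * h) * ((2 * r) * ((2 * r) * ((3 * M) * 1) + (2 * r) * ((3 * M) * 1) + 1) +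
        (2 * r) * ((2 * r) * ((3 * M) * 1)) + 1) := by gcongr
    _ = (3 * h) * (36 * (r ^ 2 * M) + 2 * r + 1) := by ring
    _ ≤ (3 * h) * (39 * (r ^ 2 * M)) := Nat.mul_le_mul_left _ (by omega)
    _ = 117 * (h * r ^ 2 * M) := by ring

theorem nUnpadE_big {h p M r : ℕ} (hh : 1 ≤ h) (hM : 1 ≤ M) (hr : 4 ≤ r) (hp : p ≤ r) :
    nUnpadE.big (NV.val h p M r) ≤ 117 * (h * r ^ 2 * M) := nPadE_big hh hM hr hp

theorem nUnshE_big {h p M r : ℕ} (hh : 1 ≤ h) (hM : 1 ≤ M) (hr : 4 ≤ r) :
    nUnshE.big (NV.val h p M r) ≤ 117 * (h * r ^ 2 * M) := by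
  simp only [nUnshE, SE.big, NV.val]
  have e1 : h + 2 ≤ 3 * h := by omega
  have e2 : M + 2 ≤ 3 * M := by omega
  have e3 : r / 2 + 2 ≤ r := by omega
  have e5 : r + 2 ≤ 2 * r := by omega
  have e6 : 1 ≤ r ^ 2 * M := Nat.mul_pos (by positivity) hM
  have e7 : r ^ 2 * 1 ≤ r ^ 2 * M := Nat.mul_le_mul_left _ hM
  calc (h + 2) * ((r + 2) * ((r / 2 + 2) * ((M + 2) * 1 + (M + 2) * 1 + 1)) + 1 + 1)
      ≤ (3 * h) * ((2 * r) * (r * ((3 * M) * 1 + (3 * M) * 1 + 1)) + 1 + 1) := by gcongr
    _ = (3 * h) * (12 * (r ^ 2 * M) + 2 * r ^ 2 + 2) := by ring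
    _ ≤ (3 * h) * (39 * (r ^ 2 * M)) := Nat.mul_le_mul_left _ (by omega)
    _ = 117 * (h * r ^ 2 * M) := by ring

theorem length_data' {h p M : ℕ} {e : ℕ → ℕ → ℕ → List Bool}
    (he : ∀ a < h, ∀ i < p, ∀ j < p, (e a i j).length = M) :
    (data h p e).length = h * p ^ 2 * M := by
  unfold data
  rw [length_cat_of (L := p * (p * M)) fun a ha => length_cat_of fun i hi =>
    length_cat_of fun j hj => he a ha i hi j hj]
  ring

theorem length_nswap {h ρ M s : ℕ} {e : ℕ → ℕ → ℕ → List Bool} (hs : s ≤ 2 * ρ)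
    (he : ∀ a < h, ∀ i < 2 ^ ρ, ∀ j < 2 ^ ρ, (e a i j).length = M) :
    (nswap h ρ e s).length = h * (2 ^ ρ) ^ 2 * M := by
  unfold nswap
  have hp : 0 < 2 ^ ρ := by positivity
  rw [length_cat_of (L := 2 ^ (2 * ρ) * M) fun a ha => length_cat_of fun k hk =>
    he a ha _ (by
      rw [Nat.div_lt_iff_lt_mul hp, ← pow_add, ← two_mul]
      exact nidx_lt hs hk) _ (Nat.mod_lt _ hp)]
  rw [← pow_mul, mul_comm ρ 2, mul_assoc]

theorem naive_runs [DecidableEq J] (h p M : ℕ) (e : ℕ → ℕ → ℕ → List Bool) (s : St J E)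
    (hh : 1 ≤ h) (hp : 1 ≤ p) (hM : 1 ≤ M)
    (he : ∀ a < h, ∀ i < p, ∀ j < p, (e a i j).length = M)
    (hs : s.Empty naiveScratch)
    (hHH : s.at R.HH = una h) (hPP : s.at R.PP = una p) (hMU : s.at R.MU = una M)
    (hX : s.at R.X = bits (data h p e)) :
    Runs naive s (s.set R.X (bits (data h p fun a i j => e a j i)))
      (20000 * (h * rr p ^ 2 * M * rho p)) := by
  have hs' : ∀ r ∈ naiveScratch, s (Sum.inl r) = [] := hs
  have h1 := params_runs p s (fun r hr => hs' r (by
    simp only [List.mem_cons, List.not_mem_nil, or_false] at hr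
    rcases hr with rfl | rfl | rfl | rfl | rfl | rfl | rfl <;> simp [naiveScratch])) hPP
  set s1 : St J E := (((s.set R.RR (una (rr p))).set R.RHO (una (rho p))).set R.S1
      (una (rr p - p))).set R.S2 (una (rr p / 2)) with hs1
  -- the store during the loop
  let B : List Bool → List (SSym E) → List (SSym E) → St J E := fun x l l' =>
    ((s1.set R.X (bits x)).set R.RHO l).set R.S5 l'
  have hB : ∀ x l l' r, r ≠ R.X → r ≠ R.RHO → r ≠ R.S5 →
      B x l l' (Sum.inl r) = s1 (Sum.inl r) := by
    intro x l l' r h1 h2 h3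
    show (((s1.set R.X (bits x)).set R.RHO l).set R.S5 l') (Sum.inl r) = _
    rw [St.set_of_ne _ _ _ (by simpa using h3), St.set_of_ne _ _ _ (by simpa using h2),
      St.set_of_ne _ _ _ (by simpa using h1)]
  have hs1' : ∀ r, r ≠ R.RR → r ≠ R.RHO → r ≠ R.S1 → r ≠ R.S2 →
      s1 (Sum.inl r) = s (Sum.inl r) := by
    intro r h1 h2 h3 h4
    rw [hs1, St.set_of_ne _ _ _ (by simpa using h4), St.set_of_ne _ _ _ (by simpa using h3),
      St.set_of_ne _ _ _ (by simpa using h2), St.set_of_ne _ _ _ (by simpa using h1)]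
  have hgen : ∀ x l l', (B x l l').Empty geScratch := by
    intro x l l' r hr
    have hr' := hr
    simp only [geScratch, List.mem_cons, List.not_mem_nil, or_false] at hr'
    rcases hr' with rfl | rfl | rfl | rfl | rfl | rfl | rfl <;>
    · rw [hB _ _ _ _ (by simp) (by simp) (by simp), hs1' _ (by simp) (by simp) (by simp)
        (by simp)]
      exact hs' _ (by simp [naiveScratch])
  have hdrv : ∀ x l l', (B x l l').Empty driveScratch := by
    intro x l l' r hr
    have hr' := hr
    simp only [driveScratch, List.mem_cons, List.not_mem_nil, or_false] at hr'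
    rcases hr' with rfl | rfl | rfl | rfl | rfl | rfl | rfl | rfl | rfl <;>
    · rw [hB _ _ _ _ (by simp) (by simp) (by simp), hs1' _ (by simp) (by simp) (by simp)
        (by simp)]
      exact hs' _ (by simp [naiveScratch])
  have hnum : ∀ x l l' (n : NV), (B x l l').at n.reg = una (NV.val h p M (rr p) n) := by
    intro x l l' n
    have hne : n.reg ≠ R.X ∧ n.reg ≠ R.RHO ∧ n.reg ≠ R.S5 := by cases n <;> simp [NV.reg]
    show B x l l' (Sum.inl n.reg) = _
    rw [hB _ _ _ _ hne.1 hne.2.1 hne.2.2]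
    cases n with
    | h => rw [NV.reg, hs1' _ (by simp) (by simp) (by simp) (by simp)]; exact hHH
    | p => rw [NV.reg, hs1' _ (by simp) (by simp) (by simp) (by simp)]; exact hPP
    | m => rw [NV.reg, hs1' _ (by simp) (by simp) (by simp) (by simp)]; exact hMU
    | r =>
      rw [NV.reg, hs1, St.set_of_ne _ _ _ (by simp), St.set_of_ne _ _ _ (by simp),
        St.set_of_ne _ _ _ (by simp), St.set_self]
      rfl
    | rp => rw [NV.reg, hs1, St.set_of_ne _ _ _ (by simp), St.set_self]; rfl
    | rh => rw [NV.reg, hs1, St.set_self]; rfl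
  have hpass : ∀ (ex : SE NV) (x y : List Bool) (l l' : List (SSym E)), ex.depth ≤ 5 →
      Tr (ex.eval (NV.val h p M (rr p))) x y →
      Runs (genPass NV.reg NV.reg_not_mem ex) (B x l l') (B y l l')
        (36 * ex.big (NV.val h p M (rr p)) + 20 * (y.length + 1)) := by
    intro ex x y l l' hd hT
    refine ((genPass_runs NV.reg NV.reg_not_mem ex hd NV.reg_ne (NV.val h p M (rr p)) hT []
      (B x l l') (hgen _ _ _) (hdrv _ _ _) ?_ ?_ (hnum _ _ _)).mono ?_).of_eq ?_
    · show B x l l' (Sum.inl R.SCH) = _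
      rw [hB _ _ _ _ (by simp) (by simp) (by simp), hs1' _ (by simp) (by simp) (by simp)
        (by simp)]
      exact hs' _ (by simp [naiveScratch])
    · show B x l l' (Sum.inl R.X) = _
      rw [List.append_nil]
      show (((s1.set R.X (bits x)).set R.RHO l).set R.S5 l') (Sum.inl R.X) = _
      rw [St.set_of_ne _ _ _ (by simp), St.set_of_ne _ _ _ (by simp), St.set_self]
    · simp
    · funext k
      show ((((s1.set R.X (bits x)).set R.RHO l).set R.S5 l').set R.X (bits y)) k =
        (((s1.set R.X (bits y)).set R.RHO l).set R.S5 l') k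
      simp only [Function.update_apply]
      split_ifs <;> simp_all
  have hrr : rr p = 2 ^ rho p := rfl
  have hr4 := four_le_rr' p
  have hpr := le_rr' p
  have hρ := two_le_rho' p
  -- the padded entries
  have hpl : ∀ a < h, ∀ i < 2 ^ rho p, ∀ j < 2 ^ rho p,
      (padded p M M e a i j).length = M := fun a ha i _ j _ =>
    length_padded le_rfl he a ha i j
  have h2 := hpass nPadE (data h p e) (data h (rr p) (padded p M M e)) (una (rho p)) []
    (by simp [nPadE, SE.depth]) (by rw [nPadE_eval]; exact Tr.pad hpr he)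
  have h3 := Runs.forr' (u := (Sum.inl R.RHO : Loc J)) (t := Sum.inl R.S5) (by simp)
    (body := genPass NV.reg NV.reg_not_mem nUnshE) (rho p) (mk : SSym E)
    (fun k => B (nswap h (rho p) (padded p M M e) k) (una (rho p)) [])
    (fun _ => 36 * (117 * (h * rr p ^ 2 * M)) + 20 * (h * rr p ^ 2 * M + 1))
    (fun k _ => by
      show (((s1.set R.X _).set R.RHO _).set R.S5 _) (Sum.inl R.RHO) = _
      rw [St.set_of_ne _ _ _ (by simp), St.set_self]; rfl)
    (fun k _ => by
      show (((s1.set R.X _).set R.RHO _).set R.S5 _) (Sum.inl R.S5) = _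
      rw [St.set_self])
    (by
      intro k hk l l'
      have h4 := hpass nUnshE (nswap h (rho p) (padded p M M e) k)
        (nswap h (rho p) (padded p M M e) (k + 1)) l l' (by simp [nUnshE, SE.depth])
        (by
          rw [hrr, nUnshE_eval _ _ _ _ (by omega)]
          exact Tr.nswap (by omega) hk hpl)
      have e1 : ∀ x, (Function.update (Function.update (B x (una (rho p)) [])
          (Sum.inl R.RHO) l) (Sum.inl R.S5) l' : St J E) = B x l l' := by
        intro x
        funext i
        show (Function.update (Function.update (((s1.set R.X (bits x)).set R.RHO _).set R.S5 _)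
          (Sum.inl R.RHO) l) (Sum.inl R.S5) l' : St J E) i =
          (((s1.set R.X (bits x)).set R.RHO l).set R.S5 l') i
        simp only [Function.update_apply]
        split_ifs <;> simp_all
      rw [e1, e1]
      refine h4.mono ?_
      rw [length_nswap (M := M) (by omega) hpl]
      have := nUnshE_big (p := p) hh hM hr4
      rw [← hrr]
      omega)
  have e3 : nswap h (rho p) (padded p M M e) 0 = data h (rr p) (padded p M M e) :=
    nswap_zero _ _ _
  have e4 : nswap h (rho p) (padded p M M e) (rho p) =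
      data h (rr p) fun a i j => padded p M M e a j i := nswap_rho _ _ _
  simp only [e3, e4] at h3
  have h5 := hpass nUnpadE (data h (rr p) fun a i j => padded p M M e a j i)
    (data h p fun a i j => e a j i) (una (rho p)) []
    (by simp [nUnpadE, SE.depth]) (by
      rw [nUnpadE_eval]
      refine (Tr.unpad hpr (by omega) fun a ha i hi j hj => hpl a ha j hj i hi).congr rfl ?_
      exact unpad_padded he)
  have h6 := Runs.clear (Sum.inl R.RR : Loc J)
    (B (data h p fun a i j => e a j i) (una (rho p)) [])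
  have h7 := Runs.clear (Sum.inl R.RHO : Loc J) (Function.update
    (B (data h p fun a i j => e a j i) (una (rho p)) []) (Sum.inl R.RR) [])
  have h8 := Runs.clear (Sum.inl R.S1 : Loc J) (Function.update (Function.update
    (B (data h p fun a i j => e a j i) (una (rho p)) []) (Sum.inl R.RR) [])
      (Sum.inl R.RHO) [])
  have h9 := Runs.clear (Sum.inl R.S2 : Loc J) (Function.update (Function.update
    (Function.update (B (data h p fun a i j => e a j i) (una (rho p)) []) (Sum.inl R.RR) [])
      (Sum.inl R.RHO) []) (Sum.inl R.S1) [])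
  have e5 : s1 = B (data h p e) (una (rho p)) [] := by
    funext i
    show s1 i = (((s1.set R.X (bits (data h p e))).set R.RHO (una (rho p))).set R.S5 []) i
    have hx1 : s1 (Sum.inl R.X) = bits (data h p e) := by
      rw [hs1' _ (by simp) (by simp) (by simp) (by simp)]; exact hX
    have hx2 : s1 (Sum.inl R.RHO) = una (rho p) := by
      rw [hs1, St.set_of_ne _ _ _ (by simp), St.set_of_ne _ _ _ (by simp), St.set_self]
    have hx3 : s1 (Sum.inl R.S5) = [] := by
      rw [hs1' _ (by simp) (by simp) (by simp) (by simp)]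
      exact hs' _ (by simp [naiveScratch])
    simp only [Function.update_apply]
    split_ifs with c1 c2 c3
    · rw [c1, hx3]
    · rw [c2, hx2]
    · rw [c3, hx1]
    · rfl
  rw [e5] at h1
  have hfin := h1.seq (h2.seq (h3.seq (h5.seq (h6.seq (h7.seq (h8.seq h9))))))
  have hBRR : ∀ x l l', B x l l' (Sum.inl R.RR) = una (rr p) := by
    intro x l l'
    rw [hB _ _ _ _ (by simp) (by simp) (by simp), hs1, St.set_of_ne _ _ _ (by simp),
      St.set_of_ne _ _ _ (by simp), St.set_of_ne _ _ _ (by simp), St.set_self]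
  have hBS1 : ∀ x l l', B x l l' (Sum.inl R.S1) = una (rr p - p) := by
    intro x l l'
    rw [hB _ _ _ _ (by simp) (by simp) (by simp), hs1, St.set_of_ne _ _ _ (by simp),
      St.set_self]
  have hBS2 : ∀ x l l', B x l l' (Sum.inl R.S2) = una (rr p / 2) := by
    intro x l l'
    rw [hB _ _ _ _ (by simp) (by simp) (by simp), hs1, St.set_self]
  have hBRHO : ∀ x l l', B x l l' (Sum.inl R.RHO) = l := by
    intro x l l'
    show (((s1.set R.X (bits x)).set R.RHO l).set R.S5 l') (Sum.inl R.RHO) = _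
    rw [St.set_of_ne _ _ _ (by simp), St.set_self]
  refine (hfin.mono ?_).of_eq ?_
  · have c1 := nPadE_big (p := p) hh hM hr4 hpr
    have c2 := nUnpadE_big (p := p) hh hM hr4 hpr
    have c3 : (data h (rr p) (padded p M M e)).length = h * rr p ^ 2 * M :=
      length_data' fun a ha i hi j hj => hpl a ha i hi j hj
    have c4 : (data h p fun a i j => e a j i).length = h * p ^ 2 * M :=
      length_data' fun a ha i hi j hj => he a ha j hj i hi
    have c5 : h * p ^ 2 * M ≤ h * rr p ^ 2 * M := by gcongr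
    have c6 : rr p ≤ h * rr p ^ 2 * M := by
      calc rr p = 1 * (rr p * 1) * 1 := by ring
        _ ≤ h * (rr p * rr p) * M := by gcongr; omega
        _ = h * rr p ^ 2 * M := by ring
    have c7 : rho p ≤ rr p := (Nat.lt_two_pow_self (n := rho p)).le
    have c8 : h * rr p ^ 2 * M * 2 ≤ h * rr p ^ 2 * M * rho p := Nat.mul_le_mul_left _ hρ
    rw [c3, c4, hBRR, Function.update_of_ne (by simp), hBRHO, Function.update_of_ne (by simp),
      Function.update_of_ne (by simp), hBS1, Function.update_of_ne (by simp),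
      Function.update_of_ne (by simp), Function.update_of_ne (by simp), hBS2]
    simp only [Finset.sum_const, Finset.card_range, smul_eq_mul, length_una]
    have c9 : rho p * (36 * (117 * (h * rr p ^ 2 * M)) + 20 * (h * rr p ^ 2 * M + 1) + 4) =
        4232 * (h * rr p ^ 2 * M * rho p) + 24 * rho p := by ring
    have c10 : rho p * 1 ≤ rho p * (h * rr p ^ 2 * M) := by
      apply Nat.mul_le_mul_left; omega
    have c11 : rho p * (h * rr p ^ 2 * M) = h * rr p ^ 2 * M * rho p := by ring
    rw [c9]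
    omega
  · funext i
    by_cases d1 : i = Sum.inl R.S2
    · subst d1
      rw [Function.update_self, St.set_of_ne _ _ _ (by simp)]
      exact (hs' _ (by simp [naiveScratch])).symm
    rw [Function.update_of_ne d1]
    by_cases d2 : i = Sum.inl R.S1
    · subst d2
      rw [Function.update_self, St.set_of_ne _ _ _ (by simp)]
      exact (hs' _ (by simp [naiveScratch])).symm
    rw [Function.update_of_ne d2]
    by_cases d3 : i = Sum.inl R.RHO
    · subst d3
      rw [Function.update_self, St.set_of_ne _ _ _ (by simp)]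
      exact (hs' _ (by simp [naiveScratch])).symm
    rw [Function.update_of_ne d3]
    by_cases d4 : i = Sum.inl R.RR
    · subst d4
      rw [Function.update_self, St.set_of_ne _ _ _ (by simp)]
      exact (hs' _ (by simp [naiveScratch])).symm
    rw [Function.update_of_ne d4]
    show (((s1.set R.X _).set R.RHO _).set R.S5 []) i = _
    by_cases d5 : i = Sum.inl R.S5
    · subst d5
      rw [St.set_self, St.set_of_ne _ _ _ (by simp)]
      exact (hs' _ (by simp [naiveScratch])).symm
    rw [St.set_of_ne _ _ _ d5, St.set_of_ne _ _ _ d3]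
    by_cases d6 : i = Sum.inl R.X
    · subst d6
      rw [St.set_self, St.set_self]
    rw [St.set_of_ne _ _ _ d6, St.set_of_ne _ _ _ d6, hs1, St.set_of_ne _ _ _ d1,
      St.set_of_ne _ _ _ d2, St.set_of_ne _ _ _ d3, St.set_of_ne _ _ _ d4]

end Vale.Agent.P338
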