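import Vale.Agent.P338.GenLib

/-!
# P338: the parameters of a swap and its index-independent schedules
-/

namespace Vale.Agent.P338

/-! ### Difference of unary numbers -/

section

variable {ι Γ : Type} [DecidableEq ι]

/-- `c := a - b`. -/
def Prog.dif (a b c t : ι) : Prog ι Γ := (Prog.copyOnto a c t).seq (Prog.forr b t (Prog.pop c))

theorem Runs.dif {a b c t : ι} (hac : a ≠ c) (hat : a ≠ t) (hbc : b ≠ c) (hbt : b ≠ t)
    (hct : c ≠ t) (x : Γ) (s : Store ι Γ) (m n : ℕ) (ha : s a = List.replicate m x)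
    (hb : s b = List.replicate n x) (hc : s c = []) (ht : s t = []) :
    Runs (Prog.dif a b c t) s (Function.update s c (List.replicate (m - n) x))
      (6 * m + 8 * n + 3) := by
  have h1 := Runs.copyOnto hac hat hct s ht
  have h2 := Runs.forr' hbt (body := Prog.pop c) n x
    (fun k => Function.update s c (List.replicate (m - k) x)) (fun _ => 1)
    (fun k _ => by rw [Function.update_of_ne hbc, hb])
    (fun k _ => by rw [Function.update_of_ne hct.symm, ht])
    (by
      intro k hk l l'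
      refine (Runs.pop c _).of_eq ?_
      have e : m - (k + 1) = m - k - 1 := by omega
      funext i
      simp only [Function.update_apply]
      split_ifs <;> simp_all)
  simp only [Finset.sum_const, Finset.card_range, smul_eq_mul] at h2
  have e0 : Function.update s c (s a ++ s c) =
      Function.update s c (List.replicate (m - 0) x) := by rw [ha, hc, List.append_nil]; simp
  rw [e0] at h1
  refine (h1.seq h2).mono ?_
  rw [ha, List.length_replicate]
  omega

/-- Four copies of `a` on `b`. -/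
def Prog.copy4 (a b t : ι) : Prog ι Γ :=
  (Prog.copyOnto a b t).seq ((Prog.copyOnto a b t).seq ((Prog.copyOnto a b t).seq
    (Prog.copyOnto a b t)))

theorem Runs.copy4 {a b t : ι} (hab : a ≠ b) (hat : a ≠ t) (hbt : b ≠ t) (x : Γ)
    (s : Store ι Γ) (n : ℕ) (ha : s a = List.replicate n x) (hb : s b = []) (ht : s t = []) :
    Runs (Prog.copy4 a b t) s (Function.update s b (List.replicate (4 * n) x))
      (24 * n + 7) := by
  have h : ∀ k, Runs (Prog.copyOnto a b t) (Function.update s b (List.replicate k x))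
      (Function.update s b (List.replicate (n + k) x)) (6 * n + 1) := by
    intro k
    have h1 := Runs.copyOnto hab hat hbt (Function.update s b (List.replicate k x))
      (by rw [Function.update_of_ne hbt.symm, ht])
    rw [Function.update_of_ne hab, ha, Function.update_self, Function.update_idem,
      List.length_replicate, List.replicate_append_replicate] at h1
    exact h1
  have h0 : Function.update s b (List.replicate 0 x) = s := by
    rw [List.replicate_zero, ← hb, Function.update_eq_self]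
  have h1 := (h 0).seq ((h _).seq ((h _).seq (h _)))
  rw [h0] at h1
  refine (h1.mono (by omega)).of_eq ?_
  congr 2
  ring

end

variable {E J : Type} [DecidableEq J]

/-! ### The parameters -/

/-- Compute all parameters of a swap from `PP = p`, `MP = q`. -/
noncomputable def parNum : Pr J E :=
  params.seq ((Prog.clear (Sum.inl R.S1)).seq ((Prog.clear (Sum.inl R.S2)).seq
    ((Prog.repOnto (Sum.inl R.PP) (Sum.inl R.MP) (Sum.inl R.MU) (Sum.inl R.S6)
      (Sum.inl R.S7)).seq
    ((Prog.copy4 (Sum.inl R.MP) (Sum.inl R.K3) (Sum.inl R.S6)).seq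
    ((Prog.repOnto (Sum.inl R.RR) (Sum.inl R.K3) (Sum.inl R.DD) (Sum.inl R.S6)
      (Sum.inl R.S7)).seq
    (Prog.copy4 (Sum.inl R.DD) (Sum.inl R.WW) (Sum.inl R.S6)))))))

/-- The store with all parameters. -/
abbrev parStG (s : St J E) (p q : ℕ) : St J E :=
  (((((s.set R.RR (una (rr p))).set R.RHO (una (rho p))).set R.MU (una (p * q))).set R.K3
    (una (4 * q))).set R.DD (una (4 * q * rr p))).set R.WW (una (16 * q * rr p))

theorem rep_unaG (n m : ℕ) : rep n (una m : List (SSym E)) = una (n * m) := by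
  simp [rep, una]

theorem parNum_runs (p q : ℕ) (hp : 1 ≤ p) (hq : 1 ≤ q) (s : St J E)
    (hs : s.Empty [R.RR, R.RHO, R.MU, R.K3, R.DD, R.WW, R.S1, R.S2, R.S3, R.S4, R.S5, R.S6,
      R.S7]) (hP : s.at R.PP = una p) (hQ : s.at R.MP = una q) :
    Runs parNum s (parStG s p q) (30 * (16 * q * rr p)) := by
  have hs' : ∀ r ∈ [R.RR, R.RHO, R.MU, R.K3, R.DD, R.WW, R.S1, R.S2, R.S3, R.S4, R.S5, R.S6,
      R.S7], s (Sum.inl r) = [] := hs
  simp only [List.mem_cons, List.not_mem_nil, or_false, forall_eq_or_imp, forall_eq] at hs'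
  obtain ⟨e1, e2, e3, e4, e5, e6, e7, e8, e9, e10, e11, e12, e13⟩ := hs'
  simp only [St.at] at hP hQ
  have h1 := params_runs p s (by
    intro r hr
    simp only [List.mem_cons, List.not_mem_nil, or_false] at hr
    rcases hr with rfl | rfl | rfl | rfl | rfl | rfl | rfl <;> assumption) hP
  have h2 := Runs.clear (Sum.inl R.S1 : Loc J) ((((s.set R.RR (una (rr p))).set R.RHO
    (una (rho p))).set R.S1 (una (rr p - p))).set R.S2 (una (rr p / 2)))
  have h3 := Runs.clear (Sum.inl R.S2 : Loc J) (Function.update ((((s.set R.RR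
    (una (rr p))).set R.RHO (una (rho p))).set R.S1 (una (rr p - p))).set R.S2
      (una (rr p / 2))) (Sum.inl R.S1) [])
  have c3 : Function.update (Function.update ((((s.set R.RR
    (una (rr p))).set R.RHO (una (rho p))).set R.S1 (una (rr p - p))).set R.S2
      (una (rr p / 2))) (Sum.inl R.S1) []) (Sum.inl R.S2) [] =
      (s.set R.RR (una (rr p))).set R.RHO (una (rho p)) := by
    funext i
    simp only [Function.update_apply]
    split_ifs <;> simp_all
  rw [c3] at h3
  set s3 : St J E := (s.set R.RR (una (rr p))).set R.RHO (una (rho p)) with hs3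
  have h4 := Runs.repOnto (u := (Sum.inl R.PP : Loc J)) (a := Sum.inl R.MP)
    (b := Sum.inl R.MU) (t := Sum.inl R.S6) (t' := Sum.inl R.S7) (by simp) (by simp) (by simp)
    (by simp) (by simp) (by simp) (by simp) (by simp) (by simp) (by simp) (mk : SSym E)
    s3 p (by simp [hs3, hP, una]) (by simp [hs3, e12]) (by simp [hs3, e13])
  have c4 : Function.update s3 (Sum.inl R.MU) (rep p (s3 (Sum.inl R.MP)) ++
      s3 (Sum.inl R.MU)) = s3.set R.MU (una (p * q)) := by
    rw [show s3 (Sum.inl R.MP) = una q by simp [hs3, hQ],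
      show s3 (Sum.inl R.MU) = [] by simp [hs3, e3], rep_unaG, List.append_nil]
  rw [c4] at h4
  set s4 : St J E := s3.set R.MU (una (p * q)) with hs4
  have h5 := Runs.copy4 (a := (Sum.inl R.MP : Loc J)) (b := Sum.inl R.K3)
    (t := Sum.inl R.S6) (by simp) (by simp) (by simp) (mk : SSym E) s4 q
    (by simp [hs4, hs3, hQ, una]) (by simp [hs4, hs3, e4]) (by simp [hs4, hs3, e12])
  set s5 : St J E := s4.set R.K3 (una (4 * q)) with hs5
  have h6 := Runs.repOnto (u := (Sum.inl R.RR : Loc J)) (a := Sum.inl R.K3)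
    (b := Sum.inl R.DD) (t := Sum.inl R.S6) (t' := Sum.inl R.S7) (by simp) (by simp) (by simp)
    (by simp) (by simp) (by simp) (by simp) (by simp) (by simp) (by simp) (mk : SSym E)
    s5 (rr p) (by simp [hs5, hs4, hs3, una]) (by simp [hs5, hs4, hs3, e12])
    (by simp [hs5, hs4, hs3, e13])
  have c6 : Function.update s5 (Sum.inl R.DD) (rep (rr p) (s5 (Sum.inl R.K3)) ++
      s5 (Sum.inl R.DD)) = s5.set R.DD (una (4 * q * rr p)) := by
    rw [show s5 (Sum.inl R.K3) = una (4 * q) by simp [hs5],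
      show s5 (Sum.inl R.DD) = [] by simp [hs5, hs4, hs3, e5], rep_unaG, List.append_nil,
      mul_comm (rr p)]
  rw [c6] at h6
  set s6 : St J E := s5.set R.DD (una (4 * q * rr p)) with hs6
  have h7 := Runs.copy4 (a := (Sum.inl R.DD : Loc J)) (b := Sum.inl R.WW)
    (t := Sum.inl R.S6) (by simp) (by simp) (by simp) (mk : SSym E) s6 (4 * q * rr p)
    (by simp [hs6, una]) (by simp [hs6, hs5, hs4, hs3, e6])
    (by simp [hs6, hs5, hs4, hs3, e12])
  have h := h1.seq (h2.seq (h3.seq (h4.seq (h5.seq (h6.seq h7)))))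
  refine (h.mono ?_).of_eq ?_
  · have g1 := le_rr' p
    have g2 := four_le_rr' p
    have l1 : (s3 (Sum.inl R.MP)).length = q := by simp [hs3, hQ]
    have l2 : (s5 (Sum.inl R.K3)).length = 4 * q := by simp [hs5]
    rw [l1, l2]
    have l3 : ((((s.set R.RR (una (rr p))).set R.RHO (una (rho p))).set R.S1
      (una (rr p - p))).set R.S2 (una (rr p / 2)) (Sum.inl R.S1)).length = rr p - p := by simp
    have l4 : (Function.update ((((s.set R.RR (una (rr p))).set R.RHO (una (rho p))).set R.S1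
      (una (rr p - p))).set R.S2 (una (rr p / 2))) (Sum.inl R.S1) []
        (Sum.inl R.S2)).length = rr p / 2 := by simp
    rw [l3, l4]
    have k1 : p * q ≤ rr p * q := Nat.mul_le_mul_right _ g1
    have k2 : rr p * 1 ≤ rr p * q := Nat.mul_le_mul_left _ hq
    have k3 : 1 * q ≤ rr p * q := Nat.mul_le_mul_right _ (by omega)
    have k4 : p * (6 * q + 8) = 6 * (p * q) + 8 * p := by ring
    have k5 : rr p * (6 * (4 * q) + 8) = 24 * (rr p * q) + 8 * rr p := by ring
    have k6 : 24 * (4 * q * rr p) = 96 * (rr p * q) := by ring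
    have k7 : 30 * (16 * q * rr p) = 480 * (rr p * q) := by ring
    rw [k4, k5, k6, k7]
    omega
  · show Function.update s6 (Sum.inl R.WW) (List.replicate (4 * (4 * q * rr p)) mk) = _
    have k8 : (List.replicate (4 * (4 * q * rr p)) mk : List (SSym E)) =
      una (16 * q * rr p) := by
      rw [una]; congr 1; ring
    rw [k8]

/-! ### The numbers used by the schedules -/

/-- Names of numbers: `h, p, M, r, ρ, W, D` and the local ones `r - p`, `W - M`,
`W - M - ρ`, `D - 1`. -/
inductive NS : Type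
  | h | p | m | r | o | w | d | rp | wm | wom | d1

/-- Their stacks. -/
def NS.reg : NS → R
  | .h => R.HH
  | .p => R.PP
  | .m => R.MU
  | .r => R.RR
  | .o => R.RHO
  | .w => R.WW
  | .d => R.DD
  | .rp => R.S1
  | .wm => R.S2
  | .wom => R.S3
  | .d1 => R.S4

/-- Their values. -/
def NS.val (h p r ρ D M W : ℕ) : NS → ℕ
  | .h => h
  | .p => p
  | .m => M
  | .r => r
  | .o => ρ
  | .w => W
  | .d => D
  | .rp => r - p
  | .wm => W - M
  | .wom => W - M - ρ
  | .d1 => D - 1

theorem NS.reg_not_mem (n : NS) : n.reg ∉ geScratch := by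
  cases n <;> simp [NS.reg, geScratch]

theorem NS.reg_ne (n : NS) : R.SCH ≠ n.reg := by cases n <;> simp [NS.reg]

/-- Compute the local numbers. -/
def locNum : Pr J E :=
  (Prog.dif (Sum.inl R.RR) (Sum.inl R.PP) (Sum.inl R.S1) (Sum.inl R.S5)).seq
    ((Prog.dif (Sum.inl R.WW) (Sum.inl R.MU) (Sum.inl R.S2) (Sum.inl R.S5)).seq
      ((Prog.dif (Sum.inl R.S2) (Sum.inl R.RHO) (Sum.inl R.S3) (Sum.inl R.S5)).seq
        ((Prog.copyOnto (Sum.inl R.DD) (Sum.inl R.S4) (Sum.inl R.S5)).seq
          (Prog.pop (Sum.inl R.S4)))))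

/-- The numbers needed by the schedules are on their stacks. -/
structure HasNums (s : St J E) (h p r ρ D M W : ℕ) : Prop where
  hh : s.at R.HH = una h
  hp : s.at R.PP = una p
  hm : s.at R.MU = una M
  hr : s.at R.RR = una r
  ho : s.at R.RHO = una ρ
  hw : s.at R.WW = una W
  hd : s.at R.DD = una D

theorem locNum_runs {h p r ρ D M W : ℕ} (s : St J E) (N : HasNums s h p r ρ D M W)
    (hs : s.Empty [R.S1, R.S2, R.S3, R.S4, R.S5]) :
    Runs locNum s ((((s.set R.S1 (una (r - p))).set R.S2 (una (W - M))).set R.S3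
      (una (W - M - ρ))).set R.S4 (una (D - 1)))
      (6 * r + 8 * p + 12 * W + 8 * M + 8 * ρ + 6 * D + 15) := by
  have hs' : ∀ r ∈ [R.S1, R.S2, R.S3, R.S4, R.S5], s (Sum.inl r) = [] := hs
  simp only [List.mem_cons, List.not_mem_nil, or_false, forall_eq_or_imp, forall_eq] at hs'
  obtain ⟨e1, e2, e3, e4, e5⟩ := hs'
  obtain ⟨hh, hp, hm, hr, ho, hw, hd⟩ := N
  simp only [St.at] at hh hp hm hr ho hw hd
  have h1 := Runs.dif (a := (Sum.inl R.RR : Loc J)) (b := Sum.inl R.PP) (c := Sum.inl R.S1)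
    (t := Sum.inl R.S5) (by simp) (by simp) (by simp) (by simp) (by simp) (mk : SSym E) s r p
    hr hp e1 e5
  set s1 : St J E := Function.update s (Sum.inl R.S1) (List.replicate (r - p) mk) with hs1
  have h2 := Runs.dif (a := (Sum.inl R.WW : Loc J)) (b := Sum.inl R.MU) (c := Sum.inl R.S2)
    (t := Sum.inl R.S5) (by simp) (by simp) (by simp) (by simp) (by simp) (mk : SSym E) s1 W M
    (by simp [hs1, hw, una]) (by simp [hs1, hm, una]) (by simp [hs1, e2]) (by simp [hs1, e5])
  set s2 : St J E := Function.update s1 (Sum.inl R.S2) (List.replicate (W - M) mk) with hs2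
  have h3 := Runs.dif (a := (Sum.inl R.S2 : Loc J)) (b := Sum.inl R.RHO) (c := Sum.inl R.S3)
    (t := Sum.inl R.S5) (by simp) (by simp) (by simp) (by simp) (by simp) (mk : SSym E) s2
    (W - M) ρ (by simp [hs2]) (by simp [hs2, hs1, ho, una]) (by simp [hs2, hs1, e3])
    (by simp [hs2, hs1, e5])
  set s3 : St J E := Function.update s2 (Sum.inl R.S3) (List.replicate (W - M - ρ) mk) with hs3
  have h4 := Runs.copyOnto (a := (Sum.inl R.DD : Loc J)) (b := Sum.inl R.S4)
    (t := Sum.inl R.S5) (by simp) (by simp) (by simp) s3 (by simp [hs3, hs2, hs1, e5])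
  have h5 := Runs.pop (Sum.inl R.S4) (Function.update s3 (Sum.inl R.S4)
    (s3 (Sum.inl R.DD) ++ s3 (Sum.inl R.S4)))
  have l1 : s3 (Sum.inl R.DD) = una D := by simp [hs3, hs2, hs1, hd]
  have l2 : s3 (Sum.inl R.S4) = [] := by simp [hs3, hs2, hs1, e4]
  refine ((h1.seq (h2.seq (h3.seq (h4.seq h5)))).mono ?_).of_eq ?_
  · rw [l1, length_una]
    omega
  · rw [Function.update_self, Function.update_idem, l1, l2, List.append_nil, tail_una]
    rfl

/-- Clear the local numbers. -/
def locClear : Pr J E :=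
  (Prog.clear (Sum.inl R.S1)).seq ((Prog.clear (Sum.inl R.S2)).seq
    ((Prog.clear (Sum.inl R.S3)).seq (Prog.clear (Sum.inl R.S4))))

/-- Put the value of the expression on `SCH`. -/
def genSch (e : SE NS) : Pr J E :=
  locNum.seq ((genAt NS.reg NS.reg_not_mem e R.SCH).seq locClear)

theorem genSch_runs {h p r ρ D M W : ℕ} (e : SE NS) (hd : e.depth ≤ 5) (s : St J E)
    (N : HasNums s h p r ρ D M W)
    (hs : s.Empty [R.S1, R.S2, R.S3, R.S4, R.S5, R.S6, R.S7, R.S8, R.S9, R.S10, R.S11,
      R.S12]) :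
    Runs (genSch e) s (s.set R.SCH (sch (e.eval (NS.val h p r ρ D M W)) ++ s.at R.SCH))
      (15 * e.big (NS.val h p r ρ D M W) + 9 * r + 8 * p + 18 * W + 8 * M + 8 * ρ +
        9 * D + 20) := by
  have hs' : ∀ r ∈ [R.S1, R.S2, R.S3, R.S4, R.S5, R.S6, R.S7, R.S8, R.S9, R.S10, R.S11,
      R.S12], s (Sum.inl r) = [] := hs
  have h1 := locNum_runs s N (fun r hr => hs' r (by
    simp only [List.mem_cons, List.not_mem_nil, or_false] at hr
    rcases hr with rfl | rfl | rfl | rfl | rfl <;> simp))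
  set s1 : St J E := (((s.set R.S1 (una (r - p))).set R.S2 (una (W - M))).set R.S3
      (una (W - M - ρ))).set R.S4 (una (D - 1)) with hs1
  obtain ⟨hh, hp, hm, hr, ho, hw, hdd⟩ := N
  simp only [St.at] at hh hp hm hr ho hw hdd
  have h2 := genAt_runs NS.reg NS.reg_not_mem e R.SCH hd (by simp [geScratch]) NS.reg_ne
    (NS.val h p r ρ D M W) s1
    (by
      intro i hi
      have hi' := hi
      simp only [geScratch, List.mem_cons, List.not_mem_nil, or_false] at hi'
      have hsi : s (Sum.inl i) = [] := hs' i (by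
        rcases hi' with rfl | rfl | rfl | rfl | rfl | rfl | rfl <;> simp)
      rcases hi' with rfl | rfl | rfl | rfl | rfl | rfl | rfl <;> simp [hs1, hsi])
    (by
      intro n
      cases n <;> simp [NS.reg, NS.val, hs1, hh, hp, hm, hr, ho, hw, hdd])
  simp only [List.mem_cons, List.not_mem_nil, or_false, forall_eq_or_imp, forall_eq] at hs'
  obtain ⟨e1, e2, e3, e4, e5, e6, e7, e8, e9, e10, e11, e12⟩ := hs'
  set s2 : St J E := s1.set R.SCH (sch (e.eval (NS.val h p r ρ D M W)) ++ s1.at R.SCH)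
    with hs2
  have h3 := Runs.clear (Sum.inl R.S1 : Loc J) s2
  have h4 := Runs.clear (Sum.inl R.S2 : Loc J) (Function.update s2 (Sum.inl R.S1) [])
  have h5 := Runs.clear (Sum.inl R.S3 : Loc J) (Function.update (Function.update s2
    (Sum.inl R.S1) []) (Sum.inl R.S2) [])
  have h6 := Runs.clear (Sum.inl R.S4 : Loc J) (Function.update (Function.update
    (Function.update s2 (Sum.inl R.S1) []) (Sum.inl R.S2) []) (Sum.inl R.S3) [])
  have l1 : (s2 (Sum.inl R.S1)).length = r - p := by simp [hs2, hs1]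
  have l2 : (Function.update s2 (Sum.inl R.S1) [] (Sum.inl R.S2)).length = W - M := by
    simp [hs2, hs1]
  have l3 : (Function.update (Function.update s2
    (Sum.inl R.S1) []) (Sum.inl R.S2) [] (Sum.inl R.S3)).length = W - M - ρ := by
    simp [hs2, hs1]
  have l4 : (Function.update (Function.update
    (Function.update s2 (Sum.inl R.S1) []) (Sum.inl R.S2) []) (Sum.inl R.S3) []
      (Sum.inl R.S4)).length = D - 1 := by
    simp [hs2, hs1]
  have hsch : s1.at R.SCH = s.at R.SCH := by simp [hs1]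
  refine ((h1.seq (h2.seq (h3.seq (h4.seq (h5.seq h6))))).mono ?_).of_eq ?_
  · rw [l1, l2, l3, l4]
    omega
  · rw [hs2, hsch, hs1]
    funext i
    simp only [Function.update_apply]
    split_ifs <;> simp_all

/-! ### The schedules -/

/-- Padding. -/
def padE : SE NS :=
  .rep .h (.app (.rep .p (.app (.rep .p (.app (.rep .m (.ins .toOut)) (.rep .wm (.ins .zero))))
    (.rep .rp (.rep .w (.ins .zero))))) (.rep .rp (.rep .r (.rep .w (.ins .zero)))))

/-- Removal of the padding. -/
def unpadE : SE NS :=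
  .rep .h (.app (.rep .p (.app (.rep .p (.app (.app (.rep .o (.ins .drop))
    (.rep .m (.ins .toOut))) (.rep .wom (.ins .drop))))
    (.rep .rp (.rep .w (.ins .drop))))) (.rep .rp (.rep .r (.rep .w (.ins .drop)))))

/-- The part of a folding that puts a chunk on an operand stack. -/
def chunkE (c : Fin 4) : SE NS := .app (.rep .d (.ins .toT)) (.ins (.chunk c))

/-- The folding of one slot. -/
def foldE1 : SE NS :=
  .app (.app (.app (.app (chunkE 0) (chunkE 1)) (.app (chunkE 2) (chunkE 3)))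
    (.app (.rep .d (.ins .add)) (.app (.ins .carry) (.app (.ins .carry) (.ins .carry)))))
    (.app (.rep .d1 (.ins .zero)) (.app (.rep .d1 (.ins .zero)) (.rep .d1 (.ins .zero))))

/-- The folding of all slots. -/
def foldE : SE NS := .rep .h (.rep .r (.rep .r foldE1))

/-- Selection of the middle parts. -/
def midE : SE NS :=
  .rep .h (.app (.app (.rep .r (.rep .r (.rep .w (.ins .drop))))
    (.rep .r (.rep .r (.rep .w (.ins .toOut))))) (.rep .r (.rep .r (.rep .w (.ins .drop)))))

/-- Extension by zeros. -/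
def extE : SE NS :=
  .rep .h (.app (.rep .r (.rep .r (.rep .w (.ins .toOut))))
    (.app (.rep .r (.rep .r (.rep .w (.ins .zero)))) (.rep .r (.rep .r (.rep .w (.ins .zero))))))

section

variable {h p r ρ D M W : ℕ}

theorem padE_eval : padE.eval (NS.val h p r ρ D M W) = padSch h p r M W := by
  simp only [padE, SE.eval, rep_singleton, ge_rep_replicate, NS.val]
  simp only [rep_eq_cat, padSch]

theorem unpadE_eval : unpadE.eval (NS.val h p r ρ D M W) = unpadSch h p r ρ M W := by
  have e : W - M - ρ = W - ρ - M := by omega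
  simp only [unpadE, SE.eval, rep_singleton, ge_rep_replicate, NS.val]
  simp only [rep_eq_cat, unpadSch, selSch, e]

theorem foldE1_eval : foldE1.eval (NS.val h p r ρ D M W) = foldSch D := by
  have e : 3 * D - 3 = (D - 1) + ((D - 1) + (D - 1)) := by omega
  simp only [foldE1, chunkE, SE.eval, rep_singleton, NS.val, foldSch, e,
    List.replicate_add]
  simp [List.replicate_succ]

theorem foldE_eval : foldE.eval (NS.val h p r ρ D M W) = foldsSch h r D := by
  have e : foldE.eval (NS.val h p r ρ D M W) =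
    rep h (rep r (rep r (foldE1.eval (NS.val h p r ρ D M W)))) := rfl
  rw [e, foldE1_eval]
  simp only [rep_eq_cat, foldsSch]

theorem midE_eval : midE.eval (NS.val h p r ρ D M W) = midSch h (r * r * W) := by
  simp only [midE, SE.eval, rep_singleton, ge_rep_replicate, NS.val, ← mul_assoc]
  simp only [rep_eq_cat, midSch, selSch]

theorem extE_eval : extE.eval (NS.val h p r ρ D M W) = extSch h (r * r * W) := by
  simp only [extE, SE.eval, rep_singleton, ge_rep_replicate, NS.val, ← mul_assoc]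
  simp only [rep_eq_cat, extSch, List.append_assoc, two_mul, List.replicate_add]

/-- The sizes. -/
structure Sizes (h p r ρ D M W : ℕ) : Prop where
  hh : 1 ≤ h
  hr : 4 ≤ r
  hp : p ≤ r
  hW : 4 ≤ W
  hM : M ≤ W
  hρ : ρ ≤ W
  hD : D ≤ W

theorem Sizes.of_par {q : ℕ} (hh : 1 ≤ h) (hq : 1 ≤ q) :
    Sizes h p (rr p) (rho p) (4 * q * rr p) (p * q) (16 * q * rr p) := by
  have h1 := four_le_rr' p
  have h2 := le_rr' p
  have h3 : rho p ≤ rr p := (Nat.lt_two_pow_self (n := rho p)).le
  have h4 : rr p * 1 ≤ rr p * q := Nat.mul_le_mul_left _ hq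
  have h5 : p * q ≤ rr p * q := Nat.mul_le_mul_right _ h2
  have h6 : 16 * q * rr p = 16 * (rr p * q) := by ring
  have h7 : 4 * q * rr p = 4 * (rr p * q) := by ring
  exact ⟨hh, h1, h2, by omega, by omega, by omega, by omega⟩

theorem Sizes.small (Z : Sizes h p r ρ D M W) :
    9 * r + 8 * p + 18 * W + 8 * M + 8 * ρ + 9 * D + 20 ≤ 80 * (h * r ^ 2 * W) := by
  obtain ⟨hh, hr, hp, hW, hM, hρ, hD⟩ := Z
  have h1 : 1 * (r * 1) * 1 ≤ h * (r * r) * W := by gcongr <;> omega
  have h2 : 1 * (1 * 1) * W ≤ h * (r * r) * W := by gcongr <;> omega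
  have h3 : h * (r * r) * W = h * r ^ 2 * W := by ring
  omega

theorem padE_big (Z : Sizes h p r ρ D M W) :
    padE.big (NS.val h p r ρ D M W) ≤ 120 * (h * r ^ 2 * W) := by
  obtain ⟨hh, hr, hp, hW, hM, hρ, hD⟩ := Z
  simp only [padE, SE.big, NS.val]
  have e1 : h + 2 ≤ 3 * h := by omega
  have e2 : M + 2 ≤ 2 * W := by omega
  have e3 : p + 2 ≤ 2 * r := by omega
  have e4 : r - p + 2 ≤ 2 * r := by omega
  have e5 : r + 2 ≤ 2 * r := by omega
  have e6 : W - M + 2 ≤ 2 * W := by omega
  have e7 : W + 2 ≤ 2 * W := by omega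
  have e8 : r ^ 2 * 4 ≤ r ^ 2 * W := Nat.mul_le_mul_left _ hW
  have e9 : r * 1 ≤ r * r := Nat.mul_le_mul_left _ (by omega)
  have e10 : r * r = r ^ 2 := by ring
  calc (h + 2) * ((p + 2) * ((p + 2) * ((M + 2) * 1 + (W - M + 2) * 1 + 1) +
        (r - p + 2) * ((W + 2) * 1) + 1) + (r - p + 2) * ((r + 2) * ((W + 2) * 1)) + 1)
      ≤ (3 * h) * ((2 * r) * ((2 * r) * ((2 * W) * 1 + (2 * W) * 1 + 1) +
        (2 * r) * ((2 * W) * 1) + 1) + (2 * r) * ((2 * r) * ((2 * W) * 1)) + 1) := by gcongr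
    _ = (3 * h) * (32 * (r ^ 2 * W) + 4 * r ^ 2 + 2 * r + 1) := by ring
    _ ≤ (3 * h) * (40 * (r ^ 2 * W)) := Nat.mul_le_mul_left _ (by omega)
    _ = 120 * (h * r ^ 2 * W) := by ring

theorem unpadE_big (Z : Sizes h p r ρ D M W) :
    unpadE.big (NS.val h p r ρ D M W) ≤ 200 * (h * r ^ 2 * W) := by
  obtain ⟨hh, hr, hp, hW, hM, hρ, hD⟩ := Z
  simp only [unpadE, SE.big, NS.val]
  have e1 : h + 2 ≤ 3 * h := by omega
  have e2 : M + 2 ≤ 2 * W := by omega
  have e3 : p + 2 ≤ 2 * r := by omega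
  have e4 : r - p + 2 ≤ 2 * r := by omega
  have e5 : r + 2 ≤ 2 * r := by omega
  have e6 : W - M - ρ + 2 ≤ 2 * W := by omega
  have e7 : W + 2 ≤ 2 * W := by omega
  have e11 : ρ + 2 ≤ 2 * W := by omega
  have e8 : r ^ 2 * 4 ≤ r ^ 2 * W := Nat.mul_le_mul_left _ hW
  have e9 : r * 1 ≤ r * r := Nat.mul_le_mul_left _ (by omega)
  have e10 : r * r = r ^ 2 := by ring
  calc (h + 2) * ((p + 2) * ((p + 2) * ((ρ + 2) * 1 + (M + 2) * 1 + 1 +
        (W - M - ρ + 2) * 1 + 1) +
        (r - p + 2) * ((W + 2) * 1) + 1) + (r - p + 2) * ((r + 2) * ((W + 2) * 1)) + 1)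
      ≤ (3 * h) * ((2 * r) * ((2 * r) * ((2 * W) * 1 + (2 * W) * 1 + 1 + (2 * W) * 1 + 1) +
        (2 * r) * ((2 * W) * 1) + 1) + (2 * r) * ((2 * r) * ((2 * W) * 1)) + 1) := by gcongr
    _ = (3 * h) * (40 * (r ^ 2 * W) + 8 * r ^ 2 + 2 * r + 1) := by ring
    _ ≤ (3 * h) * (60 * (r ^ 2 * W)) := Nat.mul_le_mul_left _ (by omega)
    _ ≤ 200 * (h * r ^ 2 * W) := by
      have : (3 * h) * (60 * (r ^ 2 * W)) = 180 * (h * r ^ 2 * W) := by ring
      omega

theorem foldE_big (Z : Sizes h p r ρ D M W) :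
    foldE.big (NS.val h p r ρ D M W) ≤ 500 * (h * r ^ 2 * W) := by
  obtain ⟨hh, hr, hp, hW, hM, hρ, hD⟩ := Z
  have e0 : foldE1.big (NS.val h p r ρ D M W) ≤ 40 * W := by
    simp only [foldE1, chunkE, SE.big, NS.val]
    omega
  have e1 : h + 2 ≤ 3 * h := by omega
  have e5 : r + 2 ≤ 2 * r := by omega
  calc foldE.big (NS.val h p r ρ D M W) =
        (h + 2) * ((r + 2) * ((r + 2) * foldE1.big (NS.val h p r ρ D M W))) := rfl
    _ ≤ (3 * h) * ((2 * r) * ((2 * r) * (40 * W))) := by gcongr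
    _ = 480 * (h * r ^ 2 * W) := by ring
    _ ≤ 500 * (h * r ^ 2 * W) := by omega

theorem midE_big (Z : Sizes h p r ρ D M W) :
    midE.big (NS.val h p r ρ D M W) ≤ 90 * (h * r ^ 2 * W) := by
  obtain ⟨hh, hr, hp, hW, hM, hρ, hD⟩ := Z
  simp only [midE, SE.big, NS.val]
  have e1 : h + 2 ≤ 3 * h := by omega
  have e5 : r + 2 ≤ 2 * r := by omega
  have e7 : W + 2 ≤ 2 * W := by omega
  have e8 : r ^ 2 * 4 ≤ r ^ 2 * W := Nat.mul_le_mul_left _ hW
  have e10 : 1 ≤ r ^ 2 := Nat.one_le_pow _ _ (by omega)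
  calc (h + 2) * ((r + 2) * ((r + 2) * ((W + 2) * 1)) + (r + 2) * ((r + 2) * ((W + 2) * 1)) +
        1 + (r + 2) * ((r + 2) * ((W + 2) * 1)) + 1)
      ≤ (3 * h) * ((2 * r) * ((2 * r) * ((2 * W) * 1)) + (2 * r) * ((2 * r) * ((2 * W) * 1)) +
        1 + (2 * r) * ((2 * r) * ((2 * W) * 1)) + 1) := by gcongr
    _ = (3 * h) * (24 * (r ^ 2 * W) + 2) := by ring
    _ ≤ (3 * h) * (30 * (r ^ 2 * W)) := Nat.mul_le_mul_left _ (by omega)
    _ = 90 * (h * r ^ 2 * W) := by ring

theorem extE_big (Z : Sizes h p r ρ D M W) :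
    extE.big (NS.val h p r ρ D M W) ≤ 90 * (h * r ^ 2 * W) := by
  obtain ⟨hh, hr, hp, hW, hM, hρ, hD⟩ := Z
  simp only [extE, SE.big, NS.val]
  have e1 : h + 2 ≤ 3 * h := by omega
  have e5 : r + 2 ≤ 2 * r := by omega
  have e7 : W + 2 ≤ 2 * W := by omega
  have e8 : r ^ 2 * 4 ≤ r ^ 2 * W := Nat.mul_le_mul_left _ hW
  have e10 : 1 ≤ r ^ 2 := Nat.one_le_pow _ _ (by omega)
  calc (h + 2) * ((r + 2) * ((r + 2) * ((W + 2) * 1)) + ((r + 2) * ((r + 2) * ((W + 2) * 1)) +
        (r + 2) * ((r + 2) * ((W + 2) * 1)) + 1) + 1)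
      ≤ (3 * h) * ((2 * r) * ((2 * r) * ((2 * W) * 1)) + ((2 * r) * ((2 * r) * ((2 * W) * 1)) +
        (2 * r) * ((2 * r) * ((2 * W) * 1)) + 1) + 1) := by gcongr
    _ = (3 * h) * (24 * (r ^ 2 * W) + 2) := by ring
    _ ≤ (3 * h) * (30 * (r ^ 2 * W)) := Nat.mul_le_mul_left _ (by omega)
    _ = 90 * (h * r ^ 2 * W) := by ring

end

/-- Conditions for generating a schedule: the numbers are there, and `SCH` and the scratch
stacks are empty. -/
structure GenReady (s : St J E) (h p r ρ D M W : ℕ) : Prop where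
  nums : HasNums s h p r ρ D M W
  sizes : Sizes h p r ρ D M W
  scratch : s.Empty [R.S1, R.S2, R.S3, R.S4, R.S5, R.S6, R.S7, R.S8, R.S9, R.S10, R.S11,
      R.S12]
  sch : s.at R.SCH = []

theorem GenReady.set_X {s : St J E} {h p r ρ D M W : ℕ} (G : GenReady s h p r ρ D M W)
    (x : List (SSym E)) : GenReady (s.set R.X x) h p r ρ D M W := by
  obtain ⟨⟨h1, h2, h3, h4, h5, h6, h7⟩, hz, hs, hsch⟩ := G
  simp only [St.at] at h1 h2 h3 h4 h5 h6 h7 hsch
  refine ⟨⟨?_, ?_, ?_, ?_, ?_, ?_, ?_⟩, hz, ?_, ?_⟩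
  · simp [h1]
  · simp [h2]
  · simp [h3]
  · simp [h4]
  · simp [h5]
  · simp [h6]
  · simp [h7]
  · intro i hi
    have h0 := hs i hi
    have hi' : i ≠ R.X := by
      rintro rfl
      simp at hi
    rw [St.set_of_ne _ _ _ (by simpa using hi')]
    exact h0
  · simp [hsch]

section

variable {h p r ρ D M W : ℕ} {s : St J E}

theorem genSch_runs' (G : GenReady s h p r ρ D M W) (e : SE NS) (hd : e.depth ≤ 5) (C : ℕ)
    (hC : e.big (NS.val h p r ρ D M W) ≤ C * (h * r ^ 2 * W)) :
    Runs (genSch e) s (s.set R.SCH (Vale.Agent.P338.sch (e.eval (NS.val h p r ρ D M W))))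
      ((15 * C + 80) * (h * r ^ 2 * W)) := by
  have h1 := genSch_runs e hd s G.nums G.scratch
  rw [G.sch, List.append_nil] at h1
  refine h1.mono ?_
  have h2 := G.sizes.small
  have h3 : (15 * C + 80) * (h * r ^ 2 * W) =
    15 * (C * (h * r ^ 2 * W)) + 80 * (h * r ^ 2 * W) := by ring
  omega

/-- Generate the schedule for padding. -/
def gPad : Pr J E := genSch padE

/-- Generate the schedule for removing the padding. -/
def gUnpad : Pr J E := genSch unpadE

/-- Generate the schedule for folding. -/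
def gFold : Pr J E := genSch foldE

/-- Generate the schedule for the selection of the middle parts. -/
def gMid : Pr J E := genSch midE

/-- Generate the schedule for the extension by zeros. -/
def gExt : Pr J E := genSch extE

theorem gPad_runs (G : GenReady s h p r ρ D M W) :
    Runs gPad s (s.set R.SCH (sch (padSch h p r M W))) (10000 * (h * r ^ 2 * W)) := by
  have h1 := genSch_runs' G padE (by simp [padE, SE.depth]) 120 (padE_big G.sizes)
  rw [padE_eval] at h1
  exact h1.mono (Nat.mul_le_mul_right _ (by norm_num))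

theorem gUnpad_runs (G : GenReady s h p r ρ D M W) :
    Runs gUnpad s (s.set R.SCH (sch (unpadSch h p r ρ M W))) (10000 * (h * r ^ 2 * W)) := by
  have h1 := genSch_runs' G unpadE (by simp [unpadE, SE.depth]) 200 (unpadE_big G.sizes)
  rw [unpadE_eval] at h1
  exact h1.mono (Nat.mul_le_mul_right _ (by norm_num))

theorem gFold_runs (G : GenReady s h p r ρ D M W) :
    Runs gFold s (s.set R.SCH (sch (foldsSch h r D))) (10000 * (h * r ^ 2 * W)) := by
  have h1 := genSch_runs' G foldE (by simp [foldE, foldE1, chunkE, SE.depth]) 500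
    (foldE_big G.sizes)
  rw [foldE_eval] at h1
  exact h1.mono (Nat.mul_le_mul_right _ (by norm_num))

theorem gMid_runs (G : GenReady s h p r ρ D M W) :
    Runs gMid s (s.set R.SCH (sch (midSch h (r * r * W)))) (10000 * (h * r ^ 2 * W)) := by
  have h1 := genSch_runs' G midE (by simp [midE, SE.depth]) 90 (midE_big G.sizes)
  rw [midE_eval] at h1
  exact h1.mono (Nat.mul_le_mul_right _ (by norm_num))

theorem gExt_runs (G : GenReady s h p r ρ D M W) :
    Runs gExt s (s.set R.SCH (sch (extSch h (r * r * W)))) (10000 * (h * r ^ 2 * W)) := by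
  have h1 := genSch_runs' G extE (by simp [extE, SE.depth]) 90 (extE_big G.sizes)
  rw [extE_eval] at h1
  exact h1.mono (Nat.mul_le_mul_right _ (by norm_num))

end

end Vale.Agent.P338
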