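import Vale.Agent.P338.SwapEnv

/-!
# P338: the program that swaps two adjacent digits, assembled from its parts
-/

namespace Vale.Agent.P338

/-- Composition, with times measured in the unit `U`. -/
theorem Runs.seqU {ι Γ : Type} {p q : Prog ι Γ} {s s₁ s₂ : Store ι Γ} {a b U : ℕ}
    (hU : 1 ≤ U) (h₁ : Runs p s s₁ (a * U)) (h₂ : Runs q s₁ s₂ (b * U)) :
    Runs (p.seq q) s s₂ ((a + b + 1) * U) :=
  (h₁.seq h₂).mono (by rw [Nat.add_mul, Nat.add_mul, Nat.one_mul]; omega)

theorem update_of_eq {α β : Type} [DecidableEq α] {f : α → β} {i : α} {v : β} (h : f i = v) :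
    Function.update f i v = f := by
  subst h
  exact Function.update_eq_self i f

variable {J E : Type} [DecidableEq J]

/-! ### Clearing several stacks -/

/-- Clear the stacks in a list. -/
def clrs : List R → Pr J E
  | [] => Prog.skip
  | r :: L => (Prog.clear (Sum.inl r)).seq (clrs L)

/-- The store after clearing. -/
def clrSt (L : List R) (s : St J E) : St J E
  | Sum.inl r => if r ∈ L then [] else s (Sum.inl r)
  | Sum.inr j => s (Sum.inr j)

theorem clrs_runs (L : List R) : ∀ (s : St J E) (m : ℕ), (∀ r ∈ L, (s.at r).length ≤ m) →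
    Runs (clrs L) s (clrSt L s) (L.length * (3 * m + 1) + 1) := by
  induction L with
  | nil =>
    intro s m _
    refine ((Runs.skip s).mono (by simp)).of_eq ?_
    funext i
    cases i <;> simp [clrSt]
  | cons r L ih =>
    intro s m h
    have h1 := Runs.clear (Sum.inl r : Loc J) s
    have h2 := ih (Function.update s (Sum.inl r) []) m (by
      intro r' hr'
      by_cases e : r' = r
      · subst e; simp
      · have := h r' (List.mem_cons_of_mem _ hr')
        simp only [St.at] at this ⊢
        rw [Function.update_of_ne (by simpa using e)]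
        exact this)
    refine ((h1.seq h2).mono ?_).of_eq ?_
    · have := h r (List.mem_cons_self)
      simp only [St.at] at this
      have e : (L.length + 1) * (3 * m + 1) = L.length * (3 * m + 1) + (3 * m + 1) := by ring
      rw [List.length_cons, e]
      omega
    · funext i
      cases i with
      | inl r' =>
        by_cases e : r' = r
        · subst e; simp [clrSt]
        · simp [clrSt, e]
      | inr j => simp [clrSt]

/-! ### The working store -/

section

variable (s : St J E) (p q : ℕ) (x k y x' k' y' : List (SSym E))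

theorem wst_setX : (wst s p q x k y).set R.X x' = wst s p q x' k y := by
  funext i
  simp only [wst, Function.update_apply]
  split_ifs <;> simp_all

theorem wst_setKER : (wst s p q x k y).set R.KER k' = wst s p q x k' y := by
  funext i
  simp only [wst, Function.update_apply]
  split_ifs <;> simp_all

theorem wst_setXS : (wst s p q x k y).set R.XS y' = wst s p q x k y' := by
  funext i
  simp only [wst, Function.update_apply]
  split_ifs <;> simp_all

theorem wst_X : (wst s p q x k y).at R.X = x := by simp [wst]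

theorem wst_KER : (wst s p q x k y).at R.KER = k := by simp [wst]

theorem wst_XS : (wst s p q x k y).at R.XS = y := by simp [wst]

end

/-- The stacks with the parameters and the copies. -/
def parList : List R := [R.XS, R.KER, R.RR, R.RHO, R.K3, R.DD, R.WW]

theorem parList_sub : ∀ r ∈ R.MU :: parList, r ∈ swapScratch := by decide

theorem Start.clr {s : St J E} {h p q m : ℕ} (S : Start s h p q m) (x k y : List (SSym E)) :
    clrSt parList (wst s p q x k y) = (s.set R.X x).set R.MU (una (p * q)) := by
  funext i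
  cases i with
  | inr j => simp [clrSt, wst, parSt]
  | inl r =>
    by_cases hr : r ∈ parList
    · have h0 : s (Sum.inl r) = [] := S.empty r (parList_sub r (List.mem_cons_of_mem _ hr))
      have h1 : r ≠ R.X := by rintro rfl; revert hr; decide
      have h2 : r ≠ R.MU := by rintro rfl; revert hr; decide
      simp [clrSt, hr, h1, h2, h0]
    · have hr' := hr
      simp only [parList, List.mem_cons, List.not_mem_nil, or_false, not_or] at hr'
      obtain ⟨a1, a2, a3, a4, a5, a6, a7⟩ := hr'
      by_cases h2 : r = R.MU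
      · subst h2; simp [clrSt, hr, wst, parSt]
      · by_cases h1 : r = R.X
        · subst h1; simp [clrSt, hr, wst]
        · simp [clrSt, hr, wst, parSt, a1, a2, a3, a4, a5, a6, a7, h1, h2]

/-! ### The sizes of the parameters -/

omit [DecidableEq J] in
theorem Start.par_le {s : St J E} {h p q m : ℕ} (S : Start s h p q m) :
    rr p ≤ m ∧ rho p ≤ m ∧ 4 * q ≤ m ∧ 4 * q * rr p ≤ m ∧ 16 * q * rr p ≤ m ∧ p * q ≤ m ∧
      h * rr p ^ 2 * (p * q) ≤ m ∧ 1 ≤ m := by
  have hm := S.hm
  have hh := S.hh
  have hq := S.hq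
  have h4 := four_le_rr p
  have hpr := le_rr p
  have hρ : rho p ≤ rr p := (Nat.lt_two_pow_self).le
  have e1 : mulSize h p q = 48 * (h * (rr p * (rr p * (rr p * q)))) := by unfold mulSize; ring
  have b1 : rr p * q ≤ rr p * (rr p * q) := Nat.le_mul_of_pos_left _ (by omega)
  have b2 : rr p * (rr p * q) ≤ rr p * (rr p * (rr p * q)) := Nat.le_mul_of_pos_left _ (by omega)
  have b3 : rr p * (rr p * (rr p * q)) ≤ h * (rr p * (rr p * (rr p * q))) :=
    Nat.le_mul_of_pos_left _ (by omega)
  have b4 : rr p ≤ rr p * q := Nat.le_mul_of_pos_right _ (by omega)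
  have b5 : q ≤ rr p * q := Nat.le_mul_of_pos_left _ (by omega)
  have b6 : p * q ≤ rr p * q := Nat.mul_le_mul_right _ hpr
  have b7 : h * rr p ^ 2 * (p * q) ≤ h * (rr p * (rr p * (rr p * q))) := by
    calc h * rr p ^ 2 * (p * q) ≤ h * rr p ^ 2 * (rr p * q) := Nat.mul_le_mul_left _ b6
      _ = h * (rr p * (rr p * (rr p * q))) := by ring
  have e2 : 4 * q * rr p = 4 * (rr p * q) := by ring
  have e3 : 16 * q * rr p = 16 * (rr p * q) := by ring
  refine ⟨?_, ?_, ?_, ?_, ?_, ?_, ?_, ?_⟩ <;> omega

/-! ### The parts -/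

/-- The parts of the swap program. -/
structure SwapParts (J E : Type) [DecidableEq J] (T : ℕ → ℕ) (C : ℕ) where
  prm : Pr J E
  gk : Pr J E
  gPad : Pr J E
  gSkew : Pr J E
  gSq : Pr J E
  gMix : Pr J E
  gFold : Pr J E
  gUnskew : Pr J E
  gUnpad : Pr J E
  cv : Pr J E
  naive : Pr J E
  prm_spec : ParamSpec prm C
  gk_spec : KerSpec gk C
  gPad_spec : GenSpec gPad (fun h p q => padSch h p (rr p) (p * q) (16 * q * rr p)) C
  gSkew_spec : GenSpec gSkew
    (fun h p q => rowsSch h (rr p) (16 * q * rr p) fun i => rr p - i) C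
  gSq_spec : GenSpec gSq (fun h p q => twSch h (rr p) (16 * q * rr p)
    fun i j => 4 * q * (2 * rr p - uSq (rr p) i j)) C
  gMix_spec : GenSpec gMix (fun h p q => twSch h (rr p) (16 * q * rr p)
    fun i j => 4 * q * (2 * rr p - uMix (rr p) i j)) C
  gFold_spec : GenSpec gFold (fun h p q => foldsSch h (rr p) (4 * q * rr p)) C
  gUnskew_spec : GenSpec gUnskew
    (fun h p q => rowsSch h (rr p) (16 * q * rr p) (backAmt (rr p))) C
  gUnpad_spec : GenSpec gUnpad
    (fun h p q => unpadSch h p (rr p) (rho p) (p * q) (16 * q * rr p)) C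
  cv_spec : ConvSpec cv T C
  naive_spec : NaiveSpec naive C

/-- A generated pass. -/
theorem pass_step {gen : Pr J E} {L : ℕ → ℕ → ℕ → List Instr} {C : ℕ} (hg : GenSpec gen L C)
    {s : St J E} {h p q m U : ℕ} (S : Start s h p q m) (hU : m ≤ U) {x y : List Bool}
    (hT : Tr (L h p q) x y) (hL : (L h p q).length ≤ mulSize h p q)
    (hy : y.length ≤ mulSize h p q) (k z : List (SSym E)) :
    Runs (gen.seq pass) (wst s p q (bits x) k z) (wst s p q (bits y) k z)
      ((C + 61) * U) := by
  have hE := S.env (bits x) k z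
  have h1 := hg h p q m _ S.hh S.hp S.hq S.hm hE
  have h2 := pass_runs (J := J) (E := E) hT []
    ((wst s p q (bits x) k z).set R.SCH (sch (L h p q)))
    (by
      intro r hr
      have : r ∈ envScratch ∧ r ≠ R.SCH := by
        revert r
        decide
      simp only [St.set]
      rw [Function.update_of_ne (by simpa using this.2)]
      exact hE.empty r this.1)
    (by simp [wst])
    (by simp)
  have hm := S.hm
  have hm1 := S.par_le.2.2.2.2.2.2.2
  refine ((h1.seq h2).mono ?_).of_eq ?_
  · simp only [List.length_nil]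
    have e : (C + 61) * U = C * U + 61 * U := by ring
    have e1 : C * m ≤ C * U := Nat.mul_le_mul_left _ hU
    omega
  · have h0 : s (Sum.inl R.SCH) = [] := S.empty _ (by decide)
    have h0' : wst s p q (bits x) k z (Sum.inl R.SCH) = [] := by simp [wst, parSt, h0]
    rw [← wst_setX s p q (bits x) k z (bits y)]
    funext i
    simp only [Function.update_apply]
    split_ifs <;> simp_all

namespace SwapParts

variable {T : ℕ → ℕ} {C : ℕ} (A : SwapParts J E T C)

/-- When the clock runs out. -/
def fallback : Pr J E :=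
  (Prog.clear (Sum.inl R.FLAG)).seq
    ((Prog.copyOnto (Sum.inl R.XS) (Sum.inl R.X) (Sum.inl R.S1)).seq
      ((clrs parList).seq (A.naive.seq (clrs [R.MU]))))

/-- The passes 6, 7, 8, and cleaning. -/
noncomputable def partC : Pr J E :=
  (A.gSq.seq pass).seq ((A.gFold.seq pass).seq ((A.gFold.seq pass).seq
    ((A.gUnskew.seq pass).seq ((A.gUnpad.seq pass).seq ((clrs parList).seq (clrs [R.MU]))))))

/-- The passes from 4 on. -/
noncomputable def partB : Pr J E :=
  (A.gMix.seq pass).seq ((A.gFold.seq pass).seq (A.cv.seq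
    (Prog.ite (nonempty (Sum.inl R.FLAG)) A.fallback A.partC)))

/-- The whole program. -/
noncomputable def swap : Pr J E :=
  A.prm.seq ((Prog.copyOnto (Sum.inl R.X) (Sum.inl R.XS) (Sum.inl R.S1)).seq (A.gk.seq
    ((A.gPad.seq pass).seq ((A.gSkew.seq pass).seq ((A.gSq.seq pass).seq
      ((A.gFold.seq pass).seq (A.cv.seq
        (Prog.ite (nonempty (Sum.inl R.FLAG)) A.fallback A.partB))))))))

section

variable {A} {s : St J E} {h p q m : ℕ} {e : ℕ → ℕ → ℕ → List Bool}

/-- Cleaning. -/
theorem clean_runs (S : Start s h p q m) {U : ℕ} (hU : m ≤ U) {x k y : List (SSym E)}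
    (hk : k.length ≤ m) (hy : y.length ≤ m) :
    Runs ((clrs parList).seq (clrs [R.MU])) (wst s p q x k y) (s.set R.X x) (40 * U) := by
  obtain ⟨b1, b2, b3, b4, b5, b6, b7, b8⟩ := S.par_le
  have h1 := clrs_runs parList (wst s p q x k y) m (by
    intro r hr
    simp only [parList, List.mem_cons, List.not_mem_nil, or_false] at hr
    rcases hr with rfl | rfl | rfl | rfl | rfl | rfl | rfl <;>
      simp [wst, parSt, hk, hy, b1, b2, b3, b4, b5])
  rw [S.clr] at h1
  have h2 := clrs_runs [R.MU] ((s.set R.X x).set R.MU (una (p * q))) m (by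
    intro r hr
    rw [List.mem_singleton] at hr
    subst hr
    simp [b6])
  refine ((h1.seq h2).mono ?_).of_eq ?_
  · simp only [parList, List.length_cons, List.length_nil]
    omega
  · have h0 : s (Sum.inl R.MU) = [] := S.empty _ (by decide)
    funext i
    cases i with
    | inr j => simp [clrSt]
    | inl r =>
      by_cases hr : r = R.MU
      · subst hr; simp [clrSt, h0]
      · simp [clrSt, hr]

/-- The fallback. -/
theorem fallback_runs (S : Start s h p q m)
    (he : ∀ a < h, ∀ i < p, ∀ j < p, (e a i j).length = p * q)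
    {U : ℕ} (hU : m + min (T m) (m * rho p) ≤ U) (hT : m * rho p < T m)
    {k : List (SSym E)} (hk : k.length ≤ m) :
    Runs A.fallback ((wst s p q [] k (bits (data h p e))).set R.FLAG [Vale.Agent.P338.mk])
      (s.set R.X (bits (data h p fun a i j => e a j i))) ((C + 60) * U) := by
  obtain ⟨b1, b2, b3, b4, b5, b6, b7, b8⟩ := S.par_le
  have hd : (data h p e).length ≤ m := ((Par.mk' S.hp S.hq).len_data he).trans S.hm
  have hF : s (Sum.inl R.FLAG) = [] := S.empty _ (by decide)
  have hS1 : s (Sum.inl R.S1) = [] := S.empty _ (by decide)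
  have h1 := Runs.clear (Sum.inl R.FLAG : Loc J)
    ((wst s p q [] k (bits (data h p e))).set R.FLAG [Vale.Agent.P338.mk])
  have e1 : Function.update ((wst s p q [] k (bits (data h p e))).set R.FLAG
      [Vale.Agent.P338.mk]) (Sum.inl R.FLAG) [] = wst s p q [] k (bits (data h p e)) := by
    have e0 : wst s p q [] k (bits (data h p e)) (Sum.inl R.FLAG) = [] := by
      simp [wst, parSt, hF]
    rw [St.set, Function.update_idem]
    exact update_of_eq e0
  rw [e1] at h1
  have h2 := Runs.copyOnto (a := (Sum.inl R.XS : Loc J)) (b := Sum.inl R.X)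
    (t := Sum.inl R.S1) (by simp) (by simp) (by simp) (wst s p q [] k (bits (data h p e)))
    (by simp [wst, parSt, hS1])
  have e2 : Function.update (wst s p q [] k (bits (data h p e))) (Sum.inl R.X)
      (wst s p q [] k (bits (data h p e)) (Sum.inl R.XS) ++
        wst s p q [] k (bits (data h p e)) (Sum.inl R.X)) =
      wst s p q (bits (data h p e)) k (bits (data h p e)) := by
    rw [← wst_setX s p q [] k (bits (data h p e)) (bits (data h p e))]
    simp [wst]
  rw [e2] at h2
  have h3 := clrs_runs parList (wst s p q (bits (data h p e)) k (bits (data h p e))) m (by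
    intro r hr
    simp only [parList, List.mem_cons, List.not_mem_nil, or_false] at hr
    rcases hr with rfl | rfl | rfl | rfl | rfl | rfl | rfl <;>
      simp [wst, parSt, hk, hd, b1, b2, b3, b4, b5])
  rw [S.clr] at h3
  have h4 := A.naive_spec h p (p * q) e
    ((s.set R.X (bits (data h p e))).set R.MU (una (p * q))) S.hh S.hp
    (Nat.mul_pos S.hp S.hq) he
    (by intro j; have := S.idle j; simp [this])
    (by
      intro r hr hr'
      have h0 : s (Sum.inl r) = [] := S.empty r hr
      have h1 : r ≠ R.X := by rintro rfl; revert hr; decide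
      simp [h0, h1, hr'])
    (by have := S.HH; simp only [St.at] at this; simp [this])
    (by have := S.PP; simp only [St.at] at this; simp [this])
    (by simp) (by simp)
  have h5 := clrs_runs [R.MU] (((s.set R.X (bits (data h p e))).set R.MU (una (p * q))).set R.X
    (bits (data h p fun a i j => e a j i))) m (by
    intro r hr
    rw [List.mem_singleton] at hr
    subst hr
    simp [b6])
  refine ((h1.seq (h2.seq (h3.seq (h4.seq h5)))).mono ?_).of_eq ?_
  · have e3 : (wst s p q [] k (bits (data h p e)) (Sum.inl R.XS)).length ≤ m := by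
      simp [wst, hd]
    have e4 : h * rr p ^ 2 * (p * q) * rho p ≤ m * rho p := Nat.mul_le_mul_right _ b7
    have e5 : C * (h * rr p ^ 2 * (p * q) * rho p) ≤ C * U :=
      Nat.mul_le_mul_left _ (by omega)
    have e6 : (C + 60) * U = C * U + 60 * U := by ring
    simp only [Function.update_self, parList, List.length_cons, List.length_nil]
    omega
  · have h0 : s (Sum.inl R.MU) = [] := S.empty _ (by decide)
    funext i
    cases i with
    | inr j => simp [clrSt]
    | inl r =>
      by_cases hr : r = R.MU
      · subst hr; simp [clrSt, h0]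
      · by_cases hx : r = R.X
        · subst hx; simp [clrSt]
        · simp [clrSt, hr, hx]

/-- The passes 6, 7, 8. -/
theorem partC_runs (S : Start s h p q m)
    (he : ∀ a < h, ∀ i < p, ∀ j < p, (e a i j).length = p * q)
    {U : ℕ} (hU : m + min (T m) (m * rho p) ≤ U)
    {k y : List (SSym E)} (hk : k.length ≤ m) (hy : y.length ≤ m) :
    Runs A.partC
      (wst s p q (bits (lay h (rr p) (16 * q * rr p) (stg (4 * q) (rr p) p e 7))) k y)
      (s.set R.X (bits (data h p fun a i j => e a j i)))
      ((5 * C + 400) * U) := by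
  have P := Par.mk' S.hp S.hq
  have hmU : m ≤ U := by omega
  have hU1 : 1 ≤ U := by have := S.par_le.2.2.2.2.2.2.2; omega
  have s1 := pass_step A.gSq_spec S hmU (P.tr_rot (u := uSq (rr p))
    (P.stg_lt he (n := 7) (by simp))) (P.len_rot h _) (P.len_lay h _) k y
  rw [← stg_eight] at s1
  have s2 := pass_step A.gFold_spec S hmU (P.tr_fold (h := h) (stg (4 * q) (rr p) p e 8))
    (P.len_folds h) (P.len_lay h _) k y
  rw [← stg_nine] at s2
  have s3 := pass_step A.gFold_spec S hmU (P.tr_fold (h := h) (stg (4 * q) (rr p) p e 9))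
    (P.len_folds h) (P.len_lay h _) k y
  rw [← stg_ten] at s3
  have s4 := pass_step A.gUnskew_spec S hmU (tr_unskew (h := h) (r := rr p)
    (W := 16 * q * rr p) (stg (4 * q) (rr p) p e 10))
    (P.len_unskew h) (P.len_lay h _) k y
  rw [← stg_eleven] at s4
  have s5 := pass_step A.gUnpad_spec S hmU (P.tr_unpad he)
    (P.len_unpad h) (P.len_data (e := fun a i j => e a j i)
      (fun a ha i hi j hj => he a ha j hj i hi)) k y
  have s6 := clean_runs S hmU (x := bits (data h p fun a i j => e a j i)) hk hy
  have t5 := s5.seqU hU1 s6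
  have t4 := s4.seqU hU1 t5
  have t3 := s3.seqU hU1 t4
  have t2 := s2.seqU hU1 t3
  have t1 := s1.seqU hU1 t2
  exact t1.mono (Nat.mul_le_mul_right _ (by omega))

/-- The branch after a convolution. -/
theorem branch_runs (S : Start s h p q m)
    (he : ∀ a < h, ∀ i < p, ∀ j < p, (e a i j).length = p * q)
    {U c : ℕ} (hU : m + min (T m) (m * rho p) ≤ U)
    {k : List (SSym E)} (hk : k.length ≤ m) {s' : St J E} {x : List (SSym E)} {B : Pr J E}
    (hB : Runs B (wst s p q x k (bits (data h p e)))
      (s.set R.X (bits (data h p fun a i j => e a j i))) (c * U))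
    (hs' : s' = wst s p q x k (bits (data h p e)) ∨
      (m * rho p < T m ∧
        s' = (wst s p q [] k (bits (data h p e))).set R.FLAG [Vale.Agent.P338.mk])) :
    Runs (Prog.ite (nonempty (Sum.inl R.FLAG)) A.fallback B) s'
      (s.set R.X (bits (data h p fun a i j => e a j i))) ((c + C + 61) * U) := by
  have hU1 : 1 ≤ U := by have := S.par_le.2.2.2.2.2.2.2; omega
  have hF : s (Sum.inl R.FLAG) = [] := S.empty _ (by decide)
  have e1 : (c + C + 61) * U = c * U + (C + 60) * U + U := by ring
  rcases hs' with rfl | ⟨hT, rfl⟩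
  · refine (Runs.iteF ?_ hB).mono (by omega)
    rw [nonempty_tops]
    simp [wst, parSt, hF]
  · refine (Runs.iteT ?_ (fallback_runs S he hU hT hk)).mono (by omega)
    rw [nonempty_tops]
    simp

/-- The passes from 4 on. -/
theorem partB_runs (S : Start s h p q m)
    (he : ∀ a < h, ∀ i < p, ∀ j < p, (e a i j).length = p * q)
    {U : ℕ} (hU : m + min (T m) (m * rho p) ≤ U) :
    Runs A.partB
      (wst s p q (bits (lay h (rr p) (16 * q * rr p) (stg (4 * q) (rr p) p e 4)))
        (bits (kerList (rr p) (4 * q) (16 * q * rr p))) (bits (data h p e)))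
      (s.set R.X (bits (data h p fun a i j => e a j i)))
      ((9 * C + 700) * U) := by
  have P := Par.mk' S.hp S.hq
  have hmU : m ≤ U := by omega
  have hU1 : 1 ≤ U := by have := S.par_le.2.2.2.2.2.2.2; omega
  have hd : (data h p e).length ≤ m := (P.len_data he).trans S.hm
  have hk : (kerList (rr p) (4 * q) (16 * q * rr p)).length ≤ m := (P.len_ker S.hh).trans S.hm
  have s1 := pass_step A.gMix_spec S hmU (P.tr_rot (u := uMix (rr p))
    (P.stg_lt he (n := 4) (by simp))) (P.len_rot h _) (P.len_lay h _)
    (bits (kerList (rr p) (4 * q) (16 * q * rr p))) (bits (data h p e))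
  rw [← stg_five] at s1
  have s2 := pass_step A.gFold_spec S hmU (P.tr_fold (h := h) (stg (4 * q) (rr p) p e 5))
    (P.len_folds h) (P.len_lay h _)
    (bits (kerList (rr p) (4 * q) (16 * q * rr p))) (bits (data h p e))
  rw [← stg_six] at s2
  obtain ⟨s', r3, hs'⟩ := A.cv_spec h p q m (stg (4 * q) (rr p) p e 6)
    (wst s p q (bits (lay h (rr p) (16 * q * rr p) (stg (4 * q) (rr p) p e 6)))
        (bits (kerList (rr p) (4 * q) (16 * q * rr p))) (bits (data h p e)))
    S.hh S.hp S.hq S.hm (S.env _ _ _) (fun a _ i _ j _ => P.stg_le e (by simp) a i j)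
    (wst_X _ _ _ _ _ _) (wst_KER _ _ _ _ _ _)
  rw [wst_setX, wst_setX, ← stg_seven] at hs'
  have s3 : Runs A.cv _ s' (C * U) := r3.mono (Nat.mul_le_mul_left _ hU)
  have s4 := branch_runs (A := A) S he hU (by simpa using hk)
    (partC_runs (A := A) S he hU (by simpa using hk) (by simpa using hd)) hs'
  have t3 := s3.seqU hU1 s4
  have t2 := s2.seqU hU1 t3
  have t1 := s1.seqU hU1 t2
  exact t1.mono (Nat.mul_le_mul_right _ (by omega))

end

/-- **The swap program.** -/
theorem swap_spec : SwapSpec A.swap T (20 * C + 2000) := by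
  intro h p q m e s hh hp hq hm he hid hem hHH hPP hMP hMM hX
  have S : Start s h p q m := ⟨hh, hp, hq, hm, hid, hem, hHH, hPP, hMP, hMM⟩
  have P := Par.mk' S.hp S.hq
  obtain ⟨U, hUdef⟩ : ∃ U, U = m + min (T m) (m * rho p) := ⟨_, rfl⟩
  rw [← hUdef]
  have hU : m + min (T m) (m * rho p) ≤ U := hUdef.ge
  have hmU : m ≤ U := by omega
  have hU1 : 1 ≤ U := by have := S.par_le.2.2.2.2.2.2.2; omega
  have hd : (data h p e).length ≤ m := (P.len_data he).trans S.hm
  have hk : (kerList (rr p) (4 * q) (16 * q * rr p)).length ≤ m := (P.len_ker S.hh).trans S.hm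
  have a1 : Runs A.prm s (parSt s p q) (C * U) :=
    (A.prm_spec h p q m s hh hp hq hm hid hem hHH hPP hMP hMM).mono
      (Nat.mul_le_mul_left _ hmU)
  have e1 : parSt s p q = wst s p q (bits (data h p e)) [] [] := by
    have hK : s (Sum.inl R.KER) = [] := S.empty _ (by decide)
    have hXS : s (Sum.inl R.XS) = [] := S.empty _ (by decide)
    have hX' : s (Sum.inl R.X) = bits (data h p e) := hX
    unfold wst
    rw [St.set, St.set, St.set, update_of_eq (f := parSt s p q) (by simp [parSt, hX']),
      update_of_eq (f := parSt s p q) (by simp [parSt, hK]),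
      update_of_eq (f := parSt s p q) (by simp [parSt, hXS])]
  rw [e1] at a1
  have hS1 : s (Sum.inl R.S1) = [] := S.empty _ (by decide)
  have a2 := Runs.copyOnto (a := (Sum.inl R.X : Loc J)) (b := Sum.inl R.XS)
    (t := Sum.inl R.S1) (by simp) (by simp) (by simp) (wst s p q (bits (data h p e)) [] [])
    (by simp [wst, parSt, hS1])
  have e2 : Function.update (wst s p q (bits (data h p e)) [] []) (Sum.inl R.XS)
      (wst s p q (bits (data h p e)) [] [] (Sum.inl R.X) ++
        wst s p q (bits (data h p e)) [] [] (Sum.inl R.XS)) =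
      wst s p q (bits (data h p e)) [] (bits (data h p e)) := by
    rw [← wst_setXS s p q (bits (data h p e)) [] [] (bits (data h p e))]
    simp [wst]
  rw [e2] at a2
  have a2' : Runs (Prog.copyOnto (Sum.inl R.X : Loc J) (Sum.inl R.XS) (Sum.inl R.S1))
      (wst s p q (bits (data h p e)) [] [])
      (wst s p q (bits (data h p e)) [] (bits (data h p e))) (7 * U) :=
    a2.mono (by
      have : (wst s p q (bits (data h p e)) [] [] (Sum.inl R.X)).length ≤ m := by
        simp [wst, hd]
      omega)
  have a3 : Runs A.gk (wst s p q (bits (data h p e)) [] (bits (data h p e)))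
      (wst s p q (bits (data h p e)) (bits (kerList (rr p) (4 * q) (16 * q * rr p)))
        (bits (data h p e))) (C * U) := by
    have := A.gk_spec h p q m _ hh hp hq hm (S.env (bits (data h p e)) [] (bits (data h p e)))
      (wst_KER _ _ _ _ _ _)
    rw [wst_setKER] at this
    exact this.mono (Nat.mul_le_mul_left _ hmU)
  obtain ⟨K, hK⟩ : ∃ K : List (SSym E), K = bits (kerList (rr p) (4 * q) (16 * q * rr p)) :=
    ⟨_, rfl⟩
  obtain ⟨Y, hY⟩ : ∃ Y : List (SSym E), Y = bits (data h p e) := ⟨_, rfl⟩
  have s0 := pass_step A.gPad_spec S hmU (P.tr_pad he) (P.len_pad h) (P.len_lay h _) K Y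
  have s1 := pass_step A.gSkew_spec S hmU (tr_skew (h := h) (r := rr p)
    (W := 16 * q * rr p) (stg (4 * q) (rr p) p e 0))
    (P.len_skew h) (P.len_lay h _) K Y
  rw [← stg_one] at s1
  have s2 := pass_step A.gSq_spec S hmU (P.tr_rot (u := uSq (rr p))
    (P.stg_lt he (n := 1) (by simp))) (P.len_rot h _) (P.len_lay h _) K Y
  rw [← stg_two] at s2
  have s3 := pass_step A.gFold_spec S hmU (P.tr_fold (h := h) (stg (4 * q) (rr p) p e 2))
    (P.len_folds h) (P.len_lay h _) K Y
  rw [← stg_three] at s3
  obtain ⟨s', r4, hs'⟩ := A.cv_spec h p q m (stg (4 * q) (rr p) p e 3)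
    (wst s p q (bits (lay h (rr p) (16 * q * rr p) (stg (4 * q) (rr p) p e 3))) K Y)
    S.hh S.hp S.hq S.hm (S.env _ _ _) (fun a _ i _ j _ => P.stg_le e (by simp) a i j)
    (wst_X _ _ _ _ _ _) (by rw [wst_KER, hK])
  rw [wst_setX, wst_setX, ← stg_four] at hs'
  have s4 : Runs A.cv _ s' (C * U) := r4.mono (Nat.mul_le_mul_left _ hU)
  rw [hK, hY] at hs'
  have s5 := branch_runs (A := A) S he hU (by simpa using hk)
    (partB_runs (A := A) S he hU) hs'
  rw [← hK, ← hY] at a3
  have hX' : s.at R.X = Y := by rw [hX, hY]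
  have t4 := s4.seqU hU1 s5
  have t3 := s3.seqU hU1 t4
  have t2 := s2.seqU hU1 t3
  have t1 := s1.seqU hU1 t2
  have t0 := s0.seqU hU1 t1
  rw [← hY] at t0 a2' a1
  have u3 := a3.seqU hU1 t0
  have u2 := a2'.seqU hU1 u3
  have u1 := a1.seqU hU1 u2
  refine u1.mono (Nat.mul_le_mul_right _ (by omega))

end SwapParts

end Vale.Agent.P338
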