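import Vale.Agent.P338.SchedProgs
import Vale.Agent.P338.ConvInst
import Vale.Agent.P338.SwapProg
import Vale.Agent.P338.SwapGen
import Vale.Agent.P338.Naive
import Vale.Agent.P338.CallB

/-!
# P338: the swap of two adjacent digits by a program that uses a multiplying machine
-/

namespace Vale.Agent.P338

variable {J E : Type} [DecidableEq J]

/-! ### Monotonicity in the constant -/

theorem GenSpec.mono {gen : Pr J E} {L : ℕ → ℕ → ℕ → List Instr} {C C' : ℕ}
    (h : GenSpec gen L C) (hC : C ≤ C') : GenSpec gen L C' :=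
  fun a p q m s h1 h2 h3 h4 h5 => (h a p q m s h1 h2 h3 h4 h5).mono (Nat.mul_le_mul_right _ hC)

theorem KerSpec.mono {gk : Pr J E} {C C' : ℕ} (h : KerSpec gk C) (hC : C ≤ C') :
    KerSpec gk C' :=
  fun a p q m s h1 h2 h3 h4 h5 h6 =>
    (h a p q m s h1 h2 h3 h4 h5 h6).mono (Nat.mul_le_mul_right _ hC)

theorem ParamSpec.mono {prm : Pr J E} {C C' : ℕ} (h : ParamSpec prm C) (hC : C ≤ C') :
    ParamSpec prm C' :=
  fun a p q m s h1 h2 h3 h4 h5 h6 h7 h8 h9 h10 =>
    (h a p q m s h1 h2 h3 h4 h5 h6 h7 h8 h9 h10).mono (Nat.mul_le_mul_right _ hC)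

theorem NaiveSpec.mono {naive : Pr J E} {C C' : ℕ} (h : NaiveSpec naive C) (hC : C ≤ C') :
    NaiveSpec naive C' :=
  fun a p M e s h1 h2 h3 h4 h5 h6 h7 h8 h9 h10 =>
    (h a p M e s h1 h2 h3 h4 h5 h6 h7 h8 h9 h10).mono (Nat.mul_le_mul_right _ hC)

theorem ConvSpec.mono {cv : Pr J E} {T : ℕ → ℕ} {C C' : ℕ} (h : ConvSpec cv T C)
    (hC : C ≤ C') : ConvSpec cv T C' := by
  intro a p q m v s h1 h2 h3 h4 h5 h6 h7 h8
  obtain ⟨s', r, hs'⟩ := h a p q m v s h1 h2 h3 h4 h5 h6 h7 h8
  exact ⟨s', r.mono (Nat.mul_le_mul_right _ hC), hs'⟩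

/-! ### The naive swap -/

theorem naive_spec : NaiveSpec (naive : Pr J E) 20000 := by
  intro h p M e s hh hp hM he _ hem hHH hPP hMU hX
  refine naive_runs h p M e s hh hp hM he ?_ hHH hPP hMU hX
  have h1 : ∀ r ∈ naiveScratch, r ∈ swapScratch ∧ r ≠ R.MU := by decide
  intro r hr
  exact hem r (h1 r hr).1 (h1 r hr).2

/-! ### The parameters and the remaining schedules -/

theorem parNum_spec : ParamSpec (parNum : Pr J E) 30 := by
  intro h p q m s hh hp hq hm hid hem hHH hPP hMP hMM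
  have S : Start s h p q m := ⟨hh, hp, hq, hm, hid, hem, hHH, hPP, hMP, hMM⟩
  have h1 := parNum_runs p q hp hq s (by
    have h1 : ∀ r ∈ [R.RR, R.RHO, R.MU, R.K3, R.DD, R.WW, R.S1, R.S2, R.S3, R.S4, R.S5, R.S6,
      R.S7], r ∈ swapScratch := by decide
    intro r hr
    exact hem r (h1 r hr)) hPP hMP
  refine (h1.mono (Nat.mul_le_mul_left _ S.par_le.2.2.2.2.1)).of_eq ?_
  funext i
  simp only [parStG, parSt, Function.update_apply]
  split_ifs <;> simp_all

omit [DecidableEq J] in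
theorem Env.ready {s : St J E} {h p q m : ℕ} (e : Env s h p q m) (hh : 1 ≤ h) (hq : 1 ≤ q) :
    GenReady s h p (rr p) (rho p) (4 * q * rr p) (p * q) (16 * q * rr p) where
  nums := ⟨e.HH, e.PP, e.MU, e.RR, e.RHO, e.WW, e.DD⟩
  sizes := Sizes.of_par hh hq
  scratch := by
    have h1 : ∀ r ∈ [R.S1, R.S2, R.S3, R.S4, R.S5, R.S6, R.S7, R.S8, R.S9, R.S10, R.S11,
      R.S12], r ∈ envScratch := by decide
    intro r hr
    exact e.empty r (h1 r hr)
  sch := e.empty _ (by decide)

theorem size_le {h p q m : ℕ} (hm : mulSize h p q ≤ m) :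
    h * rr p ^ 2 * (16 * q * rr p) ≤ m := by
  refine le_trans ?_ hm
  unfold mulSize
  calc h * rr p ^ 2 * (16 * q * rr p) = 16 * (h * rr p ^ 3 * q) := by ring
    _ ≤ 48 * (h * rr p ^ 3 * q) := Nat.mul_le_mul_right _ (by norm_num)
    _ = 48 * h * rr p ^ 3 * q := by ring

theorem gPad_spec : GenSpec (gPad : Pr J E)
    (fun h p q => padSch h p (rr p) (p * q) (16 * q * rr p)) 10000 :=
  fun _ _ _ _ _ hh _ hq hm e =>
    (gPad_runs (e.ready hh hq)).mono (Nat.mul_le_mul_left _ (size_le hm))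

theorem gUnpad_spec : GenSpec (gUnpad : Pr J E)
    (fun h p q => unpadSch h p (rr p) (rho p) (p * q) (16 * q * rr p)) 10000 :=
  fun _ _ _ _ _ hh _ hq hm e =>
    (gUnpad_runs (e.ready hh hq)).mono (Nat.mul_le_mul_left _ (size_le hm))

theorem gFold_spec : GenSpec (gFold : Pr J E)
    (fun h p q => foldsSch h (rr p) (4 * q * rr p)) 10000 :=
  fun _ _ _ _ _ hh _ hq hm e =>
    (gFold_runs (e.ready hh hq)).mono (Nat.mul_le_mul_left _ (size_le hm))

theorem gMid_spec : GenSpec (gMid : Pr J E)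
    (fun h p q => midSch h (rr p * rr p * (16 * q * rr p))) 10000 :=
  fun _ _ _ _ _ hh _ hq hm e =>
    (gMid_runs (e.ready hh hq)).mono (Nat.mul_le_mul_left _ (size_le hm))

theorem gExt_spec : GenSpec (gExt : Pr J E)
    (fun h p q => extSch h (rr p * rr p * (16 * q * rr p))) 10000 :=
  fun _ _ _ _ _ hh _ hq hm e =>
    (gExt_runs (e.ready hh hq)).mono (Nat.mul_le_mul_left _ (size_le hm))

/-! ### The swap -/

/-- The parts of the swap, for a program `call` that runs the multiplying machine. -/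
noncomputable def swapParts {call : Pr J E} {T : ℕ → ℕ} {C : ℕ} (hcall : CallSpec call T C) :
    SwapParts J E T (3 * C + 20900) where
  prm := parNum
  gk := gKer
  gPad := Vale.Agent.P338.gPad
  gSkew := Vale.Agent.P338.gSkew
  gSq := gTwSq
  gMix := gTwMix
  gFold := Vale.Agent.P338.gFold
  gUnskew := Vale.Agent.P338.gUnskew
  gUnpad := Vale.Agent.P338.gUnpad
  cv := convP call gExt gMid
  naive := Vale.Agent.P338.naive
  prm_spec := parNum_spec.mono (by omega)
  gk_spec := gKer_spec.mono (by omega)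
  gPad_spec := Vale.Agent.P338.gPad_spec.mono (by omega)
  gSkew_spec := Vale.Agent.P338.gSkew_spec.mono (by omega)
  gSq_spec := gTwSq_spec.mono (by omega)
  gMix_spec := gTwMix_spec.mono (by omega)
  gFold_spec := Vale.Agent.P338.gFold_spec.mono (by omega)
  gUnskew_spec := Vale.Agent.P338.gUnskew_spec.mono (by omega)
  gUnpad_spec := Vale.Agent.P338.gUnpad_spec.mono (by omega)
  cv_spec := (conv_spec hcall gExt_spec gMid_spec).mono (by omega)
  naive_spec := Vale.Agent.P338.naive_spec.mono (by omega)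

/-- **The swap program** for a multiplying machine. -/
theorem exists_swap (A : TM) (hA : Multiplies A) :
    ∃ (swap : Pr (AReg A.k) (ASym A)) (C : ℕ), SwapSpec swap (mulTime A) C :=
  ⟨_, _, (swapParts (callSpec A hA)).swap_spec⟩

end Vale.Agent.P338
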