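import Vale.Agent.P338.Defs

/-!
# P338: the registers of the main program and the interface to the multiplying machine
-/

namespace Vale.Agent.P338

/-- The stacks used by the main program. -/
inductive R : Type
  | X | T | S | OUT | SCH | CY | CY2 | V0 | V1 | V2 | V3 | KER
  | AX | AY | AZ | CLK | FLAG | CNT | XS | MM | HH | NN | PP | MP
  | RR | RHO | GG | DD | WW | MU | U1 | U2 | AL | BE | CN | IN
  | BB | TL | TM | S1 | S2 | S3 | S4 | S5 | S6 | S7 | S8 | S9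
  | S10 | S11 | S12 | P1 | P2 | P3 | P4 | P5 | P6 | P7 | P8 | P9
  | P10 | P11 | P12 | PST | PS2 | GO | Q1 | Q2 | Q3 | Q4 | INP | IN2
  | K1 | K2 | K3 | K4 | K5 | K6
deriving DecidableEq

/-- Numbering of the stacks. -/
def R.code : R → Fin 100
  | .X => 0
  | .T => 1
  | .S => 2
  | .OUT => 3
  | .SCH => 4
  | .CY => 5
  | .CY2 => 6
  | .V0 => 7
  | .V1 => 8
  | .V2 => 9
  | .V3 => 10
  | .KER => 11
  | .AX => 12
  | .AY => 13
  | .AZ => 14
  | .CLK => 15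
  | .FLAG => 16
  | .CNT => 17
  | .XS => 18
  | .MM => 19
  | .HH => 20
  | .NN => 21
  | .PP => 22
  | .MP => 23
  | .RR => 24
  | .RHO => 25
  | .GG => 26
  | .DD => 27
  | .WW => 28
  | .MU => 29
  | .U1 => 30
  | .U2 => 31
  | .AL => 32
  | .BE => 33
  | .CN => 34
  | .IN => 35
  | .BB => 36
  | .TL => 37
  | .TM => 38
  | .S1 => 39
  | .S2 => 40
  | .S3 => 41
  | .S4 => 42
  | .S5 => 43
  | .S6 => 44
  | .S7 => 45
  | .S8 => 46
  | .S9 => 47
  | .S10 => 48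
  | .S11 => 49
  | .S12 => 50
  | .P1 => 51
  | .P2 => 52
  | .P3 => 53
  | .P4 => 54
  | .P5 => 55
  | .P6 => 56
  | .P7 => 57
  | .P8 => 58
  | .P9 => 59
  | .P10 => 60
  | .P11 => 61
  | .P12 => 62
  | .PST => 63
  | .PS2 => 64
  | .GO => 65
  | .Q1 => 66
  | .Q2 => 67
  | .Q3 => 68
  | .Q4 => 69
  | .INP => 70
  | .IN2 => 71
  | .K1 => 72
  | .K2 => 73
  | .K3 => 74
  | .K4 => 75
  | .K5 => 76
  | .K6 => 77

/-- Inverse of `R.code`. -/
def R.decode (i : Fin 100) : R :=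
  match i.val with
  | 0 => .X
  | 1 => .T
  | 2 => .S
  | 3 => .OUT
  | 4 => .SCH
  | 5 => .CY
  | 6 => .CY2
  | 7 => .V0
  | 8 => .V1
  | 9 => .V2
  | 10 => .V3
  | 11 => .KER
  | 12 => .AX
  | 13 => .AY
  | 14 => .AZ
  | 15 => .CLK
  | 16 => .FLAG
  | 17 => .CNT
  | 18 => .XS
  | 19 => .MM
  | 20 => .HH
  | 21 => .NN
  | 22 => .PP
  | 23 => .MP
  | 24 => .RR
  | 25 => .RHO
  | 26 => .GG
  | 27 => .DD
  | 28 => .WW
  | 29 => .MU
  | 30 => .U1
  | 31 => .U2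
  | 32 => .AL
  | 33 => .BE
  | 34 => .CN
  | 35 => .IN
  | 36 => .BB
  | 37 => .TL
  | 38 => .TM
  | 39 => .S1
  | 40 => .S2
  | 41 => .S3
  | 42 => .S4
  | 43 => .S5
  | 44 => .S6
  | 45 => .S7
  | 46 => .S8
  | 47 => .S9
  | 48 => .S10
  | 49 => .S11
  | 50 => .S12
  | 51 => .P1
  | 52 => .P2
  | 53 => .P3
  | 54 => .P4
  | 55 => .P5
  | 56 => .P6
  | 57 => .P7
  | 58 => .P8
  | 59 => .P9
  | 60 => .P10
  | 61 => .P11
  | 62 => .P12
  | 63 => .PST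
  | 64 => .PS2
  | 65 => .GO
  | 66 => .Q1
  | 67 => .Q2
  | 68 => .Q3
  | 69 => .Q4
  | 70 => .INP
  | 71 => .IN2
  | 72 => .K1
  | 73 => .K2
  | 74 => .K3
  | 75 => .K4
  | 76 => .K5
  | 77 => .K6
  | _ => .X

theorem R.decode_code (r : R) : R.decode (R.code r) = r := by cases r <;> rfl

instance : Finite R := Finite.of_injective R.code (Function.LeftInverse.injective R.decode_code)

end Vale.Agent.P338
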