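import Vale.Agent.P338.Model
import Vale.Agent.P338.Regs

/-!
# P338: the interface between the parts of the main program
-/

namespace Vale.Agent.P338

variable {J E : Type}

/-- The four operand stacks of the driver. -/
def R.V : Fin 4 → R
  | 0 => R.V0
  | 1 => R.V1
  | 2 => R.V2
  | 3 => R.V3

/-- The names of the stacks: those in `R` for the main program and those in `J` for the
simulated multiplying machine. -/
abbrev Loc (J : Type) : Type := R ⊕ J

/-- The stores of the main program. -/
abbrev St (J E : Type) : Type := Store (Loc J) (SSym E)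

/-- The programs of the main program. -/
abbrev Pr (J E : Type) : Type := Prog (Loc J) (SSym E)

/-- The contents of the stack `r`. -/
abbrev St.at (s : St J E) (r : R) : List (SSym E) := s (Sum.inl r)

/-- Set the contents of the stack `r`. -/
abbrev St.set [DecidableEq J] (s : St J E) (r : R) (l : List (SSym E)) : St J E :=
  Function.update s (Sum.inl r) l

/-- All stacks in the list `L` are empty. -/
def St.Empty (s : St J E) (L : List R) : Prop := ∀ r ∈ L, s (Sum.inl r) = []

/-- All stacks of the simulated machine are empty. -/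
def St.Idle (s : St J E) : Prop := ∀ j : J, s (Sum.inr j) = []

/-- What the main program assumes about the program `call` that runs the multiplying
machine with time function `T`, up to the constant `C`. The operands (little-endian, both of
length `m`) are on `AX` and `AY`. The clock `CLK` holds `β` marks, which allow `β * m` steps.
Either the little-endian product of length `2 * m` appears on `AZ`, or the clock was too
small and `FLAG` is set. -/
def CallSpec [DecidableEq J] (call : Pr J E) (T : ℕ → ℕ) (C : ℕ) : Prop :=
  ∀ (m : ℕ) (xs ys : List Bool) (β : ℕ) (s : St J E), 1 ≤ m → xs.length = m →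
    ys.length = m →
    s.Idle → s.Empty [R.AZ, R.FLAG, R.CNT] →
    s.at R.AX = bits xs → s.at R.AY = bits ys → s.at R.CLK = una β →
    ∃ s', Runs call s s' (C * (m + β + min (T m) (β * m) + 1)) ∧
      (s' = (((s.set R.AX []).set R.AY []).set R.CLK []).set R.AZ
          (bits (bitsOf (2 * m) (natOf xs * natOf ys))) ∨
        (β * m < T m ∧ s' = (((s.set R.AX []).set R.AY []).set R.CLK []).set R.FLAG [mk]))

/-! ### The sizes used when adjacent digits are swapped -/

/-- `ρ`: the length of the transforms is `2 ^ ρ ≥ max p 4`. -/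
def rho (p : ℕ) : ℕ := Nat.size ((p - 1) / 4) + 2

/-- `r = 2 ^ ρ`. -/
def rr (p : ℕ) : ℕ := 2 ^ rho p

/-- The size of the multiplications used for `h` blocks of `p × p` entries of `p * q` bits. -/
def mulSize (h p q : ℕ) : ℕ := 48 * h * rr p ^ 3 * q

/-- The data: `h` blocks of `p × p` entries `e a i j`. -/
def data (h p : ℕ) (e : ℕ → ℕ → ℕ → List Bool) : List Bool :=
  cat h fun a => cat p fun i => cat p fun j => e a i j

/-- The stacks that must be empty before (and are empty after) a swap. -/
def swapScratch : List R :=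
  [R.T, R.S, R.OUT, R.SCH, R.CY, R.CY2, R.V0, R.V1, R.V2, R.V3, R.KER, R.AX, R.AY, R.AZ,
   R.CLK, R.FLAG, R.CNT, R.XS, R.RR, R.RHO, R.GG, R.DD, R.WW, R.MU, R.U1, R.U2, R.AL, R.BE,
   R.CN, R.IN, R.BB, R.TL, R.TM, R.S1, R.S2, R.S3, R.S4, R.S5, R.S6, R.S7, R.S8, R.S9,
   R.S10, R.S11, R.S12, R.Q1, R.Q2, R.Q3, R.Q4, R.K1, R.K2, R.K3, R.K4, R.K5, R.K6]

/-- What a program that swaps adjacent digits has to do: `HH`, `PP`, `MP`, `MM` hold the
numbers `h`, `p`, `q`, `m` in unary, and `X` holds the data. -/
def SwapSpec [DecidableEq J] (swap : Pr J E) (T : ℕ → ℕ) (C : ℕ) : Prop :=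
  ∀ (h p q m : ℕ) (e : ℕ → ℕ → ℕ → List Bool) (s : St J E), 1 ≤ h → 1 ≤ p → 1 ≤ q →
    mulSize h p q ≤ m →
    (∀ a < h, ∀ i < p, ∀ j < p, (e a i j).length = p * q) →
    s.Idle → s.Empty swapScratch →
    s.at R.HH = una h → s.at R.PP = una p → s.at R.MP = una q → s.at R.MM = una m →
    s.at R.X = bits (data h p e) →
    Runs swap s (s.set R.X (bits (data h p fun a i j => e a j i)))
      (C * (m + min (T m) (m * rho p)))

end Vale.Agent.P338
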