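import Vale.Agent.P338.TopLib
import Vale.Agent.P338.Frame
import Vale.Agent.P338.Iface

/-!
# P338: the top level of the transposing machines (programs)
-/

namespace Vale.Agent.P338

/-- The stacks used by the top level. -/
inductive TR : Type
  | IN | B | X | T | NN | MM | HH | S1 | S2 | S3 | S4
deriving DecidableEq

/-- An explicit store. -/
def tst {Γ : Type} (inn b x t nn mm hh s1 s2 s3 s4 : List Γ) : Store TR Γ
  | .IN => inn
  | .B => b
  | .X => x
  | .T => t
  | .NN => nn
  | .MM => mm
  | .HH => hh
  | .S1 => s1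
  | .S2 => s2
  | .S3 => s3
  | .S4 => s4

section upd

variable {Γ : Type} (inn b x t nn mm hh s1 s2 s3 s4 l : List Γ)

@[simp] theorem tst_IN : tst inn b x t nn mm hh s1 s2 s3 s4 TR.IN = inn := rfl
@[simp] theorem tst_B : tst inn b x t nn mm hh s1 s2 s3 s4 TR.B = b := rfl
@[simp] theorem tst_X : tst inn b x t nn mm hh s1 s2 s3 s4 TR.X = x := rfl
@[simp] theorem tst_T : tst inn b x t nn mm hh s1 s2 s3 s4 TR.T = t := rfl
@[simp] theorem tst_NN : tst inn b x t nn mm hh s1 s2 s3 s4 TR.NN = nn := rfl
@[simp] theorem tst_MM : tst inn b x t nn mm hh s1 s2 s3 s4 TR.MM = mm := rfl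
@[simp] theorem tst_HH : tst inn b x t nn mm hh s1 s2 s3 s4 TR.HH = hh := rfl
@[simp] theorem tst_S1 : tst inn b x t nn mm hh s1 s2 s3 s4 TR.S1 = s1 := rfl
@[simp] theorem tst_S2 : tst inn b x t nn mm hh s1 s2 s3 s4 TR.S2 = s2 := rfl
@[simp] theorem tst_S3 : tst inn b x t nn mm hh s1 s2 s3 s4 TR.S3 = s3 := rfl
@[simp] theorem tst_S4 : tst inn b x t nn mm hh s1 s2 s3 s4 TR.S4 = s4 := rfl

@[simp] theorem upd_IN : Function.update (tst inn b x t nn mm hh s1 s2 s3 s4) TR.IN l =
    tst l b x t nn mm hh s1 s2 s3 s4 := by funext r; cases r <;> rfl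
@[simp] theorem upd_B : Function.update (tst inn b x t nn mm hh s1 s2 s3 s4) TR.B l =
    tst inn l x t nn mm hh s1 s2 s3 s4 := by funext r; cases r <;> rfl
@[simp] theorem upd_X : Function.update (tst inn b x t nn mm hh s1 s2 s3 s4) TR.X l =
    tst inn b l t nn mm hh s1 s2 s3 s4 := by funext r; cases r <;> rfl
@[simp] theorem upd_T : Function.update (tst inn b x t nn mm hh s1 s2 s3 s4) TR.T l =
    tst inn b x l nn mm hh s1 s2 s3 s4 := by funext r; cases r <;> rfl
@[simp] theorem upd_NN : Function.update (tst inn b x t nn mm hh s1 s2 s3 s4) TR.NN l =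
    tst inn b x t l mm hh s1 s2 s3 s4 := by funext r; cases r <;> rfl
@[simp] theorem upd_MM : Function.update (tst inn b x t nn mm hh s1 s2 s3 s4) TR.MM l =
    tst inn b x t nn l hh s1 s2 s3 s4 := by funext r; cases r <;> rfl
@[simp] theorem upd_HH : Function.update (tst inn b x t nn mm hh s1 s2 s3 s4) TR.HH l =
    tst inn b x t nn mm l s1 s2 s3 s4 := by funext r; cases r <;> rfl
@[simp] theorem upd_S1 : Function.update (tst inn b x t nn mm hh s1 s2 s3 s4) TR.S1 l =
    tst inn b x t nn mm hh l s2 s3 s4 := by funext r; cases r <;> rfl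
@[simp] theorem upd_S2 : Function.update (tst inn b x t nn mm hh s1 s2 s3 s4) TR.S2 l =
    tst inn b x t nn mm hh s1 l s3 s4 := by funext r; cases r <;> rfl
@[simp] theorem upd_S3 : Function.update (tst inn b x t nn mm hh s1 s2 s3 s4) TR.S3 l =
    tst inn b x t nn mm hh s1 s2 l s4 := by funext r; cases r <;> rfl
@[simp] theorem upd_S4 : Function.update (tst inn b x t nn mm hh s1 s2 s3 s4) TR.S4 l =
    tst inn b x t nn mm hh s1 s2 s3 l := by funext r; cases r <;> rfl

end upd

variable {E : Type}

/-! ### The square root of the length -/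

/-- One round: move `|S1|` symbols from `X` to `T`, then add two marks to `S1` and one
to `NN`. -/
def sqBody : Prog TR (SSym E) :=
  (Prog.movs .S1 .S2 .X .T).seq ((Prog.pushN 2 .S1 mk).seq (Prog.push .NN mk))

/-- Compute the square root of `|X|` in `NN`. -/
def sqRoot : Prog TR (SSym E) :=
  (Prog.push .S1 mk).seq ((Prog.loop (nonempty .X) sqBody).seq
    ((Prog.clear .S1).seq (Prog.rev .T .X)))

theorem sqRoot_runs (n : ℕ) (w : List (SSym E)) (hw : w.length = n ^ 2)
    (inn b mm hh s3 s4 : List (SSym E)) :
    Runs sqRoot (tst inn b w [] [] mm hh [] [] s3 s4)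
      (tst inn b w [] (una n) mm hh [] [] s3 s4) (25 * n ^ 2 + 30 * n + 10) := by
  have hstep : ∀ k < n, Runs (sqBody (E := E))
      (tst inn b (w.drop (k ^ 2)) (w.take (k ^ 2)).reverse (una k) mm hh (una (2 * k + 1)) []
        s3 s4)
      (tst inn b (w.drop ((k + 1) ^ 2)) (w.take ((k + 1) ^ 2)).reverse (una (k + 1)) mm hh
        (una (2 * (k + 1) + 1)) [] s3 s4) (16 * n + 20) := by
    intro k hk
    have hlt : (k + 1) ^ 2 ≤ w.length := by
      rw [hw]; exact Nat.pow_le_pow_left hk 2
    have hsq : (k + 1) ^ 2 = k ^ 2 + (2 * k + 1) := by ring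
    have hlen : ((w.drop (k ^ 2)).take (2 * k + 1)).length = 2 * k + 1 := by
      rw [List.length_take, List.length_drop]
      omega
    have h1 := Runs.movs (u := TR.S1) (t := .S2) (x := .X) (y := .T) (by decide) (by decide)
      (by decide) (by decide) (by decide) (by decide) mk
      (tst inn b (w.drop (k ^ 2)) (w.take (k ^ 2)).reverse (una k) mm hh (una (2 * k + 1)) []
        s3 s4) ((w.drop (k ^ 2)).take (2 * k + 1)) (w.drop ((k + 1) ^ 2))
      (by rw [hlen]; rfl) rfl (by
        simp only [tst_X]
        rw [hsq, ← List.drop_drop, List.take_append_drop])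
    rw [hlen] at h1
    have h2 := h1.seq ((Runs.pushN 2 TR.S1 mk _).seq (Runs.push TR.NN mk _))
    refine (h2.mono (by omega)).of_eq ?_
    have e : ((w.drop (k ^ 2)).take (2 * k + 1)).reverse ++ (w.take (k ^ 2)).reverse =
        (w.take ((k + 1) ^ 2)).reverse := by
      rw [← List.reverse_append, hsq]
      generalize 2 * k + 1 = c
      rw [List.take_add]
    simp only [upd_X, upd_T, upd_S1, upd_NN, tst_T, tst_S1, tst_NN, e]
    congr 1
  have h0 := Runs.push TR.S1 mk (tst inn b w [] [] mm hh [] [] s3 s4)
  have h1 := Runs.loop_iter_le (c := nonempty TR.X) (p := sqBody (E := E)) n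
    (fun k => tst inn b (w.drop (k ^ 2)) (w.take (k ^ 2)).reverse (una k) mm hh
      (una (2 * k + 1)) [] s3 s4) (16 * n + 20)
    (by
      intro k hk
      have : k ^ 2 < w.length := by
        rw [hw]; exact Nat.pow_lt_pow_left hk (by norm_num)
      simp only [nonempty_tops, tst_X, Bool.not_eq_true', List.isEmpty_eq_false_iff, ne_eq,
        List.drop_eq_nil_iff, not_le]
      exact this)
    (by simp [← hw]) hstep
  have h2 := Runs.clear TR.S1 (tst inn b (w.drop (n ^ 2)) (w.take (n ^ 2)).reverse (una n) mm hh
      (una (2 * n + 1)) [] s3 s4)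
  have h3 := Runs.rev (i := TR.T) (j := .X) (by decide) (tst inn b (w.drop (n ^ 2))
    (w.take (n ^ 2)).reverse (una n) mm hh [] [] s3 s4)
  have h4 := (h0.of_eq (s'' := tst inn b (w.drop (0 ^ 2)) (w.take (0 ^ 2)).reverse (una 0) mm hh
      (una (2 * 0 + 1)) [] s3 s4) (by simp [una])).seq
    (h1.seq ((h2.of_eq (upd_S1 ..)).seq h3))
  refine (h4.mono ?_).of_eq ?_
  · simp only [tst_S1, tst_T, length_una, List.length_reverse, List.length_take, hw, min_self]
    ring_nf
    omega
  · simp [← hw]

/-! ### Square matrices -/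

/-- The empty store with the (reversed) input. -/
theorem tst_input {Γ : Type} (l : List Γ) :
    (Function.update (fun _ => []) TR.IN l : Store TR Γ) =
      tst l [] [] [] [] [] [] [] [] [] [] := by
  funext r; cases r <;> rfl

/-- Preparations for square matrices. -/
def preSq (K : ℕ) : Prog TR (SSym E) :=
  (Prog.rev .IN .X).seq (sqRoot.seq ((Prog.tag .X .T K .MM mk).seq
    ((Prog.rev .T .X).seq (Prog.push .HH mk))))

theorem preSq_runs (K n : ℕ) (w : List (SSym E)) (hw : w.length = n ^ 2) :
    Runs (preSq K) (tst w.reverse [] [] [] [] [] [] [] [] [] [])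
      (tst [] [] w [] (una n) (una (K * n ^ 2)) (una 1) [] [] [] [])
      ((2 * K + 40) * n ^ 2 + 30 * n + 20) := by
  have h1 := Runs.rev (i := TR.IN) (j := .X) (by decide)
    (tst w.reverse [] [] [] [] [] [] [] [] [] [] : Store TR (SSym E))
  have h2 := sqRoot_runs n w hw [] [] [] [] [] []
  have h3 := Runs.tag (x := TR.X) (y := .T) (i := .MM) (by decide) (by decide) (by decide) K mk
    (tst [] [] w [] (una n) [] [] [] [] [] [] : Store TR (SSym E))
  have h4 := Runs.rev (i := TR.T) (j := .X) (by decide)
    (tst [] [] [] w.reverse (una n) (una (K * n ^ 2)) [] [] [] [] [] : Store TR (SSym E))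
  have h5 := Runs.push TR.HH mk
    (tst [] [] w [] (una n) (una (K * n ^ 2)) [] [] [] [] [] : Store TR (SSym E))
  have h := (h1.of_eq (s'' := tst [] [] w [] [] [] [] [] [] [] []) (by simp)).seq
    (h2.seq ((h3.of_eq (s'' := tst [] [] [] w.reverse (una n) (una (K * n ^ 2)) [] [] [] [] [])
      (by simp [hw, una])).seq ((h4.of_eq
        (s'' := tst [] [] w [] (una n) (una (K * n ^ 2)) [] [] [] [] []) (by simp)).seq h5)))
  refine (h.mono ?_).of_eq ?_
  · simp only [tst_IN, tst_X, tst_T, List.length_reverse, hw]
    ring_nf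
    omega
  · simp [una]

/-! ### Rectangular matrices -/

/-- The condition that the top of `X` is the bit `1`. -/
def topOne : (TR → Option (SSym E)) → Bool := fun tp =>
  match tp .X with
  | some (Sum.inl (Base.bit true)) => true
  | _ => false

/-- Remove the top of `X` and push a mark on `IN`. -/
def cntOne : Prog TR (SSym E) :=
  Prog.act fun _ l => if l = .X then Op.pop else if l = .IN then Op.push mk else Op.keep

/-- Read the number of rows. -/
def readRows : Prog TR (SSym E) :=
  (Prog.loop topOne cntOne).seq (Prog.pop .X)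

theorem readRows_runs (a : ℕ) (sep : SSym E) (hsep : sep ≠ sb true) (w : List (SSym E))
    (nn mm : List (SSym E)) :
    Runs readRows (tst [] [] (List.replicate a (sb true) ++ sep :: w) [] nn mm [] [] [] [] [])
      (tst (una a) [] w [] nn mm [] [] [] [] []) (3 * a + 2) := by
  have h1 := Runs.loop_iter_le (c := topOne (E := E)) (p := cntOne) a
    (fun k => tst (una k) [] (List.replicate (a - k) (sb true) ++ sep :: w) [] nn mm [] [] [] []
      []) 1
    (by
      intro k hk
      obtain ⟨m, hm⟩ : ∃ m, a - k = m + 1 := ⟨a - k - 1, by omega⟩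
      simp [topOne, hm, List.replicate_succ, sb])
    (by
      simp only [topOne, tops_apply, tst_X, Nat.sub_self, List.replicate_zero, List.nil_append,
        List.head?_cons]
      split
      · rename_i h
        simp only [Option.some.injEq] at h
        exact absurd h hsep
      · rfl)
    (by
      intro k hk
      obtain ⟨m, hm⟩ : ∃ m, a - k = m + 1 := ⟨a - k - 1, by omega⟩
      have hm' : a - (k + 1) = m := by omega
      refine (Runs.act _ _).of_eq ?_
      funext r
      cases r <;> simp [hm, hm', List.replicate_succ, una])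
  have h2 := Runs.pop TR.X (tst (una a) [] (List.replicate (a - a) (sb true) ++ sep :: w) [] nn mm
    [] [] [] [] [] : Store TR (SSym E))
  have e0 : (tst (una 0) [] (List.replicate (a - 0) (sb true) ++ sep :: w) [] nn mm [] [] [] []
      [] : Store TR (SSym E)) =
      tst [] [] (List.replicate a (sb true) ++ sep :: w) [] nn mm [] [] [] [] [] := by
    simp [una]
  rw [e0] at h1
  refine ((h1.seq h2).mono (by omega)).of_eq (by simp)

/-- Compute `|X| / |IN|` in `B`. -/
def divRows : Prog TR (SSym E) :=
  (Prog.loop (nonempty .X) ((Prog.movs .IN .S1 .X .T).seq (Prog.push .B mk))).seq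
    (Prog.rev .T .X)

theorem divRows_runs (a b : ℕ) (ha : 1 ≤ a) (w : List (SSym E)) (hw : w.length = b * a)
    (nn mm : List (SSym E)) :
    Runs divRows (tst (una a) [] w [] nn mm [] [] [] [] [])
      (tst (una a) (una b) w [] nn mm [] [] [] [] []) (b * (8 * a + 5) + 1 + 3 * (b * a)) := by
  have h1 := Runs.loop_iter_le (c := nonempty TR.X)
    (p := ((Prog.movs .IN .S1 .X .T).seq (Prog.push .B mk) : Prog TR (SSym E))) b
    (fun k => tst (una a) (una k) (w.drop (k * a)) (w.take (k * a)).reverse nn mm [] [] [] [] [])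
    (8 * a + 3)
    (by
      intro k hk
      have : k * a < w.length := by
        rw [hw]; exact Nat.mul_lt_mul_of_pos_right hk ha
      simp only [nonempty_tops, tst_X, Bool.not_eq_true', List.isEmpty_eq_false_iff, ne_eq,
        List.drop_eq_nil_iff, not_le]
      exact this)
    (by simp [← hw])
    (by
      intro k hk
      have hle : (k + 1) * a ≤ w.length := by
        rw [hw]; exact Nat.mul_le_mul_right a hk
      have hka : (k + 1) * a = k * a + a := by ring
      have hlen : ((w.drop (k * a)).take a).length = a := by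
        rw [List.length_take, List.length_drop]
        omega
      have h1 := Runs.movs (u := TR.IN) (t := .S1) (x := .X) (y := .T) (by decide) (by decide)
        (by decide) (by decide) (by decide) (by decide) mk
        (tst (una a) (una k) (w.drop (k * a)) (w.take (k * a)).reverse nn mm [] [] [] [] [])
        ((w.drop (k * a)).take a) (w.drop ((k + 1) * a))
        (by rw [hlen]; rfl) rfl (by
          simp only [tst_X]
          rw [hka, ← List.drop_drop, List.take_append_drop])
      rw [hlen] at h1
      have h2 := h1.seq (Runs.push TR.B mk _)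
      refine (h2.mono (by omega)).of_eq ?_
      have e : ((w.drop (k * a)).take a).reverse ++ (w.take (k * a)).reverse =
          (w.take ((k + 1) * a)).reverse := by
        rw [← List.reverse_append, hka, List.take_add]
      simp only [upd_X, upd_T, upd_B, tst_T, tst_B, e]
      congr 1)
  have h2 := Runs.rev (i := TR.T) (j := .X) (by decide)
    (tst (una a) (una b) (w.drop (b * a)) (w.take (b * a)).reverse nn mm [] [] [] [] [] :
      Store TR (SSym E))
  have e0 : (tst (una a) (una 0) (w.drop (0 * a)) (w.take (0 * a)).reverse nn mm [] [] [] []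
      [] : Store TR (SSym E)) =
      tst (una a) [] w [] nn mm [] [] [] [] [] := by
    simp [una]
  rw [e0] at h1
  refine ((h1.seq h2).mono ?_).of_eq ?_
  · simp only [tst_T, List.length_reverse, List.length_take, hw, min_self]
    have : 8 * a + 3 + 2 = 8 * a + 5 := by ring
    rw [this]
  · simp [← hw]

/-- `S1 := a - b`, `S2 := b - a` (truncated), where `IN`, `B` hold `a`, `b`. -/
def diffs : Prog TR (SSym E) :=
  (Prog.copyOnto .IN .S1 .T).seq ((Prog.copyOnto .B .S2 .T).seq (Prog.subtr .S1 .S2))

theorem drop_una (a b : ℕ) : (una a : List (SSym E)).drop b = una (a - b) := by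
  simp [una]

theorem diffs_runs (a b : ℕ) (x nn mm hh s3 s4 : List (SSym E)) :
    Runs diffs (tst (una a) (una b) x [] nn mm hh [] [] s3 s4)
      (tst (una a) (una b) x [] nn mm hh (una (a - b)) (una (b - a)) s3 s4)
      (9 * (a + b) + 5) := by
  have h1 := Runs.copyOnto (a := TR.IN) (b := .S1) (t := .T) (by decide) (by decide) (by decide)
    (tst (una a) (una b) x [] nn mm hh [] [] s3 s4 : Store TR (SSym E)) rfl
  have h2 := Runs.copyOnto (a := TR.B) (b := .S2) (t := .T) (by decide) (by decide) (by decide)
    (tst (una a) (una b) x [] nn mm hh (una a) [] s3 s4 : Store TR (SSym E)) rfl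
  have h3 := Runs.subtr (u := TR.S1) (v := .S2) (by decide)
    (tst (una a) (una b) x [] nn mm hh (una a) (una b) s3 s4 : Store TR (SSym E))
  have h := (h1.of_eq (s'' := tst (una a) (una b) x [] nn mm hh (una a) [] s3 s4) (by simp)).seq
    ((h2.of_eq (s'' := tst (una a) (una b) x [] nn mm hh (una a) (una b) s3 s4) (by simp)).seq h3)
  refine (h.mono ?_).of_eq ?_
  · simp only [tst_IN, tst_B, tst_S1, tst_S2, length_una]
    omega
  · simp [drop_una]

/-- `NN := max a b`. -/
def maxi : Prog TR (SSym E) :=
  (Prog.copyOnto .IN .S1 .T).seq ((Prog.copyOnto .B .S2 .T).seq (Prog.maxOnto .S1 .S2 .NN mk))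

theorem maxi_runs (a b : ℕ) (x mm hh s3 s4 : List (SSym E)) :
    Runs maxi (tst (una a) (una b) x [] [] mm hh [] [] s3 s4)
      (tst (una a) (una b) x [] (una (max a b)) mm hh [] [] s3 s4)
      (9 * (a + b) + 5) := by
  have h1 := Runs.copyOnto (a := TR.IN) (b := .S1) (t := .T) (by decide) (by decide) (by decide)
    (tst (una a) (una b) x [] [] mm hh [] [] s3 s4 : Store TR (SSym E)) rfl
  have h2 := Runs.copyOnto (a := TR.B) (b := .S2) (t := .T) (by decide) (by decide) (by decide)
    (tst (una a) (una b) x [] [] mm hh (una a) [] s3 s4 : Store TR (SSym E)) rfl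
  have h3 := Runs.maxOnto (u := TR.S1) (v := .S2) (w := .NN) (by decide) (by decide) (by decide)
    mk (tst (una a) (una b) x [] [] mm hh (una a) (una b) s3 s4 : Store TR (SSym E))
  have h := (h1.of_eq (s'' := tst (una a) (una b) x [] [] mm hh (una a) [] s3 s4) (by simp)).seq
    ((h2.of_eq (s'' := tst (una a) (una b) x [] [] mm hh (una a) (una b) s3 s4) (by simp)).seq h3)
  refine (h.mono ?_).of_eq ?_
  · simp only [tst_IN, tst_B, tst_S1, tst_S2, length_una]
    omega
  · simp [una]

/-- The size of the multiplications that are used for `a × b` matrices. -/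
def msz (K q ρ a b : ℕ) : ℕ :=
  if a ≤ b ∧ b - a ≤ a then K * a ^ 2 + q * (b - a) + ρ else 1920 * (max a b) ^ 2

/-- `S3 := (b - a) - a`. -/
def cmpSz : Prog TR (SSym E) :=
  (Prog.copyOnto .S2 .S3 .T).seq ((Prog.copyOnto .IN .S4 .T).seq ((Prog.subtr .S3 .S4).seq
    (Prog.clear .S4)))

theorem cmpSz_runs (a b : ℕ) (x nn mm : List (SSym E)) :
    Runs cmpSz (tst (una a) (una b) x [] nn mm [] (una (a - b)) (una (b - a)) [] [])
      (tst (una a) (una b) x [] nn mm [] (una (a - b)) (una (b - a)) (una (b - a - a)) [])
      (12 * (a + b) + 6) := by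
  have h1 := Runs.copyOnto (a := TR.S2) (b := .S3) (t := .T) (by decide) (by decide) (by decide)
    (tst (una a) (una b) x [] nn mm [] (una (a - b)) (una (b - a)) [] [] :
      Store TR (SSym E)) rfl
  have h2 := Runs.copyOnto (a := TR.IN) (b := .S4) (t := .T) (by decide) (by decide) (by decide)
    (tst (una a) (una b) x [] nn mm [] (una (a - b)) (una (b - a)) (una (b - a)) [] :
      Store TR (SSym E)) rfl
  have h3 := Runs.subtr (u := TR.S3) (v := .S4) (by decide)
    (tst (una a) (una b) x [] nn mm [] (una (a - b)) (una (b - a)) (una (b - a)) (una a) :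
      Store TR (SSym E))
  have h4 := Runs.clear TR.S4
    (tst (una a) (una b) x [] nn mm [] (una (a - b)) (una (b - a)) (una (b - a - a))
      (una (a - (b - a))) : Store TR (SSym E))
  have h := (h1.of_eq (s'' := tst (una a) (una b) x [] nn mm [] (una (a - b))
      (una (b - a)) (una (b - a)) []) (by simp)).seq
    ((h2.of_eq (s'' := tst (una a) (una b) x [] nn mm [] (una (a - b))
      (una (b - a)) (una (b - a)) (una a)) (by simp)).seq
    ((h3.of_eq (s'' := tst (una a) (una b) x [] nn mm [] (una (a - b))
      (una (b - a)) (una (b - a - a)) (una (a - (b - a)))) (by simp [drop_una])).seq h4))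
  refine (h.mono ?_).of_eq ?_
  · simp only [tst_IN, tst_S2, tst_S3, tst_S4, length_una]
    omega
  · simp

/-- `MM := K a ^ 2 + q (b - a) + ρ`. -/
def brA (K q ρ : ℕ) : Prog TR (SSym E) :=
  (Prog.copyOnto .IN .S3 .T).seq ((Prog.mulOnto .IN .S4 .S3 .T K .MM mk).seq
    ((Prog.clear .S3).seq ((Prog.forr .S2 .T (Prog.pushN q .MM mk)).seq
      (Prog.pushN ρ .MM mk))))

theorem brA_runs (K q ρ a d : ℕ) (b x nn s1 : List (SSym E)) :
    Runs (brA K q ρ) (tst (una a) b x [] nn [] [] s1 (una d) [] [])
      (tst (una a) b x [] nn (una (K * a ^ 2 + q * d + ρ)) [] s1 (una d) [] [])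
      ((2 * K + 8) * a ^ 2 + 17 * a + (2 * q + 8) * d + 2 * ρ + 8) := by
  have h1 := Runs.copyOnto (a := TR.IN) (b := .S3) (t := .T) (by decide) (by decide) (by decide)
    (tst (una a) b x [] nn [] [] s1 (una d) [] [] : Store TR (SSym E)) rfl
  have h2 := Runs.mulOnto (u := TR.IN) (t := .S4) (v := .S3) (t' := .T) (i := .MM) (by decide)
    (by decide) (by decide) (by decide) (by decide) (by decide) (by decide) (by decide)
    (by decide) (by decide) K mk mk mk
    (tst (una a) b x [] nn [] [] s1 (una d) (una a) [] : Store TR (SSym E)) a a rfl rfl rfl rfl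
  have h3 := Runs.clear TR.S3
    (tst (una a) b x [] nn (una (a * (a * K))) [] s1 (una d) (una a) [] : Store TR (SSym E))
  have h4 := Runs.scaleOnto (v := TR.S2) (t' := .T) (i := .MM) (by decide) (by decide)
    (by decide) q mk mk
    (tst (una a) b x [] nn (una (a * (a * K))) [] s1 (una d) [] [] : Store TR (SSym E)) d rfl rfl
  have h5 := Runs.pushN ρ TR.MM mk
    (tst (una a) b x [] nn (una (d * q + a * (a * K))) [] s1 (una d) [] [] :
      Store TR (SSym E))
  have h := (h1.of_eq (s'' := tst (una a) b x [] nn [] [] s1 (una d) (una a) []) (by simp)).seq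
    ((h2.of_eq (s'' := tst (una a) b x [] nn (una (a * (a * K))) [] s1 (una d) (una a) [])
      (by simp [una])).seq
    ((h3.of_eq (s'' := tst (una a) b x [] nn (una (a * (a * K))) [] s1 (una d) [] [])
      (by simp)).seq
    ((h4.of_eq (s'' := tst (una a) b x [] nn (una (d * q + a * (a * K))) [] s1 (una d) [] [])
      (by simp [una])).seq h5)))
  refine (h.mono ?_).of_eq ?_
  · simp only [tst_IN, tst_S3, length_una]
    ring_nf
    omega
  · have e : ρ + (d * q + a * (a * K)) = K * a ^ 2 + q * d + ρ := by ring
    simp [una, e]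

/-- `MM := 1920 N ^ 2`. -/
def brB : Prog TR (SSym E) :=
  (Prog.clear .S3).seq ((Prog.copyOnto .NN .S3 .T).seq
        ((Prog.mulOnto .NN .S4 .S3 .T 1920 .MM mk).seq (Prog.clear .S3)))

theorem brB_runs (N d : ℕ) (a b x s1 s2 : List (SSym E)) :
    Runs brB (tst a b x [] (una N) [] [] s1 s2 (una d) [])
      (tst a b x [] (una N) (una (1920 * N ^ 2)) [] s1 s2 [] [])
      (3848 * N ^ 2 + 17 * N + 3 * d + 6) := by
  have h0 := Runs.clear TR.S3
    (tst a b x [] (una N) [] [] s1 s2 (una d) [] : Store TR (SSym E))
  have h1 := Runs.copyOnto (a := TR.NN) (b := .S3) (t := .T) (by decide) (by decide) (by decide)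
    (tst a b x [] (una N) [] [] s1 s2 [] [] : Store TR (SSym E)) rfl
  have h2 := Runs.mulOnto (u := TR.NN) (t := .S4) (v := .S3) (t' := .T) (i := .MM) (by decide)
    (by decide) (by decide) (by decide) (by decide) (by decide) (by decide) (by decide)
    (by decide) (by decide) 1920 mk mk mk
    (tst a b x [] (una N) [] [] s1 s2 (una N) [] : Store TR (SSym E)) N N rfl rfl rfl rfl
  have h3 := Runs.clear TR.S3
    (tst a b x [] (una N) (una (N * (N * 1920))) [] s1 s2 (una N) [] : Store TR (SSym E))
  have h := (h0.of_eq (s'' := tst a b x [] (una N) [] [] s1 s2 [] []) (by simp)).seq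
    ((h1.of_eq (s'' := tst a b x [] (una N) [] [] s1 s2 (una N) []) (by simp)).seq
    ((h2.of_eq (s'' := tst a b x [] (una N) (una (N * (N * 1920))) [] s1 s2 (una N) [])
      (by simp [una])).seq h3))
  refine (h.mono ?_).of_eq ?_
  · simp only [tst_NN, tst_S3, length_una]
    ring_nf
    omega
  · have e : N * (N * 1920) = 1920 * N ^ 2 := by ring
    simp [e]

/-- Put `msz K q ρ a b` on `MM`. -/
def setMM (K q ρ : ℕ) : Prog TR (SSym E) :=
  cmpSz.seq (Prog.ite (fun tp => !(tp .S1).isSome && !(tp .S3).isSome) (brA K q ρ) brB)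

theorem isSome_una (a : ℕ) : (una a : List (SSym E)).head?.isSome = !decide (a = 0) := by
  cases a <;> simp [una, List.replicate_succ]

theorem setMM_runs (K q ρ a b : ℕ) (ha : 1 ≤ a) (x : List (SSym E)) :
    Runs (setMM K q ρ)
      (tst (una a) (una b) x [] (una (max a b)) [] [] (una (a - b)) (una (b - a)) [] [])
      (tst (una a) (una b) x [] (una (max a b)) (una (msz K q ρ a b)) [] (una (a - b))
        (una (b - a)) [] [])
      ((2 * K + 2 * q + 2 * ρ + 4000) * (max a b) ^ 2) := by
  have hN : a ≤ max a b ∧ b ≤ max a b := ⟨le_max_left _ _, le_max_right _ _⟩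
  have h0 := cmpSz_runs a b x (una (max a b)) []
  unfold msz
  by_cases hc : a ≤ b ∧ b - a ≤ a
  · rw [if_pos hc]
    have h1 := Runs.iteT (c := fun tp => !(tp .S1).isSome && !(tp .S3).isSome) (q := brB) (by
      simp only [tops_apply, tst_S1, tst_S3, isSome_una]
      simp
      omega) (brA_runs K q ρ a (b - a) (una b) x (una (max a b)) (una (a - b)))
    have e : (una (b - a - a) : List (SSym E)) = [] := by
      have : b - a - a = 0 := by omega
      rw [this]; rfl
    rw [e] at h0
    refine (h0.seq h1).mono ?_
    generalize max a b = N at *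
    have hd : b - a ≤ N := by omega
    generalize b - a = d at *
    have i0 : 1 ≤ N := by omega
    have i1 : N ≤ N ^ 2 := by nlinarith
    have i2 : (2 * K + 8) * a ^ 2 ≤ (2 * K + 8) * N ^ 2 :=
      Nat.mul_le_mul_left _ (Nat.pow_le_pow_left hN.1 2)
    have i3 : (2 * q + 8) * d ≤ (2 * q + 8) * N ^ 2 := Nat.mul_le_mul_left _ (hd.trans i1)
    have i4 : 2 * ρ * 1 ≤ 2 * ρ * N ^ 2 := Nat.mul_le_mul_left _ (i0.trans i1)
    have i5 : (2 * K + 2 * q + 2 * ρ + 4000) * N ^ 2 =
      (2 * K + 8) * N ^ 2 + (2 * q + 8) * N ^ 2 + 2 * ρ * N ^ 2 + 3984 * N ^ 2 := by ring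
    omega
  · rw [if_neg hc]
    have h1 := Runs.iteF (c := fun tp => !(tp .S1).isSome && !(tp .S3).isSome)
      (p := brA K q ρ) (by
      simp only [tops_apply, tst_S1, tst_S3, isSome_una]
      simp
      omega) (brB_runs (max a b) (b - a - a) (una a) (una b) x (una (a - b)) (una (b - a)))
    refine (h0.seq h1).mono ?_
    generalize max a b = N at *
    have hd : b - a - a ≤ N := by omega
    generalize b - a - a = d at *
    have i0 : 1 ≤ N := by omega
    have i1 : N ≤ N ^ 2 := by nlinarith
    have i5 : (2 * K + 2 * q + 2 * ρ + 4000) * N ^ 2 =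
      (2 * K + 2 * q + 2 * ρ) * N ^ 2 + 4000 * N ^ 2 := by ring
    omega

/-! ### Padding and unpadding -/

/-- Move one row of `|B|` symbols and add `|S1|` zeros. -/
def padRow : Prog TR (SSym E) :=
  (Prog.movs .B .S4 .X .T).seq (Prog.fill .S1 (sb false) .T .S4)

/-- Pad the `a × b` matrix on `X` with zeros to an `N × N` matrix; the numbers
`N - b`, `N - a` are on `S1`, `S2`. -/
def padMat : Prog TR (SSym E) :=
  (Prog.forr .IN .S3 padRow).seq ((Prog.forr .S2 .S3 (Prog.fill .NN (sb false) .T .S4)).seq
    (Prog.rev .T .X))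

/-- The rows of a matrix, padded. -/
def padBits (N b : ℕ) (x : ℕ → ℕ → Bool) (i : ℕ) : List Bool :=
  (cat b fun j => [x i j]) ++ List.replicate (N - b) false

theorem length_row (b : ℕ) (f : ℕ → Bool) : (cat b fun j => [f j]).length = b := by
  rw [length_cat_of (L := 1) (fun _ _ => rfl), Nat.mul_one]

theorem tp_bits_append (l l' : List Bool) : (bits (l ++ l') : List (SSym E)) = bits l ++ bits l' := by
  simp [bits]

theorem tp_bits_reverse (l : List Bool) : (bits l.reverse : List (SSym E)) = (bits l).reverse := by
  simp [bits]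

theorem tp_bits_replicate (n : ℕ) (b : Bool) :
    (bits (List.replicate n b) : List (SSym E)) = List.replicate n (sb b) := by
  simp [bits]

theorem padRow_runs (b d : ℕ) (l : List (SSym E)) (hl : l.length = b)
    (inn rest t nn mm hh s2 s3 : List (SSym E)) :
    Runs padRow (tst inn (una b) (l ++ rest) t nn mm hh (una d) s2 s3 [])
      (tst inn (una b) rest (List.replicate d (sb false) ++ (l.reverse ++ t)) nn mm hh (una d)
        s2 s3 []) (8 * b + 8 * d + 3) := by
  have h1 := Runs.movs (u := TR.B) (t := .S4) (x := .X) (y := .T) (by decide) (by decide)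
    (by decide) (by decide) (by decide) (by decide) mk
    (tst inn (una b) (l ++ rest) t nn mm hh (una d) s2 s3 []) l rest (by rw [hl]; rfl) rfl rfl
  have h2 := Runs.fill (u := TR.S1) (b := .T) (t := .S4) (by decide) (by decide) (by decide)
    (sb false) mk (tst inn (una b) rest (l.reverse ++ t) nn mm hh (una d) s2 s3 []) d rfl rfl
  refine (((h1.of_eq (by simp)).seq h2).mono (by omega)).of_eq (by simp)

theorem padMat_runs (a b N : ℕ) (haN : a ≤ N) (hbN : b ≤ N) (x : ℕ → ℕ → Bool)
    (mm hh : List (SSym E)) :
    Runs padMat (tst (una a) (una b) (bits (cat a fun i => cat b fun j => [x i j])) [] (una N)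
        mm hh (una (N - b)) (una (N - a)) [] [])
      (tst (una a) (una b) (bits (cat N fun i => cat N fun j =>
        [if i < a ∧ j < b then x i j else false])) [] (una N)
        mm hh (una (N - b)) (una (N - a)) [] []) (30 * N ^ 2 + 30 * N + 10) := by
  -- the first `a` rows
  have h1 := Runs.forr' (u := TR.IN) (t := .S3) (by decide) (body := padRow (E := E)) a mk
    (fun k => tst (una a) (una b) (bits (cat (a - k) fun i => cat b fun j => [x (k + i) j]))
      (bits (cat k fun i => padBits N b x i)).reverse (una N) mm hh (una (N - b)) (una (N - a))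
      [] []) (fun _ => 8 * b + 8 * (N - b) + 3)
    (fun _ _ => rfl) (fun _ _ => rfl)
    (by
      intro k hk l l'
      obtain ⟨m, hm⟩ : ∃ m, a - k = m + 1 := ⟨a - k - 1, by omega⟩
      have hm' : a - (k + 1) = m := by omega
      have h := padRow_runs b (N - b) (bits (cat b fun j => [x k j]))
        (by rw [length_bits, length_row]) l
        (bits (cat m fun i => cat b fun j => [x (k + 1 + i) j]))
        (bits (cat k fun i => padBits N b x i)).reverse (una N) mm hh (una (N - a)) l'
      simp only [upd_IN, upd_S3]
      have e1 : (bits (cat (a - k) fun i => cat b fun j => [x (k + i) j]) : List (SSym E)) =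
          bits (cat b fun j => [x k j]) ++
            bits (cat m fun i => cat b fun j => [x (k + 1 + i) j]) := by
        rw [hm, cat_succ', tp_bits_append]
        simp only [Nat.add_zero, Nat.add_assoc, Nat.add_comm 1]
      have e2 : (bits (cat (k + 1) fun i => padBits N b x i) : List (SSym E)).reverse =
          List.replicate (N - b) (sb false) ++ ((bits (cat b fun j => [x k j])).reverse ++
            (bits (cat k fun i => padBits N b x i)).reverse) := by
        rw [cat_succ, padBits, tp_bits_append, tp_bits_append, tp_bits_replicate]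
        simp
      rw [e1, e2, hm']
      exact h)
  -- the other rows
  have h2 := Runs.forr' (u := TR.S2) (t := .S3) (by decide)
    (body := (Prog.fill .NN (sb false) .T .S4 : Prog TR (SSym E))) (N - a) mk
    (fun k => tst (una a) (una b) [] (List.replicate (k * N) (sb false) ++
      (bits (cat a fun i => padBits N b x i)).reverse) (una N) mm hh (una (N - b)) (una (N - a))
      [] []) (fun _ => 8 * N + 1)
    (fun _ _ => rfl) (fun _ _ => rfl)
    (by
      intro k hk l l'
      have h := Runs.fill (u := TR.NN) (b := .T) (t := .S4) (by decide) (by decide) (by decide)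
        (sb false) mk (tst (una a) (una b) [] (List.replicate (k * N) (sb false) ++
          (bits (cat a fun i => padBits N b x i)).reverse) (una N) mm hh (una (N - b)) l l' [])
        N rfl rfl
      simp only [upd_S2, upd_S3]
      refine h.of_eq ?_
      have e : List.replicate ((k + 1) * N) (sb (E := E) false) = List.replicate N (sb false) ++
          List.replicate (k * N) (sb false) := by
        rw [List.replicate_append_replicate]; congr 1; ring
      simp only [upd_T, tst_T, e, List.append_assoc])
  have h3 := Runs.rev (i := TR.T) (j := .X) (by decide)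
    (tst (una a) (una b) [] (List.replicate ((N - a) * N) (sb false) ++
      (bits (cat a fun i => padBits N b x i)).reverse) (una N) mm hh (una (N - b)) (una (N - a))
      [] [] : Store TR (SSym E))
  have e0 : (tst (una a) (una b) (bits (cat (a - 0) fun i => cat b fun j => [x (0 + i) j]))
      (bits (cat 0 fun i => padBits N b x i)).reverse (una N) mm hh (una (N - b)) (una (N - a))
      [] [] : Store TR (SSym E)) = tst (una a) (una b)
        (bits (cat a fun i => cat b fun j => [x i j])) [] (una N)
        mm hh (una (N - b)) (una (N - a)) [] [] := by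
    simp [bits]
  have e1 : (tst (una a) (una b) (bits (cat (a - a) fun i => cat b fun j => [x (a + i) j]))
      (bits (cat a fun i => padBits N b x i)).reverse (una N) mm hh (una (N - b)) (una (N - a))
      [] [] : Store TR (SSym E)) =
      tst (una a) (una b) [] (List.replicate (0 * N) (sb false) ++
      (bits (cat a fun i => padBits N b x i)).reverse) (una N) mm hh (una (N - b)) (una (N - a))
      [] [] := by
    simp [bits]
  rw [e0] at h1
  have e2 : (cat N fun i => cat N fun j => [if i < a ∧ j < b then x i j else false]) =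
      (cat a fun i => padBits N b x i) ++ List.replicate ((N - a) * N) false := by
    obtain ⟨c, rfl⟩ := Nat.exists_eq_add_of_le haN
    rw [cat_add]
    congr 1
    · refine cat_congr fun i hi => ?_
      obtain ⟨d, hd⟩ := Nat.exists_eq_add_of_le hbN
      rw [padBits, hd, cat_add]
      congr 1
      · refine cat_congr fun j hj => ?_
        rw [if_pos ⟨hi, hj⟩]
      · have : b + d - b = d := by omega
        rw [this]
        have h := cat_replicate d 1 false
        rw [Nat.mul_one] at h
        rw [← h]
        refine cat_congr fun j hj => ?_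
        rw [if_neg (by omega)]
        rfl
    · have : a + c - a = c := by omega
      rw [this]
      rw [← cat_replicate c (a + c) false]
      refine cat_congr fun i hi => ?_
      have h := cat_replicate (a + c) 1 false
      rw [Nat.mul_one] at h
      rw [← h]
      refine cat_congr fun j hj => ?_
      rw [if_neg (by omega)]
      rfl
  refine ((((h1.of_eq e1).seq (h2.seq h3))).mono ?_).of_eq ?_
  · simp only [Finset.sum_const, Finset.card_range, smul_eq_mul, tst_T, List.length_append,
      List.length_replicate, List.length_reverse, length_bits]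
    have hl : (cat a fun i => padBits N b x i).length = a * N := by
      apply length_cat_of
      intro i _
      rw [padBits, List.length_append, length_row, List.length_replicate]
      omega
    rw [hl]
    obtain ⟨c, hc⟩ := Nat.exists_eq_add_of_le haN
    have hc' : N - a = c := by omega
    rw [hc']
    have hb' : 8 * b + 8 * (N - b) = 8 * N := by omega
    rw [hb']
    have k1 : a * (8 * N + 3 + 4) = 8 * (a * N) + 7 * a := by ring
    have k2 : c * (8 * N + 1 + 4) = 8 * (c * N) + 5 * c := by ring
    have k3 : N ^ 2 = a * N + c * N := by rw [sq]; nth_rw 1 [hc]; ring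
    rw [k1, k2, k3]
    omega
  · simp only [upd_T, upd_X, tst_T, tst_X, List.append_nil]
    rw [e2, tp_bits_append, tp_bits_replicate]
    simp

/-- Move one row of `|IN|` symbols and drop `|S2|` symbols. -/
def unpRow : Prog TR (SSym E) :=
  (Prog.movs .IN .S4 .X .T).seq (Prog.drops .S2 .S4 .X)

/-- Keep the first `b` rows and of these the first `a` entries. -/
def unpMat : Prog TR (SSym E) :=
  (Prog.forr .B .S3 unpRow).seq ((Prog.clear .X).seq (Prog.rev .T .X))

theorem unpRow_runs (a d : ℕ) (l₁ l₂ : List (SSym E)) (h₁ : l₁.length = a) (h₂ : l₂.length = d)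
    (b rest t nn mm hh s1 s3 : List (SSym E)) :
    Runs unpRow (tst (una a) b (l₁ ++ (l₂ ++ rest)) t nn mm hh s1 (una d) s3 [])
      (tst (una a) b rest (l₁.reverse ++ t) nn mm hh s1 (una d) s3 [])
      (8 * a + 8 * d + 3) := by
  have h1 := Runs.movs (u := TR.IN) (t := .S4) (x := .X) (y := .T) (by decide) (by decide)
    (by decide) (by decide) (by decide) (by decide) mk
    (tst (una a) b (l₁ ++ (l₂ ++ rest)) t nn mm hh s1 (una d) s3 []) l₁ (l₂ ++ rest)
    (by rw [h₁]; rfl) rfl rfl
  have h2 := Runs.drops (u := TR.S2) (t := .S4) (x := .X) (by decide) (by decide) (by decide)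
    mk (tst (una a) b (l₂ ++ rest) (l₁.reverse ++ t) nn mm hh s1 (una d) s3 []) l₂ rest
    (by rw [h₂]; rfl) rfl rfl
  refine (((h1.of_eq (by simp)).seq h2).mono (by omega)).of_eq (by simp)

theorem unpMat_runs (a b N : ℕ) (haN : a ≤ N) (hbN : b ≤ N) (y : ℕ → ℕ → Bool)
    (nn mm hh s1 : List (SSym E)) :
    Runs unpMat (tst (una a) (una b) (bits (cat N fun i => cat N fun j => [y i j])) [] nn
        mm hh s1 (una (N - a)) [] [])
      (tst (una a) (una b) (bits (cat b fun i => cat a fun j => [y i j])) [] nn
        mm hh s1 (una (N - a)) [] []) (20 * N ^ 2 + 20 * N + 10) := by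
  have h1 := Runs.forr' (u := TR.B) (t := .S3) (by decide) (body := unpRow (E := E)) b mk
    (fun k => tst (una a) (una b) (bits (cat (N - k) fun i => cat N fun j => [y (k + i) j]))
      (bits (cat k fun i => cat a fun j => [y i j])).reverse nn mm hh s1 (una (N - a))
      [] []) (fun _ => 8 * a + 8 * (N - a) + 3)
    (fun _ _ => rfl) (fun _ _ => rfl)
    (by
      intro k hk l l'
      obtain ⟨m, hm⟩ : ∃ m, N - k = m + 1 := ⟨N - k - 1, by omega⟩
      have hm' : N - (k + 1) = m := by omega
      obtain ⟨c, hc⟩ := Nat.exists_eq_add_of_le haN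
      have hc' : N - a = c := by omega
      have h := unpRow_runs a (N - a) (bits (cat a fun j => [y k j]))
        (bits (cat (N - a) fun j => [y k (a + j)]))
        (by rw [length_bits, length_row]) (by rw [length_bits, length_row]) l
        (bits (cat m fun i => cat N fun j => [y (k + 1 + i) j]))
        (bits (cat k fun i => cat a fun j => [y i j])).reverse nn mm hh s1 l'
      simp only [upd_B, upd_S3]
      have e1 : (bits (cat (N - k) fun i => cat N fun j => [y (k + i) j]) : List (SSym E)) =
          bits (cat a fun j => [y k j]) ++ (bits (cat (N - a) fun j => [y k (a + j)]) ++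
            bits (cat m fun i => cat N fun j => [y (k + 1 + i) j])) := by
        have f1 : (cat N fun j => [y k j]) = (cat a fun j => [y k j]) ++
            cat (N - a) fun j => [y k (a + j)] := by
          rw [hc']
          conv_lhs => rw [hc]
          rw [cat_add]
        have f2 : (cat m fun i => cat N fun j => [y (k + (i + 1)) j]) =
            cat m fun i => cat N fun j => [y (k + 1 + i) j] := by
          refine cat_congr fun i _ => ?_
          rw [show k + (i + 1) = k + 1 + i by omega]
        rw [hm, cat_succ', f2, Nat.add_zero, f1, tp_bits_append, tp_bits_append, List.append_assoc]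
      have e2 : (bits (cat (k + 1) fun i => cat a fun j => [y i j]) : List (SSym E)).reverse =
          (bits (cat a fun j => [y k j])).reverse ++
            (bits (cat k fun i => cat a fun j => [y i j])).reverse := by
        rw [cat_succ, tp_bits_append, List.reverse_append]
      rw [e1, e2, hm']
      exact h)
  have h2 := Runs.clear TR.X
    (tst (una a) (una b) (bits (cat (N - b) fun i => cat N fun j => [y (b + i) j]))
      (bits (cat b fun i => cat a fun j => [y i j])).reverse nn mm hh s1 (una (N - a))
      [] [] : Store TR (SSym E))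
  have h3 := Runs.rev (i := TR.T) (j := .X) (by decide)
    (tst (una a) (una b) [] (bits (cat b fun i => cat a fun j => [y i j])).reverse nn mm hh s1
      (una (N - a)) [] [] : Store TR (SSym E))
  have e0 : (tst (una a) (una b) (bits (cat (N - 0) fun i => cat N fun j => [y (0 + i) j]))
      (bits (cat 0 fun i => cat a fun j => [y i j])).reverse nn mm hh s1 (una (N - a))
      [] [] : Store TR (SSym E)) = tst (una a) (una b)
        (bits (cat N fun i => cat N fun j => [y i j])) [] nn mm hh s1 (una (N - a)) [] [] := by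
    simp [bits]
  rw [e0] at h1
  refine ((h1.seq ((h2.of_eq (upd_X ..)).seq h3)).mono ?_).of_eq (by simp)
  simp only [Finset.sum_const, Finset.card_range, smul_eq_mul, tst_T, tst_X,
    List.length_reverse, length_bits]
  have hl : (cat (N - b) fun i => cat N fun j => [y (b + i) j]).length = (N - b) * N := by
    apply length_cat_of
    intro i _
    rw [length_row]
  have hl' : (cat b fun i => cat a fun j => [y i j]).length = b * a := by
    apply length_cat_of
    intro i _
    rw [length_row]
  rw [hl, hl']
  obtain ⟨c, hc⟩ := Nat.exists_eq_add_of_le hbN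
  have hc' : N - b = c := by omega
  rw [hc']
  have ha' : 8 * a + 8 * (N - a) = 8 * N := by omega
  rw [ha']
  have k1 : b * (8 * N + 3 + 4) = 8 * (b * N) + 7 * b := by ring
  have k3 : N ^ 2 = b * N + c * N := by rw [sq]; nth_rw 1 [hc]; ring
  have k4 : b * a ≤ b * N := Nat.mul_le_mul_left _ haN
  rw [k1, k3]
  omega

/-! ### The whole preparation for rectangular matrices -/

/-- Preparations for rectangular matrices. -/
def preRect (K q ρ : ℕ) : Prog TR (SSym E) :=
  (Prog.rev .IN .X).seq (readRows.seq (divRows.seq (maxi.seq (diffs.seq ((setMM K q ρ).seq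
    (padMat.seq ((Prog.clear .S1).seq ((Prog.clear .S2).seq (Prog.push .HH mk)))))))))

theorem preRect_runs (K q ρ a b : ℕ) (ha : 1 ≤ a) (sep : SSym E) (hsep : sep ≠ sb true)
    (x : ℕ → ℕ → Bool) :
    Runs (preRect K q ρ)
      (tst (List.replicate a (sb true) ++ sep ::
        bits (cat a fun i => cat b fun j => [x i j])).reverse [] [] [] [] [] [] [] [] [] [])
      (tst (una a) (una b) (bits (cat (max a b) fun i => cat (max a b) fun j =>
          [if i < a ∧ j < b then x i j else false])) [] (una (max a b))
        (una (msz K q ρ a b)) (una 1) [] [] [] [])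
      ((2 * K + 2 * q + 2 * ρ + 5000) * (max a b) ^ 2) := by
  have hlen : (bits (cat a fun i => cat b fun j => [x i j]) : List (SSym E)).length = b * a := by
    rw [length_bits, length_cat_of (L := b) (fun i _ => length_row b _), Nat.mul_comm]
  have h1 := Runs.rev (i := TR.IN) (j := .X) (by decide)
    (tst (List.replicate a (sb true) ++ sep ::
        bits (cat a fun i => cat b fun j => [x i j])).reverse [] [] [] [] [] [] [] [] [] [] :
        Store TR (SSym E))
  have h2 := readRows_runs a sep hsep (bits (cat a fun i => cat b fun j => [x i j])) [] []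
  have h3 := divRows_runs a b ha (bits (cat a fun i => cat b fun j => [x i j]) :
    List (SSym E)) hlen [] []
  have h4 := maxi_runs a b (bits (cat a fun i => cat b fun j => [x i j]) : List (SSym E))
    [] [] [] []
  have h5 := diffs_runs a b (bits (cat a fun i => cat b fun j => [x i j]) : List (SSym E))
    (una (max a b)) [] [] [] []
  have h6 := setMM_runs K q ρ a b ha
    (bits (cat a fun i => cat b fun j => [x i j]) : List (SSym E))
  have h7 := padMat_runs (E := E) a b (max a b) (le_max_left _ _) (le_max_right _ _) x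
    (una (msz K q ρ a b)) []
  have e1 : max a b - b = a - b := by omega
  have e2 : max a b - a = b - a := by omega
  rw [e1, e2] at h7
  have h8 := Runs.clear TR.S1 (tst (una a) (una b) (bits (cat (max a b) fun i =>
    cat (max a b) fun j => [if i < a ∧ j < b then x i j else false])) [] (una (max a b))
        (una (msz K q ρ a b)) [] (una (a - b)) (una (b - a)) [] [] : Store TR (SSym E))
  have h9 := Runs.clear TR.S2 (tst (una a) (una b) (bits (cat (max a b) fun i =>
    cat (max a b) fun j => [if i < a ∧ j < b then x i j else false])) [] (una (max a b))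
        (una (msz K q ρ a b)) [] [] (una (b - a)) [] [] : Store TR (SSym E))
  have h10 := Runs.push TR.HH mk (tst (una a) (una b) (bits (cat (max a b) fun i =>
    cat (max a b) fun j => [if i < a ∧ j < b then x i j else false])) [] (una (max a b))
        (una (msz K q ρ a b)) [] [] [] [] [] : Store TR (SSym E))
  have h := (h1.of_eq (s'' := tst [] [] (List.replicate a (sb true) ++ sep ::
      bits (cat a fun i => cat b fun j => [x i j])) [] [] [] [] [] [] [] []) (by simp)).seq
    (h2.seq (h3.seq (h4.seq (h5.seq (h6.seq (h7.seq ((h8.of_eq (upd_S1 ..)).seq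
      ((h9.of_eq (upd_S2 ..)).seq h10))))))))
  refine (h.mono ?_).of_eq ?_
  · simp only [tst_IN, tst_S1, tst_S2, List.length_reverse, List.length_append,
      List.length_replicate, List.length_cons, hlen, length_una]
    have hN : a ≤ max a b ∧ b ≤ max a b := ⟨le_max_left _ _, le_max_right _ _⟩
    generalize max a b = N at *
    have i0 : 1 ≤ N := by omega
    have i1 : N ≤ N ^ 2 := by nlinarith
    have i2 : b * a ≤ N ^ 2 := by rw [sq]; exact Nat.mul_le_mul hN.2 hN.1
    have i3 : b * (8 * a + 5) = 8 * (b * a) + 5 * b := by ring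
    have i5 : (2 * K + 2 * q + 2 * ρ + 5000) * N ^ 2 =
      (2 * K + 2 * q + 2 * ρ + 4000) * N ^ 2 + 1000 * N ^ 2 := by ring
    rw [i3, i5]
    omega
  · simp [una]

/-- The final part for rectangular matrices. -/
def postRect : Prog TR (SSym E) := diffs.seq unpMat

theorem postRect_runs (a b : ℕ) (ha : 1 ≤ a) (y : ℕ → ℕ → Bool) (nn mm hh : List (SSym E)) :
    Runs postRect
      (tst (una a) (una b) (bits (cat (max a b) fun i => cat (max a b) fun j => [y i j])) []
        nn mm hh [] [] [] [])
      (tst (una a) (una b) (bits (cat b fun i => cat a fun j => [y i j])) []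
        nn mm hh (una (a - b)) (una (b - a)) [] []) (100 * (max a b) ^ 2) := by
  have h1 := diffs_runs a b (bits (cat (max a b) fun i => cat (max a b) fun j => [y i j]) :
    List (SSym E)) nn mm hh [] []
  have h2 := unpMat_runs a b (max a b) (le_max_left _ _) (le_max_right _ _) y nn mm hh
    (una (a - b))
  have e2 : max a b - a = b - a := by omega
  rw [e2] at h2
  refine (h1.seq h2).mono ?_
  have hN : a ≤ max a b ∧ b ≤ max a b := ⟨le_max_left _ _, le_max_right _ _⟩
  generalize max a b = N at *
  have i0 : 1 ≤ N := by omega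
  have i1 : N ≤ N ^ 2 := by nlinarith
  omega

/-! ### Embedding into the big store -/

section big

variable {J : Type}

/-- The stacks of the top level in the big store. -/
def TR.loc : TR → Loc J
  | .IN => Sum.inl R.INP
  | .B => Sum.inl R.IN2
  | .X => Sum.inl R.X
  | .T => Sum.inl R.T
  | .NN => Sum.inl R.NN
  | .MM => Sum.inl R.MM
  | .HH => Sum.inl R.HH
  | .S1 => Sum.inl R.S1
  | .S2 => Sum.inl R.S2
  | .S3 => Sum.inl R.S3
  | .S4 => Sum.inl R.S4

theorem TR.loc_injective : Function.Injective (TR.loc : TR → Loc J) := by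
  intro a b h
  cases a <;> cases b <;> simp_all [TR.loc]

/-- A store of the top level as a big store. -/
noncomputable def big (s : Store TR (SSym E)) : St J E := ovw TR.loc s fun _ => []

theorem big_loc (s : Store TR (SSym E)) (r : TR) : (big s : St J E) r.loc = s r :=
  ovw_apply TR.loc_injective _ _ _

theorem big_other (s : Store TR (SSym E)) {k : Loc J} (hk : ∀ r : TR, r.loc ≠ k) :
    (big s : St J E) k = [] :=
  ovw_of_not _ _ (by rintro ⟨r, hr⟩; exact hk r hr)

theorem Runs.big {p : Prog TR (SSym E)} {s s' : Store TR (SSym E)} {t : ℕ}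
    (h : Runs p s s' t) : Runs (p.map TR.loc) (big s : St J E) (big s') t := by
  obtain ⟨u, hu, hx⟩ := h
  exact ⟨u, hu, hx.map TR.loc_injective _⟩

/-- What the top level needs from the core program that transposes an `n × n` matrix with
multiplications of size `m`. -/
def CoreSpec [DecidableEq J] (core : Pr J E) (TB : ℕ → ℕ → ℕ) : Prop :=
  ∀ (n m : ℕ) (x : ℕ → ℕ → Bool) (s : St J E), 1 ≤ n → 1920 * n ^ 2 ≤ m → s.Idle →
    (∀ r : R, r ≠ R.X → r ≠ R.NN → r ≠ R.MM → r ≠ R.HH → r ≠ R.INP → r ≠ R.IN2 →
      s.at r = []) →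
    s.at R.HH = una 1 → s.at R.NN = una n → s.at R.MM = una m →
    s.at R.X = bits (cat n fun i => cat n fun j => [x i j]) →
    Runs core s (s.set R.X (bits (cat n fun i => cat n fun j => [x j i]))) (TB n m)

theorem CoreSpec.runs [DecidableEq J] {core : Pr J E} {TB : ℕ → ℕ → ℕ}
    (hcore : CoreSpec core TB) {n m : ℕ} (hn : 1 ≤ n) (hm : 1920 * n ^ 2 ≤ m)
    (x : ℕ → ℕ → Bool) (inp in2 : List (SSym E)) :
    Runs core (big (tst inp in2 (bits (cat n fun i => cat n fun j => [x i j])) [] (una n)
        (una m) (una 1) [] [] [] []))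
      (big (tst inp in2 (bits (cat n fun i => cat n fun j => [x j i])) [] (una n)
        (una m) (una 1) [] [] [] [])) (TB n m) := by
  have h := hcore n m x (big (tst inp in2 (bits (cat n fun i => cat n fun j => [x i j])) []
    (una n) (una m) (una 1) [] [] [] [])) hn hm
    (by
      intro j
      exact big_other _ (by intro r; cases r <;> simp [TR.loc]))
    (by
      intro r h1 h2 h3 h4 h5 h6
      by_cases hr : ∃ r' : TR, r'.loc = (Sum.inl r : Loc J)
      · obtain ⟨r', hr'⟩ := hr
        change big _ (Sum.inl r) = []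
        rw [← hr', big_loc]
        cases r' <;> simp_all [TR.loc]
      · exact big_other _ (by intro r' hr'; exact hr ⟨r', hr'⟩))
    (big_loc _ TR.HH) (big_loc _ TR.NN) (big_loc _ TR.MM) (big_loc _ TR.X)
  refine h.of_eq ?_
  funext k
  by_cases hk : ∃ r' : TR, r'.loc = k
  · obtain ⟨r', rfl⟩ := hk
    rw [big_loc]
    by_cases hX : r' = TR.X
    · subst hX
      exact Function.update_self ..
    · rw [St.set, Function.update_of_ne, big_loc]
      · cases r' <;> simp_all
      · intro h
        exact hX (TR.loc_injective h)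
  · have hk' : ∀ r' : TR, r'.loc ≠ k := fun r' hr' => hk ⟨r', hr'⟩
    have hX : k ≠ Sum.inl R.X := fun h => hk' TR.X h.symm
    rw [big_other _ hk', St.set, Function.update_of_ne hX, big_other _ hk']

/-- The program for square matrices. -/
noncomputable def sqProg (core : Pr J E) : Pr J E := ((preSq 1920).map TR.loc).seq core

/-- The program for rectangular matrices. -/
noncomputable def rectProg (K q ρ : ℕ) (core : Pr J E) : Pr J E :=
  ((preRect K q ρ).map TR.loc).seq (core.seq (postRect.map TR.loc))

theorem big_input [DecidableEq J] (l : List (SSym E)) :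
    (big (tst l [] [] [] [] [] [] [] [] [] []) : St J E) =
      Function.update (fun _ => []) (Sum.inl R.INP) l := by
  funext k
  by_cases hk : ∃ r' : TR, r'.loc = k
  · obtain ⟨r', rfl⟩ := hk
    rw [big_loc]
    cases r' <;> simp [TR.loc]
  · have hk' : ∀ r' : TR, r'.loc ≠ k := fun r' hr' => hk ⟨r', hr'⟩
    have hX : k ≠ Sum.inl R.INP := fun h => hk' TR.IN h.symm
    rw [big_other _ hk', Function.update_of_ne hX]

/-- The program for square matrices is correct. -/
theorem sqProg_runs [DecidableEq J] {core : Pr J E} {TB : ℕ → ℕ → ℕ}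
    (hcore : CoreSpec core TB) {n : ℕ} (hn : 1 ≤ n) (x : ℕ → ℕ → Bool) :
    ∃ s' : St J E, Runs (sqProg core)
      (Function.update (fun _ => []) (Sum.inl R.INP)
        (bits (cat n fun i => cat n fun j => [x i j])).reverse) s'
      (4000 * n ^ 2 + TB n (1920 * n ^ 2)) ∧
      s' (Sum.inl R.X) = bits (cat n fun i => cat n fun j => [x j i]) := by
  have hlen : (bits (cat n fun i => cat n fun j => [x i j]) : List (SSym E)).length = n ^ 2 := by
    rw [length_bits, length_cat_of (L := n) (fun i _ => length_row n _), sq]
  have h1 := (preSq_runs 1920 n _ hlen).big (J := J)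
  have h2 := hcore.runs hn le_rfl x [] []
  have h := (h1.seq h2).mono (t' := 4000 * n ^ 2 + TB n (1920 * n ^ 2)) (by nlinarith)
  rw [big_input] at h
  exact ⟨_, h, big_loc _ TR.X⟩

/-- The program for rectangular matrices is correct. -/
theorem rectProg_runs [DecidableEq J] {core : Pr J E} {TB : ℕ → ℕ → ℕ}
    (hcore : CoreSpec core TB) (K q ρ : ℕ) (hK : 7680 ≤ K) {a b : ℕ} (ha : 1 ≤ a)
    (sep : SSym E) (hsep : sep ≠ sb true) (x : ℕ → ℕ → Bool) :
    ∃ s' : St J E, Runs (rectProg K q ρ core)
      (Function.update (fun _ => []) (Sum.inl R.INP)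
        (List.replicate a (sb true) ++ sep ::
          bits (cat a fun i => cat b fun j => [x i j])).reverse) s'
      ((2 * K + 2 * q + 2 * ρ + 6000) * (max a b) ^ 2 +
        TB (max a b) (msz K q ρ a b)) ∧
      s' (Sum.inl R.X) = bits (cat b fun i => cat a fun j => [x j i]) := by
  have hmm : 1920 * (max a b) ^ 2 ≤ msz K q ρ a b := by
    unfold msz
    split_ifs with hc
    · have h1 : max a b ≤ 2 * a := by omega
      have h2 : (max a b) ^ 2 ≤ (2 * a) ^ 2 := Nat.pow_le_pow_left h1 2
      have h3 : (2 * a) ^ 2 = 4 * a ^ 2 := by ring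
      have h4 : 7680 * a ^ 2 ≤ K * a ^ 2 := Nat.mul_le_mul_right _ hK
      omega
    · exact le_rfl
  have h1 := (preRect_runs K q ρ a b ha sep hsep x).big (J := J)
  have h2 := hcore.runs (by omega) hmm
    (fun i j => if i < a ∧ j < b then x i j else false) (una a) (una b)
  have h3 := (postRect_runs a b ha (fun i j => if j < a ∧ i < b then x j i else false)
    (una (max a b)) (una (msz K q ρ a b)) (una 1)).big (J := J) (E := E)
  have h := (h1.seq (h2.seq h3)).mono (t' := (2 * K + 2 * q + 2 * ρ + 6000) * (max a b) ^ 2 +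
        TB (max a b) (msz K q ρ a b)) (by
    have i0 : 1 ≤ max a b := by omega
    have i1 : 1 ≤ (max a b) ^ 2 := Nat.one_le_pow _ _ i0
    have i2 : (2 * K + 2 * q + 2 * ρ + 6000) * (max a b) ^ 2 =
      (2 * K + 2 * q + 2 * ρ + 5000) * (max a b) ^ 2 + 1000 * (max a b) ^ 2 := by ring
    omega)
  rw [big_input] at h
  refine ⟨_, h, (big_loc _ TR.X).trans ?_⟩
  rw [tst_X]
  congr 1
  refine cat_congr fun i hi => cat_congr fun j hj => ?_
  rw [if_pos ⟨hj, hi⟩]

end big

end Vale.Agent.P338
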