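import Vale.Agent.P338.Final
import Vale.Agent.P338.Top

/-!
# P338: transposing machines from a core program
-/

namespace Vale.Agent.P338

variable {J E : Type} [DecidableEq J]

theorem startStore_bits (w : List Sym) (l : List (SSym E)) (h : w.map embS = l) :
    (startStore R.INP w : St J E) = Function.update (fun _ => []) (Sum.inl R.INP) l.reverse := by
  rw [← h]
  rfl

/-- The machine for square matrices. -/
theorem exists_machine_sq [Finite J] [Finite E] {core : Pr J E} {TB : ℕ → ℕ → ℕ}
    (hcore : CoreSpec core TB) :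
    ∃ (B : TM) (C : ℕ), Transposes B ∧
      ∀ n : ℕ, 1 ≤ n → transTime B n ≤ C * (n ^ 2 + TB n (1920 * n ^ 2)) := by
  obtain ⟨B, C, hB, hT⟩ := exists_transposes (sqProg core) R.INP R.X
    (fun n => 4000 * n ^ 2 + TB n (1920 * n ^ 2)) (by
      intro n hn a
      obtain ⟨s', h1, h2⟩ := sqProg_runs hcore hn (extMat a)
      refine ⟨s', ?_, ?_⟩
      · rw [startStore_bits (bitWord (rowMajor a))
          (bits (cat n fun i => cat n fun j => [extMat a i j]))
          (by rw [embS_bitWord, rowMajor_extMat])]
        exact h1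
      · rw [rowMajor_transpose]
        exact h2)
  refine ⟨B, 4001 * C, hB, fun n hn => (hT n hn).trans ?_⟩
  rw [mul_comm 4001 C, mul_assoc]
  exact Nat.mul_le_mul_left _ (by omega)

/-- The machines for rectangular matrices. -/
theorem exists_machine_rect [Finite J] [Finite E] {core : Pr J E} {TB : ℕ → ℕ → ℕ}
    (hcore : CoreSpec core TB) (K q ρ : ℕ) (hK : 7680 ≤ K) :
    ∃ (B : TM) (C : ℕ), TransposesRect B ∧
      ∀ a b : ℕ, 1 ≤ a → 1 ≤ b →
        rectTime B a b ≤ C * ((max a b) ^ 2 + TB (max a b) (msz K q ρ a b)) := by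
  obtain ⟨B, C, hB, hT⟩ := exists_transposesRect (rectProg K q ρ core) R.INP R.X
    (fun a b => (2 * K + 2 * q + 2 * ρ + 6000) * (max a b) ^ 2 +
        TB (max a b) (msz K q ρ a b)) (by
      intro a b ha hb x
      obtain ⟨s', h1, h2⟩ := rectProg_runs hcore K q ρ hK ha (b := b) mk
        (by simp [mk, sb]) (extMat x)
      refine ⟨s', ?_, ?_⟩
      · rw [startStore_bits (rectInput x)
          (List.replicate a (sb true) ++ mk ::
            bits (cat a fun i => cat b fun j => [extMat x i j]))
          (by
            unfold rectInput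
            rw [List.map_append, List.map_cons, embS_bitWord, rowMajor_extMat,
              List.map_replicate]
            rfl)]
        exact h1
      · rw [rowMajor_transpose]
        exact h2)
  refine ⟨B, (2 * K + 2 * q + 2 * ρ + 6001) * C, hB, fun a b ha hb => (hT a b ha hb).trans ?_⟩
  rw [mul_comm _ C, mul_assoc]
  apply Nat.mul_le_mul_left
  have h1 : a * b ≤ (max a b) ^ 2 := by
    rw [sq]; exact Nat.mul_le_mul (le_max_left _ _) (le_max_right _ _)
  have h2 : TB (max a b) (msz K q ρ a b) * 1 ≤
      TB (max a b) (msz K q ρ a b) * (2 * K + 2 * q + 2 * ρ + 6001) :=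
    Nat.mul_le_mul_left _ (by omega)
  nlinarith

end Vale.Agent.P338
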