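import Vale.Agent.P338.LevelsCore
import Vale.Agent.P338.CallB
import Vale.Agent.P338.TopFinal
import Vale.Agent.P338.MulGe
import Vale.Agent.P338.Clean
import Vale.Agent.P338.SwapMain

/-!
# P338: the transposing machines built from a multiplying machine
-/

namespace Vale.Agent.P338

section

variable {J E : Type} [DecidableEq J]

theorem naiveHyp_of_spec {naive : Pr J E} {C : ℕ} (h : NaiveSpec naive C) :
    Lv.NaiveHyp naive C := h

/-- The bound of the levels without the double logarithm. -/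
theorem levTime_clean (T : ℕ → ℕ) {n m j : ℕ} (hj : 1 ≤ j) (hT : m ≤ T m) :
    (Lv.levTime T n m : ℝ) ≤ 4 * (j * T m + m * Nat.log 2 n / 2 ^ j) :=
  clean_bound hj hT (Lv.levTime_le T n m j)

/-- The square machine, from the swap program. -/
theorem machine_sq [Finite J] [Finite E] {swap naive : Pr J E} {T : ℕ → ℕ} {C₁ C₂ : ℕ}
    (hT : ∀ m, 1 ≤ m → m ≤ T m) (hswap : SwapSpec swap T C₁) (hnaive : NaiveSpec naive C₂) :
    ∃ (B : TM) (C : ℕ), Transposes B ∧ ∀ n j : ℕ, 1 ≤ n → 1 ≤ j →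
      (transTime B n : ℝ) ≤
        C * (j * T (1920 * n ^ 2) + n ^ 2 * Nat.log 2 n / 2 ^ j) := by
  obtain ⟨B, C, hB, hC⟩ := exists_machine_sq (Lv.core_spec hswap (naiveHyp_of_spec hnaive))
  refine ⟨B, C * (1 + (3 * C₁ + 1024 * C₂ + 1000) * 4 * 1920), hB, fun n j hn hj => ?_⟩
  have hn2 : 1 ≤ n ^ 2 := Nat.one_le_pow _ _ hn
  have h1 : (transTime B n : ℝ) ≤ C * (n ^ 2 + (3 * C₁ + 1024 * C₂ + 1000) *
      Lv.levTime T n (1920 * n ^ 2)) := by exact_mod_cast hC n hn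
  have hTm := hT (1920 * n ^ 2) (by omega)
  have h2 := levTime_clean T (n := n) hj hTm
  have h3 : ((n ^ 2 : ℕ) : ℝ) ≤ j * T (1920 * n ^ 2) := by
    have h4 : n ^ 2 ≤ j * T (1920 * n ^ 2) := by
      calc n ^ 2 ≤ T (1920 * n ^ 2) := by omega
        _ ≤ j * T (1920 * n ^ 2) := Nat.le_mul_of_pos_left _ hj
    exact_mod_cast h4
  refine h1.trans ?_
  push_cast at h2 h3 ⊢
  rw [mul_assoc]
  apply mul_le_mul_of_nonneg_left _ (by positivity)
  have h5 : (0 : ℝ) ≤ n ^ 2 * Nat.log 2 n / 2 ^ j := by positivity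
  have h6 : (0 : ℝ) ≤ j * T (1920 * n ^ 2) := by positivity
  set X : ℝ := j * T (1920 * n ^ 2) with hX
  set Y : ℝ := n ^ 2 * Nat.log 2 n / 2 ^ j with hY
  have h7 : 4 * ((j : ℝ) * T (1920 * n ^ 2) + 1920 * n ^ 2 * Nat.log 2 n / 2 ^ j) ≤
      4 * 1920 * (X + Y) := by
    have : (1920 : ℝ) * n ^ 2 * Nat.log 2 n / 2 ^ j = 1920 * Y := by rw [hY]; ring
    rw [this]
    nlinarith
  have h8 : (0 : ℝ) ≤ 3 * C₁ + 1024 * C₂ + 1000 := by positivity
  have h9 := mul_le_mul_of_nonneg_left (h2.trans h7) h8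
  calc (n : ℝ) ^ 2 + (3 * C₁ + 1024 * C₂ + 1000) * Lv.levTime T n (1920 * n ^ 2)
      ≤ X + (3 * C₁ + 1024 * C₂ + 1000) * (4 * 1920 * (X + Y)) := add_le_add h3 h9
    _ ≤ (1 + (3 * C₁ + 1024 * C₂ + 1000) * 4 * 1920) * (X + Y) := by nlinarith

theorem le_msz {K q ρ a b : ℕ} (hK : 7680 ≤ K) :
    1920 * (max a b) ^ 2 ≤ msz K q ρ a b := by
  unfold msz
  split_ifs with h
  · obtain ⟨h1, h2⟩ := h
    have h3 : max a b = b := max_eq_right h1
    rw [h3]
    have h4 : b ≤ 2 * a := by omega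
    have h5 : b ^ 2 ≤ (2 * a) ^ 2 := Nat.pow_le_pow_left h4 2
    have h6 : 7680 * a ^ 2 ≤ K * a ^ 2 := Nat.mul_le_mul_right _ hK
    have h7 : (2 * a) ^ 2 = 4 * a ^ 2 := by ring
    omega
  · exact le_rfl

/-- The rectangular machines, from the swap program. -/
theorem machine_rect [Finite J] [Finite E] {swap naive : Pr J E} {T : ℕ → ℕ} {C₁ C₂ : ℕ}
    (hT : ∀ m, 1 ≤ m → m ≤ T m) (hswap : SwapSpec swap T C₁) (hnaive : NaiveSpec naive C₂)
    (K q ρ : ℕ) (hK : 7680 ≤ K) :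
    ∃ (B : TM) (C : ℕ), TransposesRect B ∧ ∀ a b j : ℕ, 1 ≤ a → 1 ≤ b → 1 ≤ j →
      (rectTime B a b : ℝ) ≤
        C * (j * T (msz K q ρ a b) + msz K q ρ a b * Nat.log 2 (max a b) / 2 ^ j) := by
  obtain ⟨B, C, hB, hC⟩ := exists_machine_rect (Lv.core_spec hswap (naiveHyp_of_spec hnaive))
    K q ρ hK
  refine ⟨B, C * ((3 * C₁ + 1024 * C₂ + 1000) * 4 + 1), hB, fun a b j ha hb hj => ?_⟩
  have h1 : (rectTime B a b : ℝ) ≤ C * ((max a b : ℕ) ^ 2 + (3 * C₁ + 1024 * C₂ + 1000) *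
      Lv.levTime T (max a b) (msz K q ρ a b)) := by exact_mod_cast hC a b ha hb
  have hmm := le_msz (q := q) (ρ := ρ) (a := a) (b := b) hK
  have hm2 : 1 ≤ (max a b) ^ 2 := Nat.one_le_pow _ _ (by omega)
  have hTm := hT (msz K q ρ a b) (by omega)
  have h2 := levTime_clean T (n := max a b) hj hTm
  have h3 : (((max a b) ^ 2 : ℕ) : ℝ) ≤ j * T (msz K q ρ a b) := by
    have h4 : (max a b) ^ 2 ≤ j * T (msz K q ρ a b) := by
      calc (max a b) ^ 2 ≤ T (msz K q ρ a b) := by omega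
        _ ≤ j * T (msz K q ρ a b) := Nat.le_mul_of_pos_left _ hj
    exact_mod_cast h4
  refine h1.trans ?_
  generalize msz K q ρ a b = m at *
  push_cast at h2 h3 ⊢
  rw [mul_assoc]
  apply mul_le_mul_of_nonneg_left _ (by positivity)
  have h5 : (0 : ℝ) ≤ m * Nat.log 2 (max a b) / 2 ^ j := by positivity
  have h6 : (0 : ℝ) ≤ j * T m := by positivity
  have h8 : (0 : ℝ) ≤ 3 * C₁ + 1024 * C₂ + 1000 := by positivity
  have h9 := mul_le_mul_of_nonneg_left h2 h8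
  nlinarith

end

/-! ### The machines built from a multiplying machine -/

/-- **The reduction, square matrices.** From a multiplying machine `A` one obtains a machine
that transposes `n × n` bit matrices in time
`O(j * T_A(1920 n²) + n² log n / 2 ^ j)`, for all `n ≥ 1` and `j ≥ 1`. -/
theorem reduction_sq (A : TM) (hA : Multiplies A) :
    ∃ (B : TM) (C : ℕ), Transposes B ∧ ∀ n j : ℕ, 1 ≤ n → 1 ≤ j →
      (transTime B n : ℝ) ≤
        C * (j * mulTime A (1920 * n ^ 2) + n ^ 2 * Nat.log 2 n / 2 ^ j) := by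
  obtain ⟨swap, C₁, hswap⟩ := exists_swap A hA
  exact machine_sq (fun m hm => (lt_mulTime hA hm).le) hswap naive_spec

/-- **The reduction, rectangular matrices.** -/
theorem reduction_rect (A : TM) (hA : Multiplies A) (K q ρ : ℕ) (hK : 7680 ≤ K) :
    ∃ (B : TM) (C : ℕ), TransposesRect B ∧ ∀ a b j : ℕ, 1 ≤ a → 1 ≤ b → 1 ≤ j →
      (rectTime B a b : ℝ) ≤
        C * (j * mulTime A (msz K q ρ a b) +
          msz K q ρ a b * Nat.log 2 (max a b) / 2 ^ j) := by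
  obtain ⟨swap, C₁, hswap⟩ := exists_swap A hA
  exact machine_rect (fun m hm => (lt_mulTime hA hm).le) hswap naive_spec K q ρ hK

end Vale.Agent.P338
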