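import Mathlib

/-!
# P338: consequences of the reduction for square matrices (real analysis only)
-/

namespace Vale.Agent.P338

theorem natLog_mul_log_two_le {n : ℕ} (hn : 1 ≤ n) :
    (Nat.log 2 n : ℝ) * Real.log 2 ≤ Real.log n := by
  have h1 : (2 : ℝ) ^ Nat.log 2 n ≤ n := by exact_mod_cast Nat.pow_log_le_self 2 (by omega)
  have h2 := Real.log_le_log (by positivity) h1
  rwa [Real.log_pow] at h2

theorem log_size_le {n : ℕ} (hn : 2 ≤ n) :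
    Real.log ((1920 * n ^ 2 : ℕ) : ℝ) ≤ 13 * Real.log n := by
  have hn0 : (0 : ℝ) < n := by exact_mod_cast (by omega : 0 < n)
  have h2n : Real.log 2 ≤ Real.log n :=
    Real.log_le_log (by norm_num) (by exact_mod_cast hn)
  push_cast
  rw [Real.log_mul (by norm_num) (by positivity), Real.log_pow]
  have h1 : Real.log 1920 ≤ 11 * Real.log 2 := by
    have : Real.log ((2 : ℝ) ^ 11) = 11 * Real.log 2 := by rw [Real.log_pow]; norm_num
    rw [← this]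
    exact Real.log_le_log (by norm_num) (by norm_num)
  push_cast
  linarith

/-- A lower bound for transposition gives one for multiplication, pointwise. -/
theorem transfer {TB TA : ℕ → ℕ} {C : ℕ}
    (h : ∀ n j : ℕ, 1 ≤ n → 1 ≤ j →
      (TB n : ℝ) ≤ C * (j * TA (1920 * n ^ 2) + n ^ 2 * Nat.log 2 n / 2 ^ j))
    {c : ℝ} (hc : 0 < c) :
    ∃ c' : ℝ, 0 < c' ∧ ∀ n : ℕ, 2 ≤ n → c * ((n : ℝ) ^ 2 * Real.log n) ≤ TB n →
      c' * (((1920 * n ^ 2 : ℕ) : ℝ) * Real.log ((1920 * n ^ 2 : ℕ) : ℝ)) ≤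
        TA (1920 * n ^ 2) := by
  have hlog2 : 0 < Real.log 2 := Real.log_pos (by norm_num)
  obtain ⟨j, hj⟩ := exists_nat_gt (2 * (C + 1) / (c * Real.log 2))
  obtain ⟨k, hk⟩ : ∃ k, k = j + 1 := ⟨_, rfl⟩
  have hk1 : 1 ≤ k := by omega
  have hpow : 2 * ((C : ℝ) + 1) / (c * Real.log 2) ≤ 2 ^ k := by
    have h1 : (j : ℝ) ≤ 2 ^ j := by exact_mod_cast (Nat.lt_two_pow_self (n := j)).le
    have h2 : (2 : ℝ) ^ j ≤ 2 ^ k := pow_le_pow_right₀ (by norm_num) (by omega)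
    linarith
  have hkpos : (0 : ℝ) < k := by exact_mod_cast hk1
  refine ⟨c / (2 * (C + 1) * k * 24960), by positivity, fun n hn hTB => ?_⟩
  have hn0 : (0 : ℝ) < n := by exact_mod_cast (by omega : 0 < n)
  have hlogn : 0 < Real.log n := Real.log_pos (by exact_mod_cast (by omega : 1 < n))
  have hL := natLog_mul_log_two_le (n := n) (by omega)
  have hsz := log_size_le hn
  have h1 := h n k (by omega) hk1
  set X : ℝ := (n : ℝ) ^ 2 * Real.log n with hX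
  have hX0 : 0 < X := by positivity
  -- the second term of the reduction is at most `c / 2 * X`
  have h2 : ((C : ℝ) + 1) * ((n : ℝ) ^ 2 * Nat.log 2 n / 2 ^ k) ≤ c / 2 * X := by
    have hp : (0 : ℝ) < 2 ^ k := by positivity
    have h3 : 2 * ((C : ℝ) + 1) ≤ 2 ^ k * (c * Real.log 2) := by
      rwa [div_le_iff₀ (by positivity)] at hpow
    have h4 : ((C : ℝ) + 1) * ((n : ℝ) ^ 2 * Nat.log 2 n) ≤ c / 2 * X * 2 ^ k := by
      have h5 : (n : ℝ) ^ 2 * (Nat.log 2 n * Real.log 2) ≤ X :=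
        mul_le_mul_of_nonneg_left hL (by positivity)
      have h6 : 0 ≤ (n : ℝ) ^ 2 * Nat.log 2 n := by positivity
      have h7 : ((C : ℝ) + 1) * ((n : ℝ) ^ 2 * Nat.log 2 n) ≤
          (2 ^ k * (c * Real.log 2)) / 2 * ((n : ℝ) ^ 2 * Nat.log 2 n) :=
        mul_le_mul_of_nonneg_right (by linarith) h6
      have h8 : (2 ^ k * (c * Real.log 2)) / 2 * ((n : ℝ) ^ 2 * Nat.log 2 n) =
          (2 ^ k * c / 2) * ((n : ℝ) ^ 2 * (Nat.log 2 n * Real.log 2)) := by ring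
      have h9 : (2 ^ k * c / 2) * ((n : ℝ) ^ 2 * (Nat.log 2 n * Real.log 2)) ≤
          (2 ^ k * c / 2) * X := mul_le_mul_of_nonneg_left h5 (by positivity)
      calc ((C : ℝ) + 1) * ((n : ℝ) ^ 2 * Nat.log 2 n)
          ≤ (2 ^ k * (c * Real.log 2)) / 2 * ((n : ℝ) ^ 2 * Nat.log 2 n) := h7
        _ = (2 ^ k * c / 2) * ((n : ℝ) ^ 2 * (Nat.log 2 n * Real.log 2)) := h8
        _ ≤ (2 ^ k * c / 2) * X := h9
        _ = c / 2 * X * 2 ^ k := by ring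
    rw [mul_div_assoc', div_le_iff₀ hp]
    exact h4
  have hT0 : (0 : ℝ) ≤ k * TA (1920 * n ^ 2) := by positivity
  have hY0 : (0 : ℝ) ≤ (n : ℝ) ^ 2 * Nat.log 2 n / 2 ^ k := by positivity
  have h3 : c / 2 * X ≤ ((C : ℝ) + 1) * (k * TA (1920 * n ^ 2)) := by
    have h4 : (C : ℝ) * (k * TA (1920 * n ^ 2) + (n : ℝ) ^ 2 * Nat.log 2 n / 2 ^ k) ≤
        ((C : ℝ) + 1) * (k * TA (1920 * n ^ 2) + (n : ℝ) ^ 2 * Nat.log 2 n / 2 ^ k) :=
      mul_le_mul_of_nonneg_right (by linarith) (by positivity)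
    have h5 : c * X ≤ c / 2 * X + ((C : ℝ) + 1) * (k * TA (1920 * n ^ 2)) := by
      calc c * X ≤ TB n := hTB
        _ ≤ ((C : ℝ) + 1) * (k * TA (1920 * n ^ 2) + (n : ℝ) ^ 2 * Nat.log 2 n / 2 ^ k) :=
          h1.trans h4
        _ ≤ c / 2 * X + ((C : ℝ) + 1) * (k * TA (1920 * n ^ 2)) := by
          rw [mul_add]; linarith
    linarith
  have h4 : ((1920 * n ^ 2 : ℕ) : ℝ) * Real.log ((1920 * n ^ 2 : ℕ) : ℝ) ≤ 24960 * X := by
    have h5 : ((1920 * n ^ 2 : ℕ) : ℝ) * Real.log ((1920 * n ^ 2 : ℕ) : ℝ) ≤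
        ((1920 * n ^ 2 : ℕ) : ℝ) * (13 * Real.log n) :=
      mul_le_mul_of_nonneg_left hsz (by positivity)
    refine h5.trans (le_of_eq ?_)
    rw [hX]
    push_cast
    ring
  have h5 : c / (2 * (C + 1) * k * 24960) *
      (((1920 * n ^ 2 : ℕ) : ℝ) * Real.log ((1920 * n ^ 2 : ℕ) : ℝ)) ≤
        c / (2 * (C + 1) * k * 24960) * (24960 * X) :=
    mul_le_mul_of_nonneg_left h4 (by positivity)
  refine h5.trans ?_
  have h6 : c / (2 * (C + 1) * k * 24960) * (24960 * X) =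
      (c / 2 * X) / ((C + 1) * k) := by
    field_simp
  rw [h6, div_le_iff₀ (by positivity)]
  calc c / 2 * X ≤ ((C : ℝ) + 1) * (k * TA (1920 * n ^ 2)) := h3
    _ = TA (1920 * n ^ 2) * ((C + 1) * k) := by ring

/-- The little-o form. -/
theorem isLittleO_transfer {TB TA : ℕ → ℕ} {C : ℕ}
    (h : ∀ n j : ℕ, 1 ≤ n → 1 ≤ j →
      (TB n : ℝ) ≤ C * (j * TA (1920 * n ^ 2) + n ^ 2 * Nat.log 2 n / 2 ^ j))
    (hA : (fun n : ℕ => (TA n : ℝ)) =o[Filter.atTop] fun n : ℕ => (n : ℝ) * Real.log n) :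
    (fun n : ℕ => (TB n : ℝ)) =o[Filter.atTop] fun n : ℕ => (n : ℝ) ^ 2 * Real.log n := by
  rw [Asymptotics.isLittleO_iff]
  intro c hc
  obtain ⟨c', hc', hcc⟩ := transfer h hc
  rw [Asymptotics.isLittleO_iff] at hA
  have h1 := hA (half_pos hc')
  rw [Filter.eventually_atTop] at h1 ⊢
  obtain ⟨N, hN⟩ := h1
  refine ⟨max N 2, fun n hn => ?_⟩
  have hn2 : 2 ≤ n := le_of_max_le_right hn
  have hnN : N ≤ 1920 * n ^ 2 := by
    have h2 : n ≤ n ^ 2 := Nat.le_self_pow (by norm_num) n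
    have h3 : N ≤ n := le_of_max_le_left hn
    omega
  have hlogn : 0 < Real.log n := Real.log_pos (by exact_mod_cast (by omega : 1 < n))
  have hn0 : (0 : ℝ) < n := by exact_mod_cast (by omega : 0 < n)
  rw [Real.norm_of_nonneg (by positivity), Real.norm_of_nonneg (by positivity)]
  by_contra hlt
  rw [not_le] at hlt
  have h2 := hcc n hn2 hlt.le
  have h3 := hN _ hnN
  have h4 : (1 : ℝ) < ((1920 * n ^ 2 : ℕ) : ℝ) := by
    have : 1 ≤ n ^ 2 := Nat.one_le_pow _ _ (by omega)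
    exact_mod_cast (by omega : 1 < 1920 * n ^ 2)
  have h5 : 0 < Real.log ((1920 * n ^ 2 : ℕ) : ℝ) := Real.log_pos h4
  have h6 : 0 < ((1920 * n ^ 2 : ℕ) : ℝ) * Real.log ((1920 * n ^ 2 : ℕ) : ℝ) := by positivity
  rw [Real.norm_of_nonneg (by positivity), Real.norm_of_nonneg h6.le] at h3
  nlinarith

/-- A lower bound at the sizes `1920 n²` gives one in every short interval. -/
theorem window_of_sizes {TA : ℕ → ℕ} {c : ℝ} {N : ℕ}
    (h : ∀ n : ℕ, N ≤ n →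
      c * (((1920 * n ^ 2 : ℕ) : ℝ) * Real.log ((1920 * n ^ 2 : ℕ) : ℝ)) ≤
        TA (1920 * n ^ 2)) :
    ∃ N' : ℕ, ∀ x : ℕ, N' ≤ x → ∃ n : ℕ, x ≤ n ∧ n ≤ x + 100 * Nat.sqrt x ∧
      c * ((n : ℝ) * Real.log n) ≤ TA n := by
  refine ⟨1920 * N ^ 2 + 40000, fun x hx => ?_⟩
  obtain ⟨k, hk⟩ : ∃ k, k = Nat.sqrt (x / 1920) := ⟨_, rfl⟩
  have h1 : k * k ≤ x / 1920 := by rw [hk]; exact Nat.sqrt_le _
  have h2 : x / 1920 < (k + 1) * (k + 1) := by rw [hk]; exact Nat.lt_succ_sqrt _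
  have h3 : 1920 * (k * k) ≤ x := by omega
  have h4 : x < 1920 * ((k + 1) * (k + 1)) := by omega
  have hNk : N ≤ k := by
    rw [hk, Nat.le_sqrt]
    have : N ^ 2 = N * N := sq N
    omega
  have h5 : 43 * k ≤ Nat.sqrt x := by
    rw [Nat.le_sqrt]
    nlinarith
  have h6 : 200 ≤ Nat.sqrt x := by
    rw [Nat.le_sqrt]
    omega
  refine ⟨1920 * (k + 1) ^ 2, ?_, ?_, h (k + 1) (by omega)⟩
  · rw [sq]; omega
  · have h7 : 1920 * (k + 1) ^ 2 = 1920 * (k * k) + 3840 * k + 1920 := by ring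
    omega

/-- A lower bound at the sizes `1920 n²` gives one for the largest value up to any size. -/
theorem sup_of_sizes {TA : ℕ → ℕ} {c : ℝ} (hc : 0 < c) {N : ℕ}
    (h : ∀ n : ℕ, N ≤ n →
      c * (((1920 * n ^ 2 : ℕ) : ℝ) * Real.log ((1920 * n ^ 2 : ℕ) : ℝ)) ≤
        TA (1920 * n ^ 2)) :
    ∃ N' : ℕ, 2 ≤ N' ∧ ∀ x : ℕ, N' ≤ x → ∃ n : ℕ, n ≤ x ∧
      c / 8 * ((x : ℝ) * Real.log x) ≤ TA n := by
  refine ⟨1920 * N ^ 2 + 40000, by omega, fun x hx => ?_⟩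
  obtain ⟨k, hk⟩ : ∃ k, k = Nat.sqrt (x / 1920) := ⟨_, rfl⟩
  have h1 : k * k ≤ x / 1920 := by rw [hk]; exact Nat.sqrt_le _
  have h2 : x / 1920 < (k + 1) * (k + 1) := by rw [hk]; exact Nat.lt_succ_sqrt _
  have h3 : 1920 * (k * k) ≤ x := by omega
  have h4 : x < 1920 * ((k + 1) * (k + 1)) := by omega
  have hNk : N ≤ k := by
    rw [hk, Nat.le_sqrt]
    have : N ^ 2 = N * N := sq N
    omega
  have hk1 : 1 ≤ k := by
    rw [hk, Nat.le_sqrt]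
    omega
  have h5 : x ≤ 4 * (1920 * k ^ 2) := by nlinarith
  refine ⟨1920 * k ^ 2, by rw [sq]; omega, ?_⟩
  refine le_trans ?_ (h k hNk)
  obtain ⟨n, hn⟩ : ∃ n, n = 1920 * k ^ 2 := ⟨_, rfl⟩
  rw [← hn] at h5 ⊢
  have hx0 : (0 : ℝ) < x := by exact_mod_cast (by omega : 0 < x)
  have hn0 : (0 : ℝ) < n := by exact_mod_cast (by omega : 0 < n)
  have h6 : (x : ℝ) ≤ 4 * n := by exact_mod_cast h5
  have hlogx : 0 < Real.log x := Real.log_pos (by exact_mod_cast (by omega : 1 < x))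
  have h7 : Real.log x ≤ 2 * Real.log n := by
    have h8 : (x : ℝ) ≤ (n : ℝ) ^ 2 := by
      have h9 : (4 : ℝ) ≤ n := by exact_mod_cast (by omega : 4 ≤ n)
      nlinarith
    have h10 := Real.log_le_log hx0 h8
    rwa [Real.log_pow, Nat.cast_ofNat] at h10
  have h8 : (x : ℝ) * Real.log x ≤ 4 * n * (2 * Real.log n) :=
    mul_le_mul h6 h7 hlogx.le (by positivity)
  calc c / 8 * ((x : ℝ) * Real.log x) ≤ c / 8 * (4 * n * (2 * Real.log n)) :=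
        mul_le_mul_of_nonneg_left h8 (by positivity)
    _ = c * (n * Real.log n) := by ring

/-- All consequences of a lower bound at the sizes `1920 n²`. -/
theorem forms_of_sizes {TA : ℕ → ℕ}
    (h : ∃ c : ℝ, 0 < c ∧ ∃ N : ℕ, ∀ n : ℕ, N ≤ n →
      c * (((1920 * n ^ 2 : ℕ) : ℝ) * Real.log ((1920 * n ^ 2 : ℕ) : ℝ)) ≤
        TA (1920 * n ^ 2)) :
    ∃ c : ℝ, 0 < c ∧ ∃ N : ℕ, 2 ≤ N ∧
      (∀ n : ℕ, N ≤ n → c * (((1920 * n ^ 2 : ℕ) : ℝ) * Real.log ((1920 * n ^ 2 : ℕ) : ℝ)) ≤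
        TA (1920 * n ^ 2)) ∧
      (∀ x : ℕ, N ≤ x → ∃ n : ℕ, x ≤ n ∧ n ≤ x + 100 * Nat.sqrt x ∧
        c * ((n : ℝ) * Real.log n) ≤ TA n) ∧
      (∀ x : ℕ, N ≤ x → ∃ n : ℕ, n ≤ x ∧ c * ((x : ℝ) * Real.log x) ≤ TA n) ∧
      ((∀ m n : ℕ, m ≤ n → TA m ≤ TA n) →
        ∀ n : ℕ, N ≤ n → c * ((n : ℝ) * Real.log n) ≤ TA n) := by
  obtain ⟨c, hc, N, hN⟩ := h
  obtain ⟨N₁, h₁⟩ := window_of_sizes hN
  obtain ⟨N₂, hN₂, h₂⟩ := sup_of_sizes hc hN
  have hle : c / 8 ≤ c := by linarith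
  refine ⟨c / 8, by positivity, max N (max N₁ N₂), by omega, ?_, ?_, ?_, ?_⟩
  · intro n hn
    exact (mul_le_mul_of_nonneg_right hle (mul_nonneg (Nat.cast_nonneg _)
      (Real.log_natCast_nonneg _))).trans (hN n (by omega))
  · intro x hx
    obtain ⟨n, h3, h4, h5⟩ := h₁ x (by omega)
    exact ⟨n, h3, h4, (mul_le_mul_of_nonneg_right hle (mul_nonneg (Nat.cast_nonneg _)
      (Real.log_natCast_nonneg _))).trans h5⟩
  · intro x hx
    exact h₂ x (by omega)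
  · intro hmono n hn
    obtain ⟨k, h3, h4⟩ := h₂ n (by omega)
    exact h4.trans (by exact_mod_cast hmono k n h3)

end Vale.Agent.P338
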