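import Vale.Agent.P338.Prog

/-!
# P338: basic rules for running stack programs
-/

namespace Vale.Agent.P338

variable {ι Γ : Type}

theorem Runs.mono {p : Prog ι Γ} {s s' : Store ι Γ} {t t' : ℕ} (h : Runs p s s' t)
    (htt : t ≤ t') : Runs p s s' t' := by
  obtain ⟨u, hu, he⟩ := h
  exact ⟨u, hu.trans htt, he⟩

theorem Runs.of_eq {p : Prog ι Γ} {s s' s'' : Store ι Γ} {t : ℕ} (h : Runs p s s' t)
    (hs : s' = s'') : Runs p s s'' t := hs ▸ h

theorem Runs.act (f : (ι → Option Γ) → ι → Op Γ) (s : Store ι Γ) :
    Runs (Prog.act f) s (fun i => (f (tops s) i).app (s i)) 1 :=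
  ⟨1, le_rfl, Exec.act f s⟩

theorem Runs.seq {p q : Prog ι Γ} {s s₁ s₂ : Store ι Γ} {t₁ t₂ : ℕ}
    (h₁ : Runs p s s₁ t₁) (h₂ : Runs q s₁ s₂ t₂) :
    Runs (p.seq q) s s₂ (t₁ + 1 + t₂) := by
  obtain ⟨u, hu, he⟩ := h₁
  obtain ⟨v, hv, hf⟩ := h₂
  exact ⟨u + 1 + v, by omega, Exec.seq he hf⟩

theorem Runs.iteT {c : (ι → Option Γ) → Bool} {p q : Prog ι Γ} {s s' : Store ι Γ} {t : ℕ}
    (hc : c (tops s) = true) (h : Runs p s s' t) : Runs (Prog.ite c p q) s s' (1 + t) := by
  obtain ⟨u, hu, he⟩ := h
  exact ⟨1 + u, by omega, Exec.iteT hc he⟩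

theorem Runs.iteF {c : (ι → Option Γ) → Bool} {p q : Prog ι Γ} {s s' : Store ι Γ} {t : ℕ}
    (hc : c (tops s) = false) (h : Runs q s s' t) : Runs (Prog.ite c p q) s s' (1 + t) := by
  obtain ⟨u, hu, he⟩ := h
  exact ⟨1 + u, by omega, Exec.iteF hc he⟩

theorem Runs.loopF {c : (ι → Option Γ) → Bool} {p : Prog ι Γ} {s : Store ι Γ}
    (hc : c (tops s) = false) : Runs (Prog.loop c p) s s 0 :=
  ⟨0, le_rfl, Exec.loopF hc⟩

theorem Runs.loopT {c : (ι → Option Γ) → Bool} {p : Prog ι Γ} {s s₁ s₂ : Store ι Γ}
    {t₁ t₂ : ℕ} (hc : c (tops s) = true) (h₁ : Runs p s s₁ t₁)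
    (h₂ : Runs (Prog.loop c p) s₁ s₂ t₂) :
    Runs (Prog.loop c p) s s₂ (1 + t₁ + 1 + t₂) := by
  obtain ⟨u, hu, he⟩ := h₁
  obtain ⟨v, hv, hf⟩ := h₂
  exact ⟨1 + u + 1 + v, by omega, Exec.loopT hc he hf⟩

/-- The general rule for loops: `st k` is the store after `k` rounds. -/
theorem Runs.loop_iter {c : (ι → Option Γ) → Bool} {p : Prog ι Γ} (n : ℕ)
    (st : ℕ → Store ι Γ) (t : ℕ → ℕ)
    (hc : ∀ k < n, c (tops (st k)) = true) (hn : c (tops (st n)) = false)
    (hb : ∀ k < n, Runs p (st k) (st (k + 1)) (t k)) :
    Runs (Prog.loop c p) (st 0) (st n) (∑ k ∈ Finset.range n, (t k + 2)) := by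
  induction n generalizing st t with
  | zero => simpa using Runs.loopF (p := p) hn
  | succ n ih =>
    have h := ih (fun k => st (k + 1)) (fun k => t (k + 1))
      (fun k hk => hc (k + 1) (by omega)) hn (fun k hk => hb (k + 1) (by omega))
    have h' := Runs.loopT (hc 0 (by omega)) (hb 0 (by omega)) h
    refine h'.mono ?_
    rw [Finset.sum_range_succ']
    omega

/-- The rule for loops with a uniform bound on the time of a round. -/
theorem Runs.loop_iter_le {c : (ι → Option Γ) → Bool} {p : Prog ι Γ} (n : ℕ)
    (st : ℕ → Store ι Γ) (T : ℕ)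
    (hc : ∀ k < n, c (tops (st k)) = true) (hn : c (tops (st n)) = false)
    (hb : ∀ k < n, Runs p (st k) (st (k + 1)) T) :
    Runs (Prog.loop c p) (st 0) (st n) (n * (T + 2)) := by
  have h := Runs.loop_iter n st (fun _ => T) hc hn hb
  simpa using h

/-- The program that does nothing (in one step). -/
def Prog.skip : Prog ι Γ := Prog.act fun _ _ => Op.keep

theorem Runs.skip (s : Store ι Γ) : Runs Prog.skip s s 1 := Runs.act _ s

section

variable [DecidableEq ι]

/-- Push the symbol `a` on the stack `i`. -/
def Prog.push (i : ι) (a : Γ) : Prog ι Γ :=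
  Prog.act fun _ j => if j = i then Op.push a else Op.keep

theorem Runs.push (i : ι) (a : Γ) (s : Store ι Γ) :
    Runs (Prog.push i a) s (Function.update s i (a :: s i)) 1 := by
  refine (Runs.act _ s).of_eq ?_
  funext j
  by_cases h : j = i
  · subst h; simp
  · simp [h]

/-- Remove the top of the stack `i`. -/
def Prog.pop (i : ι) : Prog ι Γ :=
  Prog.act fun _ j => if j = i then Op.pop else Op.keep

theorem Runs.pop (i : ι) (s : Store ι Γ) :
    Runs (Prog.pop i) s (Function.update s i (s i).tail) 1 := by
  refine (Runs.act _ s).of_eq ?_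
  funext j
  by_cases h : j = i
  · subst h; simp
  · simp [h]

/-- Move the top symbol of the stack `i` to the stack `j`. -/
def Prog.mov (i j : ι) : Prog ι Γ :=
  Prog.act fun tp l =>
    match tp i with
    | none => Op.keep
    | some a => if l = i then Op.pop else if l = j then Op.push a else Op.keep

theorem Runs.mov {i j : ι} (hij : i ≠ j) (s : Store ι Γ) {a : Γ} {l : List Γ}
    (hs : s i = a :: l) :
    Runs (Prog.mov i j) s (Function.update (Function.update s i l) j (a :: s j)) 1 := by
  refine (Runs.act _ s).of_eq ?_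
  funext k
  have htop : tops s i = some a := by simp [hs]
  by_cases h : k = i
  · subst h
    rw [Function.update_of_ne hij, Function.update_self]
    simp [hs]
  · by_cases h' : k = j
    · subst h'
      simp [hs, h]
    · simp [hs, h, h']

/-- The condition that the stack `i` is not empty. -/
def nonempty (i : ι) : (ι → Option Γ) → Bool := fun tp => (tp i).isSome

omit [DecidableEq ι] in
@[simp] theorem nonempty_tops (i : ι) (s : Store ι Γ) :
    nonempty i (tops s) = !(s i).isEmpty := by
  unfold nonempty
  rw [tops_apply]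
  cases s i <;> simp

/-- Reverse the contents of the stack `i` onto the stack `j`; afterwards `i` is empty. -/
def Prog.rev (i j : ι) : Prog ι Γ := Prog.loop (nonempty i) (Prog.mov i j)

theorem Runs.rev {i j : ι} (hij : i ≠ j) (s : Store ι Γ) :
    Runs (Prog.rev i j) s
      (Function.update (Function.update s i []) j ((s i).reverse ++ s j))
      (3 * (s i).length) := by
  induction h : s i generalizing s with
  | nil =>
    have : Function.update (Function.update s i []) j (([] : List Γ).reverse ++ s j) = s := by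
      funext k
      by_cases hk : k = j
      · subst hk; simp
      · rw [Function.update_of_ne hk]
        by_cases hk' : k = i
        · subst hk'; simp [h]
        · rw [Function.update_of_ne hk']
    rw [this]
    exact Runs.loopF (by simp [h])
  | cons a l ih =>
    have h1 := Runs.mov hij s h
    have h2 := ih (Function.update (Function.update s i l) j (a :: s j))
      (by rw [Function.update_of_ne hij, Function.update_self])
    have h3 := Runs.loopT (c := nonempty i) (p := Prog.mov i j) (by simp [h]) h1 h2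
    refine (h3.mono ?_).of_eq ?_
    · simp only [List.length_cons]; omega
    · funext k
      by_cases hk : k = j
      · subst hk; simp
      · rw [Function.update_of_ne hk, Function.update_of_ne hk]
        by_cases hk' : k = i
        · subst hk'; simp
        · rw [Function.update_of_ne hk', Function.update_of_ne hk', Function.update_of_ne hk,
            Function.update_of_ne hk']

end

end Vale.Agent.P338
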