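import Vale.Agent.P338.Iface

/-!
# P338: calling a Turing machine `A` from a stack program, with a clock

Tape `i` of `A` is kept on two stacks: `L i` holds the cells to the left of the head (the
nearest one on top), `R i` holds the cell under the head and the cells to the right of it.
-/

namespace Vale.Agent.P338

/-- The additional stacks used for the simulation of a machine with `k + 1` tapes. -/
inductive AReg (k : ℕ) : Type
  | L (i : Fin (k + 1)) : AReg k
  | R (i : Fin (k + 1)) : AReg k
  | st : AReg k
  | rc : AReg k
  | ic : AReg k
  | tm : AReg k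
deriving DecidableEq

instance (k : ℕ) : Finite (AReg k) := by
  let f : (Fin (k + 1) ⊕ Fin (k + 1)) ⊕ Fin 4 → AReg k := fun u =>
    match u with
    | Sum.inl (Sum.inl i) => AReg.L i
    | Sum.inl (Sum.inr i) => AReg.R i
    | Sum.inr 0 => AReg.st
    | Sum.inr 1 => AReg.rc
    | Sum.inr 2 => AReg.ic
    | Sum.inr 3 => AReg.tm
  refine Finite.of_surjective f ?_
  intro a
  cases a with
  | L i => exact ⟨Sum.inl (Sum.inl i), rfl⟩
  | R i => exact ⟨Sum.inl (Sum.inr i), rfl⟩
  | st => exact ⟨Sum.inr 0, rfl⟩
  | rc => exact ⟨Sum.inr 1, rfl⟩
  | ic => exact ⟨Sum.inr 2, rfl⟩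
  | tm => exact ⟨Sum.inr 3, rfl⟩

/-- A transition of `A`. -/
abbrev TM.Rec (A : TM) : Type := A.Q × (Fin (A.k + 1) → A.Γ × Dir)

/-- The additional symbols used for the simulation of `A`. -/
inductive ASym (A : TM) : Type
  | tp (a : A.Γ) : ASym A
  | qs (q : A.Q) : ASym A
  | rd (r : A.Rec) : ASym A

instance (A : TM) : Finite (ASym A) := by
  have := A.finΓ
  have := A.finQ
  let f : A.Γ ⊕ (A.Q ⊕ A.Rec) → ASym A := fun u =>
    match u with
    | Sum.inl a => ASym.tp a
    | Sum.inr (Sum.inl q) => ASym.qs q
    | Sum.inr (Sum.inr r) => ASym.rd r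
  refine Finite.of_surjective f ?_
  intro a
  cases a with
  | tp a => exact ⟨Sum.inl a, rfl⟩
  | qs q => exact ⟨Sum.inr (Sum.inl q), rfl⟩
  | rd r => exact ⟨Sum.inr (Sum.inr r), rfl⟩

/-! ### The simulated machine as a triple -/

/-- A configuration of `A`, kept on stacks. -/
structure Sim (A : TM) : Type where
  q : A.Q
  L : Fin (A.k + 1) → List A.Γ
  R : Fin (A.k + 1) → List A.Γ

namespace Sim

variable {A : TM}

/-- The configuration described by the stacks. -/
def cfg (S : Sim A) : A.Cfg where
  q := S.q
  tape := fun i p => ((S.L i).reverse ++ S.R i).getD p (A.sym Sym.blank)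
  head := fun i => (S.L i).length

/-- The symbols under the heads. -/
def rd (S : Sim A) : Fin (A.k + 1) → A.Γ := fun i => (S.R i).headD (A.sym Sym.blank)

theorem read_cfg (S : Sim A) : S.cfg.read = S.rd := by
  funext i
  unfold TM.Cfg.read cfg rd
  simp only
  rw [List.getD_append_right _ _ _ _ (by simp)]
  cases S.R i <;> simp

/-- The left stacks after a transition. -/
def nextL (S : Sim A) (r : A.Rec) (i : Fin (A.k + 1)) : List A.Γ :=
  match (r.2 i).2 with
  | Dir.left => (S.L i).tail
  | Dir.stay => S.L i
  | Dir.right => (r.2 i).1 :: S.L i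

/-- The right stacks after a transition. -/
def nextR (S : Sim A) (r : A.Rec) (i : Fin (A.k + 1)) : List A.Γ :=
  match (r.2 i).2 with
  | Dir.left => (S.L i).head?.toList ++ (r.2 i).1 :: (S.R i).tail
  | Dir.stay => (r.2 i).1 :: (S.R i).tail
  | Dir.right => (S.R i).tail

/-- The effect of a transition. -/
def next (S : Sim A) (r : A.Rec) : Sim A where
  q := r.1
  L := S.nextL r
  R := S.nextR r

theorem next_append (S : Sim A) (r : A.Rec) (i : Fin (A.k + 1)) :
    (S.nextL r i).reverse ++ S.nextR r i =
      (S.L i).reverse ++ (r.2 i).1 :: (S.R i).tail := by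
  unfold nextL nextR
  cases (r.2 i).2 with
  | left =>
    cases h : S.L i with
    | nil => simp
    | cons a l => simp
  | stay => rfl
  | right => simp

theorem getD_update {α : Type} (l₁ l₂ : List α) (a d : α) (p : ℕ) :
    (l₁ ++ a :: l₂.tail).getD p d =
      Function.update (fun p => (l₁ ++ l₂).getD p d) l₁.length a p := by
  rcases lt_trichotomy p l₁.length with h | h | h
  · rw [Function.update_of_ne (by omega), List.getD_append _ _ _ _ h,
      List.getD_append _ _ _ _ h]
  · subst h
    rw [Function.update_self, List.getD_append_right _ _ _ _ le_rfl]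
    simp
  · rw [Function.update_of_ne (by omega), List.getD_append_right _ _ _ _ h.le,
      List.getD_append_right _ _ _ _ h.le]
    obtain ⟨k, hk⟩ : ∃ k, p - l₁.length = k + 1 := ⟨p - l₁.length - 1, by omega⟩
    rw [hk, List.getD_cons_succ]
    cases l₂ with
    | nil => simp
    | cons b l => simp

theorem next_cfg (S : Sim A) (r : A.Rec) : (S.next r).cfg = S.cfg.apply r := by
  unfold cfg TM.Cfg.apply next
  simp only [TM.Cfg.mk.injEq, true_and]
  constructor
  · funext i p
    rw [next_append, getD_update, List.length_reverse]
  · funext i
    unfold nextL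
    cases (r.2 i).2 with
    | left => simp [Dir.move]
    | stay => simp [Dir.move]
    | right => simp [Dir.move]

/-- One step of the simulated machine. -/
def step (S : Sim A) : Sim A :=
  match A.δ S.q S.rd with
  | none => S
  | some r => S.next r

theorem step_cfg (S : Sim A) : S.step.cfg = A.next S.cfg := by
  unfold step TM.next
  rw [read_cfg]
  change (match A.δ S.q S.rd with
    | none => S
    | some r => S.next r).cfg = match A.δ S.q S.rd with
    | none => S.cfg
    | some r => S.cfg.apply r
  cases A.δ S.q S.rd with
  | none => rfl
  | some r => exact next_cfg S r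

/-- The number of symbols on the stacks of tape `i`. -/
def size (S : Sim A) (i : Fin (A.k + 1)) : ℕ := (S.L i).length + (S.R i).length

theorem size_next (S : Sim A) (r : A.Rec) (i : Fin (A.k + 1)) :
    (S.next r).size i ≤ S.size i + 1 := by
  have h := congrArg List.length (S.next_append r i)
  simp only [List.length_append, List.length_reverse, List.length_cons, List.length_tail] at h
  unfold size next
  simp only
  omega

theorem size_step (S : Sim A) (i : Fin (A.k + 1)) : S.step.size i ≤ S.size i + 1 := by
  unfold step
  cases A.δ S.q S.rd with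
  | none => simp
  | some r => exact size_next S r i

/-- The initial stacks on the input word `w`. -/
def init (A : TM) (w : List Sym) : Sim A where
  q := A.start
  L := fun _ => []
  R := fun i => if i = 0 then w.map A.sym else []

theorem init_cfg (w : List Sym) : (init A w).cfg = A.init w := by
  unfold init cfg TM.init
  simp only [TM.Cfg.mk.injEq, true_and, List.length_nil, and_true]
  funext i p
  by_cases h : i = 0
  · simp only [h, if_true, List.reverse_nil, List.nil_append]
    rw [List.getD_map]
  · simp [h]

/-- The stacks after `t` steps. -/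
def at' (A : TM) (w : List Sym) (t : ℕ) : Sim A := step^[t] (init A w)

theorem at_succ (w : List Sym) (t : ℕ) : at' A w (t + 1) = (at' A w t).step := by
  unfold at'
  rw [Function.iterate_succ_apply']

theorem at_cfg (w : List Sym) (t : ℕ) : (at' A w t).cfg = A.run w t := by
  induction t with
  | zero => exact init_cfg w
  | succ t ih =>
    rw [at_succ, step_cfg, ih]
    unfold TM.run
    rw [Function.iterate_succ_apply']

theorem at_size (w : List Sym) (t : ℕ) (i : Fin (A.k + 1)) :
    (at' A w t).size i ≤ w.length + t := by
  induction t with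
  | zero =>
    unfold at' init size
    simp only [Function.iterate_zero, id_eq, List.length_nil, zero_add, add_zero]
    split_ifs <;> simp
  | succ t ih =>
    rw [at_succ]
    exact (size_step _ i).trans (by omega)

theorem at_halted (w : List Sym) (t : ℕ) :
    A.δ (at' A w t).q (at' A w t).rd = none ↔ A.Halted (A.run w t) := by
  unfold TM.Halted
  rw [← at_cfg, read_cfg]
  rfl

end Sim

/-! ### The stack program -/

section Program

open Classical

/-- The tape symbol encoded by the top symbol of a stack. -/
def callTapeSym {A : TM} {B : Type} : Option (B ⊕ ASym A) → Option A.Γ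
  | some (Sum.inr (ASym.tp a)) => some a
  | _ => none

/-- The state encoded by the top symbol of a stack. -/
def callStateSym {A : TM} {B : Type} : Option (B ⊕ ASym A) → A.Q
  | some (Sum.inr (ASym.qs q)) => q
  | _ => A.start

/-- The transition encoded by the top symbol of a stack. -/
def callRecSym {A : TM} {B : Type} : Option (B ⊕ ASym A) → Option A.Rec
  | some (Sum.inr (ASym.rd r)) => some r
  | _ => none

variable (A : TM) {G B : Type} [DecidableEq G]

/-- The transition which the simulated machine is about to perform. -/
def callTrans (tp : (G ⊕ AReg A.k) → Option (B ⊕ ASym A)) : Option A.Rec :=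
  A.δ (callStateSym (tp (Sum.inr AReg.st)))
    (fun i => (callTapeSym (tp (Sum.inr (AReg.R i)))).getD (A.sym Sym.blank))

/-- The additional stacks that describe `S`, with `c` on the inner clock. -/
def Sim.areg {A : TM} {B : Type} (S : Sim A) (c : List (B ⊕ ASym A)) :
    AReg A.k → List (B ⊕ ASym A)
  | AReg.L i => (S.L i).map fun a => Sum.inr (ASym.tp a)
  | AReg.R i => (S.R i).map fun a => Sum.inr (ASym.tp a)
  | AReg.st => [Sum.inr (ASym.qs S.q)]
  | AReg.rc => []
  | AReg.ic => c
  | AReg.tm => []

omit [DecidableEq G] in
theorem callTrans_tops (b : G → List (B ⊕ ASym A)) (S : Sim A) (c : List (B ⊕ ASym A)) :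
    callTrans A (tops (Sum.elim b (S.areg c))) = A.δ S.q S.rd := by
  unfold callTrans
  congr 1
  funext i
  simp only [tops_apply, Sum.elim_inr, Sim.areg, Sim.rd]
  cases S.R i <;> simp [callTapeSym]

/-- First part of the simulation of a step; one mark is removed from the inner clock. -/
def callStep1 : Prog (G ⊕ AReg A.k) (B ⊕ ASym A) :=
  Prog.act fun tp j =>
    match j with
    | Sum.inl _ => Op.keep
    | Sum.inr (AReg.L _) => Op.keep
    | Sum.inr (AReg.R _) => Op.pop
    | Sum.inr AReg.st => Op.pop
    | Sum.inr AReg.rc =>
      match callTrans A tp with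
      | some r => Op.push (Sum.inr (ASym.rd r))
      | none => Op.keep
    | Sum.inr AReg.ic => Op.pop
    | Sum.inr AReg.tm => Op.keep

/-- Second part of the simulation of a step. -/
def callStep2 : Prog (G ⊕ AReg A.k) (B ⊕ ASym A) :=
  Prog.act fun tp j =>
    match callRecSym (tp (Sum.inr AReg.rc)) with
    | none => Op.keep
    | some r =>
      match j with
      | Sum.inl _ => Op.keep
      | Sum.inr (AReg.L i) =>
        match (r.2 i).2 with
        | Dir.right => Op.push (Sum.inr (ASym.tp (r.2 i).1))
        | _ => Op.keep
      | Sum.inr (AReg.R i) =>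
        match (r.2 i).2 with
        | Dir.right => Op.keep
        | _ => Op.push (Sum.inr (ASym.tp (r.2 i).1))
      | Sum.inr AReg.st => Op.push (Sum.inr (ASym.qs r.1))
      | Sum.inr AReg.rc => Op.keep
      | Sum.inr AReg.ic => Op.keep
      | Sum.inr AReg.tm => Op.keep

/-- Third part of the simulation of a step. -/
def callStep3 : Prog (G ⊕ AReg A.k) (B ⊕ ASym A) :=
  Prog.act fun tp j =>
    match callRecSym (tp (Sum.inr AReg.rc)) with
    | none => Op.keep
    | some r =>
      match j with
      | Sum.inl _ => Op.keep
      | Sum.inr (AReg.L i) =>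
        match (r.2 i).2 with
        | Dir.left => Op.pop
        | _ => Op.keep
      | Sum.inr (AReg.R i) =>
        match (r.2 i).2 with
        | Dir.left =>
          match callTapeSym (tp (Sum.inr (AReg.L i))) with
          | some a => Op.push (Sum.inr (ASym.tp a))
          | none => Op.keep
        | _ => Op.keep
      | Sum.inr AReg.st => Op.keep
      | Sum.inr AReg.rc => Op.pop
      | Sum.inr AReg.ic => Op.keep
      | Sum.inr AReg.tm => Op.keep

/-- The simulation of a step. -/
def callStep : Prog (G ⊕ AReg A.k) (B ⊕ ASym A) :=
  (callStep1 A).seq ((callStep2 A).seq (callStep3 A))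

omit [DecidableEq G] in
theorem Runs.callStep (b : G → List (B ⊕ ASym A)) (S : Sim A) (c : List (B ⊕ ASym A))
    (r : A.Rec) (h : A.δ S.q S.rd = some r) :
    Runs (callStep A) (Sum.elim b (S.areg c)) (Sum.elim b ((S.next r).areg c.tail)) 5 := by
  -- the store after the first part
  let g₁ : AReg A.k → List (B ⊕ ASym A) := fun a =>
    match a with
    | AReg.L i => (S.L i).map fun a => Sum.inr (ASym.tp a)
    | AReg.R i => (S.R i).tail.map fun a => Sum.inr (ASym.tp a)
    | AReg.st => []
    | AReg.rc => [Sum.inr (ASym.rd r)]
    | AReg.ic => c.tail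
    | AReg.tm => []
  let g₂ : AReg A.k → List (B ⊕ ASym A) := fun a =>
    match a with
    | AReg.L i =>
      match (r.2 i).2 with
      | Dir.right => ((r.2 i).1 :: S.L i).map fun a => Sum.inr (ASym.tp a)
      | _ => (S.L i).map fun a => Sum.inr (ASym.tp a)
    | AReg.R i =>
      match (r.2 i).2 with
      | Dir.right => (S.R i).tail.map fun a => Sum.inr (ASym.tp a)
      | _ => ((r.2 i).1 :: (S.R i).tail).map fun a => Sum.inr (ASym.tp a)
    | AReg.st => [Sum.inr (ASym.qs r.1)]
    | AReg.rc => [Sum.inr (ASym.rd r)]
    | AReg.ic => c.tail
    | AReg.tm => []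
  have h₁ : Runs (callStep1 A) (Sum.elim b (S.areg c)) (Sum.elim b g₁) 1 := by
    refine (Runs.act _ _).of_eq ?_
    funext j
    rcases j with j | (i | i | _ | _ | _ | _)
    · rfl
    · rfl
    · simp [g₁, Sim.areg, List.map_tail]
    · simp [g₁, Sim.areg]
    · simp only [callTrans_tops, h]
      simp [g₁, Sim.areg]
    · simp [g₁, Sim.areg]
    · simp [g₁, Sim.areg]
  have h₂ : Runs (callStep2 A) (Sum.elim b g₁) (Sum.elim b g₂) 1 := by
    refine (Runs.act _ _).of_eq ?_
    have hr : callRecSym (tops (Sum.elim b g₁) (Sum.inr AReg.rc)) = some r := rfl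
    funext j
    simp only [hr]
    rcases j with j | (i | i | _ | _ | _ | _)
    · rfl
    · simp only [g₁, g₂, Sum.elim_inr]
      cases (r.2 i).2 <;> simp
    · simp only [g₁, g₂, Sum.elim_inr]
      cases (r.2 i).2 <;> simp
    · simp [g₁, g₂]
    · simp [g₁, g₂]
    · simp [g₁, g₂]
    · simp [g₁, g₂]
  have h₃ : Runs (callStep3 A) (Sum.elim b g₂) (Sum.elim b ((S.next r).areg c.tail)) 1 := by
    refine (Runs.act _ _).of_eq ?_
    have hr : callRecSym (tops (Sum.elim b g₂) (Sum.inr AReg.rc)) = some r := rfl
    funext j
    simp only [hr]
    rcases j with j | (i | i | _ | _ | _ | _)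
    · rfl
    · simp only [g₂, Sum.elim_inr, Sim.areg, Sim.next, Sim.nextL]
      cases (r.2 i).2 <;> simp
    · simp only [g₂, Sum.elim_inr, Sim.areg, Sim.next, Sim.nextR, tops_apply]
      cases (r.2 i).2 with
      | left => cases S.L i <;> simp [callTapeSym]
      | stay => simp
      | right => simp
    · simp [g₂, Sim.areg, Sim.next]
    · simp [g₂, Sim.areg]
    · simp [g₂, Sim.areg]
    · simp [g₂, Sim.areg]
  exact (h₁.seq (h₂.seq h₃)).mono (by omega)

/-- The inner loop: run `A` until it halts or the inner clock is empty. -/
def callInner : Prog (G ⊕ AReg A.k) (B ⊕ ASym A) :=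
  Prog.loop (fun tp => (tp (Sum.inr AReg.ic)).isSome && (callTrans A tp).isSome) (callStep A)

omit [DecidableEq G] in
theorem Runs.callInner (b : G → List (B ⊕ ASym A)) (w : List Sym) (c : B ⊕ ASym A)
    (t₀ n k : ℕ) (hn : k ≤ n)
    (hr : ∀ t < k, ¬ A.Halted (A.run w (t₀ + t))) (hh : k = n ∨ A.Halted (A.run w (t₀ + k))) :
    Runs (callInner A) (Sum.elim b ((Sim.at' A w t₀).areg (List.replicate n c)))
      (Sum.elim b ((Sim.at' A w (t₀ + k)).areg (List.replicate (n - k) c))) (k * 7) := by
  have h := Runs.loop_iter_le (p := Vale.Agent.P338.callStep A)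
    (c := fun tp => (tp (Sum.inr AReg.ic)).isSome && (callTrans A tp).isSome) k
    (fun j => Sum.elim b ((Sim.at' A w (t₀ + j)).areg (List.replicate (n - j) c))) 5 ?_ ?_ ?_
  · exact h
  · intro j hj
    rw [callTrans_tops]
    have h1 : A.δ (Sim.at' A w (t₀ + j)).q (Sim.at' A w (t₀ + j)).rd ≠ none := by
      rw [Ne, Sim.at_halted]
      exact hr j hj
    obtain ⟨r, hr'⟩ := Option.ne_none_iff_exists'.mp h1
    obtain ⟨u, hu⟩ : ∃ u, n - j = u + 1 := ⟨n - j - 1, by omega⟩
    rw [hr', tops_apply, Sum.elim_inr, hu]
    rfl
  · rw [callTrans_tops, tops_apply, Sum.elim_inr]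
    rcases hh with hh | hh
    · subst hh
      rw [Nat.sub_self]
      rfl
    · rw [← Sim.at_halted] at hh
      rw [hh, Option.isSome_none, Bool.and_false]
  · intro j hj
    have h1 : A.δ (Sim.at' A w (t₀ + j)).q (Sim.at' A w (t₀ + j)).rd ≠ none := by
      rw [Ne, Sim.at_halted]
      exact hr j hj
    obtain ⟨r, hr'⟩ := Option.ne_none_iff_exists'.mp h1
    have h2 := Runs.callStep (B := B) A b (Sim.at' A w (t₀ + j)) (List.replicate (n - j) c) r hr'
    refine h2.of_eq ?_
    obtain ⟨u, hu⟩ : ∃ u, n - j = u + 1 := ⟨n - j - 1, by omega⟩
    have hu' : n - (j + 1) = u := by omega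
    have h3 : Sim.at' A w (t₀ + (j + 1)) = (Sim.at' A w (t₀ + j)).next r := by
      rw [← Nat.add_assoc, Sim.at_succ, Sim.step, hr']
    rw [h3, hu, hu', List.replicate_succ, List.tail_cons]

/-- Move the marks of `cnt` to the temporary stack and to the inner clock. -/
def callRefill1 (cnt : G) (mark : B) : Prog (G ⊕ AReg A.k) (B ⊕ ASym A) :=
  Prog.loop (nonempty (Sum.inl cnt)) (Prog.act fun _ j =>
    if j = Sum.inl cnt then Op.pop
    else if j = Sum.inr AReg.ic then Op.push (Sum.inl mark)
    else if j = Sum.inr AReg.tm then Op.push (Sum.inl mark)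
    else Op.keep)

/-- Move the marks of the temporary stack back to `cnt`. -/
def callRefill2 (cnt : G) (mark : B) : Prog (G ⊕ AReg A.k) (B ⊕ ASym A) :=
  Prog.loop (nonempty (Sum.inr AReg.tm)) (Prog.act fun _ j =>
    if j = Sum.inl cnt then Op.push (Sum.inl mark)
    else if j = Sum.inr AReg.tm then Op.pop
    else Op.keep)

/-- Refill the inner clock with as many marks as there are on `cnt`. -/
def callRefill (cnt : G) (mark : B) : Prog (G ⊕ AReg A.k) (B ⊕ ASym A) :=
  (callRefill1 A cnt mark).seq (callRefill2 A cnt mark)

theorem Runs.callRefill (cnt : G) (mark : B) (n : ℕ) (b : G → List (B ⊕ ASym A)) (S : Sim A)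
    (hb : b cnt = List.replicate n (Sum.inl mark)) :
    Runs (callRefill A cnt mark) (Sum.elim b (S.areg []))
      (Sum.elim b (S.areg (List.replicate n (Sum.inl mark)))) (6 * n + 1) := by
  have h1 := Runs.loop_iter_le (c := nonempty (Sum.inl cnt)) (p := Prog.act fun _ j =>
      if j = Sum.inl cnt then Op.pop
      else if j = Sum.inr AReg.ic then Op.push (Sum.inl mark)
      else if j = Sum.inr AReg.tm then Op.push (Sum.inl mark)
      else Op.keep) n
    (fun k => Sum.elim (Function.update b cnt (List.replicate (n - k) (Sum.inl mark)))
      (Function.update (S.areg (List.replicate k (Sum.inl mark : B ⊕ ASym A))) AReg.tm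
        (List.replicate k (Sum.inl mark)))) 1 ?_ ?_ ?_
  · have h2 := Runs.loop_iter_le (c := nonempty (Sum.inr AReg.tm)) (p := Prog.act fun _ j =>
        if j = Sum.inl cnt then Op.push (Sum.inl mark)
        else if j = Sum.inr AReg.tm then Op.pop
        else Op.keep) n
      (fun k => Sum.elim (Function.update b cnt (List.replicate k (Sum.inl mark)))
        (Function.update (S.areg (List.replicate n (Sum.inl mark : B ⊕ ASym A))) AReg.tm
          (List.replicate (n - k) (Sum.inl mark)))) 1 ?_ ?_ ?_
    · have e0 : (Sum.elim (Function.update b cnt (List.replicate (n - 0) (Sum.inl mark)))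
          (Function.update (S.areg (List.replicate 0 (Sum.inl mark : B ⊕ ASym A))) AReg.tm
            (List.replicate 0 (Sum.inl mark))) : (G ⊕ AReg A.k) → List (B ⊕ ASym A)) =
          Sum.elim b (S.areg []) := by
        rw [Nat.sub_zero, ← hb, Function.update_eq_self]
        congr 1
        funext j
        by_cases hj : j = AReg.tm
        · subst hj; rfl
        · simp [hj]
      have e1 : (Sum.elim (Function.update b cnt (List.replicate n (Sum.inl mark)))
          (Function.update (S.areg (List.replicate n (Sum.inl mark : B ⊕ ASym A))) AReg.tm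
            (List.replicate (n - n) (Sum.inl mark))) : (G ⊕ AReg A.k) → List (B ⊕ ASym A)) =
          Sum.elim b (S.areg (List.replicate n (Sum.inl mark))) := by
        rw [← hb, Function.update_eq_self, Nat.sub_self]
        congr 1
        funext j
        by_cases hj : j = AReg.tm
        · subst hj; rfl
        · simp [hj]
      have e2 : (Sum.elim (Function.update b cnt (List.replicate 0 (Sum.inl mark)))
          (Function.update (S.areg (List.replicate n (Sum.inl mark : B ⊕ ASym A))) AReg.tm
            (List.replicate (n - 0) (Sum.inl mark))) : (G ⊕ AReg A.k) → List (B ⊕ ASym A)) =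
          (Sum.elim (Function.update b cnt (List.replicate (n - n) (Sum.inl mark)))
            (Function.update (S.areg (List.replicate n (Sum.inl mark : B ⊕ ASym A))) AReg.tm
              (List.replicate n (Sum.inl mark)))) := by
        rw [Nat.sub_self, Nat.sub_zero]
      rw [e1, e2] at h2
      rw [e0] at h1
      exact (h1.seq h2).mono (by omega)
    · intro k hk
      obtain ⟨u, hu⟩ : ∃ u, n - k = u + 1 := ⟨n - k - 1, by omega⟩
      rw [nonempty_tops, Sum.elim_inr, Function.update_self, hu]
      rfl
    · rw [nonempty_tops, Sum.elim_inr, Function.update_self, Nat.sub_self]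
      rfl
    · intro k hk
      obtain ⟨u, hu⟩ : ∃ u, n - k = u + 1 := ⟨n - k - 1, by omega⟩
      have hu' : n - (k + 1) = u := by omega
      refine (Runs.act _ _).of_eq ?_
      funext j
      rcases j with j | j
      · by_cases hj : j = cnt
        · subst hj
          simp [List.replicate_succ]
        · simp [hj]
      · by_cases hj : j = AReg.tm
        · subst hj
          simp [hu, hu', List.replicate_succ]
        · simp [hj]
  · intro k hk
    obtain ⟨u, hu⟩ : ∃ u, n - k = u + 1 := ⟨n - k - 1, by omega⟩
    rw [nonempty_tops, Sum.elim_inl, Function.update_self, hu]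
    rfl
  · rw [nonempty_tops, Sum.elim_inl, Function.update_self, Nat.sub_self]
    rfl
  · intro k hk
    obtain ⟨u, hu⟩ : ∃ u, n - k = u + 1 := ⟨n - k - 1, by omega⟩
    have hu' : n - (k + 1) = u := by omega
    refine (Runs.act _ _).of_eq ?_
    funext j
    rcases j with j | j
    · by_cases hj : j = cnt
      · subst hj
        simp [hu, hu', List.replicate_succ]
      · simp [hj]
    · by_cases hj : j = AReg.tm
      · subst hj
        simp [List.replicate_succ]
      · by_cases hj' : j = AReg.ic
        · subst hj'
          simp [Sim.areg, List.replicate_succ]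
        · rcases j with i | i | _ | _ | _ | _
          · simp [Sim.areg]
          · simp [Sim.areg]
          · simp [Sim.areg]
          · simp [Sim.areg]
          · exact absurd rfl hj'
          · exact absurd rfl hj

/-! ### Loading the input -/

/-- The input symbol for the top symbol `c` of a stack of bits. -/
noncomputable def callBitSym (bit : Bool → B) (c : B ⊕ ASym A) : ASym A :=
  ASym.tp (A.sym (Sym.ofBit (decide (c = Sum.inl (bit true)))))

/-- Move the bits of the stack `u` to tape `0`, and put a mark on `cnt` for each of them. -/
noncomputable def callLoad (u cnt : G) (bit : Bool → B) (mark : B) :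
    Prog (G ⊕ AReg A.k) (B ⊕ ASym A) :=
  Prog.loop (nonempty (Sum.inl u)) (Prog.act fun tp j =>
    match tp (Sum.inl u) with
    | none => Op.keep
    | some c =>
      if j = Sum.inl u then Op.pop
      else if j = Sum.inl cnt then Op.push (Sum.inl mark)
      else if j = Sum.inr (AReg.R 0) then Op.push (Sum.inr (callBitSym A bit c))
      else Op.keep)

/-- A list of bits as a list of stack symbols. -/
def callBits (bit : Bool → B) (l : List Bool) : List (B ⊕ ASym A) :=
  l.map fun v => Sum.inl (bit v)

/-- A list of input symbols as a list of stack symbols. -/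
def callTape (l : List Sym) : List (B ⊕ ASym A) :=
  l.map fun a => Sum.inr (ASym.tp (A.sym a))

theorem Runs.callLoad (u cnt : G) (huc : u ≠ cnt) (bit : Bool → B) (hbit : Function.Injective bit)
    (mark : B) (xs : List Bool) (b : G → List (B ⊕ ASym A)) (g : AReg A.k → List (B ⊕ ASym A))
    (hb : b u = callBits A bit xs) :
    Runs (callLoad A u cnt bit mark) (Sum.elim b g)
      (Sum.elim
        (Function.update (Function.update b u []) cnt
          (List.replicate xs.length (Sum.inl mark) ++ b cnt))
        (Function.update g (AReg.R 0) (callTape A (bitWord xs.reverse) ++ g (AReg.R 0))))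
      (3 * xs.length) := by
  induction xs generalizing b g with
  | nil =>
    have hb' : b u = [] := hb
    have h1 : Function.update (Function.update b u []) cnt
        (List.replicate (List.length ([] : List Bool)) (Sum.inl mark) ++ b cnt) = b := by
      simp only [List.length_nil, List.replicate_zero, List.nil_append]
      rw [← hb', Function.update_eq_self, Function.update_eq_self]
    have h2 : Function.update g (AReg.R 0)
        (callTape A (bitWord (List.reverse ([] : List Bool))) ++ g (AReg.R 0)) = g := by
      simp [callTape, bitWord]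
    rw [h1, h2]
    exact Runs.loopF (by simp [hb'])
  | cons v xs ih =>
    have hb' : b u = Sum.inl (bit v) :: callBits A bit xs := hb
    have h1 : Runs (Prog.act fun tp j =>
        match tp (Sum.inl u) with
        | none => Op.keep
        | some c =>
          if j = Sum.inl u then Op.pop
          else if j = Sum.inl cnt then Op.push (Sum.inl mark)
          else if j = Sum.inr (AReg.R 0) then Op.push (Sum.inr (callBitSym A bit c))
          else Op.keep) (Sum.elim b g)
        (Sum.elim
          (Function.update (Function.update b u (callBits A bit xs)) cnt (Sum.inl mark :: b cnt))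
          (Function.update g (AReg.R 0)
            (Sum.inr (ASym.tp (A.sym (Sym.ofBit v))) :: g (AReg.R 0)))) 1 := by
      refine (Runs.act _ _).of_eq ?_
      have ht : tops (Sum.elim b g) (Sum.inl u) = some (Sum.inl (bit v)) := by
        simp [hb']
      have hv : callBitSym A bit (Sum.inl (bit v)) = ASym.tp (A.sym (Sym.ofBit v)) := by
        unfold callBitSym
        cases v with
        | true => simp
        | false =>
          have : bit false ≠ bit true := fun h => by simpa using hbit h
          simp [this]
      funext j
      simp only [ht]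
      rcases j with j | j
      · by_cases hj : j = u
        · subst hj
          simp [hb', Function.update_of_ne huc]
        · by_cases hj' : j = cnt
          · subst hj'
            simp [hj]
          · simp [hj, hj']
      · by_cases hj : j = AReg.R 0
        · subst hj
          simp [hv]
        · simp [hj]
    have h2 := ih
      (Function.update (Function.update b u (callBits A bit xs)) cnt (Sum.inl mark :: b cnt))
      (Function.update g (AReg.R 0) (Sum.inr (ASym.tp (A.sym (Sym.ofBit v))) :: g (AReg.R 0)))
      (by rw [Function.update_of_ne huc, Function.update_self])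
    have h3 := Runs.loopT (c := nonempty (Sum.inl u)) (by simp [hb']) h1 h2
    refine (h3.mono (by simp only [List.length_cons]; omega)).of_eq ?_
    congr 1
    · funext j
      by_cases hj' : j = cnt
      · subst hj'
        simp [List.replicate_succ', List.append_assoc]
      · by_cases hj : j = u
        · subst hj
          simp [hj']
        · simp [hj, hj']
    · funext j
      by_cases hj : j = AReg.R 0
      · subst hj
        simp [callTape, bitWord]
      · simp [hj]

/-- Write the separator and the starting state. -/
def callMid : Prog (G ⊕ AReg A.k) (B ⊕ ASym A) :=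
  Prog.act fun _ j =>
    match j with
    | Sum.inl _ => Op.keep
    | Sum.inr (AReg.R i) => if i = 0 then Op.push (Sum.inr (ASym.tp (A.sym Sym.sep))) else Op.keep
    | Sum.inr AReg.st => Op.push (Sum.inr (ASym.qs A.start))
    | Sum.inr _ => Op.keep

omit [DecidableEq G] in
theorem Runs.callMid (b : G → List (B ⊕ ASym A)) (l : List Sym) :
    Runs (callMid A) (Sum.elim b (Function.update (fun _ => []) (AReg.R 0) (callTape A l)))
      (Sum.elim b ((Sim.init A (Sym.sep :: l)).areg [])) 1 := by
  refine (Runs.act _ _).of_eq ?_
  funext j
  rcases j with j | (i | i | _ | _ | _ | _)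
  · simp
  · simp [Sim.areg, Sim.init]
  · by_cases hi : i = 0
    · subst hi
      simp [Sim.areg, Sim.init, callTape]
    · have : AReg.R i ≠ AReg.R (0 : Fin (A.k + 1)) := fun h => hi (by injection h)
      simp [Sim.areg, Sim.init, hi]
  · simp [Sim.areg, Sim.init]
  · simp [Sim.areg]
  · simp [Sim.areg]
  · simp [Sim.areg]

theorem areg_init_append (u v : List Sym) :
    Function.update ((Sim.init A v).areg []) (AReg.R 0)
        (callTape A u ++ (Sim.init A v).areg [] (AReg.R 0)) =
      ((Sim.init A (u ++ v)).areg [] : AReg A.k → List (B ⊕ ASym A)) := by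
  funext j
  rcases j with (i | i | _ | _ | _ | _)
  · simp [Sim.areg, Sim.init]
  · by_cases hi : i = 0
    · subst hi
      simp [Sim.areg, Sim.init, callTape]
    · have : AReg.R i ≠ AReg.R (0 : Fin (A.k + 1)) := fun h => hi (by injection h)
      simp [Sim.areg, Sim.init, hi]
  · simp [Sim.areg, Sim.init]
  · simp [Sim.areg]
  · simp [Sim.areg]
  · simp [Sim.areg]

/-! ### Reading off the result -/

/-- Move as many symbols of the output tape to `z` as there are marks on `cnt`. -/
noncomputable def callExtract (z cnt : G) (bit : Bool → B) : Prog (G ⊕ AReg A.k) (B ⊕ ASym A) :=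
  Prog.loop (nonempty (Sum.inl cnt)) (Prog.act fun tp j =>
    if j = Sum.inl cnt then Op.pop
    else if j = Sum.inr (AReg.R A.out) then Op.pop
    else if j = Sum.inl z then
      Op.push (Sum.inl (bit (decide (callTapeSym (tp (Sum.inr (AReg.R A.out))) =
        some (A.sym Sym.one)))))
    else Op.keep)

theorem Runs.callExtract (z cnt : G) (hzc : z ≠ cnt) (bit : Bool → B) (c : B ⊕ ASym A)
    (vs : List Bool) (rest : List (B ⊕ ASym A)) (b : G → List (B ⊕ ASym A))
    (g : AReg A.k → List (B ⊕ ASym A)) (hb : b cnt = List.replicate vs.length c)
    (hg : g (AReg.R A.out) = callTape A (bitWord vs) ++ rest) :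
    Runs (callExtract A z cnt bit) (Sum.elim b g)
      (Sum.elim
        (Function.update (Function.update b cnt []) z (callBits A bit vs.reverse ++ b z))
        (Function.update g (AReg.R A.out) rest))
      (3 * vs.length) := by
  induction vs generalizing b g with
  | nil =>
    have hb' : b cnt = [] := hb
    have hg' : g (AReg.R A.out) = rest := hg
    have h1 : Function.update (Function.update b cnt []) z
        (callBits A bit (List.reverse ([] : List Bool)) ++ b z) = b := by
      rw [← hb', Function.update_eq_self]
      simp [callBits]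
    rw [h1, ← hg', Function.update_eq_self]
    exact Runs.loopF (by simp [hb'])
  | cons v vs ih =>
    have hb' : b cnt = c :: List.replicate vs.length c := hb
    have hg' : g (AReg.R A.out) =
        Sum.inr (ASym.tp (A.sym (Sym.ofBit v))) :: (callTape A (bitWord vs) ++ rest) := hg
    have h1 : Runs (Prog.act fun tp j =>
        if j = Sum.inl cnt then Op.pop
        else if j = Sum.inr (AReg.R A.out) then Op.pop
        else if j = Sum.inl z then
          Op.push (Sum.inl (bit (decide (callTapeSym (tp (Sum.inr (AReg.R A.out))) =
            some (A.sym Sym.one)))))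
        else Op.keep) (Sum.elim b g)
        (Sum.elim
          (Function.update (Function.update b cnt (List.replicate vs.length c)) z
            (Sum.inl (bit v) :: b z))
          (Function.update g (AReg.R A.out) (callTape A (bitWord vs) ++ rest))) 1 := by
      refine (Runs.act _ _).of_eq ?_
      have ht : decide (callTapeSym (tops (Sum.elim b g) (Sum.inr (AReg.R A.out))) =
          some (A.sym Sym.one)) = v := by
        rw [tops_apply, Sum.elim_inr, hg', List.head?_cons]
        cases v with
        | true => simp [callTapeSym, Sym.ofBit]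
        | false =>
          simp only [callTapeSym, Sym.ofBit, Option.some.injEq, Bool.false_eq_true, if_false,
            decide_eq_false_iff_not]
          exact fun h => by simpa using A.sym_inj h
      funext j
      simp only [ht]
      rcases j with j | j
      · by_cases hj : j = cnt
        · subst hj
          simp [hb', Function.update_of_ne hzc.symm]
        · by_cases hj' : j = z
          · subst hj'
            simp [hj]
          · simp [hj, hj']
      · by_cases hj : j = AReg.R A.out
        · subst hj
          simp [hg']
        · simp [hj]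
    have h2 := ih
      (Function.update (Function.update b cnt (List.replicate vs.length c)) z
        (Sum.inl (bit v) :: b z))
      (Function.update g (AReg.R A.out) (callTape A (bitWord vs) ++ rest))
      (by rw [Function.update_of_ne hzc.symm, Function.update_self])
      (by rw [Function.update_self])
    have h3 := Runs.loopT (c := nonempty (Sum.inl cnt)) (by simp [hb']) h1 h2
    refine (h3.mono (by simp only [List.length_cons]; omega)).of_eq ?_
    congr 1
    · funext j
      by_cases hj' : j = z
      · subst hj'
        simp [callBits]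
      · by_cases hj : j = cnt
        · subst hj
          simp [hj']
        · simp [hj, hj']
    · rw [Function.update_idem]

/-! ### Cleaning up -/

/-- Empty all stacks of the simulation. -/
noncomputable def callClean : Prog (G ⊕ AReg A.k) (B ⊕ ASym A) :=
  Prog.loop (fun tp => decide (∃ a : AReg A.k, (tp (Sum.inr a)).isSome))
    (Prog.act fun _ j =>
      match j with
      | Sum.inl _ => Op.keep
      | Sum.inr _ => Op.pop)

omit [DecidableEq G] in
theorem Runs.callClean (b : G → List (B ⊕ ASym A)) (N : ℕ) (g : AReg A.k → List (B ⊕ ASym A))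
    (hg : ∀ a, (g a).length ≤ N) :
    Runs (callClean A) (Sum.elim b g) (Sum.elim b fun _ => []) (3 * N) := by
  induction N generalizing g with
  | zero =>
    have h : g = fun _ => [] := by
      funext a
      exact List.eq_nil_of_length_eq_zero (Nat.le_zero.mp (hg a))
    subst h
    exact Runs.loopF (by simp)
  | succ N ih =>
    by_cases h : ∃ a, g a ≠ []
    · obtain ⟨a, ha⟩ := h
      have h1 : Runs (Prog.act fun _ j =>
          match j with
          | Sum.inl _ => Op.keep
          | Sum.inr _ => Op.pop) (Sum.elim b g) (Sum.elim b fun a => (g a).tail) 1 := by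
        refine (Runs.act _ _).of_eq ?_
        funext j
        rcases j with j | j
        · simp
        · simp
      have h2 := ih (fun a => (g a).tail) (fun a => by
        have := hg a
        rw [List.length_tail]
        omega)
      refine (Runs.loopT ?_ h1 h2).mono (by omega)
      rw [decide_eq_true_iff]
      refine ⟨a, ?_⟩
      rw [tops_apply, Sum.elim_inr]
      cases hga : g a with
      | nil => exact absurd hga ha
      | cons c l => rfl
    · have h' : g = fun _ => [] := by
        funext a
        by_contra hne
        exact h ⟨a, hne⟩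
      subst h'
      exact (Runs.loopF (by simp)).mono (by omega)

/-- Remove the marks from a stack. -/
def callClear (u : G) : Prog (G ⊕ AReg A.k) (B ⊕ ASym A) :=
  Prog.loop (nonempty (Sum.inl u)) (Prog.pop (Sum.inl u))

theorem Runs.callClear (u : G) (b : G → List (B ⊕ ASym A)) (g : AReg A.k → List (B ⊕ ASym A)) :
    Runs (callClear A u) (Sum.elim b g) (Sum.elim (Function.update b u []) g)
      (3 * (b u).length) := by
  induction h : b u generalizing b with
  | nil =>
    have e : Function.update b u [] = b := by rw [← h, Function.update_eq_self]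
    rw [e]
    exact (Runs.loopF (by simp [h])).mono (Nat.zero_le _)
  | cons a l ih =>
    have h1 := Runs.pop (Sum.inl u) (Sum.elim b g)
    rw [Sum.elim_inl, h, List.tail_cons, Sum.update_elim_inl] at h1
    have h2 := ih (Function.update b u l) (by rw [Function.update_self])
    refine ((Runs.loopT (c := nonempty (Sum.inl u)) (by simp [h]) h1 h2).mono ?_).of_eq ?_
    · simp only [List.length_cons]; omega
    · rw [Function.update_idem]

end Program

end Vale.Agent.P338
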