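import Vale.Agent.P338.CallB

/-!
# P338: calling the multiplying machine without a clock
-/

namespace Vale.Agent.P338

/-- What is assumed about a program that multiplies two numbers of `m` bits with the help of
the multiplying machine, without a clock. -/
def CallFullSpec {J E : Type} [DecidableEq J] (call : Pr J E) (T : ℕ → ℕ) (C : ℕ) : Prop :=
  ∀ (m : ℕ) (xs ys : List Bool) (s : St J E), 1 ≤ m → xs.length = m → ys.length = m →
    s.Idle → s.Empty [R.AZ, R.CNT, R.CLK] →
    s.at R.AX = bits xs → s.at R.AY = bits ys →
    Runs call s (((s.set R.AX []).set R.AY []).set R.AZ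
      (bits (bitsOf (2 * m) (natOf xs * natOf ys)))) (C * (m + T m))

variable (A : TM)

/-- Run `A` until it halts. -/
def callRun : Pr (AReg A.k) (ASym A) :=
  Prog.loop (fun tp => (callTrans A tp).isSome) (callStep A)

theorem runs_callRun (b : R → List (SSym (ASym A))) (w : List Sym) (hh : A.HaltsOn w) :
    Runs (callRun A) (Sum.elim b ((Sim.init A w).areg []))
      (Sum.elim b ((Sim.at' A w (A.time w)).areg [])) (7 * A.time w) := by
  have hT := A.halted_time hh
  have hnT : ∀ t < A.time w, ¬ A.Halted (A.run w t) := fun t ht => A.not_halted ht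
  have h := Runs.loop_iter_le (p := Vale.Agent.P338.callStep A)
    (c := fun tp => (callTrans A tp).isSome) (A.time w)
    (fun j => Sum.elim b ((Sim.at' A w j).areg [])) 5 ?_ ?_ ?_
  · exact h.mono (by omega)
  · intro j hj
    rw [callTrans_tops]
    have h1 : A.δ (Sim.at' A w j).q (Sim.at' A w j).rd ≠ none := by
      rw [Ne, Sim.at_halted]
      exact hnT j hj
    obtain ⟨r, hr'⟩ := Option.ne_none_iff_exists'.mp h1
    rw [hr']
    rfl
  · rw [callTrans_tops]
    rw [← Sim.at_halted] at hT
    rw [hT]
    rfl
  · intro j hj
    have h1 : A.δ (Sim.at' A w j).q (Sim.at' A w j).rd ≠ none := by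
      rw [Ne, Sim.at_halted]
      exact hnT j hj
    obtain ⟨r, hr'⟩ := Option.ne_none_iff_exists'.mp h1
    have h2 := Runs.callStep (B := Base) A b (Sim.at' A w j) [] r hr'
    refine h2.of_eq ?_
    rw [Sim.at_succ, Sim.step, hr']
    rfl

/-- The program that multiplies with the help of `A`. -/
noncomputable def callFull : Pr (AReg A.k) (ASym A) :=
  (callLoad A R.AY R.CNT Base.bit Base.mark).seq
    ((callMid A).seq
      ((callLoad A R.AX R.CNT Base.bit Base.mark).seq
        ((callRun A).seq (callDone A))))

theorem callFullSpec (hA : Multiplies A) : CallFullSpec (callFull A) (mulTime A) 100 := by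
  intro m xs ys s hm hx hy hidle hemp hax hay
  obtain ⟨b, rfl⟩ : ∃ b : R → List (SSym (ASym A)), s = Sum.elim b (fun _ => []) :=
    ⟨fun r => s (Sum.inl r), by
      funext j
      rcases j with j | j
      · rfl
      · exact hidle j⟩
  have haz : b R.AZ = [] := hemp R.AZ (by simp)
  have hcnt : b R.CNT = [] := hemp R.CNT (by simp)
  have hclk : b R.CLK = [] := hemp R.CLK (by simp)
  replace hax : b R.AX = bits xs := hax
  replace hay : b R.AY = bits ys := hay
  obtain ⟨x, hxw⟩ := exists_ofFn (m := m) xs.reverse (by simp [hx])
  obtain ⟨y, hyw⟩ := exists_ofFn (m := m) ys.reverse (by simp [hy])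
  obtain ⟨w, hw⟩ : ∃ w, w = bitWord xs.reverse ++ Sym.sep :: bitWord ys.reverse := ⟨_, rfl⟩
  have hmi : mulInput x y = w := by rw [hw]; exact mulInput_eq x y xs ys hxw hyw
  have hwr := hA m hm x y
  rw [hmi, hxw, hyw, val_reverse, val_reverse] at hwr
  have htime : A.time w ≤ mulTime A m := by
    rw [← hmi]
    exact time_le_mulTime A x y
  have hwlen : w.length = 2 * m + 1 := by
    rw [hw]
    simp only [bitWord, List.length_append, List.length_map, List.length_reverse,
      List.length_cons]
    omega
  have h1 := Runs.callLoad A R.AY R.CNT (by decide) Base.bit bit_injective Base.mark ys b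
    (fun _ => []) hay
  rw [hcnt, List.append_nil, List.append_nil, hy] at h1
  have h2 := Runs.callMid A (Function.update (Function.update b R.AY []) R.CNT
    (List.replicate m (Sum.inl Base.mark))) (bitWord ys.reverse)
  have h3 := Runs.callLoad A R.AX R.CNT (by decide) Base.bit bit_injective Base.mark xs
    (Function.update (Function.update b R.AY []) R.CNT (List.replicate m (Sum.inl Base.mark)))
    ((Sim.init A (Sym.sep :: bitWord ys.reverse)).areg [])
    (by rw [Function.update_of_ne (by decide), Function.update_of_ne (by decide)]; exact hax)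
  rw [areg_init_append, ← hw, hx] at h3
  generalize hb₂ : (Function.update (Function.update (Function.update (Function.update b R.AY [])
    R.CNT (List.replicate m (Sum.inl Base.mark))) R.AX []) R.CNT
    (List.replicate m (Sum.inl Base.mark) ++ (Function.update (Function.update b R.AY []) R.CNT
    (List.replicate m (Sum.inl Base.mark))) R.CNT) : R → List (SSym (ASym A))) = b₂ at h3
  have hb₂clk : b₂ R.CLK = [] := by
    rw [← hb₂, Function.update_of_ne (by decide), Function.update_of_ne (by decide),
      Function.update_of_ne (by decide), Function.update_of_ne (by decide), hclk]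
  have hb₂az : b₂ R.AZ = [] := by
    rw [← hb₂, Function.update_of_ne (by decide), Function.update_of_ne (by decide),
      Function.update_of_ne (by decide), Function.update_of_ne (by decide), haz]
  have hb₂cnt : b₂ R.CNT = una (2 * m) := by
    rw [← hb₂, Function.update_self, Function.update_self, two_mul]
    exact (List.replicate_add ..).symm
  have h4 := runs_callRun A b₂ w ⟨_, hwr.run_time.1⟩
  have hlenv : (bin (2 * m) (natOf xs * natOf ys)).length = 2 * m := length_bin _ _
  have h5 := runs_callDone A b₂ w (bin (2 * m) (natOf xs * natOf ys)) hwr 0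
    (by rw [hlenv]; exact hb₂cnt) hb₂az
  refine ((h1.seq (h2.seq (h3.seq (h4.seq h5)))).mono ?_).of_eq ?_
  · rw [hb₂clk, hlenv, hwlen]
    simp only [List.length_nil]
    omega
  · rw [bin_reverse, ← hb₂]
    unfold St.set
    rw [Sum.update_elim_inl, Sum.update_elim_inl, Sum.update_elim_inl]
    congr 1
    funext r
    rcases eq_or_ne r R.CNT with rfl | h1
    · simp [hcnt]
    rcases eq_or_ne r R.AX with rfl | h2
    · simp
    rcases eq_or_ne r R.AY with rfl | h3
    · simp
    rcases eq_or_ne r R.CLK with rfl | h4
    · simp [hclk]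
    rcases eq_or_ne r R.AZ with rfl | h6
    · simp
    simp [h1, h2, h3, h4, h6]

end Vale.Agent.P338
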