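import Vale.Agent.P338.Kron2

/-!
# P338: chirps modulo a prime, and the swap of two digits that need not be adjacent
-/

namespace Vale.Agent.P338

/-! ### Chirps in a field -/

theorem two_choose_two (n : ℕ) : (2 : ℤ) * (n.choose 2 : ℕ) = n * (n - 1) := by
  induction n with
  | zero => simp
  | succ n ih =>
    rw [Nat.choose_succ_succ' n 1, Nat.choose_one_right]
    push_cast
    linarith

theorem choose_shift {r ρ i k : ℕ} (hr : r = 2 * ρ) (hi : i ≤ r + k) :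
    (((r + k - i).choose 2 : ℕ) : ℤ) = (k.choose 2 : ℕ) + ((i + 1).choose 2 : ℕ) - k * i +
      r * (r + k - i) - ρ * (r + 1) := by
  have h1 := two_choose_two (r + k - i)
  have h2 := two_choose_two k
  have h3 := two_choose_two (i + 1)
  have h4 : ((r + k - i : ℕ) : ℤ) = (r : ℤ) + k - i := by omega
  have h5 : (r : ℤ) = 2 * ρ := by exact_mod_cast hr
  rw [h4] at h1
  push_cast at h3
  have : (2 : ℤ) * (((r + k - i).choose 2 : ℕ) : ℤ) = 2 * ((k.choose 2 : ℕ) +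
      ((i + 1).choose 2 : ℕ) - k * i + r * (r + k - i) - ρ * (r + 1)) := by
    rw [h1]
    have e : 2 * (((k.choose 2 : ℕ) : ℤ) + ((i + 1).choose 2 : ℕ) - k * i + r * (r + k - i) -
      ρ * (r + 1)) = 2 * ((k.choose 2 : ℕ) : ℤ) + 2 * (((i + 1).choose 2 : ℕ) : ℤ) -
      2 * (k * i) + 2 * (r * (r + k - i)) - (2 * ρ) * (r + 1) := by ring
    rw [e, h2, h3, ← h5]
    ring
  linarith

section

variable {F : Type} [Field F] {u : Fˣ} {r ρ : ℕ}

theorem chirp_kernel (hr : r = 2 * ρ) (hu : u ^ ρ = -1) {i k : ℕ} (hi : i ≤ r + k) :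
    ((u ^ (((r + k - i).choose 2 : ℕ) : ℤ) : Fˣ) : F) =
      -((u ^ (((k.choose 2 : ℕ) : ℤ) + ((i + 1).choose 2 : ℕ) - k * i) : Fˣ) : F) := by
  rw [choose_shift hr hi]
  have hur : u ^ r = 1 := by rw [hr, Nat.mul_comm, pow_mul, hu]; norm_num
  have h1 : u ^ ((r : ℤ) * (r + k - i)) = 1 := by
    rw [zpow_mul, zpow_natCast, hur, one_zpow]
  have hodd : Odd ((r : ℤ) + 1) := ⟨ρ, by rw [hr]; push_cast; ring⟩
  have h2 : u ^ ((ρ : ℤ) * (r + 1)) = -1 := by
    rw [zpow_mul, zpow_natCast, hu, hodd.neg_one_zpow]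
  rw [zpow_sub, zpow_add u _ ((r : ℤ) * (r + k - i)), h1, h2, mul_one]
  simp

/-- Orthogonality. -/
theorem chirp_orth (hu : orderOf u = r) (d : ℤ) :
    ∑ k ∈ Finset.range r, ((u ^ ((k : ℤ) * d) : Fˣ) : F) =
      if (r : ℤ) ∣ d then (r : F) else 0 := by
  have h1 : ∀ k : ℕ, ((u ^ ((k : ℤ) * d) : Fˣ) : F) = ((u ^ d : Fˣ) : F) ^ k := by
    intro k
    rw [← Units.val_pow_eq_pow_val, ← zpow_natCast, ← zpow_mul, mul_comm]
  simp_rw [h1]
  have h2 : u ^ d = 1 ↔ (r : ℤ) ∣ d := by rw [← hu, orderOf_dvd_iff_zpow_eq_one]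
  split
  · next h => rw [h2.2 h]; simp
  · next h =>
    have h3 : ((u ^ d : Fˣ) : F) ≠ 1 := by
      intro h4
      apply h
      rw [← h2]
      ext
      rw [h4, Units.val_one]
    have h5 : ((u ^ d : Fˣ) : F) ^ r = 1 := by
      rw [← Units.val_pow_eq_pow_val, ← zpow_natCast, ← zpow_mul, mul_comm, zpow_mul,
        zpow_natCast, ← hu, pow_orderOf_eq_one, one_zpow, Units.val_one]
    rw [geom_sum_eq h3, h5, sub_self, zero_div]

/-- **The chirp identity.** -/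
theorem chirp_column (hr : r = 2 * ρ) (hr1 : 1 ≤ r) (hu : orderOf u = r) (hρ : u ^ ρ = -1)
    (hrF : (r : F) = -1) (b : ℕ → F) {l e : ℕ} (hl : l < r) (he : e < r) :
    (∑ k ∈ Finset.range r,
        ((∑ i ∈ Finset.range r,
            (b i * ((u ^ (-((((i + 1).choose 2 : ℕ)) : ℤ)) : Fˣ) : F)) *
            ((u ^ (((r + k - i).choose 2 : ℕ) : ℤ) : Fˣ) : F)) *
          ((u ^ ((k : ℤ) * e - k * k) : Fˣ) : F)) *
        ((u ^ (((r + l - k).choose 2 : ℕ) : ℤ) : Fˣ) : F)) *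
      (-((u ^ (-(((l.choose 2 : ℕ)) : ℤ)) : Fˣ) : F)) = b ((e + (r - l)) % r) := by
  have h1 : ∀ k ∈ Finset.range r,
      ((∑ i ∈ Finset.range r,
            (b i * ((u ^ (-((((i + 1).choose 2 : ℕ)) : ℤ)) : Fˣ) : F)) *
            ((u ^ (((r + k - i).choose 2 : ℕ) : ℤ) : Fˣ) : F)) *
          ((u ^ ((k : ℤ) * e - k * k) : Fˣ) : F)) *
        ((u ^ (((r + l - k).choose 2 : ℕ) : ℤ) : Fˣ) : F) =
      ∑ i ∈ Finset.range r, (b i * ((u ^ (((l.choose 2 : ℕ)) : ℤ) : Fˣ) : F)) *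
        ((u ^ ((k : ℤ) * ((e : ℤ) - i - l)) : Fˣ) : F) := by
    intro k hk
    rw [Finset.mem_range] at hk
    rw [chirp_kernel hr hρ (by omega : k ≤ r + l), Finset.sum_mul, Finset.sum_mul]
    refine Finset.sum_congr rfl fun i hi => ?_
    rw [Finset.mem_range] at hi
    rw [chirp_kernel hr hρ (by omega : i ≤ r + k)]
    have e2 := two_choose_two k
    have e3 := two_choose_two (k + 1)
    have e4 : (((k + 1).choose 2 : ℕ) : ℤ) = k * k - ((k.choose 2 : ℕ) : ℤ) := by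
      push_cast at e3 ⊢
      linarith
    have e5 : ((u ^ (-((((i + 1).choose 2 : ℕ)) : ℤ)) : Fˣ) : F) *
        ((u ^ (((k.choose 2 : ℕ) : ℤ) + ((i + 1).choose 2 : ℕ) - k * i) : Fˣ) : F) *
        ((u ^ ((k : ℤ) * e - k * k) : Fˣ) : F) *
        ((u ^ (((l.choose 2 : ℕ) : ℤ) + ((k + 1).choose 2 : ℕ) - l * k) : Fˣ) : F) =
        ((u ^ (((l.choose 2 : ℕ)) : ℤ) : Fˣ) : F) *
        ((u ^ ((k : ℤ) * ((e : ℤ) - i - l)) : Fˣ) : F) := by
      rw [← Units.val_mul, ← Units.val_mul, ← Units.val_mul, ← Units.val_mul, ← zpow_add,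
        ← zpow_add, ← zpow_add, ← zpow_add, e4]
      congr 2
      ring
    calc _ = b i * (((u ^ (-((((i + 1).choose 2 : ℕ)) : ℤ)) : Fˣ) : F) *
        ((u ^ (((k.choose 2 : ℕ) : ℤ) + ((i + 1).choose 2 : ℕ) - k * i) : Fˣ) : F) *
        ((u ^ ((k : ℤ) * e - k * k) : Fˣ) : F) *
        ((u ^ (((l.choose 2 : ℕ) : ℤ) + ((k + 1).choose 2 : ℕ) - l * k) : Fˣ) : F)) := by ring
      _ = _ := by rw [e5]; ring
  rw [Finset.sum_congr rfl h1, Finset.sum_comm]
  have h2 : ∀ i ∈ Finset.range r, ∑ k ∈ Finset.range r,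
      (b i * ((u ^ (((l.choose 2 : ℕ)) : ℤ) : Fˣ) : F)) *
        ((u ^ ((k : ℤ) * ((e : ℤ) - i - l)) : Fˣ) : F) =
      if i = (e + (r - l)) % r then
        (b ((e + (r - l)) % r) * ((u ^ (((l.choose 2 : ℕ)) : ℤ) : Fˣ) : F)) * r else 0 := by
    intro i hi
    rw [Finset.mem_range] at hi
    rw [← Finset.mul_sum, chirp_orth hu]
    have h3 : ((r : ℤ) ∣ (e : ℤ) - i - l) ↔ i = (e + (r - l)) % r := by
      constructor
      · rintro ⟨c, hc⟩
        have hc0 : c = 0 ∨ c = -1 := by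
          have h4 : (r : ℤ) * c < r * 1 := by omega
          have h5 : (r : ℤ) * (-2) < r * c := by omega
          have h6 := lt_of_mul_lt_mul_left h4 (by omega)
          have h7 := lt_of_mul_lt_mul_left h5 (by omega)
          omega
        rcases hc0 with rfl | rfl
        · have : e + (r - l) = i + r := by omega
          rw [this, Nat.add_mod_right, Nat.mod_eq_of_lt hi]
        · have : e + (r - l) = i := by omega
          rw [this, Nat.mod_eq_of_lt hi]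
      · intro h
        rcases lt_or_ge (e + (r - l)) r with h4 | h4
        · rw [Nat.mod_eq_of_lt h4] at h
          exact ⟨-1, by omega⟩
        · have : e + (r - l) = (e - l) + r := by omega
          rw [this, Nat.add_mod_right, Nat.mod_eq_of_lt (by omega)] at h
          exact ⟨0, by omega⟩
    by_cases h4 : i = (e + (r - l)) % r
    · rw [if_pos h4, if_pos (h3.2 h4), ← h4]
    · rw [if_neg h4, if_neg (fun h => h4 (h3.1 h)), mul_zero]
  rw [Finset.sum_congr rfl h2, Finset.sum_ite_eq', if_pos, hrF]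
  · have e6 : ((u ^ (((l.choose 2 : ℕ)) : ℤ) : Fˣ) : F) *
        ((u ^ (-(((l.choose 2 : ℕ)) : ℤ)) : Fˣ) : F) = 1 := by
      rw [← Units.val_mul, ← zpow_add, add_neg_cancel, zpow_zero, Units.val_one]
    calc _ = b ((e + (r - l)) % r) * (((u ^ (((l.choose 2 : ℕ)) : ℤ) : Fˣ) : F) *
        ((u ^ (-(((l.choose 2 : ℕ)) : ℤ)) : Fˣ) : F)) := by ring
      _ = _ := by rw [e6, mul_one]
  · rw [Finset.mem_range]
    exact Nat.mod_lt _ (by omega)

end

/-! ### The swap of the digits `i` and `e` of `(x, i, m, e, t)` -/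

/-- Row `(x, i, m)` is rotated by `i` places towards the high end. -/
def skew5 (r : ℕ) (V : ℕ → ℕ → ℕ → ℕ → ℕ → ℕ) (x i m e t : ℕ) : ℕ :=
  V x i m ((e + (r - i)) % r) t

/-- Row `(x, i, m)` is rotated by `i` places towards the low end. -/
def unskew5 (r : ℕ) (V : ℕ → ℕ → ℕ → ℕ → ℕ → ℕ) (x i m e t : ℕ) : ℕ :=
  V x i m ((e + i) % r) t

/-- All values are multiplied by `f i e` modulo `P`. -/
def mul5 (P : ℕ) (f : ℕ → ℕ → ℕ) (V : ℕ → ℕ → ℕ → ℕ → ℕ → ℕ) (x i m e t : ℕ) : ℕ :=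
  V x i m e t * f i e % P

/-- Convolution along the digit `i` with the kernel `κ`. -/
def conv5 (r : ℕ) (κ : ℕ → ℕ) (V : ℕ → ℕ → ℕ → ℕ → ℕ → ℕ) (x k m e t : ℕ) : ℕ :=
  ∑ i ∈ Finset.range r, V x i m e t * κ (r + k - i)

theorem mul5_lt {P : ℕ} (hP : 1 ≤ P) (f : ℕ → ℕ → ℕ) (V : ℕ → ℕ → ℕ → ℕ → ℕ → ℕ)
    (x i m e t : ℕ) : mul5 P f V x i m e t < P := Nat.mod_lt _ (by omega)

theorem conv5_le {r P : ℕ} {κ : ℕ → ℕ} {V : ℕ → ℕ → ℕ → ℕ → ℕ → ℕ} {x k m e t : ℕ}
    (hκ : ∀ τ < 2 * r, κ τ < P) (hk : k < r) (hV : ∀ i < r, V x i m e t < P) :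
    conv5 r κ V x k m e t ≤ r * (P * P) := by
  unfold conv5
  calc _ ≤ ∑ i ∈ Finset.range r, P * P := by
        refine Finset.sum_le_sum fun i hi => ?_
        rw [Finset.mem_range] at hi
        refine Nat.mul_le_mul (hV i hi).le ?_
        by_cases h : r + k - i < 2 * r
        · exact (hκ _ h).le
        · omega
    _ = r * (P * P) := by rw [Finset.sum_const, Finset.card_range, smul_eq_mul]

/-- The data for the swap modulo a prime `P`: an element `u` of order `r = P - 1`, and the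
numbers `f₁`, `f₂`, `f₃`, `κ` that represent its powers. -/
structure ChirpData (P r : ℕ) (f₁ f₂ f₃ : ℕ → ℕ → ℕ) (κ : ℕ → ℕ) : Prop where
  prime : P.Prime
  two_lt : 2 < P
  hr : r = P - 1
  ex : ∃ u : (ZMod P)ˣ, orderOf u = r ∧
    (∀ i < r, ∀ e < r, ((f₁ i e : ℕ) : ZMod P) =
      ((u ^ (-((((i + 1).choose 2 : ℕ)) : ℤ)) : (ZMod P)ˣ) : ZMod P)) ∧
    (∀ k < r, ∀ e < r, ((f₂ k e : ℕ) : ZMod P) =
      ((u ^ ((k : ℤ) * e - k * k) : (ZMod P)ˣ) : ZMod P)) ∧
    (∀ l < r, ∀ e < r, ((f₃ l e : ℕ) : ZMod P) =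
      -((u ^ (-(((l.choose 2 : ℕ)) : ℤ)) : (ZMod P)ˣ) : ZMod P)) ∧
    (∀ τ < 2 * r, ((κ τ : ℕ) : ZMod P) =
      ((u ^ (((τ.choose 2 : ℕ)) : ℤ) : (ZMod P)ˣ) : ZMod P))

/-- The values computed by the passes of a swap. -/
def swap5 (P r : ℕ) (f₁ f₂ f₃ : ℕ → ℕ → ℕ) (κ : ℕ → ℕ) (V : ℕ → ℕ → ℕ → ℕ → ℕ → ℕ) :
    ℕ → ℕ → ℕ → ℕ → ℕ → ℕ :=
  unskew5 r (mul5 P f₃ (conv5 r κ (mul5 P f₂ (conv5 r κ (mul5 P f₁ (skew5 r V))))))

/-- **Correctness of a swap** of two digits that need not be adjacent. -/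
theorem swap5_spec {P r : ℕ} {f₁ f₂ f₃ : ℕ → ℕ → ℕ} {κ : ℕ → ℕ}
    (D : ChirpData P r f₁ f₂ f₃ κ) {V : ℕ → ℕ → ℕ → ℕ → ℕ → ℕ} {x m t i j : ℕ}
    (hV : V x j m i t < P) (hi : i < r) (hj : j < r) :
    swap5 P r f₁ f₂ f₃ κ V x i m j t = V x j m i t := by
  obtain ⟨hP, h2, hr, u, hord, hf₁, hf₂, hf₃, hκ⟩ := D
  have : Fact P.Prime := ⟨hP⟩
  have hodd : P % 2 = 1 := by
    rcases hP.eq_two_or_odd with h | h
    · omega
    · exact h
  obtain ⟨ρ, hρ⟩ : ∃ ρ, r = 2 * ρ := ⟨r / 2, by omega⟩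
  have hr1 : 1 ≤ r := by omega
  have hrF : ((r : ℕ) : ZMod P) = -1 := by
    rw [hr, Nat.cast_sub (by omega), ZMod.natCast_self]
    simp
  have huρ : u ^ ρ = -1 := by
    have h1 : u ^ ρ * u ^ ρ = 1 := by
      rw [← pow_add, ← Nat.two_mul, ← hρ, ← hord, pow_orderOf_eq_one]
    have h3 : ((u ^ ρ : (ZMod P)ˣ) : ZMod P) * ((u ^ ρ : (ZMod P)ˣ) : ZMod P) = 1 := by
      rw [← Units.val_mul, h1, Units.val_one]
    rcases mul_self_eq_one_iff.1 h3 with h | h
    · exfalso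
      have h4 : u ^ ρ = 1 := by
        ext
        rw [h, Units.val_one]
      have h5 := orderOf_dvd_of_pow_eq_one h4
      rw [hord] at h5
      have := Nat.le_of_dvd (by omega) h5
      omega
    · ext
      rw [h, Units.val_neg, Units.val_one]
  have key : ∀ e < r, ∀ l < r,
      ((mul5 P f₃ (conv5 r κ (mul5 P f₂ (conv5 r κ (mul5 P f₁ (skew5 r V))))) x l m e t : ℕ) :
        ZMod P) = ((skew5 r V x ((e + (r - l)) % r) m e t : ℕ) : ZMod P) := by
    intro e he l hl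
    rw [← chirp_column hρ hr1 hord huρ hrF (fun i => ((skew5 r V x i m e t : ℕ) : ZMod P)) hl
      he]
    simp only [Units.val_zpow_eq_zpow_val] at hf₁ hf₂ hf₃ hκ ⊢
    unfold mul5 conv5
    rw [ZMod.natCast_mod]
    push_cast
    rw [hf₃ l hl e he]
    congr 1
    refine Finset.sum_congr rfl fun k hk => ?_
    rw [Finset.mem_range] at hk
    rw [hκ _ (by omega), ZMod.natCast_mod]
    push_cast
    rw [hf₂ k hk e he]
    congr 2
    refine Finset.sum_congr rfl fun i hi => ?_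
    rw [Finset.mem_range] at hi
    rw [hκ _ (by omega), ZMod.natCast_mod]
    push_cast
    rw [hf₁ i hi e he]
  unfold swap5 unskew5
  have he : (j + i) % r < r := Nat.mod_lt _ (by omega)
  have h6 := key _ he i hi
  have e1 : ((j + i) % r + (r - i)) % r = j := by
    rw [Nat.mod_add_mod, show j + i + (r - i) = j + r by omega, Nat.add_mod_right,
      Nat.mod_eq_of_lt (by omega)]
  have e2 : ((j + i) % r + (r - j)) % r = i := by
    rw [Nat.mod_add_mod, show j + i + (r - j) = i + r by omega, Nat.add_mod_right,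
      Nat.mod_eq_of_lt (by omega)]
  rw [e1] at h6
  have e3 : skew5 r V x j m ((j + i) % r) t = V x j m i t := by
    unfold skew5
    rw [e2]
  rw [e3] at h6
  have h7 := (ZMod.natCast_eq_natCast_iff _ _ _).1 h6
  exact Nat.ModEq.eq_of_lt_of_lt h7 (mul5_lt (by omega) _ _ _ _ _ _ _) hV

/-! ### Lists -/

/-- `h` blocks of `r × y × r × z` slots of `S` bits. -/
def lay5 (h r y z S : ℕ) (V : ℕ → ℕ → ℕ → ℕ → ℕ → ℕ) : List Bool :=
  cat h fun x => cat r fun i => cat y fun m => cat r fun e => cat z fun t =>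
    bitsOf S (V x i m e t)

/-- The values with the last three indices put together. -/
def flat5 (r z : ℕ) (V : ℕ → ℕ → ℕ → ℕ → ℕ → ℕ) (x i c : ℕ) : ℕ :=
  V x i (c / (r * z)) (c / z % r) (c % z)

theorem flat5_eq {r z : ℕ} (V : ℕ → ℕ → ℕ → ℕ → ℕ → ℕ) (x i m : ℕ) {e t : ℕ} (he : e < r)
    (ht : t < z) : flat5 r z V x i (m * (r * z) + (e * z + t)) = V x i m e t := by
  have h1 : e * z + t < r * z := by
    calc e * z + t < e * z + z := by omega
      _ = (e + 1) * z := by ring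
      _ ≤ r * z := Nat.mul_le_mul_right _ he
  have hrz : 0 < r * z := by omega
  have hz : 0 < z := by omega
  have e1 : (m * (r * z) + (e * z + t)) / (r * z) = m := by
    rw [Nat.mul_comm, Nat.mul_add_div hrz, Nat.div_eq_of_lt h1, Nat.add_zero]
  have e2 : (m * (r * z) + (e * z + t)) / z % r = e := by
    rw [show m * (r * z) + (e * z + t) = z * (m * r + e) + t by ring, Nat.mul_add_div hz,
      Nat.div_eq_of_lt ht, Nat.add_zero, Nat.mul_comm, Nat.mul_add_mod, Nat.mod_eq_of_lt he]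
  have e3 : (m * (r * z) + (e * z + t)) % z = t := by
    rw [show m * (r * z) + (e * z + t) = z * (m * r + e) + t by ring, Nat.mul_add_mod,
      Nat.mod_eq_of_lt ht]
  rw [flat5, e1, e2, e3]

theorem lay5_eq (h r y z S : ℕ) (V : ℕ → ℕ → ℕ → ℕ → ℕ → ℕ) :
    lay5 h r y z S V = cat h fun x => cat r fun i => cat (y * (r * z)) fun c =>
      bitsOf S (flat5 r z V x i c) := by
  unfold lay5
  refine cat_congr fun x _ => cat_congr fun i _ => ?_
  rw [cat_mul]
  refine cat_congr fun m _ => ?_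
  rw [cat_mul]
  refine cat_congr fun e he => cat_congr fun t ht => ?_
  rw [flat5_eq V x i m he ht]

theorem conv2_flat5 {r z : ℕ} (κ : ℕ → ℕ) (V : ℕ → ℕ → ℕ → ℕ → ℕ → ℕ) (x k c : ℕ) :
    conv2 r κ (flat5 r z V) x k c = flat5 r z (conv5 r κ V) x k c := rfl

theorem length_lay5 (h r y z S : ℕ) (V : ℕ → ℕ → ℕ → ℕ → ℕ → ℕ) :
    (lay5 h r y z S V).length = h * (r * (y * (r * z)) * S) := by
  rw [lay5_eq]
  exact length_cat_of fun x _ => length_block2 _ _ _ _

/-- A block of `r × y × r × z` slots, as part of the operand of a multiplication. -/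
theorem xaList2_flat5 (h r y z S : ℕ) (V : ℕ → ℕ → ℕ → ℕ → ℕ → ℕ) :
    xaList2 h r (y * (r * z)) S (flat5 r z V) = cat h fun x =>
      (cat r fun i => cat y fun m => cat r fun e => cat z fun t => bitsOf S (V x i m e t)) ++
        List.replicate (2 * (r * (y * (r * z)) * S)) false := by
  unfold xaList2
  refine cat_congr fun x _ => ?_
  congr 1
  have := lay5_eq 1 r y z S fun _ => V x
  unfold lay5 at this
  rw [cat_one, cat_one] at this
  exact this.symm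

/-- **The multiplication by the kernel** for `h` blocks of `r × y × r × z` slots. -/
theorem mul_kernel5 {h r y z S K P : ℕ} {κ : ℕ → ℕ} {V : ℕ → ℕ → ℕ → ℕ → ℕ → ℕ}
    (hr : 1 ≤ r) (hy : 1 ≤ y) (hz : 1 ≤ z) (hP : 1 ≤ P) (hS : r * (P * P) < 2 ^ S)
    (hκ : ∀ τ < 2 * r, κ τ < P)
    (hK : h * (3 * (r * (y * (r * z)) * S)) ≤ K)
    (hV : ∀ x < h, ∀ i < r, ∀ m < y, ∀ e < r, ∀ t < z, V x i m e t < P) :
    ∃ A₁ A₃ : ℕ → List Bool, (∀ a, (A₁ a).length = r * (y * (r * z)) * S) ∧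
      (∀ a, (A₃ a).length = r * (y * (r * z)) * S) ∧
      bitsOf K (natOf (xaList2 h r (y * (r * z)) S (flat5 r z V)) *
        natOf (kerList2 r (y * (r * z)) S κ)) =
        (cat h fun a => A₁ a ++ ((cat r fun k => cat y fun m => cat r fun e => cat z fun t =>
          bitsOf S (conv5 r κ V a k m e t)) ++
          A₃ a)) ++ List.replicate (K - h * (3 * (r * (y * (r * z)) * S))) false := by
  have hs : 1 ≤ y * (r * z) := Nat.mul_pos hy (Nat.mul_pos hr hz)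
  have hPS : P < 2 ^ S := by
    have : P * 1 ≤ P * P := Nat.mul_le_mul_left _ hP
    have : 1 * (P * P) ≤ r * (P * P) := Nat.mul_le_mul_right _ hr
    omega
  have hv : ∀ a < h, ∀ i < r, ∀ c < y * (r * z), flat5 r z V a i c < P := by
    intro a ha i hi c hc
    have hrz : 0 < r * z := Nat.mul_pos hr hz
    refine hV a ha i hi _ ?_ _ (Nat.mod_lt _ hr) _ (Nat.mod_lt _ hz)
    rw [Nat.div_lt_iff_lt_mul hrz]
    exact hc
  obtain ⟨A₁, A₃, h1, h3, h4⟩ := mul_kernel2 (K := K) (h := h) (r := r) (s := y * (r * z))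
    (S := S) (κ := κ) (v := flat5 r z V) hs (fun τ hτ => (hκ τ hτ).trans hPS) hK
    (fun a ha i hi c hc => (hv a ha i hi c hc).trans hPS)
    (fun a ha t c hc => (convPart2_le (fun i hi => (hv a ha i hi c hc).le)
      (fun τ hτ => (hκ τ hτ).le) t).trans_lt hS)
  refine ⟨A₁, A₃, h1, h3, ?_⟩
  rw [h4]
  congr 1
  refine cat_congr fun a _ => ?_
  congr 2
  have := lay5_eq 1 r y z S fun _ => conv5 r κ V a
  unfold lay5 at this
  rw [cat_one, cat_one] at this
  exact this.symm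

end Vale.Agent.P338
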