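import Vale.Agent.P338.GenInst

/-!
# P338: straight-line sequences of simple commands on the stacks
-/

namespace Vale.Agent.P338

variable {J E : Type} [DecidableEq J]

/-- Simple commands. The stacks `S1` and `S2` are used as scratch stacks. -/
inductive Cmd (E : Type) : Type
  | cp : R → R → Cmd E            -- put a copy of `a` on top of `b`
  | push : R → SSym E → Cmd E     -- push a symbol
  | pop : R → Cmd E               -- pop a symbol
  | fill : R → SSym E → R → Cmd E -- `fill u x b`: push `x` on `b` once for every symbol of `u`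
  | rep : R → R → R → Cmd E       -- `rep u a b`: put `|u|` copies of `a` on top of `b`
  | clr : R → Cmd E               -- empty a stack
  | rev : R → R → Cmd E           -- reverse `a` onto `b`, emptying `a`
  | sub : R → R → Cmd E           -- `sub u b`: pop `b` once for every symbol of `u`

/-- The program of a command. -/
def Cmd.prog : Cmd E → Pr J E
  | .cp a b => Prog.copyOnto (rg a) (rg b) (rg R.S1)
  | .push a x => Prog.push (rg a) x
  | .pop a => Prog.pop (rg a)
  | .fill u x b => Prog.fill (rg u) x (rg b) (rg R.S1)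
  | .rep u a b => Prog.repOnto (rg u) (rg a) (rg b) (rg R.S1) (rg R.S2)
  | .clr a => Prog.clear (rg a)
  | .rev a b => Prog.rev (rg a) (rg b)
  | .sub u b => Prog.forr (rg u) (rg R.S1) (Prog.pop (rg b))

/-- The effect of a command. -/
def Cmd.eff : Cmd E → St J E → St J E
  | .cp a b, s => s.set b (s.at a ++ s.at b)
  | .push a x, s => s.set a (x :: s.at a)
  | .pop a, s => s.set a (s.at a).tail
  | .fill u x b, s => s.set b (List.replicate (s.at u).length x ++ s.at b)
  | .rep u a b, s => s.set b (Vale.Agent.P338.rep (s.at u).length (s.at a) ++ s.at b)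
  | .clr a, s => s.set a []
  | .rev a b, s => (s.set a []).set b ((s.at a).reverse ++ s.at b)
  | .sub u b, s => s.set b ((s.at b).drop (s.at u).length)

/-- The condition under which a command works. -/
def Cmd.ok : Cmd E → St J E → Prop
  | .cp a b, s => a ≠ b ∧ a ≠ R.S1 ∧ b ≠ R.S1 ∧ s.at R.S1 = []
  | .push _ _, _ => True
  | .pop _, _ => True
  | .fill u _ b, s => u ≠ b ∧ u ≠ R.S1 ∧ b ≠ R.S1 ∧ s.at R.S1 = [] ∧ ∃ n, s.at u = una n
  | .rep u a b, s => u ≠ a ∧ u ≠ b ∧ u ≠ R.S1 ∧ u ≠ R.S2 ∧ a ≠ b ∧ a ≠ R.S1 ∧ a ≠ R.S2 ∧
      b ≠ R.S1 ∧ b ≠ R.S2 ∧ s.at R.S1 = [] ∧ s.at R.S2 = [] ∧ ∃ n, s.at u = una n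
  | .clr _, _ => True
  | .rev a b, _ => a ≠ b
  | .sub u b, s => u ≠ b ∧ u ≠ R.S1 ∧ b ≠ R.S1 ∧ s.at R.S1 = [] ∧ ∃ n, s.at u = una n

/-- A bound for the time of a command. -/
def Cmd.cost : Cmd E → St J E → ℕ
  | .cp a _, s => 6 * (s.at a).length + 1
  | .push _ _, _ => 1
  | .pop _, _ => 1
  | .fill u _ _, s => 8 * (s.at u).length + 1
  | .rep u a _, s => (s.at u).length * (6 * (s.at a).length + 8) + 1
  | .clr a, s => 3 * (s.at a).length
  | .rev a _, s => 3 * (s.at a).length
  | .sub u _, s => 8 * (s.at u).length + 1

theorem Cmd.runs (c : Cmd E) (s : St J E) (h : c.ok s) :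
    Runs c.prog s (c.eff s) (c.cost s) := by
  cases c with
  | cp a b =>
    obtain ⟨h1, h2, h3, h4⟩ := h
    exact Runs.copyOnto (by simpa using h1) (by simpa using h2) (by simpa using h3) s h4
  | push a x => exact Runs.push (rg a) x s
  | pop a => exact Runs.pop (rg a) s
  | fill u x b =>
    obtain ⟨h1, h2, h3, h4, n, h5⟩ := h
    refine (Runs.fill (u := (rg u : Loc J)) (b := rg b) (t := rg R.S1) (by simpa using h1)
      (by simpa using h2) (by simpa using h3) x mk s n h5 h4).of_eq ?_ |>.mono ?_
    · simp only [Cmd.eff]; rw [h5]; simp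
    · simp only [Cmd.cost]; rw [h5]; simp
  | rep u a b =>
    obtain ⟨h1, h2, h3, h4, h5, h6, h7, h8, h9, h10, h11, n, h12⟩ := h
    refine (Runs.repOnto (u := (rg u : Loc J)) (a := rg a) (b := rg b) (t := rg R.S1)
      (t' := rg R.S2) (by simpa using h1)
      (by simpa using h2) (by simpa using h3) (by simpa using h4) (by simpa using h5)
      (by simpa using h6) (by simpa using h7) (by simpa using h8) (by simpa using h9)
      (by simp) mk s n h12 h10 h11).of_eq ?_ |>.mono ?_
    · simp only [Cmd.eff]; rw [h12]; simp
    · simp only [Cmd.cost]; rw [h12]; simp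
  | clr a => exact Runs.clear (rg a) s
  | rev a b => exact Runs.rev (by simpa [Cmd.ok] using h) s
  | sub u b =>
    obtain ⟨h1, h2, h3, h4, n, h5⟩ := h
    have h := Runs.forr' (u := (rg u : Loc J)) (t := rg R.S1) (by simpa using h2)
      (body := Prog.pop (rg b)) n mk
      (fun k => s.set b ((s.at b).drop k)) (fun _ => 1)
      (fun k _ => by
        simp only [St.at] at h5
        simp [h1, h5, una])
      (fun k _ => by
        simp only [St.at] at h4
        simp [h3.symm, h4])
      (by
        intro k hk l l'
        refine (Runs.pop (rg b) _).of_eq ?_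
        funext m
        simp only [Function.update_apply]
        split_ifs <;> simp_all)
    simp only [Finset.sum_const, Finset.card_range, smul_eq_mul] at h
    have e : s.set b ((s.at b).drop 0) = s := by simp
    rw [e] at h
    refine h.of_eq ?_ |>.mono ?_
    · simp only [Cmd.eff]; rw [h5]; simp
    · simp only [Cmd.cost]; rw [h5]; simp; omega

/-- The program of a list of commands. -/
def cmds : List (Cmd E) → Pr J E
  | [] => Prog.skip
  | c :: L => c.prog.seq (cmds L)

/-- The effect of a list of commands. -/
def effs : List (Cmd E) → St J E → St J E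
  | [], s => s
  | c :: L, s => effs L (c.eff s)

/-- The time of a list of commands. -/
def costs : List (Cmd E) → St J E → ℕ
  | [], _ => 1
  | c :: L, s => c.cost s + 1 + costs L (c.eff s)

/-- The condition under which a list of commands works. -/
def oks : List (Cmd E) → St J E → Prop
  | [], _ => True
  | c :: L, s => c.ok s ∧ oks L (c.eff s)

theorem cmds_spec (L : List (Cmd E)) (s : St J E) (h : oks L s) :
    Runs (cmds L) s (effs L s) (costs L s) := by
  induction L generalizing s with
  | nil => exact Runs.skip s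
  | cons c L ih => exact (c.runs s h.1).seq (ih _ h.2)

@[simp] theorem una_append (m n : ℕ) : (una m ++ una n : List (SSym E)) = una (m + n) := by
  simp [una]

@[simp] theorem una_append' (m n : ℕ) (l : List (SSym E)) :
    (una m ++ (una n ++ l) : List (SSym E)) = una (m + n) ++ l := by
  rw [← List.append_assoc, una_append]

theorem una_nil' : (una 0 : List (SSym E)) = [] := rfl

theorem una_one : (una 1 : List (SSym E)) = [mk] := rfl

@[simp] theorem rep_una (m n : ℕ) : (rep m (una n) : List (SSym E)) = una (m * n) := by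
  simp [rep, una]

theorem exists_una (n : ℕ) : ∃ m, (una n : List (SSym E)) = una m := ⟨n, rfl⟩

end Vale.Agent.P338
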