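import Mathlib

/-!
# P338: structured programs on finitely many stacks, with their running time
-/

namespace Vale.Agent.P338

/-- An elementary operation on one stack. -/
inductive Op (Γ : Type) : Type
  | keep : Op Γ
  | push : Γ → Op Γ
  | pop : Op Γ

/-- The effect of an elementary operation. The head of the list is the top of the stack. -/
def Op.app {Γ : Type} : Op Γ → List Γ → List Γ
  | Op.keep, l => l
  | Op.push a, l => a :: l
  | Op.pop, l => l.tail

@[simp] theorem Op.app_keep {Γ : Type} (l : List Γ) : (Op.keep : Op Γ).app l = l := rfl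
@[simp] theorem Op.app_push {Γ : Type} (a : Γ) (l : List Γ) : (Op.push a).app l = a :: l := rfl
@[simp] theorem Op.app_pop {Γ : Type} (l : List Γ) : (Op.pop : Op Γ).app l = l.tail := rfl

/-- The contents of all stacks. -/
abbrev Store (ι Γ : Type) : Type := ι → List Γ

/-- The top symbols of all stacks (`none` for an empty stack). -/
def tops {ι Γ : Type} (s : Store ι Γ) : ι → Option Γ := fun i => (s i).head?

@[simp] theorem tops_apply {ι Γ : Type} (s : Store ι Γ) (i : ι) :
    tops s i = (s i).head? := rfl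

/-- Structured programs on stacks. -/
inductive Prog (ι Γ : Type) : Type
  | act : ((ι → Option Γ) → ι → Op Γ) → Prog ι Γ
  | seq : Prog ι Γ → Prog ι Γ → Prog ι Γ
  | ite : ((ι → Option Γ) → Bool) → Prog ι Γ → Prog ι Γ → Prog ι Γ
  | loop : ((ι → Option Γ) → Bool) → Prog ι Γ → Prog ι Γ

/-- `Exec p s t s'`: started on the store `s`, the program `p` ends after exactly `t` steps
with the store `s'`. -/
inductive Exec {ι Γ : Type} : Prog ι Γ → Store ι Γ → ℕ → Store ι Γ → Prop
  | act (f : (ι → Option Γ) → ι → Op Γ) (s : Store ι Γ) :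
      Exec (Prog.act f) s 1 (fun i => (f (tops s) i).app (s i))
  | seq {p q : Prog ι Γ} {s s₁ s₂ : Store ι Γ} {t₁ t₂ : ℕ} :
      Exec p s t₁ s₁ → Exec q s₁ t₂ s₂ → Exec (Prog.seq p q) s (t₁ + 1 + t₂) s₂
  | iteT {c : (ι → Option Γ) → Bool} {p q : Prog ι Γ} {s s' : Store ι Γ} {t : ℕ} :
      c (tops s) = true → Exec p s t s' → Exec (Prog.ite c p q) s (1 + t) s'
  | iteF {c : (ι → Option Γ) → Bool} {p q : Prog ι Γ} {s s' : Store ι Γ} {t : ℕ} :
      c (tops s) = false → Exec q s t s' → Exec (Prog.ite c p q) s (1 + t) s'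
  | loopF {c : (ι → Option Γ) → Bool} {p : Prog ι Γ} {s : Store ι Γ} :
      c (tops s) = false → Exec (Prog.loop c p) s 0 s
  | loopT {c : (ι → Option Γ) → Bool} {p : Prog ι Γ} {s s₁ s₂ : Store ι Γ} {t₁ t₂ : ℕ} :
      c (tops s) = true → Exec p s t₁ s₁ → Exec (Prog.loop c p) s₁ t₂ s₂ →
        Exec (Prog.loop c p) s (1 + t₁ + 1 + t₂) s₂

/-- `Runs p s s' t`: started on `s`, the program `p` ends with `s'` after at most `t` steps. -/
def Runs {ι Γ : Type} (p : Prog ι Γ) (s s' : Store ι Γ) (t : ℕ) : Prop :=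
  ∃ t' ≤ t, Exec p s t' s'


end Vale.Agent.P338
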