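import Vale.Agent.P338.Model
import Vale.Agent.P338.Prog

/-!
# P338: compiling stack programs to multitape Turing machines
-/

namespace Vale.Agent.P338

/-! ## Flowcharts -/

/-- A finite control acting on stacks; `none` means that the computation is finished. -/
structure Flow (ι Γ S : Type) : Type where
  start : S
  step : S → (ι → Option Γ) → Option (S × (ι → Op Γ))

/-- `F.Reach n x s y s'`: from the state `x` and the store `s` the flowchart comes after `n` steps
to the state `y` and the store `s'`. -/
inductive Flow.Reach {ι Γ S : Type} (F : Flow ι Γ S) :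
    ℕ → S → Store ι Γ → S → Store ι Γ → Prop
  | refl (x : S) (s : Store ι Γ) : Flow.Reach F 0 x s x s
  | step {n : ℕ} {x y z : S} {s s' : Store ι Γ} {o : ι → Op Γ} :
      F.step x (tops s) = some (y, o) → Flow.Reach F n y (fun i => (o i).app (s i)) z s' →
        Flow.Reach F (n + 1) x s z s'

theorem Flow.Reach.trans {ι Γ S : Type} {F : Flow ι Γ S} {n m : ℕ} {x y z : S}
    {s s' s'' : Store ι Γ} (h : F.Reach n x s y s') (h' : F.Reach m y s' z s'') :
    F.Reach (n + m) x s z s'' := by
  induction h with
  | refl x s => simpa using h'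
  | step hs _ ih =>
    have := Flow.Reach.step hs (ih h')
    have e : ∀ a b : ℕ, a + 1 + b = a + b + 1 := by intros; omega
    rw [e]
    exact this

/-! ## From programs to flowcharts -/

section Conts

variable {ι Γ : Type}

/-- One step on lists of programs to be performed. -/
def stepL : List (Prog ι Γ) → (ι → Option Γ) → Option (List (Prog ι Γ) × (ι → Op Γ))
  | [], _ => none
  | Prog.act f :: K, tp => some (K, f tp)
  | Prog.seq p q :: K, _ => some (p :: q :: K, fun _ => Op.keep)
  | Prog.ite c p q :: K, tp => some (if c tp then p :: K else q :: K, fun _ => Op.keep)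
  | Prog.loop c p :: K, tp =>
      some (if c tp then p :: Prog.loop c p :: K else K, fun _ => Op.keep)

/-- The lists of programs that occur during the execution of `p`, if `K` is to be done
afterwards. -/
def conts : Prog ι Γ → List (Prog ι Γ) → Set (List (Prog ι Γ))
  | Prog.act f, K => {Prog.act f :: K}
  | Prog.seq p q, K => {Prog.seq p q :: K} ∪ (conts p (q :: K) ∪ conts q K)
  | Prog.ite c p q, K => {Prog.ite c p q :: K} ∪ (conts p K ∪ conts q K)
  | Prog.loop c p, K => {Prog.loop c p :: K} ∪ conts p (Prog.loop c p :: K)

theorem finite_conts (p : Prog ι Γ) (K : List (Prog ι Γ)) : (conts p K).Finite := by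
  induction p generalizing K with
  | act f => exact Set.finite_singleton _
  | seq p q ihp ihq => exact (Set.finite_singleton _).union ((ihp _).union (ihq _))
  | ite c p q ihp ihq => exact (Set.finite_singleton _).union ((ihp _).union (ihq _))
  | loop c p ih => exact (Set.finite_singleton _).union (ih _)

theorem self_mem_conts (p : Prog ι Γ) (K : List (Prog ι Γ)) : p :: K ∈ conts p K := by
  cases p <;> simp [conts]

theorem stepL_conts (p : Prog ι Γ) (K L L' : List (Prog ι Γ)) (tp : ι → Option Γ)
    (o : ι → Op Γ) (hL : L ∈ conts p K) (h : stepL L tp = some (L', o)) :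
    L' ∈ conts p K ∪ {K} := by
  induction p generalizing K L with
  | act f =>
    simp only [conts, Set.mem_singleton_iff] at hL
    subst hL
    simp only [stepL, Option.some.injEq, Prod.mk.injEq] at h
    exact Or.inr h.1.symm
  | seq p q ihp ihq =>
    simp only [conts, Set.mem_union, Set.mem_singleton_iff] at hL
    rcases hL with hL | hL | hL
    · subst hL
      simp only [stepL, Option.some.injEq, Prod.mk.injEq] at h
      rw [← h.1]
      exact Or.inl (Or.inr (Or.inl (self_mem_conts _ _)))
    · rcases ihp _ _ hL h with h1 | h1
      · exact Or.inl (Or.inr (Or.inl h1))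
      · rw [Set.mem_singleton_iff.1 h1]
        exact Or.inl (Or.inr (Or.inr (self_mem_conts _ _)))
    · rcases ihq _ _ hL h with h1 | h1
      · exact Or.inl (Or.inr (Or.inr h1))
      · exact Or.inr h1
  | ite c p q ihp ihq =>
    simp only [conts, Set.mem_union, Set.mem_singleton_iff] at hL
    rcases hL with hL | hL | hL
    · subst hL
      simp only [stepL, Option.some.injEq, Prod.mk.injEq] at h
      rw [← h.1]
      by_cases hc : c tp = true
      · simp only [hc, if_true]
        exact Or.inl (Or.inr (Or.inl (self_mem_conts _ _)))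
      · simp only [hc]
        exact Or.inl (Or.inr (Or.inr (self_mem_conts _ _)))
    · rcases ihp _ _ hL h with h1 | h1
      · exact Or.inl (Or.inr (Or.inl h1))
      · exact Or.inr h1
    · rcases ihq _ _ hL h with h1 | h1
      · exact Or.inl (Or.inr (Or.inr h1))
      · exact Or.inr h1
  | loop c p ih =>
    simp only [conts, Set.mem_union, Set.mem_singleton_iff] at hL
    rcases hL with hL | hL
    · subst hL
      simp only [stepL, Option.some.injEq, Prod.mk.injEq] at h
      rw [← h.1]
      by_cases hc : c tp = true
      · simp only [hc, if_true]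
        exact Or.inl (Or.inr (self_mem_conts _ _))
      · simp only [hc]
        exact Or.inr rfl
    · rcases ih _ _ hL h with h1 | h1
      · exact Or.inl (Or.inr h1)
      · rw [Set.mem_singleton_iff.1 h1]
        exact Or.inl (Or.inl rfl)

/-- The finite set of control states of `p`. -/
def points (p : Prog ι Γ) : Set (List (Prog ι Γ)) := conts p [] ∪ {[]}

theorem finite_points (p : Prog ι Γ) : (points p).Finite :=
  (finite_conts p []).union (Set.finite_singleton _)

theorem stepL_points {p : Prog ι Γ} {L L' : List (Prog ι Γ)} {tp : ι → Option Γ}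
    {o : ι → Op Γ} (hL : L ∈ points p) (h : stepL L tp = some (L', o)) : L' ∈ points p := by
  rcases hL with hL | hL
  · exact stepL_conts p [] L L' tp o hL h
  · rw [Set.mem_singleton_iff.1 hL] at h
    simp [stepL] at h

/-- The flowchart of a program. -/
noncomputable def flow (p : Prog ι Γ) : Flow ι Γ (points p) where
  start := ⟨[p], Or.inl (self_mem_conts p [])⟩
  step := fun L tp =>
    match h : stepL L.1 tp with
    | none => none
    | some r => some (⟨r.1, stepL_points L.2 (o := r.2) (by rw [h])⟩, r.2)

theorem flow_step_some {p : Prog ι Γ} {L : List (Prog ι Γ)} (hL : L ∈ points p)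
    {L' : List (Prog ι Γ)} {tp : ι → Option Γ} {o : ι → Op Γ}
    (h : stepL L tp = some (L', o)) :
    (flow p).step ⟨L, hL⟩ tp = some (⟨L', stepL_points hL h⟩, o) := by
  simp only [flow]
  split
  · rename_i h'
    rw [h] at h'
    simp at h'
  · rename_i r h'
    rw [h] at h'
    simp only [Option.some.injEq] at h'
    subst h'
    rfl

theorem flow_step_none {p : Prog ι Γ} (hL : ([] : List (Prog ι Γ)) ∈ points p)
    (tp : ι → Option Γ) : (flow p).step ⟨[], hL⟩ tp = none := by
  simp only [flow]
  split
  · rfl
  · rename_i r h'
    simp [stepL] at h'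

/-- Reachability on lists of programs. -/
theorem flow_reach {p : Prog ι Γ} {q : Prog ι Γ} {s s' : Store ι Γ} {t : ℕ}
    (h : Exec q s t s') :
    ∀ (K : List (Prog ι Γ)) (hK : q :: K ∈ points p), ∃ m ≤ 2 * t + 1, ∃ hK' : K ∈ points p,
      (flow p).Reach m ⟨q :: K, hK⟩ s ⟨K, hK'⟩ s' := by
  induction h with
  | act f s =>
    intro K hK
    have e : stepL (Prog.act f :: K) (tops s) = some (K, f (tops s)) := rfl
    exact ⟨1, by omega, stepL_points hK e,
      Flow.Reach.step (flow_step_some hK e) (Flow.Reach.refl _ _)⟩
  | @seq p' q' s s₁ s₂ t₁ t₂ _ _ ih1 ih2 =>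
    intro K hK
    have e : stepL (Prog.seq p' q' :: K) (tops s) = some (p' :: q' :: K, fun _ => Op.keep) := rfl
    obtain ⟨m1, hm1, hK1, r1⟩ := ih1 (q' :: K) (stepL_points hK e)
    obtain ⟨m2, hm2, hK2, r2⟩ := ih2 K hK1
    refine ⟨m1 + m2 + 1, by omega, hK2, Flow.Reach.step (flow_step_some hK e) ?_⟩
    exact r1.trans r2
  | @iteT c p' q' s s' t hc _ ih =>
    intro K hK
    have e : stepL (Prog.ite c p' q' :: K) (tops s) = some (p' :: K, fun _ => Op.keep) := by
      simp [stepL, hc]
    obtain ⟨m, hm, hK1, r⟩ := ih K (stepL_points hK e)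
    exact ⟨m + 1, by omega, hK1, Flow.Reach.step (flow_step_some hK e) r⟩
  | @iteF c p' q' s s' t hc _ ih =>
    intro K hK
    have e : stepL (Prog.ite c p' q' :: K) (tops s) = some (q' :: K, fun _ => Op.keep) := by
      simp [stepL, hc]
    obtain ⟨m, hm, hK1, r⟩ := ih K (stepL_points hK e)
    exact ⟨m + 1, by omega, hK1, Flow.Reach.step (flow_step_some hK e) r⟩
  | @loopF c p' s hc =>
    intro K hK
    have e : stepL (Prog.loop c p' :: K) (tops s) = some (K, fun _ => Op.keep) := by
      simp [stepL, hc]
    exact ⟨1, by omega, stepL_points hK e,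
      Flow.Reach.step (flow_step_some hK e) (Flow.Reach.refl _ _)⟩
  | @loopT c p' s s₁ s₂ t₁ t₂ hc _ _ ih1 ih2 =>
    intro K hK
    have e : stepL (Prog.loop c p' :: K) (tops s) =
        some (p' :: Prog.loop c p' :: K, fun _ => Op.keep) := by
      simp [stepL, hc]
    obtain ⟨m1, hm1, hK1, r1⟩ := ih1 (Prog.loop c p' :: K) (stepL_points hK e)
    obtain ⟨m2, hm2, hK2, r2⟩ := ih2 K hK1
    refine ⟨m1 + m2 + 1, by omega, hK2, Flow.Reach.step (flow_step_some hK e) ?_⟩
    exact r1.trans r2

end Conts

/-! ## Machines with tapes indexed by a type -/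

/-- A configuration of a machine with tapes indexed by `J`. -/
structure JCfg (J A Q : Type) : Type where
  q : Q
  tape : J → ℕ → A
  head : J → ℕ

/-- One step. -/
def jnext {J A Q : Type} (δ : Q → (J → A) → Option (Q × (J → A × Dir))) (c : JCfg J A Q) :
    JCfg J A Q :=
  match δ c.q (fun j => c.tape j (c.head j)) with
  | none => c
  | some r => ⟨r.1, fun j => Function.update (c.tape j) (c.head j) (r.2 j).1,
      fun j => (r.2 j).2.move (c.head j)⟩

theorem jnext_some {J A Q : Type} {δ : Q → (J → A) → Option (Q × (J → A × Dir))}
    {c : JCfg J A Q} {r : Q × (J → A × Dir)}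
    (h : δ c.q (fun j => c.tape j (c.head j)) = some r) :
    jnext δ c = ⟨r.1, fun j => Function.update (c.tape j) (c.head j) (r.2 j).1,
      fun j => (r.2 j).2.move (c.head j)⟩ := by
  simp only [jnext, h]

/-- The starting configuration. -/
def jinit {ι A Q : Type} (sym : Sym → A) (start : Q) (w : List Sym) :
    JCfg (Option (Option ι)) A Q where
  q := start
  tape := fun j p => if j.isNone then sym (w.getD p Sym.blank) else sym Sym.blank
  head := fun _ => 0

/-- The numbering of the tapes. -/
noncomputable def eqv (ι : Type) [Finite ι] :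
    Fin (Nat.card (Option ι) + 1) ≃ Option (Option ι) :=
  (finSuccEquiv _).trans (Equiv.optionCongr (Finite.equivFin (Option ι)).symm)

theorem eqv_zero (ι : Type) [Finite ι] : eqv ι 0 = none := by
  simp [eqv]

theorem eqv_isNone (ι : Type) [Finite ι] (i : Fin (Nat.card (Option ι) + 1)) :
    (eqv ι i).isNone = true ↔ i = 0 := by
  rw [Option.isNone_iff_eq_none, ← eqv_zero ι]
  exact (eqv ι).injective.eq_iff

/-- The Turing machine of a machine with tapes indexed by `Option (Option ι)`. -/
noncomputable def toTM {ι A Q : Type} [Finite ι] [Finite A] [Finite Q] (sym : Sym → A)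
    (hs : Function.Injective sym) (start : Q)
    (δ : Q → (Option (Option ι) → A) → Option (Q × (Option (Option ι) → A × Dir))) : TM where
  k := Nat.card (Option ι)
  Γ := A
  finΓ := inferInstance
  sym := sym
  sym_inj := hs
  Q := Q
  finQ := inferInstance
  start := start
  δ := fun q a => (δ q (fun j => a ((eqv ι).symm j))).map fun r => (r.1, fun i => r.2 (eqv ι i))
  out := (eqv ι).symm (some none)

section ToTM

variable {ι A Q : Type} [Finite ι] [Finite A] [Finite Q] (sym : Sym → A)
    (hs : Function.Injective sym) (start : Q)
    (δ : Q → (Option (Option ι) → A) → Option (Q × (Option (Option ι) → A × Dir)))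

/-- The configuration of the Turing machine. -/
noncomputable def liftC (c : JCfg (Option (Option ι)) A Q) : (toTM sym hs start δ).Cfg where
  q := c.q
  tape := fun i => c.tape (eqv ι i)
  head := fun i => c.head (eqv ι i)

theorem delta_liftC (c : JCfg (Option (Option ι)) A Q) :
    (toTM sym hs start δ).δ (liftC sym hs start δ c).q (liftC sym hs start δ c).read =
      (δ c.q (fun j => c.tape j (c.head j))).map fun r => (r.1, fun i => r.2 (eqv ι i)) := by
  have e : (fun j => (liftC sym hs start δ c).read ((eqv ι).symm j)) =
      fun j => c.tape j (c.head j) := by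
    funext j
    change c.tape (eqv ι ((eqv ι).symm j)) (c.head (eqv ι ((eqv ι).symm j))) = _
    rw [Equiv.apply_symm_apply]
  change (δ c.q (fun j => (liftC sym hs start δ c).read ((eqv ι).symm j))).map _ = _
  rw [e]

theorem next_liftC (c : JCfg (Option (Option ι)) A Q) :
    (toTM sym hs start δ).next (liftC sym hs start δ c) = liftC sym hs start δ (jnext δ c) := by
  have h := delta_liftC sym hs start δ c
  unfold TM.next jnext
  rw [h]
  cases δ c.q (fun j => c.tape j (c.head j)) with
  | none => rfl
  | some r => rfl

theorem run_liftC (w : List Sym) (t : ℕ) :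
    (toTM sym hs start δ).run w t =
      liftC sym hs start δ ((jnext δ)^[t] (jinit sym start w)) := by
  unfold TM.run
  have h0 : (toTM sym hs start δ).init w = liftC sym hs start δ (jinit sym start w) := by
    unfold TM.init liftC jinit
    congr 1
    funext i p
    have key : ∀ i : Fin (Nat.card (Option ι) + 1),
        (if i = 0 then sym (w.getD p Sym.blank) else sym Sym.blank) =
          if (eqv ι i).isNone = true then sym (w.getD p Sym.blank) else sym Sym.blank := by
      intro i
      by_cases hi : i = 0
      · rw [if_pos hi, if_pos ((eqv_isNone ι i).2 hi)]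
      · rw [if_neg hi, if_neg (fun h => hi ((eqv_isNone ι i).1 h))]
    exact key i
  rw [h0]
  induction t with
  | zero => rfl
  | succ t ih => rw [Function.iterate_succ_apply', Function.iterate_succ_apply', ih, next_liftC]

theorem writes_liftC {w v : List Sym} {t : ℕ}
    (h1 : δ ((jnext δ)^[t] (jinit sym start w)).q (fun j =>
      ((jnext δ)^[t] (jinit sym start w)).tape j (((jnext δ)^[t] (jinit sym start w)).head j)) =
        none)
    (h2 : ∀ i, ((jnext δ)^[t] (jinit sym start w)).tape (some none) i =
      sym (v.getD i Sym.blank)) :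
    (toTM sym hs start δ).WritesExactly w v ∧ (toTM sym hs start δ).time w ≤ t := by
  have hH : (toTM sym hs start δ).Halted ((toTM sym hs start δ).run w t) := by
    unfold TM.Halted
    rw [run_liftC, delta_liftC, h1]
    rfl
  refine ⟨⟨t, hH, ?_⟩, Nat.sInf_le hH⟩
  intro i
  rw [run_liftC]
  have e : eqv ι ((eqv ι).symm (some none)) = some none := Equiv.apply_symm_apply _ _
  change ((jnext δ)^[t] (jinit sym start w)).tape (eqv ι ((eqv ι).symm (some none))) i =
    sym (v.getD i Sym.blank)
  rw [e]
  exact h2 i

end ToTM

/-! ## Stacks on tapes -/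

/-- The alphabet: input symbols, the bottom marker `inr none`, stack symbols. -/
abbrev Al (Γ : Type) : Type := Sym ⊕ Option Γ

/-- The stack `l` is written on the tape from cell `1` on, the head being on the top. -/
def Rep {Γ : Type} : List Γ → (ℕ → Al Γ) → ℕ → Prop
  | [], tp, h => h = 0 ∧ tp 0 = Sum.inr none
  | a :: l, tp, h => ∃ h', h = h' + 1 ∧ tp (h' + 1) = Sum.inr (some a) ∧ Rep l tp h'

theorem Rep.update {Γ : Type} {l : List Γ} {tp : ℕ → Al Γ} {h : ℕ} (hr : Rep l tp h)
    {k : ℕ} (hk : h < k) (x : Al Γ) : Rep l (Function.update tp k x) h := by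
  induction l generalizing h with
  | nil =>
    obtain ⟨h0, h1⟩ := hr
    refine ⟨h0, ?_⟩
    rw [Function.update_of_ne (by omega), h1]
  | cons a l ih =>
    obtain ⟨h', h0, h1, h2⟩ := hr
    refine ⟨h', h0, ?_, ih h2 (by omega)⟩
    rw [Function.update_of_ne (by omega), h1]

/-- The top symbol that is read. -/
def rd {Γ : Type} : Al Γ → Option Γ
  | Sum.inl _ => none
  | Sum.inr a => a

theorem Rep.rd {Γ : Type} {l : List Γ} {tp : ℕ → Al Γ} {h : ℕ} (hr : Rep l tp h) :
    rd (tp h) = l.head? := by
  cases l with
  | nil =>
    obtain ⟨h0, h1⟩ := hr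
    subst h0
    rw [h1]; rfl
  | cons a l =>
    obtain ⟨h', h0, h1, _⟩ := hr
    subst h0
    rw [h1]; rfl

/-! ## The machine of a flowchart -/

/-- States. -/
inductive CQ (ι Γ S : Type) : Type
  | init : CQ ι Γ S
  | read : CQ ι Γ S
  | write : Sym → CQ ι Γ S
  | run : S → CQ ι Γ S
  | wr : S → (ι → Option Γ) → CQ ι Γ S
  | out : CQ ι Γ S

instance {ι Γ S : Type} [Finite ι] [Finite Γ] [Finite S] : Finite (CQ ι Γ S) := by
  let f : CQ ι Γ S → (Unit ⊕ Unit ⊕ Unit) ⊕ Sym ⊕ S ⊕ (S × (ι → Option Γ)) := fun x =>
    match x with
    | CQ.init => Sum.inl (Sum.inl ())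
    | CQ.read => Sum.inl (Sum.inr (Sum.inl ()))
    | CQ.out => Sum.inl (Sum.inr (Sum.inr ()))
    | CQ.write s => Sum.inr (Sum.inl s)
    | CQ.run x => Sum.inr (Sum.inr (Sum.inl x))
    | CQ.wr x g => Sum.inr (Sum.inr (Sum.inr (x, g)))
  apply Finite.of_injective f
  intro x y h
  cases x <;> cases y <;> simp_all [f]

/-- What is to be written in the second half of a step. -/
def Op.toWrite {Γ : Type} : Op Γ → Option Γ
  | Op.push b => some b
  | _ => none

/-- The head move in the first half of a step. -/
def Op.dir {Γ : Type} : Op Γ → Dir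
  | Op.keep => Dir.stay
  | Op.push _ => Dir.right
  | Op.pop => Dir.left

section Machine

variable {ι Γ S : Type} [DecidableEq ι] (F : Flow ι Γ S) (emb : Sym → Γ) (inp outp : ι)

/-- The actions that do nothing. -/
def still (a : Option (Option ι) → Al Γ) : Option (Option ι) → Al Γ × Dir :=
  fun j => (a j, Dir.stay)

open Classical in
/-- The transition function. -/
noncomputable def cdelta : CQ ι Γ S → (Option (Option ι) → Al Γ) →
    Option (CQ ι Γ S × (Option (Option ι) → Al Γ × Dir))
  | CQ.init, a => some (CQ.read, fun j =>
      match j with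
      | some (some _) => (Sum.inr none, Dir.stay)
      | _ => (a j, Dir.stay))
  | CQ.read, a =>
      match a none with
      | Sum.inl Sym.blank => some (CQ.run F.start, still a)
      | Sum.inl s => some (CQ.write s, fun j => (a j, if j = some (some inp) then Dir.right
          else Dir.stay))
      | Sum.inr _ => none
  | CQ.write s, a => some (CQ.read, fun j =>
      if j = some (some inp) then (Sum.inr (some (emb s)), Dir.stay)
      else (a j, if j = none then Dir.right else Dir.stay))
  | CQ.run x, a =>
      match F.step x (fun i => rd (a (some (some i)))) with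
      | none => some (CQ.out, still a)
      | some (y, o) => some (CQ.wr y (fun i => (o i).toWrite), fun j =>
          match j with
          | some (some i) => (a j, (o i).dir)
          | _ => (a j, Dir.stay))
  | CQ.wr y g, a => some (CQ.run y, fun j =>
      match j with
      | some (some i) =>
          match g i with
          | none => (a j, Dir.stay)
          | some b => (Sum.inr (some b), Dir.stay)
      | _ => (a j, Dir.stay))
  | CQ.out, a =>
      match (rd (a (some (some outp)))).bind (Function.partialInv emb) with
      | none => none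
      | some s => some (CQ.out, fun j =>
          if j = some none then (Sum.inl s, Dir.right)
          else (a j, if j = some (some outp) then Dir.left else Dir.stay))

/-- The configuration holds the store `s`, and nothing has been written on the output tape. -/
structure Holds (s : Store ι Γ) (c : JCfg (Option (Option ι)) (Al Γ) (CQ ι Γ S)) : Prop where
  rep : ∀ i, Rep (s i) (c.tape (some (some i))) (c.head (some (some i)))
  out : ∀ p, c.tape (some none) p = Sum.inl Sym.blank
  outh : c.head (some none) = 0

omit [DecidableEq ι] in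
theorem update_same {α : Type} (f : ℕ → α) (k : ℕ) : Function.update f k (f k) = f :=
  Function.update_eq_self k f

/-- The start. -/
theorem step_init (w : List Sym) :
    ∃ c, jnext (cdelta F emb inp outp) (jinit (ι := ι) (A := Al Γ) (Q := CQ ι Γ S) Sum.inl
      CQ.init w) = c ∧ c.q = CQ.read ∧ Holds (fun _ => []) c ∧ c.head none = 0 ∧
      ∀ p, c.tape none p = Sum.inl (w.getD p Sym.blank) := by
  refine ⟨_, rfl, ?_⟩
  rw [jnext_some (r := (CQ.read, _)) rfl]
  refine ⟨rfl, ⟨?_, ?_, ?_⟩, ?_, ?_⟩
  · intro i
    refine ⟨rfl, ?_⟩
    simp [jinit]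
  · intro p
    simp [jinit]
  · rfl
  · rfl
  · intro p
    simp [jinit]

/-- Reading one input symbol. -/
theorem step_read {c : JCfg (Option (Option ι)) (Al Γ) (CQ ι Γ S)} (hq : c.q = CQ.read)
    {st : Store ι Γ} (hh : Holds st c) {x : Sym} (hx : x ≠ Sym.blank)
    (hp : c.tape none (c.head none) = Sum.inl x) :
    ∃ c', (jnext (cdelta F emb inp outp))^[2] c = c' ∧ c'.q = CQ.read ∧
      Holds (Function.update st inp (emb x :: st inp)) c' ∧ c'.head none = c.head none + 1 ∧
      c'.tape none = c.tape none := by
  have h1 : cdelta F emb inp outp c.q (fun j => c.tape j (c.head j)) =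
      some (CQ.write x, fun j => (c.tape j (c.head j),
        if j = some (some inp) then Dir.right else Dir.stay)) := by
    rw [hq]
    simp only [cdelta, hp]
  have e1 : jnext (cdelta F emb inp outp) c = ⟨CQ.write x, c.tape,
      fun j => if j = some (some inp) then c.head j + 1 else c.head j⟩ := by
    rw [jnext_some h1]
    congr 1
    · funext j
      exact update_same _ _
    · funext j
      by_cases hj : j = some (some inp)
      · simp [hj, Dir.move]
      · simp [hj, Dir.move]
  refine ⟨_, rfl, ?_⟩
  rw [Function.iterate_succ_apply, Function.iterate_one, e1, jnext_some (r := (CQ.read, _)) rfl]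
  refine ⟨rfl, ⟨?_, ?_, ?_⟩, ?_, ?_⟩
  · intro i
    by_cases hi : i = inp
    · subst hi
      rw [Function.update_self]
      refine ⟨c.head (some (some i)), ?_, ?_, ?_⟩
      · simp [Dir.move]
      · simp
      · simp only [if_true]
        exact (hh.rep i).update (by omega) _
    · rw [Function.update_of_ne hi]
      simp only [Option.some.injEq, hi, if_false, reduceCtorEq, Dir.move]
      rw [update_same]
      exact hh.rep i
  · intro p
    simp only [Option.some.injEq, reduceCtorEq, if_false]
    rw [update_same]
    exact hh.out p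
  · simp only [Option.some.injEq, reduceCtorEq, if_false, Dir.move]
    exact hh.outh
  · simp [Dir.move]
  · simp

/-- The end of the input. -/
theorem step_read_end {c : JCfg (Option (Option ι)) (Al Γ) (CQ ι Γ S)} (hq : c.q = CQ.read)
    {st : Store ι Γ} (hh : Holds st c)
    (hp : c.tape none (c.head none) = Sum.inl Sym.blank) :
    ∃ c', jnext (cdelta F emb inp outp) c = c' ∧ c'.q = CQ.run F.start ∧ Holds st c' := by
  have h1 : cdelta F emb inp outp c.q (fun j => c.tape j (c.head j)) =
      some (CQ.run F.start, still (fun j => c.tape j (c.head j))) := by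
    rw [hq]
    simp only [cdelta, hp]
  refine ⟨_, rfl, ?_⟩
  rw [jnext_some h1]
  refine ⟨rfl, ⟨?_, ?_, ?_⟩⟩
  · intro i
    simp only [still, Dir.move]
    rw [update_same]
    exact hh.rep i
  · intro p
    simp only [still]
    rw [update_same]
    exact hh.out p
  · exact hh.outh

/-- The input phase. -/
theorem read_phase (w rest : List Sym) : ∀ (c : JCfg (Option (Option ι)) (Al Γ) (CQ ι Γ S))
    (_ : c.q = CQ.read) (l : List Γ)
    (_ : Holds (Function.update (fun _ => []) inp l) c)
    (_ : ∀ p, c.tape none p = Sum.inl (w.getD p Sym.blank))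
    (_ : w.drop (c.head none) = rest) (_ : Sym.blank ∉ w),
    ∃ c', (jnext (cdelta F emb inp outp))^[2 * rest.length + 1] c = c' ∧
      c'.q = CQ.run F.start ∧
      Holds (Function.update (fun _ => []) inp ((rest.map emb).reverse ++ l)) c' := by
  induction rest with
  | nil =>
    intro c hq l hh ht hd hb
    have hp : c.tape none (c.head none) = Sum.inl Sym.blank := by
      rw [ht]
      have : w.length ≤ c.head none := List.drop_eq_nil_iff.1 hd
      rw [List.getD_eq_default _ _ this]
    obtain ⟨c', h1, h2, h3⟩ := step_read_end F emb inp outp hq hh hp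
    exact ⟨c', by simpa using h1, h2, by simpa using h3⟩
  | cons x rest ih =>
    intro c hq l hh ht hd hb
    have hlt : c.head none < w.length := by
      by_contra hcon
      rw [List.drop_eq_nil_of_le (by omega)] at hd
      simp at hd
    have hx : w.getD (c.head none) Sym.blank = x := by
      rw [List.getD_eq_getElem _ _ hlt]
      have := List.drop_eq_getElem_cons hlt
      rw [hd] at this
      simp only [List.cons.injEq] at this
      exact this.1.symm
    have hxb : x ≠ Sym.blank := by
      intro h
      apply hb
      rw [← h, ← hx, List.getD_eq_getElem _ _ hlt]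
      exact List.getElem_mem hlt
    obtain ⟨c1, h1, h2, h3, h4, h5⟩ := step_read F emb inp outp hq hh hxb (by rw [ht, hx])
    have hd' : w.drop (c1.head none) = rest := by
      rw [h4]
      have := List.drop_eq_getElem_cons hlt
      rw [hd] at this
      simp only [List.cons.injEq] at this
      exact this.2.symm
    rw [Function.update_idem, Function.update_self] at h3
    obtain ⟨c', h6, h7, h8⟩ := ih c1 h2 _ h3 (by rw [h5]; exact ht) hd' hb
    refine ⟨c', ?_, h7, ?_⟩
    · rw [show 2 * (x :: rest).length + 1 = (2 * rest.length + 1) + 2 by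
        simp only [List.length_cons]; omega, Function.iterate_add_apply, h1, h6]
    · simpa using h8

/-- One step of the flowchart. -/
theorem step_run {c : JCfg (Option (Option ι)) (Al Γ) (CQ ι Γ S)} {x y : S}
    (hq : c.q = CQ.run x) {st : Store ι Γ} (hh : Holds st c) {o : ι → Op Γ}
    (hs : F.step x (tops st) = some (y, o)) :
    ∃ c', (jnext (cdelta F emb inp outp))^[2] c = c' ∧ c'.q = CQ.run y ∧
      Holds (fun i => (o i).app (st i)) c' := by
  have ht : (fun i => rd (c.tape (some (some i)) (c.head (some (some i))))) = tops st := by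
    funext i
    rw [(hh.rep i).rd]
    rfl
  have h1 : cdelta F emb inp outp c.q (fun j => c.tape j (c.head j)) =
      some (CQ.wr y (fun i => (o i).toWrite), fun j =>
          match j with
          | some (some i) => (c.tape (some (some i)) (c.head (some (some i))), (o i).dir)
          | j => (c.tape j (c.head j), Dir.stay)) := by
    rw [hq]
    simp only [cdelta, ht, hs]
    congr 2
    funext j
    rcases j with _ | _ | i <;> rfl
  have e1 : jnext (cdelta F emb inp outp) c = ⟨CQ.wr y (fun i => (o i).toWrite), c.tape,
      fun j => match j with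
        | some (some i) => (o i).dir.move (c.head (some (some i)))
        | j => c.head j⟩ := by
    rw [jnext_some h1]
    congr 1
    · funext j
      rcases j with _ | _ | i <;> exact update_same _ _
    · funext j
      rcases j with _ | _ | i <;> rfl
  refine ⟨_, rfl, ?_⟩
  rw [Function.iterate_succ_apply, Function.iterate_one, e1,
    jnext_some (r := (CQ.run y, _)) rfl]
  refine ⟨rfl, ⟨?_, ?_, ?_⟩⟩
  · intro i
    have hr := hh.rep i
    simp only
    cases ho : o i with
    | keep =>
      simp only [Op.toWrite, Op.dir, Dir.move, Op.app]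
      rw [update_same]
      exact hr
    | push b =>
      simp only [Op.toWrite, Op.dir, Dir.move, Op.app]
      refine ⟨_, rfl, Function.update_self _ _ _, hr.update (by omega) _⟩
    | pop =>
      simp only [Op.toWrite, Op.dir, Dir.move, Op.app]
      rw [update_same]
      cases hst : st i with
      | nil =>
        rw [hst] at hr
        obtain ⟨h0, h1⟩ := hr
        exact ⟨by rw [h0], h1⟩
      | cons a l =>
        rw [hst] at hr
        obtain ⟨h', h0, _, h2⟩ := hr
        rw [h0]
        exact h2
  · intro p
    simp only
    rw [update_same]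
    exact hh.out p
  · exact hh.outh

/-- The execution of the flowchart. -/
theorem run_phase {m : ℕ} {x z : S} {st st' : Store ι Γ} (h : F.Reach m x st z st') :
    ∀ (c : JCfg (Option (Option ι)) (Al Γ) (CQ ι Γ S)) (_ : c.q = CQ.run x)
      (_ : Holds st c), ∃ c', (jnext (cdelta F emb inp outp))^[2 * m] c = c' ∧
        c'.q = CQ.run z ∧ Holds st' c' := by
  induction h with
  | refl x s =>
    intro c hq hh
    exact ⟨c, rfl, hq, hh⟩
  | @step n x y z s s' o hs _ ih =>
    intro c hq hh
    obtain ⟨c1, h1, h2, h3⟩ := step_run F emb inp outp hq hh hs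
    obtain ⟨c2, h4, h5, h6⟩ := ih c1 h2 h3
    refine ⟨c2, ?_, h5, h6⟩
    rw [show 2 * (n + 1) = 2 * n + 2 by ring, Function.iterate_add_apply, h1, h4]

/-- The end of the execution. -/
theorem step_run_end {c : JCfg (Option (Option ι)) (Al Γ) (CQ ι Γ S)} {x : S}
    (hq : c.q = CQ.run x) {st : Store ι Γ} (hh : Holds st c)
    (hs : F.step x (tops st) = none) :
    ∃ c', jnext (cdelta F emb inp outp) c = c' ∧ c'.q = CQ.out ∧ Holds st c' := by
  have ht : (fun i => rd (c.tape (some (some i)) (c.head (some (some i))))) = tops st := by
    funext i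
    rw [(hh.rep i).rd]
    rfl
  have h1 : cdelta F emb inp outp c.q (fun j => c.tape j (c.head j)) =
      some (CQ.out, still (fun j => c.tape j (c.head j))) := by
    rw [hq]
    simp only [cdelta, ht, hs]
  refine ⟨_, rfl, ?_⟩
  rw [jnext_some h1]
  refine ⟨rfl, ⟨?_, ?_, ?_⟩⟩
  · intro i
    simp only [still, Dir.move]
    rw [update_same]
    exact hh.rep i
  · intro p
    simp only [still]
    rw [update_same]
    exact hh.out p
  · exact hh.outh

/-- The output phase. -/
theorem out_phase (hemb : Function.Injective emb) (v : List Sym) :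
    ∀ (u : List Sym) (c : JCfg (Option (Option ι)) (Al Γ) (CQ ι Γ S)) (_ : c.q = CQ.out)
      (_ : Rep (v.map emb) (c.tape (some (some outp))) (c.head (some (some outp))))
      (_ : ∀ p, c.tape (some none) p = Sum.inl (u.getD p Sym.blank))
      (_ : c.head (some none) = u.length),
    ∃ c', (jnext (cdelta F emb inp outp))^[v.length] c = c' ∧
      cdelta F emb inp outp c'.q (fun j => c'.tape j (c'.head j)) = none ∧
      ∀ p, c'.tape (some none) p = Sum.inl ((u ++ v).getD p Sym.blank) := by
  induction v with
  | nil =>
    intro u c hq hr ht hh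
    refine ⟨c, rfl, ?_, by simpa using ht⟩
    rw [hq]
    simp only [cdelta, hr.rd]
    rfl
  | cons x v ih =>
    intro u c hq hr ht hh
    have h1 : cdelta F emb inp outp c.q (fun j => c.tape j (c.head j)) =
        some (CQ.out, fun j =>
          if j = some none then (Sum.inl x, Dir.right)
          else (c.tape j (c.head j), if j = some (some outp) then Dir.left else Dir.stay)) := by
      rw [hq]
      simp only [cdelta, hr.rd, List.map_cons, List.head?_cons, Option.bind_some,
        Function.partialInv_left hemb]
    obtain ⟨h', h0, h2, h3⟩ := hr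
    obtain ⟨c', e1, e2, e3⟩ := ih (u ++ [x]) (jnext (cdelta F emb inp outp) c)
      (by rw [jnext_some h1])
      (by
        rw [jnext_some h1]
        simp only [Option.some.injEq, reduceCtorEq, if_false, if_true, Dir.move]
        rw [update_same, h0]
        exact h3)
      (by
        intro p
        rw [jnext_some h1]
        simp only [if_true]
        rw [hh]
        by_cases hp : p = u.length
        · subst hp
          rw [Function.update_self]
          simp
        · rw [Function.update_of_ne hp, ht]
          congr 1
          rcases lt_or_gt_of_ne hp with h | h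
          · rw [List.getD_append _ _ _ _ h]
          · rw [List.getD_eq_default _ _ (by omega),
              List.getD_eq_default _ _ (by simp; omega)])
      (by
        rw [jnext_some h1]
        simp [Dir.move, hh])
    refine ⟨c', ?_, e2, ?_⟩
    · rw [List.length_cons, Function.iterate_succ_apply, e1]
    · intro p
      rw [e3 p]
      simp

end Machine

/-- A program on stacks is performed by a multitape Turing machine, in proportional time. On the
input `w` the stack `inp` holds `w` (the last symbol on top), all other stacks are empty. At the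
end the stack `outp` is read from the top and written on the output tape. -/
theorem compile_correct {ι Γ : Type} [Finite ι] [DecidableEq ι] [Finite Γ] (emb : Sym → Γ)
    (hemb : Function.Injective emb) (p : Prog ι Γ) (inp outp : ι) :
    ∃ (B : TM) (C : ℕ), ∀ (w v : List Sym) (s' : Store ι Γ) (t : ℕ),
      Sym.blank ∉ w → Sym.blank ∉ v →
      Exec p (Function.update (fun _ => []) inp (w.map emb).reverse) t s' →
      s' outp = v.map emb →
      B.WritesExactly w v ∧ B.time w ≤ C * (w.length + t + v.length + 1) := by
  have hfin : Finite (points p) := finite_points p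
  refine ⟨toTM (ι := ι) (A := Al Γ) (Q := CQ ι Γ (points p)) Sum.inl Sum.inl_injective CQ.init
    (cdelta (flow p) emb inp outp), 5, ?_⟩
  intro w v s' t hw _ hE hv
  obtain ⟨m, hm, hK, hR⟩ := flow_reach hE [] (Or.inl (self_mem_conts p []))
  obtain ⟨c1, a1, a2, a3, a4, a5⟩ := step_init (flow p) emb inp outp w
  have a3' : Holds (Function.update (fun _ => []) inp ([] : List Γ)) c1 := by
    have : Function.update (fun _ => []) inp ([] : List Γ) = fun _ => [] := by
      funext i
      by_cases hi : i = inp
      · subst hi; simp
      · simp [hi]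
    rw [this]
    exact a3
  obtain ⟨c2, b1, b2, b3⟩ := read_phase (flow p) emb inp outp w w c1 a2 [] a3' a5
    (by rw [a4]; rfl) hw
  rw [List.append_nil] at b3
  obtain ⟨c3, d1, d2, d3⟩ := run_phase (flow p) emb inp outp hR c2 b2 b3
  obtain ⟨c4, e1, e2, e3⟩ := step_run_end (flow p) emb inp outp d2 d3 (flow_step_none hK _)
  obtain ⟨c5, f1, f2, f3⟩ := out_phase (flow p) emb inp outp hemb v [] c4 e2
    (by rw [← hv]; exact e3.rep outp) (by simpa using e3.out) (by simpa using e3.outh)
  have hrun : (jnext (cdelta (flow p) emb inp outp))^[v.length + (1 + (2 * m +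
      ((2 * w.length + 1) + 1)))] (jinit (ι := ι) (A := Al Γ) (Q := CQ ι Γ (points p)) Sum.inl
      CQ.init w) = c5 := by
    rw [Function.iterate_add_apply, Function.iterate_add_apply, Function.iterate_add_apply,
      Function.iterate_add_apply]
    rw [Function.iterate_one, a1, b1, d1, e1, f1]
  have key := writes_liftC (ι := ι) (A := Al Γ) (Q := CQ ι Γ (points p)) Sum.inl
    Sum.inl_injective CQ.init (cdelta (flow p) emb inp outp) (w := w) (v := v)
    (t := v.length + (1 + (2 * m + ((2 * w.length + 1) + 1))))
    (by rw [hrun]; exact f2) (by rw [hrun]; simpa using f3)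
  refine ⟨key.1, key.2.trans ?_⟩
  omega

end Vale.Agent.P338
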