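import Vale.Agent.P338.Nums

/-!
# P338: one integer multiplication computes many convolutions
-/

namespace Vale.Agent.P338

/-- Product of two numbers given by their digits. -/
theorem conv_identity (c m n : ℕ) (x y : ℕ → ℕ) (hy : ∀ τ, n ≤ τ → y τ = 0) :
    (∑ i ∈ Finset.range m, x i * 2 ^ (c * i)) * (∑ τ ∈ Finset.range n, y τ * 2 ^ (c * τ)) =
      ∑ s ∈ Finset.range (m + n),
        (∑ i ∈ Finset.range m, if i ≤ s then x i * y (s - i) else 0) * 2 ^ (c * s) := by
  simp_rw [Finset.sum_mul]
  rw [Finset.sum_comm]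
  refine Finset.sum_congr rfl fun i hi => ?_
  rw [Finset.mem_range] at hi
  have h1 : ∑ s ∈ Finset.range (m + n),
      (if i ≤ s then x i * y (s - i) else 0) * 2 ^ (c * s) =
      ∑ s ∈ Finset.range (i + (m + n - i)),
      (if i ≤ s then x i * y (s - i) else 0) * 2 ^ (c * s) := by
    rw [Nat.add_sub_cancel' (by omega)]
  rw [h1, Finset.sum_range_add]
  have h2 : ∑ s ∈ Finset.range i, (if i ≤ s then x i * y (s - i) else 0) * 2 ^ (c * s) = 0 := by
    refine Finset.sum_eq_zero fun s hs => ?_
    rw [Finset.mem_range] at hs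
    rw [if_neg (by omega), Nat.zero_mul]
  rw [h2, Nat.zero_add, show m + n - i = n + (m - i) by omega, Finset.sum_range_add]
  have h3 : ∑ τ ∈ Finset.range (m - i),
      (if i ≤ i + (n + τ) then x i * y (i + (n + τ) - i) else 0) *
        2 ^ (c * (i + (n + τ))) = 0 := by
    refine Finset.sum_eq_zero fun s hs => ?_
    rw [if_pos (by omega), Nat.add_sub_cancel_left, hy _ (by omega)]
    simp
  rw [h3, Nat.add_zero, Finset.mul_sum]
  refine Finset.sum_congr rfl fun τ hτ => ?_
  rw [if_pos (by omega), Nat.add_sub_cancel_left, Nat.mul_add, pow_add]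
  ring

/-- The digits of the kernel. -/
def kerDigit (g r τ : ℕ) : ℕ := if τ < 2 * r then 2 ^ (g * (2 * r - τ ^ 2 % (2 * r))) else 0

theorem kerDigit_le (g r τ : ℕ) : kerDigit g r τ ≤ 2 ^ (2 * (g * r)) := by
  unfold kerDigit
  split
  · refine Nat.pow_le_pow_right (by norm_num) ?_
    calc g * (2 * r - τ ^ 2 % (2 * r)) ≤ g * (2 * r) := Nat.mul_le_mul_left _ (Nat.sub_le _ _)
      _ = 2 * (g * r) := by ring
  · exact Nat.zero_le _

/-- The (partial) convolution of the columns of `v a` with the kernel. -/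
def convPart (g r : ℕ) (v : ℕ → ℕ → ℕ → ℕ) (a s j : ℕ) : ℕ :=
  ∑ i ∈ Finset.range r, if i ≤ s then v a i j * kerDigit g r (s - i) else 0

/-- The cyclic convolution of the columns of `v a` with the kernel. -/
def conv (g r : ℕ) (v : ℕ → ℕ → ℕ → ℕ) (a k j : ℕ) : ℕ :=
  ∑ i ∈ Finset.range r, v a i j * 2 ^ (g * (2 * r - (r + k - i) ^ 2 % (2 * r)))

theorem convPart_add {g r : ℕ} (v : ℕ → ℕ → ℕ → ℕ) (a : ℕ) {k : ℕ} (hk : k < r) (j : ℕ) :
    convPart g r v a (r + k) j = conv g r v a k j := by
  unfold convPart conv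
  refine Finset.sum_congr rfl fun i hi => ?_
  rw [Finset.mem_range] at hi
  rw [if_pos (by omega), kerDigit]
  by_cases h : r + k - i < 2 * r
  · rw [if_pos h]
  · omega

/-- The data operand of the multiplication. -/
def xaList (h r W : ℕ) (v : ℕ → ℕ → ℕ → ℕ) : List Bool :=
  cat h fun a => (cat r fun i => cat r fun j => bitsOf W (v a i j)) ++
    List.replicate (2 * (r * r * W)) false

/-- The kernel operand of the multiplication. -/
def kerList (r g W : ℕ) : List Bool :=
  cat (2 * r) fun τ => bitsOf W (2 ^ (g * (2 * r - τ ^ 2 % (2 * r)))) ++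
    List.replicate ((r - 1) * W) false

theorem length_xaList (h r W : ℕ) (v : ℕ → ℕ → ℕ → ℕ) :
    (xaList h r W v).length = h * (3 * (r * r * W)) := by
  refine length_cat_of fun a _ => ?_
  rw [List.length_append, List.length_replicate,
    length_cat_of (L := r * W) fun i _ => length_cat_of fun j _ => length_bitsOf _ _]
  ring

theorem length_kerList {r : ℕ} (hr : 1 ≤ r) (g W : ℕ) :
    (kerList r g W).length = 2 * (r * r * W) := by
  have h : ∀ τ < 2 * r, (bitsOf W (2 ^ (g * (2 * r - τ ^ 2 % (2 * r)))) ++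
      List.replicate ((r - 1) * W) false).length = r * W := by
    intro τ _
    rw [List.length_append, List.length_replicate, length_bitsOf]
    obtain ⟨t, rfl⟩ := Nat.exists_eq_add_of_le hr
    rw [Nat.add_sub_cancel_left]
    ring
  rw [kerList, length_cat_of h]
  ring

section

variable {h r ρ g W : ℕ} {v : ℕ → ℕ → ℕ → ℕ}

theorem convPart_lt (hr : r = 2 ^ ρ) (hW : W = 4 * (g * r)) (hρ : ρ + 3 ≤ g * r) {a : ℕ}
    {j : ℕ} (hv : ∀ i < r, v a i j ≤ 2 ^ (g * r + 2)) (s : ℕ) :
    convPart g r v a s j < 2 ^ W := by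
  have h1 : convPart g r v a s j ≤ ∑ i ∈ Finset.range r, 2 ^ (g * r + 2) * 2 ^ (2 * (g * r)) := by
    refine Finset.sum_le_sum fun i hi => ?_
    split
    · exact Nat.mul_le_mul (hv i (Finset.mem_range.1 hi)) (kerDigit_le _ _ _)
    · exact Nat.zero_le _
  refine h1.trans_lt ?_
  rw [Finset.sum_const, Finset.card_range, smul_eq_mul]
  rw [← pow_add]
  have h2 : r * 2 ^ (g * r + 2 + 2 * (g * r)) = 2 ^ (ρ + (g * r + 2 + 2 * (g * r))) := by
    rw [pow_add 2 ρ, ← hr]
  rw [h2]
  exact Nat.pow_lt_pow_right (by norm_num) (by omega)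

theorem conv_lt (hr : r = 2 ^ ρ) (hW : W = 4 * (g * r)) (hρ : ρ + 3 ≤ g * r) {a : ℕ}
    {j k : ℕ} (hk : k < r) (hv : ∀ i < r, v a i j ≤ 2 ^ (g * r + 2)) :
    conv g r v a k j < 2 ^ W := by
  rw [← convPart_add v a hk j]
  exact convPart_lt hr hW hρ hv _

theorem natOf_xaList (hv : ∀ a < h, ∀ i < r, ∀ j < r, v a i j < 2 ^ W) :
    natOf (xaList h r W v) = ∑ a ∈ Finset.range h,
      (∑ i ∈ Finset.range r, (∑ j ∈ Finset.range r, v a i j * 2 ^ (W * j)) *
        2 ^ (r * W * i)) * 2 ^ (3 * (r * r * W) * a) := by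
  unfold xaList
  rw [natOf_cat (L := 3 * (r * r * W))]
  · refine Finset.sum_congr rfl fun a ha => ?_
    rw [Finset.mem_range] at ha
    rw [natOf_append_zeros, natOf_cat (L := r * W)
      (fun i _ => length_cat_of fun j _ => length_bitsOf _ _)]
    congr 1
    refine Finset.sum_congr rfl fun i hi => ?_
    rw [Finset.mem_range] at hi
    rw [natOf_cat_bitsOf (hv a ha i hi)]
  · intro a _
    rw [List.length_append, List.length_replicate,
      length_cat_of (L := r * W) fun i _ => length_cat_of fun j _ => length_bitsOf _ _]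
    ring

theorem natOf_kerList (hr : 1 ≤ r) (hW : 2 * (g * r) < W) :
    natOf (kerList r g W) =
      ∑ τ ∈ Finset.range (2 * r), kerDigit g r τ * 2 ^ (r * W * τ) := by
  unfold kerList
  rw [natOf_cat (L := r * W)]
  · refine Finset.sum_congr rfl fun τ hτ => ?_
    rw [Finset.mem_range] at hτ
    have hk : kerDigit g r τ = 2 ^ (g * (2 * r - τ ^ 2 % (2 * r))) := by
      rw [kerDigit, if_pos hτ]
    rw [← hk, natOf_append_zeros, natOf_bitsOf_of_lt]
    exact (kerDigit_le g r τ).trans_lt (Nat.pow_lt_pow_right (by norm_num) hW)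
  · intro τ _
    rw [List.length_append, List.length_replicate, length_bitsOf]
    obtain ⟨t, rfl⟩ := Nat.exists_eq_add_of_le hr
    rw [Nat.add_sub_cancel_left]
    ring

theorem natOf_mul (hr : 1 ≤ r) (hW : 2 * (g * r) < W)
    (hv : ∀ a < h, ∀ i < r, ∀ j < r, v a i j < 2 ^ W) :
    natOf (xaList h r W v) * natOf (kerList r g W) = ∑ a ∈ Finset.range h,
      (∑ s ∈ Finset.range (r + 2 * r), (∑ j ∈ Finset.range r,
        convPart g r v a s j * 2 ^ (W * j)) *
        2 ^ (r * W * s)) * 2 ^ (3 * (r * r * W) * a) := by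
  rw [natOf_xaList hv, natOf_kerList hr hW, Finset.sum_mul]
  refine Finset.sum_congr rfl fun a ha => ?_
  rw [mul_right_comm, conv_identity (r * W) r (2 * r)
    (fun i => ∑ j ∈ Finset.range r, v a i j * 2 ^ (W * j)) (kerDigit g r)
    (fun τ hτ => by rw [kerDigit, if_neg (by omega)])]
  congr 1
  refine Finset.sum_congr rfl fun s _ => ?_
  congr 1
  unfold convPart
  simp_rw [Finset.sum_mul]
  rw [Finset.sum_comm]
  refine Finset.sum_congr rfl fun i _ => ?_
  split
  · refine Finset.sum_congr rfl fun j _ => ?_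
    ring
  · simp

/-- **The multiplication by the kernel**: the product of the two operands, written with `K`
bits, consists of `h` blocks of `3 r ^ 2` slots, followed by zeros, and the middle thirds of
the blocks contain the convolutions. -/
theorem mul_kernel {K : ℕ} (hr : r = 2 ^ ρ) (hW : W = 4 * (g * r)) (hρ : ρ + 3 ≤ g * r)
    (hK : h * (3 * (r * r * W)) ≤ K)
    (hv : ∀ a < h, ∀ i < r, ∀ j < r, v a i j ≤ 2 ^ (g * r + 2)) :
    ∃ A₁ A₃ : ℕ → List Bool, (∀ a, (A₁ a).length = r * r * W) ∧
      (∀ a, (A₃ a).length = r * r * W) ∧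
      bitsOf K (natOf (xaList h r W v) * natOf (kerList r g W)) =
        (cat h fun a => A₁ a ++ ((cat r fun k => cat r fun j => bitsOf W (conv g r v a k j)) ++
          A₃ a)) ++ List.replicate (K - h * (3 * (r * r * W))) false := by
  have hr1 : 1 ≤ r := by rw [hr]; exact Nat.one_le_two_pow
  have hgr : 1 ≤ g * r := by omega
  have hvlt : ∀ a < h, ∀ i < r, ∀ j < r, v a i j < 2 ^ W := by
    intro a ha i hi j hj
    exact (hv a ha i hi j hj).trans_lt (Nat.pow_lt_pow_right (by norm_num) (by omega))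
  have hC : ∀ a < h, ∀ s, ∀ j < r, convPart g r v a s j < 2 ^ W := fun a ha s j hj =>
    convPart_lt hr hW hρ (fun i hi => hv a ha i hi j hj) s
  have hrow : ∀ a < h, ∀ s, (∑ j ∈ Finset.range r, convPart g r v a s j * 2 ^ (W * j)) <
      2 ^ (r * W) := fun a ha s => sum_lt_pow (hC a ha s)
  have hblk : ∀ a < h, (∑ s ∈ Finset.range (r + 2 * r), (∑ j ∈ Finset.range r,
        convPart g r v a s j * 2 ^ (W * j)) * 2 ^ (r * W * s)) < 2 ^ (3 * (r * r * W)) := by
    intro a ha
    have := sum_lt_pow (n := r + 2 * r) (L := r * W) (fun s _ => hrow a ha s)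
    rwa [show (r + 2 * r) * (r * W) = 3 * (r * r * W) by ring] at this
  refine ⟨fun a => if a < h then cat r fun s => cat r fun j => bitsOf W (convPart g r v a s j)
      else List.replicate (r * r * W) false,
    fun a => if a < h then cat r fun s => cat r fun j =>
      bitsOf W (convPart g r v a (r + r + s) j) else List.replicate (r * r * W) false,
    fun a => ?_, fun a => ?_, ?_⟩
  · beta_reduce
    split
    · rw [length_cat_of (L := r * W) fun i _ => length_cat_of fun j _ => length_bitsOf _ _]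
      ring
    · simp
  · beta_reduce
    split
    · rw [length_cat_of (L := r * W) fun i _ => length_cat_of fun j _ => length_bitsOf _ _]
      ring
    · simp
  · rw [natOf_mul hr1 (by omega) hvlt, bitsOf_sum_of_le hblk hK]
    congr 1
    refine cat_congr fun a ha => ?_
    rw [show 3 * (r * r * W) = (r + 2 * r) * (r * W) by ring,
      bitsOf_sum (fun s _ => hrow a ha s), show r + 2 * r = r + (r + r) by ring, cat_add,
      cat_add]
    beta_reduce
    rw [if_pos ha, if_pos ha]
    congr 1
    · exact cat_congr fun s _ => bitsOf_sum (hC a ha s)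
    · congr 1
      · refine cat_congr fun k hk => ?_
        rw [bitsOf_sum (hC a ha (r + k))]
        exact cat_congr fun j _ => by rw [convPart_add v a hk j]
      · refine cat_congr fun k _ => ?_
        rw [← Nat.add_assoc]
        exact bitsOf_sum (hC a ha _)

end

end Vale.Agent.P338
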