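import Vale.Agent.P338.Nums
import Vale.Agent.P338.Iface

/-!
# P338: schedules for the data driver
-/

namespace Vale.Agent.P338

/-! ### Running lists of instructions -/

@[simp] theorem DS.run_nil (d : DS) : DS.run [] d = d := rfl

theorem DS.run_cons (i : Instr) (L : List Instr) (d : DS) :
    DS.run (i :: L) d = DS.run L (d.step i) := rfl

theorem DS.run_append (L M : List Instr) (d : DS) :
    DS.run (L ++ M) d = DS.run M (DS.run L d) := by
  simp [DS.run, List.foldl_append]

theorem DS.run_toT (x rest t out : List Bool) (v : Fin 4 → List Bool) (cy : ℕ) :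
    DS.run (List.replicate x.length Instr.toT) ⟨x ++ rest, t, out, v, cy⟩ =
      ⟨rest, x.reverse ++ t, out, v, cy⟩ := by
  induction x generalizing t with
  | nil => simp
  | cons b x ih =>
    rw [List.length_cons, List.replicate_succ, DS.run_cons]
    simp only [List.cons_append, DS.step]
    rw [ih]
    simp

theorem DS.run_toOut (x rest t out : List Bool) (v : Fin 4 → List Bool) (cy : ℕ) :
    DS.run (List.replicate x.length Instr.toOut) ⟨x ++ rest, t, out, v, cy⟩ =
      ⟨rest, t, x.reverse ++ out, v, cy⟩ := by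
  induction x generalizing out with
  | nil => simp
  | cons b x ih =>
    rw [List.length_cons, List.replicate_succ, DS.run_cons]
    simp only [List.cons_append, DS.step]
    rw [ih]
    simp

theorem DS.run_zero (n : ℕ) (x t out : List Bool) (v : Fin 4 → List Bool) (cy : ℕ) :
    DS.run (List.replicate n Instr.zero) ⟨x, t, out, v, cy⟩ =
      ⟨x, t, List.replicate n false ++ out, v, cy⟩ := by
  induction n generalizing out with
  | zero => simp
  | succ n ih =>
    rw [List.replicate_succ, DS.run_cons]
    simp only [DS.step]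
    rw [ih, List.replicate_succ', List.append_assoc]
    simp

theorem DS.run_drop (x rest t out : List Bool) (v : Fin 4 → List Bool) (cy : ℕ) :
    DS.run (List.replicate x.length Instr.drop) ⟨x ++ rest, t, out, v, cy⟩ =
      ⟨rest, t, out, v, cy⟩ := by
  induction x with
  | nil => simp
  | cons b x ih =>
    rw [List.length_cons, List.replicate_succ, DS.run_cons]
    simp only [List.cons_append, DS.step, List.tail_cons]
    rw [ih]

/-! ### Basic transformations -/

theorem Tr.nil : Tr [] [] [] := fun rest out cy h => ⟨cy, h, by simp⟩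

theorem Tr.append {L L' : List Instr} {x x' y y' : List Bool} (h : Tr L x y)
    (h' : Tr L' x' y') : Tr (L ++ L') (x ++ x') (y ++ y') := by
  intro rest out cy hcy
  obtain ⟨cy1, h1, e1⟩ := h (x' ++ rest) out cy hcy
  obtain ⟨cy2, h2, e2⟩ := h' rest (y.reverse ++ out) cy1 h1
  refine ⟨cy2, h2, ?_⟩
  rw [DS.run_append, List.append_assoc, e1, e2]
  simp

theorem Tr.cat {n : ℕ} {L : ℕ → List Instr} {x y : ℕ → List Bool}
    (h : ∀ i < n, Tr (L i) (x i) (y i)) :
    Tr (cat n L) (Vale.Agent.P338.cat n x) (Vale.Agent.P338.cat n y) := by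
  induction n with
  | zero => exact Tr.nil
  | succ n ih =>
    rw [cat_succ, cat_succ, cat_succ]
    exact (ih fun i hi => h i (by omega)).append (h n (by omega))

theorem Tr.congr {L : List Instr} {x y x' y' : List Bool} (h : Tr L x y) (hx : x = x')
    (hy : y = y') : Tr L x' y' := by
  subst hx hy; exact h

theorem Tr.copy {n : ℕ} {x : List Bool} (hx : x.length = n) :
    Tr (List.replicate n Instr.toOut) x x := by
  subst hx
  intro rest out cy hcy
  exact ⟨cy, hcy, DS.run_toOut x rest [] out _ cy⟩

theorem Tr.zeros (n : ℕ) :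
    Tr (List.replicate n Instr.zero) [] (List.replicate n false) := by
  intro rest out cy hcy
  refine ⟨cy, hcy, ?_⟩
  rw [List.nil_append, DS.run_zero]
  simp

theorem Tr.drop {n : ℕ} {x : List Bool} (hx : x.length = n) :
    Tr (List.replicate n Instr.drop) x [] := by
  subst hx
  intro rest out cy hcy
  exact ⟨cy, hcy, DS.run_drop x rest [] out _ cy⟩

/-- The schedule that rotates a block of `B` bits to the left by `e ≤ B` places. -/
def rotSch (B e : ℕ) : List Instr :=
  List.replicate e Instr.toT ++ List.replicate (B - e) Instr.toOut ++ [Instr.flush]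

theorem Tr.rotate {B e : ℕ} {x : List Bool} (hx : x.length = B) (he : e ≤ B) :
    Tr (rotSch B e) x (rot e x) := by
  intro rest out cy hcy
  refine ⟨cy, hcy, ?_⟩
  have h1 : (x.take e).length = e := by rw [List.length_take]; omega
  have h2 : (x.drop e).length = B - e := by rw [List.length_drop]; omega
  have e1 := DS.run_toT (x.take e) (x.drop e ++ rest) [] out (fun _ => []) cy
  have e2 := DS.run_toOut (x.drop e) rest ((x.take e).reverse ++ []) out (fun _ => []) cy
  rw [h1] at e1
  rw [h2] at e2
  rw [← List.append_assoc, List.take_append_drop] at e1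
  rw [rotSch, DS.run_append, DS.run_append, e1, e2, DS.run_cons, DS.run_nil]
  simp [DS.step, rot]

/-- The schedule that copies the part of a block between `a` and `a + b`, the block having
`a + b + c` bits. -/
def selSch (a b c : ℕ) : List Instr :=
  List.replicate a Instr.drop ++ List.replicate b Instr.toOut ++ List.replicate c Instr.drop

theorem Tr.sel {a b c : ℕ} {x y z : List Bool} (hx : x.length = a) (hy : y.length = b)
    (hz : z.length = c) : Tr (selSch a b c) (x ++ y ++ z) y :=
  (((Tr.drop hx).append (Tr.copy hy)).append (Tr.drop hz)).congr rfl (by simp)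

/-- The schedule that separates the even from the odd ones among `2 * n` entries of `M` bits. -/
def unshSch (n M : ℕ) : List Instr :=
  cat n (fun _ => List.replicate M Instr.toOut ++ List.replicate M Instr.toT) ++ [Instr.flush]

theorem run_unsh {M : ℕ} (x : ℕ → List Bool) (n : ℕ) (hx : ∀ i < 2 * n, (x i).length = M)
    (rest t out : List Bool) (v : Fin 4 → List Bool) (cy : ℕ) :
    DS.run (cat n fun _ => List.replicate M Instr.toOut ++ List.replicate M Instr.toT)
      ⟨cat (2 * n) x ++ rest, t, out, v, cy⟩ =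
      ⟨rest, (cat n fun i => x (2 * i + 1)).reverse ++ t,
        (cat n fun i => x (2 * i)).reverse ++ out, v, cy⟩ := by
  induction n generalizing rest with
  | zero => simp
  | succ n ih =>
    have h1 : (x (2 * n)).length = M := hx _ (by omega)
    have h2 : (x (2 * n + 1)).length = M := hx _ (by omega)
    rw [show 2 * (n + 1) = 2 * n + 1 + 1 by ring, cat_succ, cat_succ, cat_succ, DS.run_append]
    simp only [List.append_assoc]
    rw [ih (fun i hi => hx i (by omega)), DS.run_append]
    have e1 := DS.run_toOut (x (2 * n)) (x (2 * n + 1) ++ rest)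
      ((cat n fun i => x (2 * i + 1)).reverse ++ t)
      ((cat n fun i => x (2 * i)).reverse ++ out) v cy
    rw [h1] at e1
    rw [e1]
    have e2 := DS.run_toT (x (2 * n + 1)) rest
      ((cat n fun i => x (2 * i + 1)).reverse ++ t)
      ((x (2 * n)).reverse ++ ((cat n fun i => x (2 * i)).reverse ++ out)) v cy
    rw [h2] at e2
    rw [e2, cat_succ, cat_succ]
    simp

theorem Tr.unshuffle {M n : ℕ} {x : ℕ → List Bool} (hx : ∀ i < 2 * n, (x i).length = M) :
    Tr (unshSch n M) (Vale.Agent.P338.cat (2 * n) x)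
      (Vale.Agent.P338.cat n (fun i => x (2 * i)) ++
        Vale.Agent.P338.cat n (fun i => x (2 * i + 1))) := by
  intro rest out cy hcy
  refine ⟨cy, hcy, ?_⟩
  rw [unshSch, DS.run_append, run_unsh x n hx, DS.run_cons, DS.run_nil]
  simp [DS.step]

/-! ### Folding -/

/-- The schedule that folds a block of `4 * D` bits. -/
def foldSch (D : ℕ) : List Instr :=
  List.replicate D Instr.toT ++ [Instr.chunk 0] ++
  (List.replicate D Instr.toT ++ [Instr.chunk 1]) ++
  (List.replicate D Instr.toT ++ [Instr.chunk 2]) ++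
  (List.replicate D Instr.toT ++ [Instr.chunk 3]) ++
  List.replicate D Instr.add ++ List.replicate 3 Instr.carry ++
  List.replicate (3 * D - 3) Instr.zero

theorem run_chunk {D : ℕ} (c : Fin 4) (x rest out : List Bool) (v : Fin 4 → List Bool) (cy : ℕ)
    (hx : x.length = D) :
    DS.run (List.replicate D Instr.toT ++ [Instr.chunk c]) ⟨x ++ rest, [], out, v, cy⟩ =
      ⟨rest, [], out, Function.update v c (x ++ v c), if c = 0 then 4 else cy⟩ := by
  rw [DS.run_append]
  have e := DS.run_toT x rest [] out v cy
  rw [hx] at e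
  rw [e, DS.run_cons, DS.run_nil]
  simp [DS.step]

theorem topBit_bitsOf (k z : ℕ) : topBit (bitsOf (k + 1) z) = z.testBit 0 := by
  rw [bitsOf_succ]; rfl

theorem toNat_testBit_zero (z : ℕ) : (z.testBit 0).toNat = z % 2 := by
  rw [Nat.testBit_zero]
  rcases Nat.mod_two_eq_zero_or_one z with h | h <;> simp [h]

theorem toNat_not_testBit_zero (z : ℕ) : (!(z.testBit 0)).toNat = 1 - z % 2 := by
  rw [Nat.testBit_zero]
  rcases Nat.mod_two_eq_zero_or_one z with h | h <;> simp [h]

/-- The addition loop. -/
theorem run_add (k : ℕ) : ∀ (a : Fin 4 → ℕ) (x t out : List Bool) (cy : ℕ)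
    (_ : ∀ c, a c < 2 ^ k),
    DS.run (List.replicate k Instr.add) ⟨x, t, out, fun c => bitsOf k (a c), cy⟩ =
      ⟨x, t, (bitsOf k (a 0 + (2 ^ k - 1 - a 1) + a 2 + (2 ^ k - 1 - a 3) + cy)).reverse ++ out,
        fun _ => [], (a 0 + (2 ^ k - 1 - a 1) + a 2 + (2 ^ k - 1 - a 3) + cy) / 2 ^ k⟩ := by
  induction k with
  | zero =>
    intro a x t out cy ha
    have h0 := ha 0; have h1 := ha 1; have h2 := ha 2; have h3 := ha 3
    simp only [pow_zero, Nat.lt_one_iff] at h0 h1 h2 h3
    simp [h0, h1, h2, h3, bitsOf_zero_left]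
  | succ k ih =>
    intro a x t out cy ha
    rw [List.replicate_succ, DS.run_cons]
    have hs : colSum (fun c => topBit (bitsOf (k + 1) (a c))) cy =
        a 0 % 2 + (1 - a 1 % 2) + a 2 % 2 + (1 - a 3 % 2) + cy := by
      unfold colSum
      simp only [topBit_bitsOf, toNat_testBit_zero, toNat_not_testBit_zero]
    have h2 : ∀ c, a c / 2 < 2 ^ k := fun c => by
      have := ha c
      rw [pow_succ] at this
      omega
    have hv : (fun c => (bitsOf (k + 1) (a c)).tail) = fun c => bitsOf k (a c / 2) := by
      funext c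
      rw [bitsOf_succ]; rfl
    simp only [DS.step, hs, hv]
    rw [ih (fun c => a c / 2) x t _ _ h2]
    set s := a 0 % 2 + (1 - a 1 % 2) + a 2 % 2 + (1 - a 3 % 2) + cy with hsdef
    set S := a 0 + (2 ^ (k + 1) - 1 - a 1) + a 2 + (2 ^ (k + 1) - 1 - a 3) + cy with hS
    have p2 : 2 ^ (k + 1) = 2 * 2 ^ k := by rw [pow_succ]; ring
    have hpos : 0 < 2 ^ k := by positivity
    have ha0 := ha 0; have ha1 := ha 1; have ha2 := ha 2; have ha3 := ha 3
    have key : S = 2 * (a 0 / 2 + (2 ^ k - 1 - a 1 / 2) + a 2 / 2 + (2 ^ k - 1 - a 3 / 2) +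
        s / 2) + s % 2 := by
      rw [hS, p2]
      have b1 := h2 1; have b3 := h2 3
      omega
    have hb0 : S.testBit 0 = decide (s % 2 = 1) := by
      rw [Nat.testBit_zero]
      congr 1
      have : S % 2 = s % 2 := by omega
      rw [this]
    have hb1 : S / 2 = a 0 / 2 + (2 ^ k - 1 - a 1 / 2) + a 2 / 2 + (2 ^ k - 1 - a 3 / 2) +
        s / 2 := by omega
    rw [bitsOf_succ, hb0, hb1]
    have hdiv : S / 2 ^ (k + 1) = (a 0 / 2 + (2 ^ k - 1 - a 1 / 2) + a 2 / 2 +
        (2 ^ k - 1 - a 3 / 2) + s / 2) / 2 ^ k := by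
      rw [p2, ← Nat.div_div_eq_div_mul, hb1]
    rw [hdiv]
    simp

theorem run_carry (k : ℕ) : ∀ (x t out : List Bool) (v : Fin 4 → List Bool) (cy : ℕ),
    DS.run (List.replicate k Instr.carry) ⟨x, t, out, v, cy⟩ =
      ⟨x, t, (bitsOf k cy).reverse ++ out, v, cy / 2 ^ k⟩ := by
  induction k with
  | zero => intro x t out v cy; simp [bitsOf_zero_left]
  | succ k ih =>
    intro x t out v cy
    rw [List.replicate_succ, DS.run_cons]
    simp only [DS.step]
    rw [ih, bitsOf_succ, Nat.testBit_zero, pow_succ', ← Nat.div_div_eq_div_mul]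
    simp

theorem foldN_lt3 {D v : ℕ} (hD : 2 ≤ D) : foldN D v < 2 ^ (D + 3) := by
  have hpos : 4 ≤ 2 ^ D := by
    calc 4 = 2 ^ 2 := by norm_num
      _ ≤ 2 ^ D := Nat.pow_le_pow_right (by norm_num) hD
  have h0 : v % 2 ^ D < 2 ^ D := Nat.mod_lt _ (by omega)
  have h2 : v / 2 ^ (2 * D) % 2 ^ D < 2 ^ D := Nat.mod_lt _ (by omega)
  have e : 2 ^ (D + 3) = 8 * 2 ^ D := by rw [pow_add]; ring
  unfold foldN
  omega

theorem Tr.fold {D v : ℕ} (hD : 2 ≤ D) :
    Tr (foldSch D) (bitsOf (4 * D) v) (bitsOf (4 * D) (foldN D v)) := by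
  intro rest out cy hcy
  have hl : ∀ z, (bitsOf D z).length = D := length_bitsOf D
  have hx : bitsOf (4 * D) v ++ rest = bitsOf D v ++ (bitsOf D (v / 2 ^ D) ++
      (bitsOf D (v / 2 ^ (2 * D)) ++ (bitsOf D (v / 2 ^ (3 * D)) ++ rest))) := by
    rw [show 4 * D = D + (D + (D + D)) by ring, bitsOf_add, bitsOf_add, bitsOf_add,
      Nat.div_div_eq_div_mul, Nat.div_div_eq_div_mul, ← pow_add, ← pow_add,
      show D + D = 2 * D by ring, show 2 * D + D = 3 * D by ring]
    simp
  have hpos : 0 < 2 ^ D := by positivity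
  let a : Fin 4 → ℕ := ![v % 2 ^ D, v / 2 ^ D % 2 ^ D, v / 2 ^ (2 * D) % 2 ^ D,
    v / 2 ^ (3 * D) % 2 ^ D]
  have ha : ∀ c, a c < 2 ^ D := by
    intro c
    fin_cases c <;> exact Nat.mod_lt _ hpos
  have hv : Function.update (Function.update (Function.update (Function.update
      (fun _ => ([] : List Bool)) (0 : Fin 4) (bitsOf D v)) 1 (bitsOf D (v / 2 ^ D))) 2
      (bitsOf D (v / 2 ^ (2 * D)))) 3 (bitsOf D (v / 2 ^ (3 * D))) =
      fun c => bitsOf D (a c) := by
    funext c
    fin_cases c
    · simp [a, bitsOf_mod]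
    · simp [a, bitsOf_mod]
    · simp [a, bitsOf_mod]
    · simp [a, bitsOf_mod]
  refine ⟨foldN D v / 2 ^ D / 2 ^ 3, ?_, ?_⟩
  · have h1 := foldN_lt3 (v := v) hD
    rw [Nat.div_div_eq_div_mul, ← pow_add, Nat.div_eq_of_lt h1]
    omega
  · rw [hx, foldSch, DS.run_append _ (List.replicate (3 * D - 3) _),
      DS.run_append _ (List.replicate 3 _), DS.run_append _ (List.replicate D Instr.add),
      DS.run_append _ (List.replicate D Instr.toT ++ [Instr.chunk 3]),
      DS.run_append _ (List.replicate D Instr.toT ++ [Instr.chunk 2]),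
      DS.run_append _ (List.replicate D Instr.toT ++ [Instr.chunk 1]),
      run_chunk 0 _ _ _ _ _ (hl _), run_chunk 1 _ _ _ _ _ (hl _),
      run_chunk 2 _ _ _ _ _ (hl _), run_chunk 3 _ _ _ _ _ (hl _)]
    have hv' : Function.update (Function.update (Function.update (Function.update
      (fun _ => ([] : List Bool)) (0 : Fin 4) (bitsOf D v ++ [])) 1
      (bitsOf D (v / 2 ^ D) ++ Function.update
        (fun _ => ([] : List Bool)) (0 : Fin 4) (bitsOf D v ++ []) 1)) 2
      (bitsOf D (v / 2 ^ (2 * D)) ++ Function.update (Function.update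
        (fun _ => ([] : List Bool)) (0 : Fin 4) (bitsOf D v ++ [])) 1
        (bitsOf D (v / 2 ^ D) ++ Function.update
          (fun _ => ([] : List Bool)) (0 : Fin 4) (bitsOf D v ++ []) 1) 2)) 3
      (bitsOf D (v / 2 ^ (3 * D)) ++ Function.update (Function.update (Function.update
        (fun _ => ([] : List Bool)) (0 : Fin 4) (bitsOf D v ++ [])) 1
        (bitsOf D (v / 2 ^ D) ++ Function.update
          (fun _ => ([] : List Bool)) (0 : Fin 4) (bitsOf D v ++ []) 1)) 2
        (bitsOf D (v / 2 ^ (2 * D)) ++ Function.update (Function.update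
          (fun _ => ([] : List Bool)) (0 : Fin 4) (bitsOf D v ++ [])) 1
          (bitsOf D (v / 2 ^ D) ++ Function.update
            (fun _ => ([] : List Bool)) (0 : Fin 4) (bitsOf D v ++ []) 1) 2) 3) =
      fun c => bitsOf D (a c) := by
      rw [← hv]
      simp
    rw [hv', show (if (3 : Fin 4) = 0 then 4 else if (2 : Fin 4) = 0 then 4 else
      if (1 : Fin 4) = 0 then 4 else if (0 : Fin 4) = 0 then 4 else cy) = 4 by simp,
      run_add D a _ _ _ _ ha, run_carry, DS.run_zero]
    have hA : a 0 + (2 ^ D - 1 - a 1) + a 2 + (2 ^ D - 1 - a 3) + 4 = foldN D v := by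
      simp [a, foldN]
    have h1 := foldN_lt3 (v := v) hD
    have h3 : 4 * D = D + (3 + (3 * D - 3)) := by omega
    rw [hA]
    congr 1
    rw [h3, bitsOf_add, bitsOf_add, Nat.div_div_eq_div_mul, ← pow_add, Nat.div_eq_of_lt h1,
      bitsOf_zero]
    simp

/-! ### Padding -/

/-- The schedule for `h` blocks of `p × p` entries of `M` bits, which become blocks of `r × r`
slots of `W` bits; new slots are zero, and `W - M` zeros are put after every entry. -/
def padSch (h p r M W : ℕ) : List Instr :=
  cat h fun _ =>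
    (cat p fun _ =>
      (cat p fun _ => List.replicate M Instr.toOut ++ List.replicate (W - M) Instr.zero) ++
        List.replicate ((r - p) * W) Instr.zero) ++
      List.replicate ((r - p) * (r * W)) Instr.zero

/-- The data after padding. -/
def padded (p M W : ℕ) (e : ℕ → ℕ → ℕ → List Bool) (a i j : ℕ) : List Bool :=
  if i < p ∧ j < p then e a i j ++ List.replicate (W - M) false else List.replicate W false

theorem cat_split {α : Type} {p r : ℕ} (h : p ≤ r) (f : ℕ → List α) :
    cat r f = cat p f ++ cat (r - p) fun i => f (p + i) := by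
  rw [← cat_add, Nat.add_sub_cancel' h]

theorem Tr.pad {h p r M W : ℕ} {e : ℕ → ℕ → ℕ → List Bool} (hpr : p ≤ r)
    (he : ∀ a < h, ∀ i < p, ∀ j < p, (e a i j).length = M) :
    Tr (padSch h p r M W) (data h p e) (data h r (padded p M W e)) := by
  unfold padSch data
  refine Tr.cat fun a ha => ?_
  have h1 : (Vale.Agent.P338.cat r fun i => Vale.Agent.P338.cat r fun j =>
      padded p M W e a i j) =
      (Vale.Agent.P338.cat p fun i => (Vale.Agent.P338.cat p fun j =>
        e a i j ++ List.replicate (W - M) false) ++ List.replicate ((r - p) * W) false) ++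
      List.replicate ((r - p) * (r * W)) false := by
    rw [cat_split hpr]
    congr 1
    · refine cat_congr fun i hi => ?_
      rw [cat_split hpr]
      congr 1
      · refine cat_congr fun j hj => ?_
        rw [padded, if_pos ⟨hi, hj⟩]
      · rw [← cat_replicate]
        refine cat_congr fun j hj => ?_
        rw [padded, if_neg (by omega)]
    · rw [← cat_replicate]
      refine cat_congr fun i hi => ?_
      rw [← cat_replicate]
      refine cat_congr fun j hj => ?_
      rw [padded, if_neg (by omega)]
  rw [h1]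
  refine ((Tr.cat fun i hi => ?_).append (Tr.zeros _)).congr
    (x := (Vale.Agent.P338.cat p fun i => Vale.Agent.P338.cat p fun j => e a i j) ++ [])
    (List.append_nil _) rfl
  refine ((Tr.cat fun j hj => ?_).append (Tr.zeros _)).congr
    (x := (Vale.Agent.P338.cat p fun j => e a i j) ++ []) (List.append_nil _) rfl
  exact ((Tr.copy (he a ha i hi j hj)).append (Tr.zeros _)).congr (List.append_nil _) rfl

/-- The schedule for `h` blocks of `r × r` slots of `W` bits: of the slots `(i, j)` with
`i, j < p`, the `M` bits from offset `o` on are kept. -/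
def unpadSch (h p r o M W : ℕ) : List Instr :=
  cat h fun _ =>
    (cat p fun _ =>
      (cat p fun _ => selSch o M (W - o - M)) ++
        List.replicate ((r - p) * W) Instr.drop) ++
      List.replicate ((r - p) * (r * W)) Instr.drop

theorem Tr.unpad {h p r o M W : ℕ} {x : ℕ → ℕ → ℕ → List Bool} (hpr : p ≤ r)
    (hW : o + M ≤ W) (hx : ∀ a < h, ∀ i < r, ∀ j < r, (x a i j).length = W) :
    Tr (unpadSch h p r o M W) (data h r x)
      (data h p fun a i j => ((x a i j).drop o).take M) := by
  unfold unpadSch data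
  refine Tr.cat fun a ha => ?_
  rw [cat_split hpr]
  refine ((Tr.cat fun i hi => ?_).append (Tr.drop ?_)).congr rfl (List.append_nil _)
  · rw [cat_split hpr]
    refine ((Tr.cat fun j hj => ?_).append (Tr.drop ?_)).congr rfl (List.append_nil _)
    · have hl := hx a ha i (by omega) j (by omega)
      have h0 : x a i j = (x a i j).take o ++ ((x a i j).drop o).take M ++
          ((x a i j).drop o).drop M := by
        rw [List.append_assoc, List.take_append_drop, List.take_append_drop]
      conv => arg 2; rw [h0]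
      refine Tr.sel ?_ ?_ ?_
      · rw [List.length_take]; omega
      · rw [List.length_take, List.length_drop]; omega
      · rw [List.length_drop, List.length_drop]; omega
    · exact length_cat_of fun j hj => hx a ha i (by omega) _ (by omega)
  · exact length_cat_of fun i hi => length_cat_of fun j hj =>
      hx a ha _ (by omega) _ (by omega)

/-! ### Passes on the slots and on the rows -/

/-- A pass on all slots. -/
theorem Tr.slots {h r : ℕ} {L : ℕ → ℕ → List Instr} {x y : ℕ → ℕ → ℕ → List Bool}
    (H : ∀ a < h, ∀ i < r, ∀ j < r, Tr (L i j) (x a i j) (y a i j)) :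
    Tr (Vale.Agent.P338.cat h fun _ => Vale.Agent.P338.cat r fun i =>
      Vale.Agent.P338.cat r fun j => L i j) (data h r x) (data h r y) :=
  Tr.cat fun a ha => Tr.cat fun i hi => Tr.cat fun j hj => H a ha i hi j hj

/-- The schedule that rotates the row `i` of every block by `e i` slots. -/
def rowsSch (h r W : ℕ) (e : ℕ → ℕ) : List Instr :=
  cat h fun _ => cat r fun i => rotSch (r * W) (e i * W)

theorem Tr.rows {h r W : ℕ} {e : ℕ → ℕ} {x : ℕ → ℕ → ℕ → List Bool}
    (hx : ∀ a < h, ∀ i < r, ∀ j < r, (x a i j).length = W) (he : ∀ i < r, e i ≤ r) :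
    Tr (rowsSch h r W e) (data h r x) (data h r fun a i j => x a i ((j + e i) % r)) := by
  refine Tr.cat fun a ha => Tr.cat fun i hi => ?_
  refine (Tr.rotate (length_cat_of fun j hj => hx a ha i hi j hj)
    (Nat.mul_le_mul_right _ (he i hi))).congr rfl ?_
  exact rot_cat (fun j hj => hx a ha i hi j hj) (he i hi)

/-- The schedule that rotates the slot `(i, j)` of every block by `e i j` bits. -/
def twSch (h r W : ℕ) (e : ℕ → ℕ → ℕ) : List Instr :=
  cat h fun _ => cat r fun i => cat r fun j => rotSch W (e i j)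

theorem Tr.tw {h r W : ℕ} {e : ℕ → ℕ → ℕ} {v : ℕ → ℕ → ℕ → ℕ}
    (hv : ∀ a < h, ∀ i < r, ∀ j < r, v a i j < 2 ^ W) (he : ∀ i < r, ∀ j < r, e i j ≤ W) :
    Tr (twSch h r W e) (data h r fun a i j => bitsOf W (v a i j))
      (data h r fun a i j => bitsOf W (rotN W (e i j) (v a i j))) :=
  Tr.slots fun a ha i hi j hj => (Tr.rotate (length_bitsOf _ _) (he i hi j hj)).congr rfl
    (rot_bitsOf (he i hi j hj) (hv a ha i hi j hj))

/-- The schedule that folds all slots. -/
def foldsSch (h r D : ℕ) : List Instr :=
  cat h fun _ => cat r fun _ => cat r fun _ => foldSch D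

theorem Tr.folds {h r D : ℕ} {v : ℕ → ℕ → ℕ → ℕ} (hD : 2 ≤ D) :
    Tr (foldsSch h r D) (data h r fun a i j => bitsOf (4 * D) (v a i j))
      (data h r fun a i j => bitsOf (4 * D) (foldN D (v a i j))) :=
  Tr.slots fun _ _ _ _ _ _ => Tr.fold hD

/-- The schedule that selects the middle one of three parts of `B` bits of every block. -/
def midSch (h B : ℕ) : List Instr := cat h fun _ => selSch B B B

theorem Tr.mid {h B : ℕ} {x y z : ℕ → List Bool} (hx : ∀ a < h, (x a).length = B)
    (hy : ∀ a < h, (y a).length = B) (hz : ∀ a < h, (z a).length = B) :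
    Tr (midSch h B) (Vale.Agent.P338.cat h fun a => x a ++ y a ++ z a)
      (Vale.Agent.P338.cat h y) :=
  Tr.cat fun a ha => Tr.sel (hx a ha) (hy a ha) (hz a ha)

/-- The schedule that puts `2 * B` zeros after every block of `B` bits. -/
def extSch (h B : ℕ) : List Instr :=
  cat h fun _ => List.replicate B Instr.toOut ++ List.replicate (2 * B) Instr.zero

theorem Tr.ext {h B : ℕ} {x : ℕ → List Bool} (hx : ∀ a < h, (x a).length = B) :
    Tr (extSch h B) (Vale.Agent.P338.cat h x)
      (Vale.Agent.P338.cat h fun a => x a ++ List.replicate (2 * B) false) :=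
  Tr.cat fun a ha => ((Tr.copy (hx a ha)).append (Tr.zeros _)).congr (List.append_nil _) rfl

/-! ### The lengths of the schedules -/

@[simp] theorem length_rotSch {B e : ℕ} (he : e ≤ B) : (rotSch B e).length = B + 1 := by
  simp [rotSch]
  omega

@[simp] theorem length_selSch (a b c : ℕ) : (selSch a b c).length = a + b + c := by
  simp [selSch, Nat.add_assoc]

@[simp] theorem length_foldSch {D : ℕ} (hD : 2 ≤ D) : (foldSch D).length = 8 * D + 4 := by
  simp [foldSch]
  omega

@[simp] theorem length_unshSch (n M : ℕ) : (unshSch n M).length = n * (M + M) + 1 := by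
  rw [unshSch, List.length_append, length_cat_of (L := M + M) (fun i _ => by simp)]
  rfl

theorem length_padSch {h p r M W : ℕ} (hpr : p ≤ r) (hM : M ≤ W) :
    (padSch h p r M W).length = h * (r * (r * W)) := by
  unfold padSch
  obtain ⟨d, rfl⟩ := Nat.exists_eq_add_of_le hpr
  obtain ⟨c, rfl⟩ := Nat.exists_eq_add_of_le hM
  refine length_cat_of fun a _ => ?_
  rw [List.length_append, length_cat_of (L := p * (M + c) + d * (M + c)) fun i _ => ?_]
  · simp only [List.length_replicate, Nat.add_sub_cancel_left]
    ring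
  · rw [List.length_append, length_cat_of (L := M + c) fun i _ => ?_]
    · simp
    · simp

theorem length_unpadSch {h p r o M W : ℕ} (hpr : p ≤ r) (hW : o + M ≤ W) :
    (unpadSch h p r o M W).length = h * (r * (r * W)) := by
  unfold unpadSch
  obtain ⟨d, rfl⟩ := Nat.exists_eq_add_of_le hpr
  obtain ⟨c, rfl⟩ := Nat.exists_eq_add_of_le hW
  refine length_cat_of fun a _ => ?_
  rw [List.length_append, length_cat_of (L := p * (o + M + c) + d * (o + M + c)) fun i _ => ?_]
  · simp only [List.length_replicate, Nat.add_sub_cancel_left]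
    ring
  · rw [List.length_append, length_cat_of (L := o + M + c) fun i _ => ?_]
    · simp
    · rw [length_selSch]
      omega

theorem length_rowsSch {h r W : ℕ} {e : ℕ → ℕ} (he : ∀ i < r, e i ≤ r) :
    (rowsSch h r W e).length = h * (r * (r * W + 1)) :=
  length_cat_of fun _ _ => length_cat_of fun i hi =>
    length_rotSch (Nat.mul_le_mul_right _ (he i hi))

theorem length_twSch {h r W : ℕ} {e : ℕ → ℕ → ℕ} (he : ∀ i < r, ∀ j < r, e i j ≤ W) :
    (twSch h r W e).length = h * (r * (r * (W + 1))) :=
  length_cat_of fun _ _ => length_cat_of fun i hi => length_cat_of fun j hj =>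
    length_rotSch (he i hi j hj)

theorem length_foldsSch {h r D : ℕ} (hD : 2 ≤ D) :
    (foldsSch h r D).length = h * (r * (r * (8 * D + 4))) :=
  length_cat_of fun _ _ => length_cat_of fun _ _ => length_cat_of fun _ _ => length_foldSch hD

theorem length_midSch (h B : ℕ) : (midSch h B).length = h * (B + B + B) :=
  length_cat_of fun _ _ => length_selSch _ _ _

theorem length_extSch (h B : ℕ) : (extSch h B).length = h * (B + 2 * B) :=
  length_cat_of fun _ _ => by simp

end Vale.Agent.P338
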