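import Vale.Agent.P338.PadTo
import Vale.Agent.P338.Drive
import Vale.Agent.P338.Sched
import Vale.Agent.P338.Kron

/-!
# P338: the convolution by one long multiplication
-/

namespace Vale.Agent.P338

variable {J E : Type} [DecidableEq J]

theorem bits_zeros (n : ℕ) (b : Bool) :
    (bits (List.replicate n b) : List (SSym E)) = List.replicate n (sb b) := by simp [bits]

/-- Move `x` to `y`, padded with zeros to the length on `MM`. -/
def padM (x y : R) : Pr J E :=
  (Prog.copyOnto (Sum.inl R.MM) (Sum.inl R.K1) (Sum.inl R.K2)).seq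
    (Prog.padTo (Sum.inl x) (Sum.inl y) (Sum.inl R.K2) (Sum.inl R.K1) (sb false))

theorem padM_runs {x y : R} (hxy : x ≠ y) (hx1 : x ≠ R.K1) (hx2 : x ≠ R.K2)
    (hy1 : y ≠ R.K1) (hy2 : y ≠ R.K2) (s : St J E) (l : List Bool) (m : ℕ)
    (hx : s.at x = bits l) (hy : s.at y = []) (h1 : s.at R.K1 = []) (h2 : s.at R.K2 = [])
    (hm : s.at R.MM = una m) (hl : l.length ≤ m) :
    Runs (padM x y) s
      ((s.set x []).set y (bits (l ++ List.replicate (m - l.length) false))) (14 * m + 4) := by
  simp only [St.at] at hx hy h1 h2 hm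
  have r1 := Runs.copyOnto (a := (Sum.inl R.MM : Loc J)) (b := Sum.inl R.K1)
    (t := Sum.inl R.K2) (by simp) (by simp) (by simp) s h2
  have r2 := Runs.padTo (x := (Sum.inl x : Loc J)) (y := Sum.inl y) (t := Sum.inl R.K2)
    (u := Sum.inl R.K1) (by simpa using hxy) (by simpa using hx2) (by simpa using hx1)
    (by simpa using hy2) (by simpa using hy1) (by simp) mk (sb false)
    (Function.update s (Sum.inl R.K1) (s (Sum.inl R.MM) ++ s (Sum.inl R.K1)))
    (bits l) m (by simp [hx1, hx]) (by simp [hy1, hy]) (by simp [h2])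
    (by simp [hm, h1, una]) (by simpa using hl)
  refine ((r1.seq r2).mono ?_).of_eq ?_
  · rw [hm, length_una]; omega
  · rw [length_bits, bits_append, bits_zeros]
    funext i
    simp only [Function.update_apply]
    split_ifs <;> simp_all

/-- What the convolution program needs. -/
structure ConvReady (s : St J E) (m ρ : ℕ) (ker : List Bool) : Prop where
  idle : s.Idle
  drive : s.Empty driveScratch
  sch : s.at R.SCH = []
  ax : s.at R.AX = []
  ay : s.at R.AY = []
  az : s.at R.AZ = []
  clk : s.at R.CLK = []
  flag : s.at R.FLAG = []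
  cnt : s.at R.CNT = []
  k1 : s.at R.K1 = []
  k2 : s.at R.K2 = []
  k4 : s.at R.K4 = []
  mm : s.at R.MM = una m
  rho : s.at R.RHO = una ρ
  ker : s.at R.KER = bits ker

/-- Prepare the operands. -/
noncomputable def convA (gext : Pr J E) : Pr J E :=
  gext.seq (pass.seq ((padM R.X R.AX).seq
    ((Prog.copyOnto (Sum.inl R.KER) (Sum.inl R.K4) (Sum.inl R.K2)).seq
      ((padM R.K4 R.AY).seq (Prog.copyOnto (Sum.inl R.RHO) (Sum.inl R.CLK)
        (Sum.inl R.K2))))))

/-- Use the product. -/
noncomputable def convB (gmid : Pr J E) : Pr J E :=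
  (Prog.rev (Sum.inl R.AZ) (Sum.inl R.K2)).seq
    ((Prog.rev (Sum.inl R.K2) (Sum.inl R.X)).seq (gmid.seq pass))

/-- Convolution of the data on `X` with the kernel on `KER`. -/
noncomputable def convP (call gext gmid : Pr J E) : Pr J E :=
  (convA gext).seq (call.seq (Prog.ite (nonempty (Sum.inl R.FLAG)) Prog.skip (convB gmid)))

/-- The pass on the base store `s`, with `X` and `SCH` set. -/
theorem pass_set {L : List Instr} {x y : List Bool} (h : Tr L x y) (rest : List Bool)
    (s : St J E) (hd : s.Empty driveScratch) (hsch : s.at R.SCH = []) :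
    Runs pass ((s.set R.X (bits (x ++ rest))).set R.SCH (sch L)) (s.set R.X (bits y))
      (20 * (L.length + rest.length + y.length + 1)) := by
  have hd' : ∀ i ∈ driveScratch, s (Sum.inl i) = [] := hd
  have r := pass_runs (J := J) (E := E) h rest
    ((s.set R.X (bits (x ++ rest))).set R.SCH (sch L))
    (by
      intro i hi
      have h0 := hd' i hi
      simp only [driveScratch, List.mem_cons, List.not_mem_nil, or_false] at hi
      rcases hi with rfl | rfl | rfl | rfl | rfl | rfl | rfl | rfl | rfl <;> simp [h0])
    (by simp) (by simp)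
  refine r.of_eq ?_
  simp only [St.at] at hsch
  funext i
  simp only [Function.update_apply]
  split_ifs <;> simp_all

theorem convA_runs {gext : Pr J E} {h r g W m ρ t1 : ℕ} {v : ℕ → ℕ → ℕ → ℕ} (hr1 : 1 ≤ r)
    (hm : h * (3 * (r * r * W)) ≤ m) (hm2 : 2 * (r * r * W) ≤ m)
    (s : St J E) (hs : ConvReady s m ρ (kerList r g W))
    (hX : s.at R.X = bits (data h r fun a i j => bitsOf W (v a i j)))
    (hext : ∀ x, Runs gext (s.set R.X x)
      ((s.set R.X x).set R.SCH (sch (extSch h (r * r * W)))) t1) :
    Runs (convA gext) s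
      ((((s.set R.X []).set R.AX (bits (xaList h r W v ++
        List.replicate (m - (xaList h r W v).length) false))).set R.AY
        (bits (kerList r g W ++ List.replicate (m - (kerList r g W).length) false))).set R.CLK
          (una ρ))
      (t1 + 74 * m + 6 * ρ + 40) := by
  obtain ⟨hidle, hdrive, eSCH, eAX, eAY, eAZ, eCLK, eFLAG, eCNT, eK1, eK2, eK4, hmm, hrho,
    hker⟩ := hs
  set xa := xaList h r W v with hxa
  have lxa : xa.length = h * (3 * (r * r * W)) := length_xaList h r W v
  have lker : (kerList r g W).length = 2 * (r * r * W) := length_kerList hr1 g W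
  have htr := Tr.ext (h := h) (B := r * r * W)
    (x := fun a => cat r fun i => cat r fun j => bitsOf W (v a i j)) (fun a _ =>
      (length_cat_of (L := r * W) fun i _ => length_cat_of fun j _ => length_bitsOf _ _).trans
        (by ring))
  -- the schedule
  have r1 := hext (s.at R.X)
  rw [show s.set R.X (s.at R.X) = s from Function.update_eq_self _ _] at r1
  -- the pass
  have r2 := pass_set htr [] s hdrive eSCH
  replace r2 : Runs pass (s.set R.SCH (sch (extSch h (r * r * W)))) (s.set R.X (bits xa))
      (40 * m + 20) := by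
    have e1 : (extSch h (r * r * W)).length = h * (3 * (r * r * W)) := by
      rw [length_extSch]; ring
    have e2 : (s.set R.X (bits ((cat h fun a => cat r fun i => cat r fun j =>
        bitsOf W (v a i j)) ++ []))) = s := by
      rw [List.append_nil]
      exact (congrArg _ hX.symm).trans (Function.update_eq_self _ _)
    rw [e2] at r2
    refine r2.mono ?_
    rw [e1, show (cat h fun a => (cat r fun i => cat r fun j => bitsOf W (v a i j)) ++
      List.replicate (2 * (r * r * W)) false) = xa from rfl, lxa, List.length_nil]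
    omega
  simp only [St.at] at eSCH eAX eAY eAZ eCLK eFLAG eCNT eK1 eK2 eK4 hmm hrho hker hX
  -- the operands
  set xs := xa ++ List.replicate (m - xa.length) false with hxs
  set ys := kerList r g W ++ List.replicate (m - (kerList r g W).length) false with hys
  have r3 : Runs (padM R.X R.AX) (s.set R.X (bits xa))
      ((s.set R.X []).set R.AX (bits xs)) (14 * m + 4) := by
    have r3 := padM_runs (J := J) (E := E) (x := R.X) (y := R.AX) (by simp) (by simp) (by simp)
      (by simp) (by simp) (s.set R.X (bits xa)) xa m (by simp) (by simp [eAX]) (by simp [eK1])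
      (by simp [eK2]) (by simp [hmm]) (by omega)
    refine r3.of_eq ?_
    rw [← hxs]
    simp
  have r4 : Runs (Prog.copyOnto (Sum.inl R.KER) (Sum.inl R.K4) (Sum.inl R.K2))
      ((s.set R.X []).set R.AX (bits xs))
      (((s.set R.X []).set R.AX (bits xs)).set R.K4 (bits (kerList r g W)))
      (6 * m + 1) := by
    have r4 := Runs.copyOnto (a := (Sum.inl R.KER : Loc J)) (b := Sum.inl R.K4)
      (t := Sum.inl R.K2) (by simp) (by simp) (by simp)
      ((s.set R.X []).set R.AX (bits xs)) (by simp [eK2])
    refine (r4.mono ?_).of_eq ?_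
    · simp only [ne_eq, Sum.inl.injEq, reduceCtorEq, not_false_eq_true,
        Function.update_of_ne, hker, length_bits, lker]
      omega
    · simp only [ne_eq, Sum.inl.injEq, reduceCtorEq, not_false_eq_true,
        Function.update_of_ne, hker, eK4, List.append_nil]
  have r5 : Runs (padM R.K4 R.AY)
      (((s.set R.X []).set R.AX (bits xs)).set R.K4 (bits (kerList r g W)))
      (((s.set R.X []).set R.AX (bits xs)).set R.AY (bits ys)) (14 * m + 4) := by
    have r5 := padM_runs (J := J) (E := E) (x := R.K4) (y := R.AY) (by simp) (by simp)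
      (by simp) (by simp) (by simp)
      (((s.set R.X []).set R.AX (bits xs)).set R.K4 (bits (kerList r g W))) (kerList r g W) m
      (by simp) (by simp [eAY]) (by simp [eK1])
      (by simp [eK2]) (by simp [hmm]) (by omega)
    rw [← hys] at r5
    refine r5.of_eq ?_
    funext i
    simp only [Function.update_apply]
    split_ifs <;> simp_all
  have r6 : Runs (Prog.copyOnto (Sum.inl R.RHO) (Sum.inl R.CLK) (Sum.inl R.K2))
      (((s.set R.X []).set R.AX (bits xs)).set R.AY (bits ys))
      ((((s.set R.X []).set R.AX (bits xs)).set R.AY (bits ys)).set R.CLK (una ρ))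
      (6 * ρ + 1) := by
    have r6 := Runs.copyOnto (a := (Sum.inl R.RHO : Loc J)) (b := Sum.inl R.CLK)
      (t := Sum.inl R.K2) (by simp) (by simp) (by simp)
      (((s.set R.X []).set R.AX (bits xs)).set R.AY (bits ys)) (by simp [eK2])
    refine (r6.mono ?_).of_eq ?_
    · simp only [ne_eq, Sum.inl.injEq, reduceCtorEq, not_false_eq_true,
        Function.update_of_ne, hrho, length_una]
      omega
    · simp only [ne_eq, Sum.inl.injEq, reduceCtorEq, not_false_eq_true,
        Function.update_of_ne, hrho, eCLK, List.append_nil]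
  exact (r1.seq (r2.seq (r3.seq (r4.seq (r5.seq r6))))).mono (by omega)

theorem convB_runs {gmid : Pr J E} {h B m ρ t2 : ℕ} {ker : List Bool}
    {x y z : ℕ → List Bool} {rest : List Bool} (s : St J E) (hs : ConvReady s m ρ ker)
    (hx : ∀ a < h, (x a).length = B) (hy : ∀ a < h, (y a).length = B)
    (hz : ∀ a < h, (z a).length = B) (hm : h * (3 * B) + rest.length = 2 * m)
    (hmid : ∀ x, Runs gmid (s.set R.X x) ((s.set R.X x).set R.SCH (sch (midSch h B))) t2) :
    Runs (convB gmid)
      ((s.set R.X []).set R.AZ (bits ((cat h fun a => x a ++ y a ++ z a) ++ rest)))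
      (s.set R.X (bits (cat h y))) (t2 + 172 * m + 30) := by
  obtain ⟨hidle, hdrive, eSCH, eAX, eAY, eAZ, eCLK, eFLAG, eCNT, eK1, eK2, eK4, hmm, hrho,
    hker⟩ := hs
  set w := (cat h fun a => x a ++ y a ++ z a) ++ rest with hw
  have lw : w.length = 2 * m := by
    rw [hw, List.length_append, length_cat_of (L := 3 * B) fun a ha => ?_, hm]
    rw [List.length_append, List.length_append, hx a ha, hy a ha, hz a ha]
    ring
  have ly : (cat h y).length = h * B := length_cat_of hy
  have r3 := hmid (bits w)
  have r4 := pass_set (Tr.mid hx hy hz) rest s hdrive eSCH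
  simp only [St.at] at eSCH eAX eAY eAZ eCLK eFLAG eCNT eK1 eK2 eK4 hmm hrho hker
  have r1 : Runs (Prog.rev (Sum.inl R.AZ) (Sum.inl R.K2))
      ((s.set R.X []).set R.AZ (bits w)) ((s.set R.X []).set R.K2 (bits w).reverse)
      (6 * m) := by
    have r1 := Runs.rev (i := (Sum.inl R.AZ : Loc J)) (j := Sum.inl R.K2) (by simp)
      ((s.set R.X []).set R.AZ (bits w))
    refine (r1.mono ?_).of_eq ?_
    · rw [St.set_self, length_bits]; omega
    · funext i
      simp only [Function.update_apply]
      split_ifs <;> simp_all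
  have r2 : Runs (Prog.rev (Sum.inl R.K2) (Sum.inl R.X))
      ((s.set R.X []).set R.K2 (bits w).reverse) (s.set R.X (bits w)) (6 * m) := by
    have r2 := Runs.rev (i := (Sum.inl R.K2 : Loc J)) (j := Sum.inl R.X) (by simp)
      ((s.set R.X []).set R.K2 (bits w).reverse)
    refine (r2.mono ?_).of_eq ?_
    · rw [St.set_self, List.length_reverse, length_bits]; omega
    · funext i
      simp only [Function.update_apply]
      split_ifs <;> simp_all
  refine (r1.seq (r2.seq (r3.seq r4))).mono ?_
  rw [length_midSch, ly]
  have e : h * (B + B + B) = 3 * (h * B) := by ring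
  have e' : h * (3 * B) = 3 * (h * B) := by ring
  omega

theorem convP_runs {call gext gmid : Pr J E} {T : ℕ → ℕ} {C : ℕ} (hcall : CallSpec call T C)
    {h r g W m ρ t1 t2 : ℕ} {v : ℕ → ℕ → ℕ → ℕ} (hr : r = 2 ^ ρ) (hW : W = 4 * (g * r))
    (hρ : ρ + 3 ≤ g * r) (hm1 : 1 ≤ m) (hm : h * (3 * (r * r * W)) ≤ m)
    (hm2 : 2 * (r * r * W) ≤ m)
    (hv : ∀ a < h, ∀ i < r, ∀ j < r, v a i j ≤ 2 ^ (g * r + 2))
    (s : St J E) (hs : ConvReady s m ρ (kerList r g W))
    (hX : s.at R.X = bits (data h r fun a i j => bitsOf W (v a i j)))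
    (hext : ∀ x, Runs gext (s.set R.X x)
      ((s.set R.X x).set R.SCH (sch (extSch h (r * r * W)))) t1)
    (hmid : ∀ x, Runs gmid (s.set R.X x)
      ((s.set R.X x).set R.SCH (sch (midSch h (r * r * W)))) t2) :
    ∃ s', Runs (convP call gext gmid) s s'
        (t1 + t2 + C * (m + ρ + min (T m) (ρ * m) + 1) + 300 * (m + ρ + 1)) ∧
      (s' = s.set R.X (bits (data h r fun a i j => bitsOf W (conv g r v a i j))) ∨
        (ρ * m < T m ∧ s' = (s.set R.X []).set R.FLAG [mk])) := by
  have hr1 : 1 ≤ r := by rw [hr]; exact Nat.one_le_two_pow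
  have rA := convA_runs hr1 hm hm2 s hs hX hext
  have lxa : (xaList h r W v).length = h * (3 * (r * r * W)) := length_xaList h r W v
  have lker : (kerList r g W).length = 2 * (r * r * W) := length_kerList hr1 g W
  set xs := xaList h r W v ++ List.replicate (m - (xaList h r W v).length) false with hxs
  set ys := kerList r g W ++ List.replicate (m - (kerList r g W).length) false with hys
  have lxs : xs.length = m := by
    rw [hxs, List.length_append, List.length_replicate]
    omega
  have lys : ys.length = m := by
    rw [hys, List.length_append, List.length_replicate]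
    omega
  have n1 : natOf xs * natOf ys = natOf (xaList h r W v) * natOf (kerList r g W) := by
    rw [hxs, hys, natOf_append_zeros, natOf_append_zeros]
  have hidle : ∀ j : J, s (Sum.inr j) = [] := hs.idle
  have eAX : s (Sum.inl R.AX) = [] := hs.ax
  have eAY : s (Sum.inl R.AY) = [] := hs.ay
  have eAZ : s (Sum.inl R.AZ) = [] := hs.az
  have eCLK : s (Sum.inl R.CLK) = [] := hs.clk
  have eFLAG : s (Sum.inl R.FLAG) = [] := hs.flag
  have eCNT : s (Sum.inl R.CNT) = [] := hs.cnt
  obtain ⟨s', r7, h7⟩ := hcall m xs ys ρ
    ((((s.set R.X []).set R.AX (bits xs)).set R.AY (bits ys)).set R.CLK (una ρ)) hm1 lxs lys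
    (by intro j; simp [hidle j])
    (by
      intro i hi
      simp only [List.mem_cons, List.not_mem_nil, or_false] at hi
      rcases hi with rfl | rfl | rfl <;> simp [eAZ, eFLAG, eCNT])
    (by simp) (by simp) (by simp)
  rcases h7 with h7 | ⟨hT, h7⟩
  · -- success
    refine ⟨s.set R.X (bits (data h r fun a i j => bitsOf W (conv g r v a i j))), ?_,
      Or.inl rfl⟩
    obtain ⟨A₁, A₃, l1, l3, hA⟩ := mul_kernel (K := 2 * m) hr hW hρ (by omega) hv
    have h7' : s' = (s.set R.X []).set R.AZ
        (bits ((cat h fun a => A₁ a ++ (cat r fun k => cat r fun j =>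
          bitsOf W (conv g r v a k j)) ++ A₃ a) ++
          List.replicate (2 * m - h * (3 * (r * r * W))) false)) := by
      rw [h7, n1, hA]
      simp only [List.append_assoc]
      funext i
      simp only [Function.update_apply]
      split_ifs <;> simp_all
    rw [h7'] at r7
    have r8 := convB_runs (h := h) (B := r * r * W) (m := m) (x := A₁)
      (y := fun a => cat r fun k => cat r fun j => bitsOf W (conv g r v a k j)) (z := A₃)
      (rest := List.replicate (2 * m - h * (3 * (r * r * W))) false) s hs
      (fun a _ => l1 a)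
      (fun a _ => (length_cat_of (L := r * W) fun i _ => length_cat_of fun j _ =>
        length_bitsOf _ _).trans (by ring)) (fun a _ => l3 a)
      (by rw [List.length_replicate]; omega) hmid
    have r9 := Runs.iteF (c := nonempty (Sum.inl R.FLAG)) (p := Prog.skip)
      (by rw [nonempty_tops]; simp [eFLAG]) r8
    exact (rA.seq (r7.seq r9)).mono (by omega)
  · -- the clock was too small
    refine ⟨(s.set R.X []).set R.FLAG [mk], ?_, Or.inr ⟨hT, rfl⟩⟩
    have h7' : s' = (s.set R.X []).set R.FLAG [mk] := by
      rw [h7]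
      funext i
      simp only [Function.update_apply]
      split_ifs <;> simp_all
    rw [h7'] at r7
    have r8 := Runs.iteT (c := nonempty (Sum.inl R.FLAG)) (q := convB gmid)
      (by rw [nonempty_tops]; simp) (Runs.skip ((s.set R.X []).set R.FLAG [mk]))
    exact (rA.seq (r7.seq r8)).mono (by omega)

end Vale.Agent.P338
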