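import Vale.Agent.P338.Basic

/-!
# P338: alphabet of the stack programs, bit lists, the instruction set of the data driver
-/

namespace Vale.Agent.P338

/-! ### Lists -/

/-- Concatenation of `f 0, f 1, …, f (n-1)`. -/
def cat {α : Type} (n : ℕ) (f : ℕ → List α) : List α := (List.range n).flatMap f

/-- The value of a little-endian bit list. -/
def natOf : List Bool → ℕ
  | [] => 0
  | b :: l => b.toNat + 2 * natOf l

/-- The little-endian list of the `k` low bits of `z`. -/
def bitsOf (k z : ℕ) : List Bool := (List.range k).map fun i => z.testBit i

/-- Rotation of a list to the left by `e` places. -/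
def rot {α : Type} (e : ℕ) (l : List α) : List α := l.drop e ++ l.take e

/-! ### The instructions of the data driver -/

/-- Instructions of the data driver. -/
inductive Instr : Type
  | toT : Instr          -- move a bit from `X` to `T`
  | toOut : Instr        -- move a bit from `X` to `OUT`
  | zero : Instr         -- push `0` on `OUT`
  | drop : Instr         -- remove a bit from `X`
  | flush : Instr        -- put the block on `T` on `OUT`
  | chunk : Fin 4 → Instr -- put the block on `T` on `V c`, least significant bit on top
  | add : Instr          -- one column of the addition
  | carry : Instr        -- push the low bit of the carry on `OUT`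
deriving DecidableEq

/-- The (abstract) state of the data driver. -/
@[ext] structure DS : Type where
  x : List Bool
  t : List Bool
  out : List Bool
  v : Fin 4 → List Bool
  cy : ℕ

/-- The top bit of a list (`false` for the empty list). -/
def topBit (l : List Bool) : Bool := l.head?.getD false

/-- Sum of a column, with the carry `cy`: `v0 + (1 - v1) + v2 + (1 - v3) + cy`. -/
def colSum (v : Fin 4 → Bool) (cy : ℕ) : ℕ :=
  (v 0).toNat + (!(v 1)).toNat + (v 2).toNat + (!(v 3)).toNat + cy

/-- The effect of an instruction. -/
def DS.step : Instr → DS → DS
  | Instr.toT, d => match d.x with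
    | [] => d
    | b :: l => { d with x := l, t := b :: d.t }
  | Instr.toOut, d => match d.x with
    | [] => d
    | b :: l => { d with x := l, out := b :: d.out }
  | Instr.zero, d => { d with out := false :: d.out }
  | Instr.drop, d => { d with x := d.x.tail }
  | Instr.flush, d => { d with t := [], out := d.t ++ d.out }
  | Instr.chunk c, d =>
    { d with
      t := []
      v := Function.update d.v c (d.t.reverse ++ d.v c)
      cy := if c = 0 then 4 else d.cy }
  | Instr.add, d =>
    let s := colSum (fun c => topBit (d.v c)) d.cy
    { d with
      v := fun c => (d.v c).tail
      out := decide (s % 2 = 1) :: d.out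
      cy := s / 2 }
  | Instr.carry, d =>
    { d with
      out := decide (d.cy % 2 = 1) :: d.out
      cy := d.cy / 2 }

/-- The effect of a list of instructions. -/
def DS.run (L : List Instr) (d : DS) : DS := L.foldl (fun d i => d.step i) d

/-- `Tr L x y`: the instruction list `L` reads exactly the block `x` and writes the block `y`
(and leaves all scratch stacks empty). `OUT` is built in reversed order. -/
def Tr (L : List Instr) (x y : List Bool) : Prop :=
  ∀ (rest out : List Bool) (cy : ℕ), cy ≤ 4 → ∃ cy' ≤ 4,
    DS.run L ⟨x ++ rest, [], out, fun _ => [], cy⟩ =
      ⟨rest, [], y.reverse ++ out, fun _ => [], cy'⟩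

/-! ### The alphabet -/

/-- The symbols used by the main program. -/
inductive Base : Type
  | bit : Bool → Base
  | mark : Base
  | ins : Instr → Base
  | num : Fin 8 → Base
deriving DecidableEq

instance : Finite Instr := by
  have : Function.Injective (fun i : Instr => match i with
    | .toT => (Sum.inl 0 : Fin 7 ⊕ Fin 4)
    | .toOut => Sum.inl 1
    | .zero => Sum.inl 2
    | .drop => Sum.inl 3
    | .flush => Sum.inl 4
    | .add => Sum.inl 5
    | .carry => Sum.inl 6
    | .chunk c => Sum.inr c) := by
    intro a b h
    cases a <;> cases b <;> simp_all
  exact Finite.of_injective _ this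

instance : Finite Base := by
  have : Function.Injective (fun i : Base => match i with
    | .bit b => (Sum.inl b : Bool ⊕ Unit ⊕ Instr ⊕ Fin 8)
    | .mark => Sum.inr (Sum.inl ())
    | .ins i => Sum.inr (Sum.inr (Sum.inl i))
    | .num n => Sum.inr (Sum.inr (Sum.inr n))) := by
    intro a b h
    cases a <;> cases b <;> simp_all
  exact Finite.of_injective _ this

/-- Symbols on the stacks: those of `Base`, and further ones from `E`. -/
abbrev SSym (E : Type) : Type := Base ⊕ E

/-- A bit as a stack symbol. -/
def sb {E : Type} (b : Bool) : SSym E := Sum.inl (Base.bit b)

/-- The mark. -/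
def mk {E : Type} : SSym E := Sum.inl Base.mark

/-- An instruction as a stack symbol. -/
def si {E : Type} (i : Instr) : SSym E := Sum.inl (Base.ins i)

/-- A bit list on a stack. -/
def bits {E : Type} (l : List Bool) : List (SSym E) := l.map sb

/-- The number `n` in unary. -/
def una {E : Type} (n : ℕ) : List (SSym E) := List.replicate n mk

/-- An instruction list on a stack. -/
def sch {E : Type} (l : List Instr) : List (SSym E) := l.map si

@[simp] theorem length_bits {E : Type} (l : List Bool) :
    (bits l : List (SSym E)).length = l.length := by simp [bits]

@[simp] theorem length_una {E : Type} (n : ℕ) : (una n : List (SSym E)).length = n := by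
  simp [una]

@[simp] theorem length_sch {E : Type} (l : List Instr) :
    (sch l : List (SSym E)).length = l.length := by simp [sch]

end Vale.Agent.P338
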