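import Vale.Agent.P338.Frame
import Vale.Agent.P338.Lib

/-!
# P338: running programs on a small store embedded in a big one
-/

namespace Vale.Agent.P338

variable {κ ι Γ : Type}

theorem ovw_update [DecidableEq κ] [DecidableEq ι] {e : κ → ι} (he : Function.Injective e)
    (s : Store κ Γ) (S : Store ι Γ) (i : κ) (l : List Γ) :
    ovw e (Function.update s i l) S = Function.update (ovw e s S) (e i) l := by
  funext k
  by_cases hk : ∃ j, e j = k
  · obtain ⟨j, rfl⟩ := hk
    rw [ovw_apply he]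
    by_cases hj : j = i
    · subst hj; simp
    · rw [Function.update_of_ne hj, Function.update_of_ne (he.ne hj), ovw_apply he]
  · rw [ovw_of_not _ _ hk, Function.update_of_ne (fun h => hk ⟨i, h.symm⟩), ovw_of_not _ _ hk]

/-- The program `q` takes the small store `s` to the small store `s'`, where the small stores
are embedded by `e` in the big store `S`. -/
def RunsE (e : κ → ι) (S : Store ι Γ) (q : Prog ι Γ) (s s' : Store κ Γ) (t : ℕ) : Prop :=
  Runs q (ovw e s S) (ovw e s' S) t

theorem RunsE.mono {e : κ → ι} {S : Store ι Γ} {q : Prog ι Γ} {s s' : Store κ Γ} {t t' : ℕ}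
    (h : RunsE e S q s s' t) (ht : t ≤ t') : RunsE e S q s s' t' := Runs.mono h ht

theorem RunsE.of_eq {e : κ → ι} {S : Store ι Γ} {q : Prog ι Γ} {s s' s'' : Store κ Γ} {t : ℕ}
    (h : RunsE e S q s s' t) (hs : s' = s'') : RunsE e S q s s'' t := hs ▸ h

theorem RunsE.seq {e : κ → ι} {S : Store ι Γ} {p q : Prog ι Γ} {s s₁ s₂ : Store κ Γ}
    {t₁ t₂ : ℕ} (h₁ : RunsE e S p s s₁ t₁) (h₂ : RunsE e S q s₁ s₂ t₂) :
    RunsE e S (p.seq q) s s₂ (t₁ + 1 + t₂) := Runs.seq h₁ h₂

theorem RunsE.small {e : κ → ι} (he : Function.Injective e) (S : Store ι Γ) {p : Prog κ Γ}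
    {s s' : Store κ Γ} {t : ℕ} (h : Runs p s s' t) : RunsE e S (p.map e) s s' t := by
  obtain ⟨u, hu, hx⟩ := h
  exact ⟨u, hu, hx.map he S⟩

theorem RunsE.forr' [DecidableEq κ] [DecidableEq ι] {e : κ → ι} (he : Function.Injective e)
    {S : Store ι Γ} {u t : κ} (hut : u ≠ t)
    {body : Prog ι Γ} (n : ℕ) (a : Γ) (F : ℕ → Store κ Γ) (T : ℕ → ℕ)
    (hu : ∀ k ≤ n, F k u = List.replicate n a) (ht : ∀ k ≤ n, F k t = [])
    (h : ∀ k < n, ∀ l l' : List Γ, RunsE e S body
      (Function.update (Function.update (F k) u l) t l')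
      (Function.update (Function.update (F (k + 1)) u l) t l') (T k)) :
    RunsE e S (Prog.forr (e u) (e t) body) (F 0) (F n)
      (∑ k ∈ Finset.range n, (T k + 4) + 3 * n + 1) := by
  refine Runs.forr' (he.ne hut) (body := body) n a (fun k => ovw e (F k) S) T ?_ ?_ ?_
  · intro k hk
    rw [ovw_apply he]; exact hu k hk
  · intro k hk
    rw [ovw_apply he]; exact ht k hk
  · intro k hk l l'
    have h1 := h k hk l l'
    unfold RunsE at h1
    rwa [ovw_update he, ovw_update he, ovw_update he, ovw_update he] at h1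

end Vale.Agent.P338
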