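import Vale.Agent.P338.Compile
import Vale.Agent.P338.Iface

/-!
# P338: from stack programs to transposing machines
-/

namespace Vale.Agent.P338

/-- The stack symbols of the symbols of an input word. -/
def embS {E : Type} : Sym → SSym E
  | Sym.blank => Sum.inl (Base.num 0)
  | Sym.zero => sb false
  | Sym.one => sb true
  | Sym.sep => mk

theorem embS_injective {E : Type} : Function.Injective (embS : Sym → SSym E) := by
  intro a b h
  cases a <;> cases b <;> simp_all [embS, sb, mk]

theorem embS_bitWord {E : Type} (l : List Bool) :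
    (bitWord l).map (embS : Sym → SSym E) = bits l := by
  unfold bitWord bits
  rw [List.map_map]
  apply List.map_congr_left
  intro b _
  cases b <;> rfl

theorem blank_notMem_bitWord (l : List Bool) : Sym.blank ∉ bitWord l := by
  intro h
  obtain ⟨b, -, hb⟩ := List.mem_map.mp h
  cases b <;> simp [Sym.ofBit] at hb

theorem blank_notMem_rectInput {m n : ℕ} (a : Fin m → Fin n → Bool) :
    Sym.blank ∉ rectInput a := by
  unfold rectInput
  intro h
  rcases List.mem_append.mp h with h | h
  · have := List.eq_of_mem_replicate h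
    cases this
  · rcases List.mem_cons.mp h with h | h
    · cases h
    · exact blank_notMem_bitWord _ h

theorem length_rowMajor {m n : ℕ} (a : Fin m → Fin n → Bool) :
    (rowMajor a).length = m * n := by
  unfold rowMajor
  rw [List.length_flatten, List.map_ofFn]
  have : (List.length ∘ fun i => List.ofFn (a i)) = fun _ : Fin m => n := by
    funext i
    simp
  rw [this]
  simp

theorem length_bitWord (l : List Bool) : (bitWord l).length = l.length := by
  simp [bitWord]

theorem length_rectInput {m n : ℕ} (a : Fin m → Fin n → Bool) :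
    (rectInput a).length = m + 1 + m * n := by
  unfold rectInput
  rw [List.length_append, List.length_cons, length_bitWord, length_rowMajor,
    List.length_replicate]
  omega

theorem cat_eq_ofFn {α : Type} (m : ℕ) (f : ℕ → List α) :
    cat m f = (List.ofFn fun i : Fin m => f i).flatten := by
  unfold cat
  rw [List.ofFn_eq_map, List.flatMap_def, ← List.map_coe_finRange_eq_range, List.map_map]
  rfl

theorem cat_singleton_eq_ofFn {α : Type} (m : ℕ) (f : ℕ → α) :
    (cat m fun i => [f i]) = List.ofFn fun i : Fin m => f i := by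
  unfold cat
  rw [List.ofFn_eq_map, ← List.map_coe_finRange_eq_range, List.flatMap_map]
  induction List.finRange m with
  | nil => rfl
  | cons a l ih =>
    rw [List.flatMap_cons, ih]
    rfl

theorem rowMajor_eq {m n : ℕ} (a : Fin m → Fin n → Bool) (x : ℕ → ℕ → Bool)
    (h : ∀ (i : Fin m) (j : Fin n), x i j = a i j) :
    rowMajor a = cat m fun i => cat n fun j => [x i j] := by
  rw [cat_eq_ofFn]
  unfold rowMajor
  congr 2
  funext i
  rw [cat_singleton_eq_ofFn]
  congr 1
  funext j
  exact (h i j).symm

/-- A matrix as a function on all pairs of numbers. -/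
def extMat {m n : ℕ} (a : Fin m → Fin n → Bool) (i j : ℕ) : Bool :=
  if h : i < m ∧ j < n then a ⟨i, h.1⟩ ⟨j, h.2⟩ else false

theorem rowMajor_extMat {m n : ℕ} (a : Fin m → Fin n → Bool) :
    rowMajor a = cat m fun i => cat n fun j => [extMat a i j] :=
  rowMajor_eq a _ fun i j => by simp [extMat]

theorem rowMajor_transpose {m n : ℕ} (a : Fin m → Fin n → Bool) :
    (rowMajor fun j i => a i j) = cat n fun i => cat m fun j => [extMat a j i] :=
  rowMajor_eq _ _ fun i j => by simp [extMat]

/-- The starting store: the input word on `INP` (the last symbol on top). -/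
def startStore {J E : Type} [DecidableEq J] (inp : R) (w : List Sym) : St J E :=
  Function.update (fun _ => []) (Sum.inl inp) (w.map embS).reverse

/-- From a stack program to a machine that transposes square matrices. -/
theorem exists_transposes {J E : Type} [DecidableEq J] [Finite J] [Finite E] (p : Pr J E)
    (inp outp : R) (TT : ℕ → ℕ)
    (h : ∀ n : ℕ, 1 ≤ n → ∀ a : Fin n → Fin n → Bool, ∃ s' : St J E,
      Runs p (startStore inp (bitWord (rowMajor a))) s' (TT n) ∧
        s'.at outp = bits (rowMajor fun i j => a j i)) :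
    ∃ (B : TM) (C : ℕ), Transposes B ∧ ∀ n : ℕ, 1 ≤ n → transTime B n ≤ C * (TT n + n ^ 2) := by
  obtain ⟨B, C, hB⟩ := compile_correct (embS : Sym → SSym E) embS_injective p (Sum.inl inp)
    (Sum.inl outp)
  have key : ∀ n : ℕ, 1 ≤ n → ∀ a : Fin n → Fin n → Bool,
      B.WritesExactly (bitWord (rowMajor a)) (bitWord (rowMajor fun i j => a j i)) ∧
        B.time (bitWord (rowMajor a)) ≤ 3 * C * (TT n + n ^ 2) := by
    intro n hn a
    obtain ⟨s', ⟨t, ht, hE⟩, hs'⟩ := h n hn a
    obtain ⟨h1, h2⟩ := hB _ (bitWord (rowMajor fun i j => a j i)) s' t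
      (blank_notMem_bitWord _) (blank_notMem_bitWord _) hE (by rw [embS_bitWord]; exact hs')
    refine ⟨h1, h2.trans ?_⟩
    rw [length_bitWord, length_rowMajor, length_bitWord, length_rowMajor, mul_assoc 3,
      mul_left_comm 3 C]
    apply Nat.mul_le_mul_left
    have : 1 ≤ n ^ 2 := Nat.one_le_pow _ _ hn
    nlinarith
  refine ⟨B, 3 * C, fun n hn a => (key n hn a).1, fun n hn => ?_⟩
  unfold transTime
  exact Finset.sup_le fun a _ => (key n hn a).2

/-- From a stack program to a machine that transposes rectangular matrices. -/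
theorem exists_transposesRect {J E : Type} [DecidableEq J] [Finite J] [Finite E] (p : Pr J E)
    (inp outp : R) (TT : ℕ → ℕ → ℕ)
    (h : ∀ m n : ℕ, 1 ≤ m → 1 ≤ n → ∀ a : Fin m → Fin n → Bool, ∃ s' : St J E,
      Runs p (startStore inp (rectInput a)) s' (TT m n) ∧
        s'.at outp = bits (rowMajor fun i j => a j i)) :
    ∃ (B : TM) (C : ℕ), TransposesRect B ∧
      ∀ m n : ℕ, 1 ≤ m → 1 ≤ n → rectTime B m n ≤ C * (TT m n + m * n) := by
  obtain ⟨B, C, hB⟩ := compile_correct (embS : Sym → SSym E) embS_injective p (Sum.inl inp)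
    (Sum.inl outp)
  have key : ∀ m n : ℕ, 1 ≤ m → 1 ≤ n → ∀ a : Fin m → Fin n → Bool,
      B.WritesExactly (rectInput a) (bitWord (rowMajor fun i j => a j i)) ∧
        B.time (rectInput a) ≤ 5 * C * (TT m n + m * n) := by
    intro m n hm hn a
    obtain ⟨s', ⟨t, ht, hE⟩, hs'⟩ := h m n hm hn a
    obtain ⟨h1, h2⟩ := hB _ (bitWord (rowMajor fun i j => a j i)) s' t
      (blank_notMem_rectInput _) (blank_notMem_bitWord _) hE (by rw [embS_bitWord]; exact hs')
    refine ⟨h1, h2.trans ?_⟩
    rw [length_rectInput, length_bitWord, length_rowMajor, mul_assoc 5, mul_left_comm 5 C]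
    apply Nat.mul_le_mul_left
    have h3 : 1 ≤ m * n := Nat.mul_pos hm hn
    have h4 : m ≤ m * n := Nat.le_mul_of_pos_right m hn
    have h5 : n * m = m * n := Nat.mul_comm n m
    omega
  refine ⟨B, 5 * C, fun m n hm hn a => (key m n hm hn a).1, fun m n hm hn => ?_⟩
  unfold rectTime
  exact Finset.sup_le fun a _ => (key m n hm hn a).2

end Vale.Agent.P338
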