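import Vale.Agent.P338.Lib

/-!
# P338: moving and dropping a given number of symbols
-/

namespace Vale.Agent.P338.S2

variable {ι Γ : Type} [DecidableEq ι]

/-- Move one symbol from `a` to `b` for every symbol of `u` (scratch stack `t`). -/
def takeN (u a b t : ι) : Prog ι Γ := Prog.forr u t (Prog.mov a b)

theorem runs_takeN {u a b t : ι} (hua : u ≠ a) (hub : u ≠ b) (hut : u ≠ t) (hab : a ≠ b)
    (hat : a ≠ t) (hbt : b ≠ t) (c : Γ) (l₁ l₂ : List Γ) (s : Store ι Γ)
    (hu : s u = List.replicate l₁.length c) (ht : s t = []) (ha : s a = l₁ ++ l₂) :
    Runs (takeN u a b t) s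
      (Function.update (Function.update s a l₂) b (l₁.reverse ++ s b)) (8 * l₁.length + 1) := by
  have h := Runs.forr' hut (body := Prog.mov a b) l₁.length c
    (fun k => Function.update (Function.update s a (l₁.drop k ++ l₂)) b
      ((l₁.take k).reverse ++ s b)) (fun _ => 1)
    (fun k _ => by rw [Function.update_of_ne hub, Function.update_of_ne hua, hu])
    (fun k _ => by rw [Function.update_of_ne hbt.symm, Function.update_of_ne hat.symm, ht])
    (by
      intro k hk l l'
      have e1 : l₁.drop k = l₁[k] :: l₁.drop (k + 1) := List.drop_eq_getElem_cons hk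
      have e2 : (l₁.take (k + 1)).reverse = l₁[k] :: (l₁.take k).reverse := by
        rw [List.take_succ_eq_append_getElem hk, List.reverse_append]; rfl
      refine (Runs.mov hab _ (a := l₁[k]) (l := l₁.drop (k + 1) ++ l₂) ?_).of_eq ?_
      · rw [Function.update_of_ne hat, Function.update_of_ne hua.symm,
          Function.update_of_ne hab, Function.update_self, e1]
        rfl
      · rw [e2]
        funext m
        simp only [Function.update_apply]
        split_ifs <;> simp_all)
  simp only [Finset.sum_const, Finset.card_range, smul_eq_mul] at h
  have e0 : Function.update (Function.update s a (l₁.drop 0 ++ l₂)) b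
      ((l₁.take 0).reverse ++ s b) = s := by
    funext m
    simp only [Function.update_apply]
    split_ifs <;> simp_all
  rw [e0] at h
  refine (h.mono (by omega)).of_eq ?_
  simp

/-- Remove one symbol from `a` for every symbol of `u` (scratch stack `t`). -/
def dropN (u a t : ι) : Prog ι Γ := Prog.forr u t (Prog.pop a)

theorem runs_dropN {u a t : ι} (hua : u ≠ a) (hut : u ≠ t)
    (hat : a ≠ t) (c : Γ) (n : ℕ) (s : Store ι Γ)
    (hu : s u = List.replicate n c) (ht : s t = []) :
    Runs (dropN u a t) s (Function.update s a ((s a).drop n)) (8 * n + 1) := by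
  have h := Runs.forr' hut (body := Prog.pop a) n c
    (fun k => Function.update s a ((s a).drop k)) (fun _ => 1)
    (fun k _ => by rw [Function.update_of_ne hua, hu])
    (fun k _ => by rw [Function.update_of_ne hat.symm, ht])
    (by
      intro k hk l l'
      refine (Runs.pop a _).of_eq ?_
      funext m
      simp only [Function.update_apply]
      split_ifs <;> simp_all)
  simp only [Finset.sum_const, Finset.card_range, smul_eq_mul] at h
  have e0 : Function.update s a ((s a).drop 0) = s := by simp
  rw [e0] at h
  exact h.mono (by omega)

/-- Move the contents of `a` on top of `b`, keeping the order (scratch stack `t`). -/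
def mvOnto (a b t : ι) : Prog ι Γ := (Prog.rev a t).seq (Prog.rev t b)

theorem runs_mvOnto {a b t : ι} (hab : a ≠ b) (hat : a ≠ t) (hbt : b ≠ t)
    (s : Store ι Γ) (ht : s t = []) :
    Runs (mvOnto a b t) s (Function.update (Function.update s a []) b (s a ++ s b))
      (6 * (s a).length + 1) := by
  have h1 := Runs.rev hat s
  have h2 := Runs.rev hbt.symm (Function.update (Function.update s a []) t
    ((s a).reverse ++ s t))
  refine ((h1.seq h2).mono ?_).of_eq ?_
  · simp [ht]; omega
  · funext m
    simp only [Function.update_apply]
    split_ifs <;> simp_all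

end Vale.Agent.P338.S2
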