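import Vale.Agent.P338.LimbLoop

/-!
# P338: long products: the whole program
-/

namespace Vale.Agent.P338.Limb

open S2 SS

variable {J E : Type}

/-- The preparation, first part. -/
def ini1 (K : ℕ) : PL E :=
  cnt.seq ((Prog.rev Lr.AY Lr.YR).seq ((Prog.pushN K Lr.KK mk).seq
    ((Prog.pushN K Lr.KO mk).seq ((Prog.copyOnto Lr.TA Lr.T Lr.T2).seq ceilP))))

/-- The preparation, second part. -/
def ini2 : PL E :=
  (Prog.repOnto Lr.KO Lr.MM Lr.LL Lr.T Lr.F5).seq
    ((Prog.repOnto Lr.KO Lr.MM Lr.LL Lr.T Lr.F5).seq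
    ((Prog.repOnto Lr.KO Lr.MM Lr.PZ Lr.T Lr.F5).seq (dropN Lr.TA Lr.PZ Lr.F6)))

/-- The preparation, third part. -/
def ini3 : PL E :=
  (Prog.fill Lr.PZ (sb false) Lr.XR Lr.F6).seq
    ((Prog.fill Lr.PZ (sb false) Lr.YR Lr.F6).seq (Prog.clear Lr.PZ))

/-- The preparation, fourth part. -/
def ini4 : PL E :=
  (Prog.copyOnto Lr.LL Lr.LZ Lr.T).seq ((dropN Lr.MM Lr.LZ Lr.F6).seq
    ((dropN Lr.MM Lr.LZ Lr.F6).seq (Prog.fill Lr.LL (sb false) Lr.Z Lr.F6)))

/-- The preparation. -/
def ini (K : ℕ) : PL E := (ini1 K).seq (ini2.seq (ini3.seq ini4))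

/-- The small stores of the program. -/
def ms (ax ay xr yr ta mm pz ll lz kk ko z t az : List (SSym E)) : SL E
  | .AX => ax
  | .AY => ay
  | .XR => xr
  | .YR => yr
  | .TA => ta
  | .MM => mm
  | .PZ => pz
  | .LL => ll
  | .LZ => lz
  | .KK => kk
  | .KO => ko
  | .Z => z
  | .T => t
  | .AZ => az
  | _ => []

theorem rep_una' (n m : ℕ) : (rep n (una m) : List (SSym E)) = una (n * m) := by
  simp [rep, una]

theorem una_add' (n m : ℕ) : (una n ++ una m : List (SSym E)) = una (n + m) := by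
  simp [una]

theorem drop_una (n m : ℕ) : (una n : List (SSym E)).drop m = una (n - m) := by
  simp [una]

theorem pad_rev {M n x : ℕ} (h : M ≤ n) (hx : x < 2 ^ M) :
    (List.replicate (n - M) (sb false) ++ (bits (bitsOf M x)).reverse : List (SSym E)) =
      (bits (bitsOf n x)).reverse := by
  have e := bitsOf_add_zeros hx (n - M)
  rw [Nat.add_sub_cancel' h] at e
  rw [e, bits_append, List.reverse_append]
  simp [bits]

theorem runs_ini1 {K M x y : ℕ} (hK : 1 ≤ K) :
    Runs (ini1 K : PL E) (ms (bits (bitsOf M x)) (bits (bitsOf M y)) [] [] [] [] [] [] [] [] []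
      [] [] []) (ms [] [] (bits (bitsOf M x)).reverse (bits (bitsOf M y)).reverse (una M)
    (una (cdiv M K)) [] [] [] (una K) (una K) [] [] [])
      (12 * M + 4 * K + 8 + cdiv M K * (8 * K + 5)) := by
  obtain ⟨m, hm⟩ : ∃ m, m = cdiv M K := ⟨_, rfl⟩
  have r1 := runs_cnt (bits (bitsOf M x)) (ms (bits (bitsOf M x)) (bits (bitsOf M y)) [] [] []
    [] [] [] [] [] [] [] [] []  : SL E) rfl
  have r2 := Runs.rev (i := Lr.AY) (j := Lr.YR) (by decide)
    (ms [] (bits (bitsOf M y)) (bits (bitsOf M x)).reverse [] (una M)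
    [] [] [] [] [] [] [] [] [] : SL E)
  have r3 := Runs.pushN K Lr.KK mk
    (ms [] [] (bits (bitsOf M x)).reverse (bits (bitsOf M y)).reverse (una M)
    [] [] [] [] [] [] [] [] [] : SL E)
  have r4 := Runs.pushN K Lr.KO mk
    (ms [] [] (bits (bitsOf M x)).reverse (bits (bitsOf M y)).reverse (una M)
    [] [] [] [] (una K) [] [] [] [] : SL E)
  have r5 := Runs.copyOnto (a := Lr.TA) (b := Lr.T) (t := Lr.T2) (by decide) (by decide)
    (by decide)
    (ms [] [] (bits (bitsOf M x)).reverse (bits (bitsOf M y)).reverse (una M)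
    [] [] [] [] (una K) (una K) [] [] [] : SL E) rfl
  have r6 := runs_ceilP hK M
    (ms [] [] (bits (bitsOf M x)).reverse (bits (bitsOf M y)).reverse (una M)
    [] [] [] [] (una K) (una K) [] (una M) [] : SL E) 0 rfl rfl rfl rfl
  rw [Nat.zero_add] at r6
  refine ((r1.of_eq ?_).seq ((r2.of_eq ?_).seq ((r3.of_eq ?_).seq ((r4.of_eq ?_).seq
    ((r5.of_eq ?_).seq r6))))).mono ?_ |>.of_eq ?_
  · funext r; cases r <;> simp [ms]
  · funext r; cases r <;> simp [ms]
  · funext r; cases r <;> simp [ms, una]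
  · funext r; cases r <;> simp [ms, una]
  · funext r; cases r <;> simp [ms]
  · simp only [ms, length_bits, length_bitsOf, length_una]
    omega
  · funext r; cases r <;> simp [ms]

theorem runs_ini2 {K M m : ℕ} (xr yr : List (SSym E)) :
    Runs (ini2 : PL E) (ms [] [] xr yr (una M) (una m) [] [] [] (una K) (una K) [] [] [])
      (ms [] [] xr yr (una M) (una m) (una (m * K - M)) (una (2 * (m * K))) [] (una K) (una K)
        [] [] []) (3 * (K * (6 * m + 8)) + 8 * M + 7) := by
  have r7 := Runs.repOnto (u := Lr.KO) (a := Lr.MM) (b := Lr.LL) (t := Lr.T) (t' := Lr.F5)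
    (by decide) (by decide) (by decide) (by decide) (by decide) (by decide) (by decide)
    (by decide) (by decide) (by decide) mk
    (ms [] [] xr yr (una M)
    (una m) [] [] [] (una K) (una K) [] [] [] : SL E) K rfl rfl rfl
  have r8 := Runs.repOnto (u := Lr.KO) (a := Lr.MM) (b := Lr.LL) (t := Lr.T) (t' := Lr.F5)
    (by decide) (by decide) (by decide) (by decide) (by decide) (by decide) (by decide)
    (by decide) (by decide) (by decide) mk
    (ms [] [] xr yr (una M)
    (una m) [] (una (K * m)) [] (una K) (una K) [] [] [] : SL E) K rfl rfl rfl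
  have r9 := Runs.repOnto (u := Lr.KO) (a := Lr.MM) (b := Lr.PZ) (t := Lr.T) (t' := Lr.F5)
    (by decide) (by decide) (by decide) (by decide) (by decide) (by decide) (by decide)
    (by decide) (by decide) (by decide) mk
    (ms [] [] xr yr (una M)
    (una m) [] (una (2 * (m * K))) [] (una K) (una K) [] [] [] : SL E) K rfl rfl rfl
  have r10 := runs_dropN (u := Lr.TA) (a := Lr.PZ) (t := Lr.F6) (by decide) (by decide)
    (by decide) mk M
    (ms [] [] xr yr (una M)
    (una m) (una (K * m)) (una (2 * (m * K))) [] (una K) (una K) [] [] [] : SL E) rfl rfl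
  refine ((r7.of_eq ?_).seq ((r8.of_eq ?_).seq
    ((r9.of_eq ?_).seq r10))).mono ?_ |>.of_eq ?_
  · funext r; cases r <;> simp [ms, rep_una']
  · have e : K * m + K * m = 2 * (m * K) := by ring
    funext r; cases r <;> simp [ms, rep_una', una_add', e]
  · funext r; cases r <;> simp [ms, rep_una']
  · simp only [ms, length_una]
    omega
  · funext r; cases r <;> simp [ms, drop_una, Nat.mul_comm]

theorem runs_ini3 {K M m x y : ℕ} (hMm : M ≤ m * K) (hx : x < 2 ^ M) (hy : y < 2 ^ M) :
    Runs (ini3 : PL E) (ms [] [] (bits (bitsOf M x)).reverse (bits (bitsOf M y)).reverse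
      (una M) (una m) (una (m * K - M)) (una (2 * (m * K))) [] (una K) (una K) [] [] [])
      (ms [] [] (bits (bitsOf (m * K) x)).reverse (bits (bitsOf (m * K) y)).reverse (una M)
      (una m) [] (una (2 * (m * K))) [] (una K) (una K) [] [] []) (19 * (m * K) + 4) := by
  have r11 := Runs.fill (u := Lr.PZ) (b := Lr.XR) (t := Lr.F6) (by decide) (by decide)
    (by decide) (sb false : SSym E) mk
    (ms [] [] (bits (bitsOf M x)).reverse (bits (bitsOf M y)).reverse (una M)
    (una m) (una (m * K - M)) (una (2 * (m * K))) [] (una K) (una K) [] [] [] : SL E)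
    (m * K - M) rfl rfl
  have r12 := Runs.fill (u := Lr.PZ) (b := Lr.YR) (t := Lr.F6) (by decide) (by decide)
    (by decide) (sb false : SSym E) mk
    (ms [] [] (bits (bitsOf (m * K) x)).reverse (bits (bitsOf M y)).reverse (una M)
    (una m) (una (m * K - M)) (una (2 * (m * K))) [] (una K) (una K) [] [] [] : SL E)
    (m * K - M) rfl rfl
  have r13 := Runs.clear Lr.PZ
    (ms [] [] (bits (bitsOf (m * K) x)).reverse (bits (bitsOf (m * K) y)).reverse (una M)
    (una m) (una (m * K - M)) (una (2 * (m * K))) [] (una K) (una K) [] [] [] : SL E)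
  refine ((r11.of_eq ?_).seq ((r12.of_eq ?_).seq r13)).mono ?_ |>.of_eq ?_
  · funext r; cases r <;> simp [ms, pad_rev hMm hx]
  · funext r; cases r <;> simp [ms, pad_rev hMm hy]
  · simp only [ms, length_una]
    omega
  · funext r; cases r <;> simp [ms]

theorem runs_ini4 {K M m : ℕ} (xr yr : List (SSym E)) :
    Runs (ini4 : PL E) (ms [] [] xr yr (una M) (una m) [] (una (2 * (m * K))) [] (una K)
      (una K) [] [] []) (ms [] [] xr yr (una M) (una m) [] (una (2 * (m * K)))
      (una (2 * (m * K) - 2 * m)) (una K) (una K) (bits (bitsOf (2 * (m * K)) 0)) [] [])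
      (28 * (m * K) + 16 * m + 7) := by
  have r14 := Runs.copyOnto (a := Lr.LL) (b := Lr.LZ) (t := Lr.T) (by decide) (by decide)
    (by decide)
    (ms [] [] xr yr (una M)
    (una m) [] (una (2 * (m * K))) [] (una K) (una K) [] [] [] : SL E) rfl
  have r15 := runs_dropN (u := Lr.MM) (a := Lr.LZ) (t := Lr.F6) (by decide) (by decide)
    (by decide) mk m
    (ms [] [] xr yr (una M)
    (una m) [] (una (2 * (m * K))) (una (2 * (m * K))) (una K) (una K) [] [] [] : SL E)
    rfl rfl
  have r16 := runs_dropN (u := Lr.MM) (a := Lr.LZ) (t := Lr.F6) (by decide) (by decide)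
    (by decide) mk m
    (ms [] [] xr yr (una M)
    (una m) [] (una (2 * (m * K))) (una (2 * (m * K) - m)) (una K) (una K) [] [] [] : SL E)
    rfl rfl
  have r17 := Runs.fill (u := Lr.LL) (b := Lr.Z) (t := Lr.F6) (by decide) (by decide)
    (by decide) (sb false : SSym E) mk
    (ms [] [] xr yr (una M)
    (una m) [] (una (2 * (m * K))) (una (2 * (m * K) - 2 * m)) (una K) (una K) [] [] [] :
    SL E) (2 * (m * K)) rfl rfl
  refine ((r14.of_eq ?_).seq ((r15.of_eq ?_).seq ((r16.of_eq ?_).seq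
    r17))).mono ?_ |>.of_eq ?_
  · funext r; cases r <;> simp [ms]
  · funext r; cases r <;> simp [ms, drop_una]
  · have e : 2 * (m * K) - m - m = 2 * (m * K) - 2 * m := by omega
    funext r; cases r <;> simp [ms, drop_una, e]
  · simp only [ms, length_una]
    omega
  · rw [bitsOf_zero]
    funext r; cases r <;> simp [ms, bits]

theorem runs_ini {K M x y : ℕ} (hK : 1 ≤ K) (hM : 1 ≤ M) (hx : x < 2 ^ M) (hy : y < 2 ^ M) :
    Runs (ini K : PL E) (ms (bits (bitsOf M x)) (bits (bitsOf M y)) [] [] [] [] [] [] [] [] []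
      [] [] []) (ms [] [] (bits (bitsOf (cdiv M K * K) x)).reverse
      (bits (bitsOf (cdiv M K * K) y)).reverse (una M) (una (cdiv M K)) []
      (una (2 * (cdiv M K * K))) (una (2 * (cdiv M K * K) - 2 * cdiv M K)) (una K) (una K)
      (bits (bitsOf (2 * (cdiv M K * K)) 0)) [] [])
      (300 * (K * M)) := by
  have hmM : cdiv M K ≤ M := cdiv_le hK
  have hMm : M ≤ cdiv M K * K := le_mul_cdiv hK
  have r1 := runs_ini1 (E := E) (x := x) (y := y) (M := M) hK
  generalize cdiv M K = m at r1 hmM hMm ⊢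
  have r2 := runs_ini2 (K := K) (M := M) (m := m) (bits (bitsOf M x) : List (SSym E)).reverse
    (bits (bitsOf M y)).reverse
  have r3 := runs_ini3 (E := E) (x := x) (y := y) hMm hx hy
  have r4 := runs_ini4 (K := K) (M := M) (m := m)
    (bits (bitsOf (m * K) x) : List (SSym E)).reverse (bits (bitsOf (m * K) y)).reverse
  refine (r1.seq (r2.seq (r3.seq r4))).mono ?_
  have h1 : m * K ≤ K * M := by rw [Nat.mul_comm]; exact Nat.mul_le_mul_left _ hmM
  have h2 : M ≤ K * M := Nat.le_mul_of_pos_left _ hK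
  have h3 : K ≤ K * M := Nat.le_mul_of_pos_right _ hM
  have h4 : m * (8 * K + 5) = 8 * (m * K) + 5 * m := by ring
  have h5 : K * (6 * m + 8) = 6 * (m * K) + 8 * K := by ring
  rw [h4, h5]
  omega

/-! ### The end -/

/-- The end of the program, first part. -/
def fin1 : PL E := (takeN Lr.TA Lr.Z Lr.T Lr.F6).seq (takeN Lr.TA Lr.Z Lr.T Lr.F6)

/-- The end of the program, second part. -/
def fin2 : PL E :=
  (Prog.clear Lr.Z).seq ((Prog.rev Lr.T Lr.AZ).seq ((Prog.clear Lr.YR).seq
    ((Prog.clear Lr.TA).seq ((Prog.clear Lr.MM).seq ((Prog.clear Lr.LL).seq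
    ((Prog.clear Lr.LZ).seq ((Prog.clear Lr.KK).seq (Prog.clear Lr.KO))))))))

theorem runs_fin1 {K M m L z : ℕ} (hL : 2 * M ≤ L) (yr : List (SSym E)) :
    Runs (fin1 : PL E)
      (ms [] [] [] yr (una M) (una m) [] (una L) (una (L - 2 * m)) (una K) (una K)
        (bits (bitsOf L z)) [] [])
      (ms [] [] [] yr (una M) (una m) [] (una L) (una (L - 2 * m)) (una K) (una K)
        (bits ((bitsOf L z).drop (2 * M))) (bits (bitsOf (2 * M) z)).reverse [])
      (16 * M + 3) := by
  have e1 : bitsOf L z = (bitsOf L z).take M ++ (bitsOf L z).drop M :=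
    (List.take_append_drop _ _).symm
  have e2 : (bitsOf L z).drop M = ((bitsOf L z).drop M).take M ++ (bitsOf L z).drop (2 * M) := by
    conv_lhs => rw [← List.take_append_drop M ((bitsOf L z).drop M)]
    rw [List.drop_drop, two_mul]
  have e3 : bitsOf (2 * M) z = (bitsOf L z).take M ++ ((bitsOf L z).drop M).take M := by
    rw [← take_bitsOf hL, two_mul, List.take_add]
  have l1 : ((bitsOf L z).take M).length = M := by simp; omega
  have l2 : (((bitsOf L z).drop M).take M).length = M := by simp; omega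
  have r1 := runs_takeN (u := Lr.TA) (a := Lr.Z) (b := Lr.T) (t := Lr.F6) (by decide)
    (by decide) (by decide) (by decide) (by decide) (by decide) mk
    (bits ((bitsOf L z).take M)) (bits ((bitsOf L z).drop M))
    (ms [] [] [] yr (una M) (una m) [] (una L) (una (L - 2 * m)) (una K) (una K)
        (bits (bitsOf L z)) [] [] : SL E)
    (by rw [length_bits, l1]; rfl) rfl (by rw [← bits_append, ← e1]; rfl)
  have r2 := runs_takeN (u := Lr.TA) (a := Lr.Z) (b := Lr.T) (t := Lr.F6) (by decide)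
    (by decide) (by decide) (by decide) (by decide) (by decide) mk
    (bits (((bitsOf L z).drop M).take M)) (bits ((bitsOf L z).drop (2 * M)))
    (ms [] [] [] yr (una M) (una m) [] (una L) (una (L - 2 * m)) (una K) (una K)
        (bits ((bitsOf L z).drop M)) (bits ((bitsOf L z).take M)).reverse [] : SL E)
    (by rw [length_bits, l2]; rfl) rfl (by rw [← bits_append, ← e2]; rfl)
  rw [length_bits, l1] at r1
  rw [length_bits, l2] at r2
  refine ((r1.of_eq ?_).seq r2).mono ?_ |>.of_eq ?_
  · funext r; cases r <;> simp [ms]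
  · omega
  · rw [e3, bits_append, List.reverse_append]
    funext r; cases r <;> simp [ms]

theorem runs_fin2 {K M m L : ℕ} (yr z t : List (SSym E)) :
    Runs (fin2 : PL E)
      (ms [] [] [] yr (una M) (una m) [] (una L) (una (L - 2 * m)) (una K) (una K) z t [])
      (ms [] [] [] [] [] [] [] [] [] [] [] [] [] t.reverse)
      (3 * z.length + 3 * t.length + 3 * yr.length + 3 * M + 3 * m + 6 * L + 6 * K + 8) := by
  have r1 := Runs.clear Lr.Z (ms [] [] [] yr (una M) (una m) [] (una L) (una (L - 2 * m))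
    (una K) (una K) z t [] : SL E)
  have r2 := Runs.rev (i := Lr.T) (j := Lr.AZ) (by decide)
    (ms [] [] [] yr (una M) (una m) [] (una L) (una (L - 2 * m))
    (una K) (una K) [] t [] : SL E)
  have r3 := Runs.clear Lr.YR (ms [] [] [] yr (una M) (una m) [] (una L) (una (L - 2 * m))
    (una K) (una K) [] [] t.reverse : SL E)
  have r4 := Runs.clear Lr.TA (ms [] [] [] [] (una M) (una m) [] (una L) (una (L - 2 * m))
    (una K) (una K) [] [] t.reverse : SL E)
  have r5 := Runs.clear Lr.MM (ms [] [] [] [] [] (una m) [] (una L) (una (L - 2 * m))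
    (una K) (una K) [] [] t.reverse : SL E)
  have r6 := Runs.clear Lr.LL (ms [] [] [] [] [] [] [] (una L) (una (L - 2 * m))
    (una K) (una K) [] [] t.reverse : SL E)
  have r7 := Runs.clear Lr.LZ (ms [] [] [] [] [] [] [] [] (una (L - 2 * m))
    (una K) (una K) [] [] t.reverse : SL E)
  have r8 := Runs.clear Lr.KK (ms [] [] [] [] [] [] [] [] []
    (una K) (una K) [] [] t.reverse : SL E)
  have r9 := Runs.clear Lr.KO (ms [] [] [] [] [] [] [] [] []
    [] (una K) [] [] t.reverse : SL E)
  refine ((r1.of_eq ?_).seq ((r2.of_eq ?_).seq ((r3.of_eq ?_).seq ((r4.of_eq ?_).seq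
    ((r5.of_eq ?_).seq ((r6.of_eq ?_).seq ((r7.of_eq ?_).seq ((r8.of_eq ?_).seq
    r9)))))))).mono ?_ |>.of_eq ?_
  · funext r; cases r <;> simp [ms]
  · funext r; cases r <;> simp [ms]
  · funext r; cases r <;> simp [ms]
  · funext r; cases r <;> simp [ms]
  · funext r; cases r <;> simp [ms]
  · funext r; cases r <;> simp [ms]
  · funext r; cases r <;> simp [ms]
  · funext r; cases r <;> simp [ms]
  · simp only [ms, length_una]
    omega
  · funext r; cases r <;> simp [ms]

/-! ### The whole program -/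

/-- A product of `M` bits by `K ^ 2` products of `⌈M / K⌉` bits. -/
noncomputable def limb [DecidableEq J] (K : ℕ) (call : Pr J E) : Pr (J ⊕ Lr) E :=
  ((ini K).map emb).seq ((outLoop call).seq ((fin1.map emb).seq (fin2.map emb)))

theorem limb_time {K M m C T : ℕ} (hK : 1 ≤ K) (hM : 1 ≤ M) (hm : m ≤ M) :
    300 * (K * M) + 1 + (K * (K * (C * (m + T) + 14 * m + 60 * (2 * (m * K)) + 72) + 8 * m +
      6 * (m * K) + 68 * (2 * (m * K)) + 77) + 1 + 1 + (16 * M + 3 + 1 +
      (3 * (2 * (m * K)) + 3 * (2 * M) + 3 * (m * K) + 3 * M + 3 * m + 6 * (2 * (m * K)) +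
        6 * K + 8))) ≤ (K * K * C + 2000 * (K * K * K)) * (M + T) := by
  have h1 : m * K ≤ K * M := by rw [Nat.mul_comm]; exact Nat.mul_le_mul_left _ hm
  have h2 : M ≤ K * M := Nat.le_mul_of_pos_left _ hK
  have h3 : K ≤ K * M := Nat.le_mul_of_pos_right _ hM
  have h4 : K * M ≤ K * (K * M) := Nat.le_mul_of_pos_left _ hK
  have h5 : K * (K * M) ≤ K * (K * (K * M)) :=
    Nat.mul_le_mul_left _ (Nat.mul_le_mul_left _ h2)
  have h6 : K * (K * (C * (m + T))) ≤ K * (K * (C * (M + T))) :=
    Nat.mul_le_mul_left _ (Nat.mul_le_mul_left _ (Nat.mul_le_mul_left _ (by omega)))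
  have h7 : K * (K * m) ≤ K * (K * M) := Nat.mul_le_mul_left _ (Nat.mul_le_mul_left _ hm)
  have h8 : K * (K * (m * K)) ≤ K * (K * (K * M)) :=
    Nat.mul_le_mul_left _ (Nat.mul_le_mul_left _ h1)
  have h9 : K * K ≤ K * (K * M) := Nat.mul_le_mul_left _ h3
  have h10 : K * m ≤ K * M := Nat.mul_le_mul_left _ hm
  have h11 : K * (m * K) ≤ K * (K * M) := Nat.mul_le_mul_left _ h1
  have e1 : K * (K * (C * (m + T) + 14 * m + 60 * (2 * (m * K)) + 72) + 8 * m +
      6 * (m * K) + 68 * (2 * (m * K)) + 77) = K * (K * (C * (m + T))) + 14 * (K * (K * m)) +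
      120 * (K * (K * (m * K))) + 72 * (K * K) + 8 * (K * m) + 142 * (K * (m * K)) + 77 * K := by
    ring
  have e2 : (K * K * C + 2000 * (K * K * K)) * (M + T) = K * (K * (C * (M + T))) +
      2000 * (K * (K * (K * M))) + 2000 * (K * (K * (K * T))) := by ring
  rw [e1, e2]
  omega

/-- The store of a call. -/
theorem small_store {s : St (J ⊕ Lr) E} {xs ys : List Bool} (hidle : s.Idle)
    (hemp : s.Empty [R.AZ, R.CNT, R.CLK]) (hax : s.at R.AX = bits xs)
    (hay : s.at R.AY = bits ys) : (fun r => s (emb r)) =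
      ms (bits xs) (bits ys) [] [] [] [] [] [] [] [] [] [] [] [] := by
  have h0 : s (Sum.inl R.AZ) = [] := hemp R.AZ (by simp)
  have h1 : s (Sum.inl R.AX) = bits xs := hax
  have h2 : s (Sum.inl R.AY) = bits ys := hay
  have h3 : ∀ j, s (Sum.inr j) = [] := hidle
  funext r
  cases r <;> simp [emb, ms, h0, h1, h2, h3]

variable [DecidableEq J]

/-- The final store of a call. -/
theorem final_store {s : St (J ⊕ Lr) E} (hidle : s.Idle)
    (hemp : s.Empty [R.AZ, R.CNT, R.CLK]) (z : List (SSym E)) :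
    ovw emb (ms [] [] [] [] [] [] [] [] [] [] [] [] [] z) s =
      ((s.set R.AX []).set R.AY []).set R.AZ z := by
  have hi := emb_injective (J := J)
  have h0 : s (Sum.inl R.AZ) = [] := hemp R.AZ (by simp)
  have h3 : ∀ j, s (Sum.inr j) = [] := hidle
  funext k
  by_cases hk : ∃ r, emb r = k
  · obtain ⟨r, rfl⟩ := hk
    rw [ovw_apply hi]
    cases r <;> simp [emb, ms, St.set, h3]
  · rw [ovw_of_not _ _ hk]
    have g : ∀ r, k ≠ emb r := fun r h => hk ⟨r, h.symm⟩
    have g1 := g Lr.AX
    have g2 := g Lr.AY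
    have g3 := g Lr.AZ
    simp only [emb] at g1 g2 g3
    simp only [St.set, Function.update_apply, if_neg g1, if_neg g2, if_neg g3]

/-- **Long products.** A multiplication program that is called gives one that calls it only
on numbers of `⌈M / K⌉` bits. -/
theorem limb_spec {K : ℕ} (hK : 1 ≤ K) {call : Pr J E} {T : ℕ → ℕ} {C : ℕ}
    (hcall : CallFullSpec call T C) :
    CallFullSpec (limb K call) (fun M => T ((M + K - 1) / K)) (K * K * C + 2000 * (K * K * K))
    := by
  intro M xs ys s hM hx hy hidle hemp hax hay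
  have hi := emb_injective (J := J)
  obtain ⟨x, hx'⟩ : ∃ x, x = natOf xs := ⟨_, rfl⟩
  obtain ⟨y, hy'⟩ : ∃ y, y = natOf ys := ⟨_, rfl⟩
  have hxl : x < 2 ^ M := by rw [hx', ← hx]; exact natOf_lt xs
  have hyl : y < 2 ^ M := by rw [hy', ← hy]; exact natOf_lt ys
  have ex : xs = bitsOf M x := by rw [hx']; exact (bitsOf_natOf_of hx).symm
  have ey : ys = bitsOf M y := by rw [hy']; exact (bitsOf_natOf_of hy).symm
  rw [← hx', ← hy']
  have hS : Fr s := ⟨fun j => hidle (Sum.inl j), hemp R.CNT (by simp), hemp R.CLK (by simp)⟩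
  have hs0 := small_store hidle hemp hax hay
  have hMm : M ≤ cdiv M K * K := le_mul_cdiv hK
  have hmM : cdiv M K ≤ M := cdiv_le hK
  have hm1 : 1 ≤ cdiv M K := cdiv_pos hK hM
  have r1 := RunsE.small hi s (runs_ini (E := E) (M := M) hK hM hxl hyl)
  change Runs (limb K call) s _ ((K * K * C + 2000 * (K * K * K)) * (M + T (cdiv M K)))
  generalize cdiv M K = m at *
  have hpow : 2 ^ M ≤ 2 ^ (m * K) := Nat.pow_le_pow_right (by norm_num) hMm
  have hmK : m ≤ m * K := Nat.le_mul_of_pos_right _ hK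
  have r2 := runs_outLoop hcall hS (ms [] [] (bits (bitsOf (m * K) x)).reverse
      (bits (bitsOf (m * K) y)).reverse (una M) (una m) []
      (una (2 * (m * K))) (una (2 * (m * K) - 2 * m)) (una K) (una K)
      (bits (bitsOf (2 * (m * K)) 0)) [] [] : SL E) (m := m) (L := 2 * (m * K)) (K := K)
      (x := x) (y := y) hm1 (by omega) (lt_of_lt_of_le hxl hpow) (lt_of_lt_of_le hyl hpow)
      ⟨rfl, rfl, rfl, sc0_cases rfl rfl rfl rfl rfl rfl rfl rfl rfl rfl⟩
      rfl rfl rfl rfl rfl rfl rfl rfl rfl rfl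
  have r3 := RunsE.small hi s (runs_fin1 (E := E) (K := K) (M := M) (m := m)
    (L := 2 * (m * K)) (z := x * y) (by omega) (bits (bitsOf (m * K) y)).reverse)
  have r4 := RunsE.small hi s (runs_fin2 (E := E) (K := K) (M := M) (m := m)
    (L := 2 * (m * K)) (bits (bitsOf (m * K) y)).reverse
    (bits ((bitsOf (2 * (m * K)) (x * y)).drop (2 * M)))
    (bits (bitsOf (2 * M) (x * y))).reverse)
  rw [List.reverse_reverse] at r4
  have r := ((r1.seq ((r2.of_eq ?_).seq (r3.seq r4))).mono ?_ : RunsE emb s (limb K call)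
    (ms (bits (bitsOf M x)) (bits (bitsOf M y)) [] [] [] [] [] [] [] [] [] [] [] [])
    (ms [] [] [] [] [] [] [] [] [] [] [] [] [] (bits (bitsOf (2 * M) (x * y))))
    ((K * K * C + 2000 * (K * K * K)) * (M + T m)))
  · unfold RunsE at r
    rw [← ex, ← ey, ← hs0, ovw_self hi, final_store hidle hemp] at r
    exact r
  · funext r
    cases r <;> simp [ms]
  · refine le_trans ?_ (limb_time (C := C) (T := T m) hK hM hmM)
    simp only [List.length_reverse, length_bits, length_bitsOf, List.length_drop]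
    omega

end Vale.Agent.P338.Limb
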