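import Vale.Agent.P338.Iface

/-!
# P338, second reduction: the interface between the parts

`P` is a prime, `r = P - 1`, `w` has order `r` modulo `P`, and `w' = w ^ (r - 1)` modulo `P`
is its inverse. The data consists of `X * r * Y * r * Z` elements `e x i y j z` of `t` bits,
where `2 ^ t ≤ P`. The digits `i` and `j` are swapped.
Tiny numbers are little-endian lists of exactly `S` bits, where `4 * Nat.size P ≤ S`.

* rotate: `b x i y e z = b₀ x i y (e - i) z`,
* reflect: `b' x l y e z = b x (e - l) y e z`, by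
  `c₁ = b * w ^ (-i(i+1)/2)`, `u (k) = ∑ i, κ (k + (r-1) - i) * c₁ (i)`,
  `c₂ = u * w ^ (k * (e - k))`, `v (l) = ∑ k, κ (l + (r-1) - k) * c₂ (k)`,
  `b' = v * (-w ^ (-l(l-1)/2))`, where `κ j = - w ^ (j(j+1)/2)`,
* rotate back: `out x l y c z = b' x l y (c + l) z = b₀ x c y l z`.
-/

namespace Vale.Agent.P338.S2

variable {J E : Type}

/-- The data: `X * r * Y * r' * Z` elements of `k` bits. -/
def dat (X r Y r' Z k : ℕ) (e : ℕ → ℕ → ℕ → ℕ → ℕ → ℕ) : List Bool :=
  cat X fun x => cat r fun i => cat Y fun y => cat r' fun j => cat Z fun z =>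
    bitsOf k (e x i y j z)

/-- A tiny number on a stack. -/
def tny {E : Type} (S v : ℕ) : List (SSym E) := bits (bitsOf S v)

/-! ### Stacks

* parameters: `HH = X`, `RR = r`, `GG = Y`, `DD = Z`, `TM = t`, `WW = S`, `MM = m` in unary,
* tiny numbers: `U1 = P`, `U2 = 2 ^ S / P`, `AL = w`, `BE = w'`,
* `X` the data, `KER` the kernel.
-/

/-- Scratch stacks of the arithmetic with tiny numbers: empty before and after. -/
def arScratch : List R :=
  [R.AX, R.AY, R.AZ, R.CLK, R.FLAG, R.CNT, R.Q1, R.Q2, R.Q3, R.Q4, R.K1, R.K2, R.K3, R.K4,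
   R.K5, R.K6]

/-- The arithmetic environment. -/
structure Ar (s : St J E) (S P : ℕ) : Prop where
  idle : s.Idle
  emp : s.Empty arScratch
  ww : s.at R.WW = una S
  u1 : s.at R.U1 = tny S P
  u2 : s.at R.U2 = tny S (2 ^ S / P)

/-- Stacks that must not be used for operands. -/
def arUsed : List R := [R.WW, R.U1, R.U2] ++ arScratch

/-- `mul a b`: replace the number on `a` by its product with the number on `b`, modulo `P`. -/
def MulSpec [DecidableEq J] (mul : R → R → Pr J E) (T : ℕ → ℕ) (C : ℕ) : Prop :=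
  ∀ (S P u v : ℕ) (a b : R) (s : St J E), Nat.Prime P → 4 * Nat.size P ≤ S → Ar s S P →
    a ∉ arUsed → b ∉ arUsed → a ≠ b → u < P → v < P →
    s.at a = tny S u → s.at b = tny S v →
    Runs (mul a b) s (s.set a (tny S (u * v % P))) (C * (S + T S))

/-- `red a`: reduce the number on `a` modulo `P`. -/
def RedSpec [DecidableEq J] (red : R → Pr J E) (T : ℕ → ℕ) (C : ℕ) : Prop :=
  ∀ (S P u : ℕ) (a : R) (s : St J E), Nat.Prime P → 4 * Nat.size P ≤ S → Ar s S P →
    a ∉ arUsed → u < 2 ^ S → s.at a = tny S u →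
    Runs (red a) s (s.set a (tny S (u % P))) (C * (S + T S))

/-- Scratch stacks of the passes and of the convolution (besides `arScratch`): empty before
and after. -/
def pScratch : List R :=
  [R.T, R.S, R.OUT, R.SCH, R.CY, R.CY2, R.V0, R.V1, R.V2, R.V3, R.XS, R.RHO, R.MU, R.CN,
   R.IN, R.BB, R.TL, R.S1, R.S2, R.S3, R.S4, R.S5, R.S6, R.S7, R.S8, R.S9, R.S10, R.S11,
   R.S12]

/-- The environment of the swap. -/
structure Env (s : St J E) (X r Y Z t S m w w' : ℕ) : Prop extends Ar s S (r + 1) where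
  emp2 : s.Empty pScratch
  hh : s.at R.HH = una X
  rr : s.at R.RR = una r
  gg : s.at R.GG = una Y
  dd : s.at R.DD = una Z
  tm : s.at R.TM = una t
  mm : s.at R.MM = una m
  al : s.at R.AL = tny S w
  be : s.at R.BE = tny S w'

/-- The assumptions on the numbers. -/
structure Num (X r Y Z t S m w w' : ℕ) : Prop where
  hX : 1 ≤ X
  hY : 1 ≤ Y
  hZ : 1 ≤ Z
  ht : 1 ≤ t
  prime : Nat.Prime (r + 1)
  tP : 2 ^ t ≤ r + 1
  hS : 4 * Nat.size (r + 1) ≤ S
  hm : 3 * (X * r * Y * r * Z) * S ≤ m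
  wlt : w < r + 1
  order : orderOf (w : ZMod (r + 1)) = r
  w'eq : w' = w ^ (r - 1) % (r + 1)

/-! ### The five steps -/

/-- Rotation to the right: row `i` by `i` places. -/
def RotRSpec [DecidableEq J] (p : Pr J E) (C : ℕ) : Prop :=
  ∀ (X r Y Z t S m w w' : ℕ) (e : ℕ → ℕ → ℕ → ℕ → ℕ → ℕ) (s : St J E),
    Num X r Y Z t S m w w' → Env s X r Y Z t S m w w' → s.at R.KER = [] →
    s.at R.X = bits (dat X r Y r Z t e) →
    Runs p s (s.set R.X (bits (dat X r Y r Z t fun x i y j z =>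
      e x i y ((j + (r - i)) % r) z))) (C * (X * r * Y * r * Z * t))

/-- Rotation to the left: row `i` by `i` places. -/
def RotLSpec [DecidableEq J] (p : Pr J E) (C : ℕ) : Prop :=
  ∀ (X r Y Z t S m w w' : ℕ) (e : ℕ → ℕ → ℕ → ℕ → ℕ → ℕ) (s : St J E),
    Num X r Y Z t S m w w' → Env s X r Y Z t S m w w' → s.at R.KER = [] →
    s.at R.X = bits (dat X r Y r Z t e) →
    Runs p s (s.set R.X (bits (dat X r Y r Z t fun x i y j z =>
      e x i y ((j + i) % r) z))) (C * (X * r * Y * r * Z * t))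

/-- The factor `w ^ (-i(i+1)/2)`. -/
def fPre (P w' i : ℕ) : ℕ := w' ^ (i * (i + 1) / 2) % P

/-- The factor `w ^ (k(e-k))`. -/
def fMid (P w w' k e : ℕ) : ℕ := w ^ (k * e) * w' ^ (k * k) % P

/-- The factor `-w ^ (-l(l-1)/2)`. -/
def fPost (P w' l : ℕ) : ℕ := (P - 1) * w' ^ (l * (l - 1) / 2) % P

/-- The kernel `- w ^ (j(j+1)/2)`. -/
def ker (P w j : ℕ) : ℕ := (P - 1) * w ^ (j * (j + 1) / 2) % P

/-- First pass: `t` bits to `S` bits. -/
def PreSpec [DecidableEq J] (p : Pr J E) (T : ℕ → ℕ) (C : ℕ) : Prop :=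
  ∀ (X r Y Z t S m w w' : ℕ) (e : ℕ → ℕ → ℕ → ℕ → ℕ → ℕ) (s : St J E),
    Num X r Y Z t S m w w' → Env s X r Y Z t S m w w' → s.at R.KER = [] →
    (∀ x i y j z, e x i y j z < 2 ^ t) →
    s.at R.X = bits (dat X r Y r Z t e) →
    Runs p s (s.set R.X (bits (dat X r Y r Z S fun x i y j z =>
      e x i y j z * fPre (r + 1) w' i % (r + 1)))) (C * (X * r * Y * r * Z * (S + T S)))

/-- Second pass: `S` bits to `S` bits. -/
def MidSpec [DecidableEq J] (p : Pr J E) (T : ℕ → ℕ) (C : ℕ) : Prop :=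
  ∀ (X r Y Z t S m w w' : ℕ) (e : ℕ → ℕ → ℕ → ℕ → ℕ → ℕ) (K : List (SSym E)) (s : St J E),
    Num X r Y Z t S m w w' → Env s X r Y Z t S m w w' → s.at R.KER = K →
    (∀ x i y j z, e x i y j z < 2 ^ S) →
    s.at R.X = bits (dat X r Y r Z S e) →
    Runs p s (s.set R.X (bits (dat X r Y r Z S fun x k y j z =>
      e x k y j z % (r + 1) * fMid (r + 1) w w' k j % (r + 1))))
      (C * (X * r * Y * r * Z * (S + T S)))

/-- Third pass: `S` bits to `t` bits. -/
def PostSpec [DecidableEq J] (p : Pr J E) (T : ℕ → ℕ) (C : ℕ) : Prop :=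
  ∀ (X r Y Z t S m w w' : ℕ) (e : ℕ → ℕ → ℕ → ℕ → ℕ → ℕ) (s : St J E),
    Num X r Y Z t S m w w' → Env s X r Y Z t S m w w' → s.at R.KER = [] →
    (∀ x i y j z, e x i y j z < 2 ^ S) →
    s.at R.X = bits (dat X r Y r Z S e) →
    Runs p s (s.set R.X (bits (dat X r Y r Z t fun x l y j z =>
      e x l y j z % (r + 1) * fPost (r + 1) w' l % (r + 1))))
      (C * (X * r * Y * r * Z * (S + T S)))

/-- The generation of the kernel: `2 * r - 1` tiny numbers on `KER`. -/
def KerSpec [DecidableEq J] (p : Pr J E) (T : ℕ → ℕ) (C : ℕ) : Prop :=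
  ∀ (X r Y Z t S m w w' : ℕ) (s : St J E),
    Num X r Y Z t S m w w' → Env s X r Y Z t S m w w' → s.at R.KER = [] →
    Runs p s (s.set R.KER (bits (cat (2 * r - 1) fun j => bitsOf S (ker (r + 1) w j))))
      (C * (r * (S + T S)))

/-- The convolution along the digit `i`, with any kernel `κ` below `P`. -/
def ConvSpec [DecidableEq J] (p : Pr J E) (T : ℕ → ℕ) (C : ℕ) : Prop :=
  ∀ (X r Y Z t S m w w' : ℕ) (κ : ℕ → ℕ) (e : ℕ → ℕ → ℕ → ℕ → ℕ → ℕ) (s : St J E),
    Num X r Y Z t S m w w' → Env s X r Y Z t S m w w' →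
    (∀ j, κ j < r + 1) → (∀ x i y j z, e x i y j z < r + 1) →
    s.at R.KER = bits (cat (2 * r - 1) fun j => bitsOf S (κ j)) →
    s.at R.X = bits (dat X r Y r Z S e) →
    Runs p s (s.set R.X (bits (dat X r Y r Z S fun x k y j z =>
      ∑ i ∈ Finset.range r, κ (k + (r - 1) - i) * e x i y j z))) (C * (m + T m))

/-! ### The swap of two digits -/

/-- The specification of the program that swaps the digits `i` and `j`; `Tb` is the time of
the big multiplications and `Tt` that of the tiny ones. -/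
def SwapSpec2 [DecidableEq J] (p : Pr J E) (Tb Tt : ℕ → ℕ) (C : ℕ) : Prop :=
  ∀ (X r Y Z t S m w w' : ℕ) (e : ℕ → ℕ → ℕ → ℕ → ℕ → ℕ) (s : St J E),
    Num X r Y Z t S m w w' → Env s X r Y Z t S m w w' → s.at R.KER = [] →
    (∀ x i y j z, e x i y j z < 2 ^ t) →
    s.at R.X = bits (dat X r Y r Z t e) →
    Runs p s (s.set R.X (bits (dat X r Y r Z t fun x i y j z => e x j y i z)))
      (C * (m + Tb m + X * r * Y * r * Z * (S + Tt S)))

/-! ### The search for the prime, the root and the constants -/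

/-- Given the number `x` (on `NN`) and `S` (on `WW`), in unary, find a prime `P` with
`x < P ≤ 2 * x`, a number `w` of order `r = P - 1` and its inverse `w'`; write `r` (unary) on
`RR`, `P` on `U1`, `2 ^ S / P` on `U2`, `w` on `AL` and `w'` on `BE`. -/
def SearchSpec [DecidableEq J] (p : Pr J E) (T : ℕ → ℕ) (C : ℕ) : Prop :=
  ∀ (x S : ℕ) (s : St J E), 1 ≤ x → 4 * Nat.size (2 * x) ≤ S → s.Idle →
    s.Empty arScratch → s.Empty pScratch → s.Empty [R.RR, R.U1, R.U2, R.AL, R.BE] →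
    s.at R.NN = una x → s.at R.WW = una S →
    ∃ r w w' : ℕ, x ≤ r ∧ r + 1 ≤ 2 * x ∧ Nat.Prime (r + 1) ∧ w < r + 1 ∧
      orderOf (w : ZMod (r + 1)) = r ∧ w' = w ^ (r - 1) % (r + 1) ∧
      Runs p s (((((s.set R.RR (una r)).set R.U1 (tny S (r + 1))).set R.U2
        (tny S (2 ^ S / (r + 1)))).set R.AL (tny S w)).set R.BE (tny S w'))
        (C * (x ^ 3 + x ^ 2 * (S + T S)))

/-! ### The swap of two small digits by shuffles -/

/-- The data `h * N * c * N` bits. -/
def dig (h N c : ℕ) (f : ℕ → ℕ → ℕ → ℕ → Bool) : List Bool :=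
  cat h fun x => cat N fun a => cat c fun y => cat N fun b => [f x a y b]

/-- The digits `a` and `b`, both below `2 ^ τ`, are swapped; `h` on `HH`, `τ` on `RHO`, `c` on
`GG`, in unary. -/
def SmallSpec [DecidableEq J] (p : Pr J E) (C : ℕ) : Prop :=
  ∀ (h τ c : ℕ) (f : ℕ → ℕ → ℕ → ℕ → Bool) (s : St J E), 1 ≤ h → 1 ≤ c → s.Idle →
    s.Empty arScratch → (∀ r ∈ pScratch, r ≠ R.RHO → s.at r = []) →
    s.at R.HH = una h → s.at R.RHO = una τ → s.at R.GG = una c →
    s.at R.X = bits (dig h (2 ^ τ) c f) →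
    Runs p s (s.set R.X (bits (dig h (2 ^ τ) c fun x a y b => f x b y a)))
      (C * (h * 2 ^ τ * c * 2 ^ τ * (τ + 1)))

end Vale.Agent.P338.S2
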