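import Vale.Agent.P338.S2Sub
import Vale.Agent.P338.MoveLib
import Vale.Agent.P338.S2Iface
import Vale.Agent.P338.CallFull

/-!
# P338, second reduction: products and reductions of tiny numbers
-/

namespace Vale.Agent.P338.S2

variable {J E : Type} [DecidableEq J]

theorem length_tny (S v : ℕ) : (tny S v : List (SSym E)).length = S := by simp [tny]

/-! ### Low and high halves of a product -/

/-- Move the low half of the product on `AZ` to `a`. -/
def lowTo (a : R) : Pr J E :=
  (takeN (Sum.inl R.WW) (Sum.inl R.AZ) (Sum.inl R.K2) (Sum.inl R.K1)).seq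
    ((Prog.clear (Sum.inl R.AZ)).seq (Prog.rev (Sum.inl R.K2) (Sum.inl a)))

/-- Move the high half of the product on `AZ` to `a`. -/
def highTo (a : R) : Pr J E :=
  (dropN (Sum.inl R.WW) (Sum.inl R.AZ) (Sum.inl R.K1)).seq
    (mvOnto (Sum.inl R.AZ) (Sum.inl a) (Sum.inl R.K1))

theorem take_bitsOf_two (S z : ℕ) : (bitsOf (2 * S) z).take S = bitsOf S z := by
  rw [take_bitsOf (by omega)]

theorem split_bitsOf_two (S z : ℕ) :
    bitsOf (2 * S) z = bitsOf S z ++ bitsOf S (z / 2 ^ S) := by
  rw [two_mul, bitsOf_add]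

theorem runs_lowTo {a : R} (ha : a ≠ R.AZ) (ha1 : a ≠ R.K1) (ha2 : a ≠ R.K2) (haW : a ≠ R.WW)
    (s : St J E) (S z : ℕ) (hW : s.at R.WW = una S) (h1 : s.at R.K1 = [])
    (h2 : s.at R.K2 = []) (hA : s.at a = []) (hz : s.at R.AZ = bits (bitsOf (2 * S) z)) :
    Runs (lowTo a) s ((s.set R.AZ []).set a (tny S z)) (14 * S + 3) := by
  simp only [St.at] at hW h1 h2 hA hz
  have r1 := runs_takeN (u := (Sum.inl R.WW : Loc J)) (a := Sum.inl R.AZ) (b := Sum.inl R.K2)
    (t := Sum.inl R.K1) (by simp) (by simp) (by simp) (by simp) (by simp) (by simp) mk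
    (bits (bitsOf S z)) (bits (bitsOf S (z / 2 ^ S))) s
    (by rw [hW]; simp [una]) h1
    (by rw [hz, split_bitsOf_two]; simp [bits])
  have r2 := Runs.clear (Sum.inl R.AZ : Loc J)
    (Function.update (Function.update s (Sum.inl R.AZ) (bits (bitsOf S (z / 2 ^ S))))
      (Sum.inl R.K2) ((bits (bitsOf S z)).reverse ++ s (Sum.inl R.K2)))
  have r3 := Runs.rev (i := (Sum.inl R.K2 : Loc J)) (j := Sum.inl a)
    (by simpa using Ne.symm ha2)
    (Function.update (Function.update (Function.update s (Sum.inl R.AZ)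
      (bits (bitsOf S (z / 2 ^ S)))) (Sum.inl R.K2)
        ((bits (bitsOf S z)).reverse ++ s (Sum.inl R.K2))) (Sum.inl R.AZ) [])
  refine ((r1.seq (r2.seq r3)).mono ?_).of_eq ?_
  · simp [h2]
    omega
  · refine funext fun k => ?_
    rcases k with r | j
    · by_cases q1 : r = a
      · subst q1; simp [ha, ha2, h2, hA, tny]
      by_cases q2 : r = R.AZ
      · subst q2; simp [q1]
      by_cases q3 : r = R.K2
      · subst q3; simp [q1, q2, h2]
      simp [q1, q2, q3]
    · simp

theorem runs_highTo {a : R} (ha : a ≠ R.AZ) (ha1 : a ≠ R.K1) (haW : a ≠ R.WW)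
    (s : St J E) (S z : ℕ) (hW : s.at R.WW = una S) (h1 : s.at R.K1 = [])
    (hA : s.at a = []) (hz : s.at R.AZ = bits (bitsOf (2 * S) z)) :
    Runs (highTo a) s ((s.set R.AZ []).set a (tny S (z / 2 ^ S))) (14 * S + 3) := by
  simp only [St.at] at hW h1 hA hz
  have r1 := runs_dropN (u := (Sum.inl R.WW : Loc J)) (a := Sum.inl R.AZ)
    (t := Sum.inl R.K1) (by simp) (by simp) (by simp) mk S s hW h1
  have e : (s (Sum.inl R.AZ)).drop S = bits (bitsOf S (z / 2 ^ S)) := by
    rw [hz, split_bitsOf_two]
    simp [bits]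
  rw [e] at r1
  have r2 := runs_mvOnto (a := (Sum.inl R.AZ : Loc J)) (b := Sum.inl a) (t := Sum.inl R.K1)
    (by simpa using Ne.symm ha) (by simp) (by simpa using ha1)
    (Function.update s (Sum.inl R.AZ) (bits (bitsOf S (z / 2 ^ S)))) (by simp [h1])
  refine ((r1.seq r2).mono ?_).of_eq ?_
  · simp
    omega
  · refine funext fun k => ?_
    rcases k with r | j
    · by_cases q1 : r = a
      · subst q1; simp [ha, hA, tny]
      by_cases q2 : r = R.AZ
      · subst q2; simp [q1]
      simp [q1, q2]
    · simp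

/-! ### Products -/

theorem call_tny {call : Pr J E} {T : ℕ → ℕ} {C : ℕ} (hcall : CallFullSpec call T C)
    {S x y : ℕ} (hS : 1 ≤ S) (hx : x < 2 ^ S) (hy : y < 2 ^ S) (s : St J E)
    (hi : s.Idle) (he : s.Empty arScratch) :
    Runs call ((s.set R.AX (tny S x)).set R.AY (tny S y))
      (s.set R.AZ (bits (bitsOf (2 * S) (x * y)))) (C * (S + T S)) := by
  have hAX : s (Sum.inl R.AX) = [] := he R.AX (by decide)
  have hAY : s (Sum.inl R.AY) = [] := he R.AY (by decide)
  have hAZ : s (Sum.inl R.AZ) = [] := he R.AZ (by decide)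
  have hCNT : s (Sum.inl R.CNT) = [] := he R.CNT (by decide)
  have hCLK : s (Sum.inl R.CLK) = [] := he R.CLK (by decide)
  have h := hcall S (bitsOf S x) (bitsOf S y) ((s.set R.AX (tny S x)).set R.AY (tny S y)) hS
    (by simp) (by simp)
    (by
      intro j
      simpa using hi j)
    (by
      intro r hr
      simp only [List.mem_cons, List.not_mem_nil, or_false] at hr
      rcases hr with rfl | rfl | rfl
      · simpa using hAZ
      · simpa using hCNT
      · simpa using hCLK)
    (by simp [tny]) (by simp [tny])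
  rw [natOf_bitsOf_of_lt hx, natOf_bitsOf_of_lt hy] at h
  refine h.of_eq ?_
  refine funext fun k => ?_
  rcases k with r | j
  · by_cases q1 : r = R.AZ
    · subst q1; simp
    by_cases q2 : r = R.AX
    · subst q2; simp [hAX]
    by_cases q3 : r = R.AY
    · subst q3; simp [hAY]
    simp [q1, q2, q3]
  · simp

/-- Load `a` (emptying it) and a copy of `b` as the operands. -/
def ldMC (a b : R) : Pr J E :=
  (mvOnto (Sum.inl a) (Sum.inl R.AX) (Sum.inl R.K1)).seq
    (Prog.copyOnto (Sum.inl b) (Sum.inl R.AY) (Sum.inl R.K1))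

/-- Load copies of `a` and `b` as the operands. -/
def ldCC (a b : R) : Pr J E :=
  (Prog.copyOnto (Sum.inl a) (Sum.inl R.AX) (Sum.inl R.K1)).seq
    (Prog.copyOnto (Sum.inl b) (Sum.inl R.AY) (Sum.inl R.K1))

theorem runs_ldMC {a b : R} (ha : a ≠ R.AX) (ha1 : a ≠ R.K1) (ha2 : a ≠ R.AY)
    (hb : b ≠ R.AX) (hb1 : b ≠ R.K1) (hb2 : b ≠ R.AY) (hab : a ≠ b) (s : St J E) {S x y : ℕ}
    (h1 : s.at R.K1 = []) (h2 : s.at R.AX = []) (h3 : s.at R.AY = [])
    (hA : s.at a = tny S x) (hB : s.at b = tny S y) :
    Runs (ldMC a b) s (((s.set a []).set R.AX (tny S x)).set R.AY (tny S y))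
      (12 * S + 3) := by
  simp only [St.at] at h1 h2 h3 hA hB
  have r1 := runs_mvOnto (a := (Sum.inl a : Loc J)) (b := Sum.inl R.AX) (t := Sum.inl R.K1)
    (by simpa using ha) (by simpa using ha1) (by simp) s h1
  rw [hA, h2, List.append_nil] at r1
  have r2 := Runs.copyOnto (a := (Sum.inl b : Loc J)) (b := Sum.inl R.AY) (t := Sum.inl R.K1)
    (by simpa using hb2) (by simpa using hb1) (by simp)
    (Function.update (Function.update s (Sum.inl a) []) (Sum.inl R.AX) (tny S x))
    (by simp [h1, ha1.symm])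
  refine ((r1.seq r2).mono ?_).of_eq ?_
  · rw [Function.update_of_ne (by simpa using hb), Function.update_of_ne (by
      simpa using Ne.symm hab), hB, length_tny, length_tny]
    omega
  · rw [Function.update_of_ne (by simpa using hb), Function.update_of_ne (by
      simpa using Ne.symm hab), Function.update_of_ne (by simp), Function.update_of_ne (by
      simpa using Ne.symm ha2), hB, h3, List.append_nil]

theorem runs_ldCC {a b : R} (ha : a ≠ R.AX) (ha1 : a ≠ R.K1)
    (hb : b ≠ R.AX) (hb1 : b ≠ R.K1) (hb2 : b ≠ R.AY) (s : St J E) {S x y : ℕ}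
    (h1 : s.at R.K1 = []) (h2 : s.at R.AX = []) (h3 : s.at R.AY = [])
    (hA : s.at a = tny S x) (hB : s.at b = tny S y) :
    Runs (ldCC a b) s ((s.set R.AX (tny S x)).set R.AY (tny S y)) (12 * S + 3) := by
  simp only [St.at] at h1 h2 h3 hA hB
  have r1 := Runs.copyOnto (a := (Sum.inl a : Loc J)) (b := Sum.inl R.AX) (t := Sum.inl R.K1)
    (by simpa using ha) (by simpa using ha1) (by simp) s h1
  rw [hA, h2, List.append_nil] at r1
  have r2 := Runs.copyOnto (a := (Sum.inl b : Loc J)) (b := Sum.inl R.AY) (t := Sum.inl R.K1)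
    (by simpa using hb2) (by simpa using hb1) (by simp)
    (Function.update s (Sum.inl R.AX) (tny S x)) (by simp [h1])
  refine ((r1.seq r2).mono ?_).of_eq ?_
  · rw [Function.update_of_ne (by simpa using hb), hB, length_tny, length_tny]
    omega
  · rw [Function.update_of_ne (by simpa using hb), Function.update_of_ne (by simp), hB, h3,
      List.append_nil]

/-! ### Reduction -/

/-- The subtraction used for the reduction. -/
def sbt (a b : R) : Pr J E :=
  (condSub (Sum.inl a) (Sum.inl b) (Sum.inl R.K4) (Sum.inl R.K5) (Sum.inl R.K6)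
    (Sum.inl R.FLAG)).seq (Prog.clear (Sum.inl R.FLAG))

theorem runs_sbt {a b : R} (ha : a ∉ [R.K4, R.K5, R.K6, R.FLAG])
    (hb : b ∉ [R.K4, R.K5, R.K6, R.FLAG]) (hab : a ≠ b) (s : St J E) {S x y : ℕ}
    (hx : x < 2 ^ S) (hy : y < 2 ^ S) (h4 : s.at R.K4 = []) (h5 : s.at R.K5 = [])
    (h6 : s.at R.K6 = []) (hF : s.at R.FLAG = []) (hA : s.at a = tny S x)
    (hB : s.at b = tny S y) :
    Runs (sbt a b) s (s.set a (tny S (if x < y then x else x - y))) (12 * S + 8) := by
  simp only [St.at] at h4 h5 h6 hF hA hB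
  simp only [List.mem_cons, List.not_mem_nil, or_false, not_or] at ha hb
  obtain ⟨a1, a2, a3, a4⟩ := ha
  obtain ⟨b1, b2, b3, b4⟩ := hb
  have r1 := runs_condSub (X := (Sum.inl a : Loc J)) (Y := Sum.inl b) (X' := Sum.inl R.K4)
    (Y' := Sum.inl R.K5) (D := Sum.inl R.K6) (B := Sum.inl R.FLAG)
    (by simp [hab, a1, a2, a3, a4, b1, b2, b3, b4]) s hx hy hA hB h4 h5 h6 hF
  have r2 := Runs.clear (Sum.inl R.FLAG : Loc J)
    (Function.update (Function.update s (Sum.inl a)
      (bits (bitsOf S (if x < y then x else x - y)))) (Sum.inl R.FLAG)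
      (flg (decide (x < y))))
  refine ((r1.seq r2).mono ?_).of_eq ?_
  · rw [Function.update_self]
    have : (flg (decide (x < y)) : List (SSym E)).length ≤ 1 := by
      cases decide (x < y) <;> simp
    omega
  · refine funext fun k => ?_
    rcases k with r | j
    · by_cases q1 : r = R.FLAG
      · subst q1; simp [Ne.symm a4, hF]
      by_cases q2 : r = a
      · subst q2; simp [q1, tny]
      simp [q1, q2]
    · simp

/-- Reduce the number on `a` modulo the number on `U1`. -/
def red (call : Pr J E) (a : R) : Pr J E :=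
  (ldCC a R.U2).seq (call.seq ((highTo R.K3).seq
    ((ldMC R.K3 R.U1).seq (call.seq ((lowTo R.K3).seq
      ((sbt a R.K3).seq ((Prog.clear (Sum.inl R.K3)).seq (sbt a R.U1))))))))

theorem runs_red {call : Pr J E} {T : ℕ → ℕ} {C : ℕ} (hcall : CallFullSpec call T C)
    {S P u : ℕ} (hP : 2 ≤ P) (hPS : P < 2 ^ S) {a : R} (s : St J E) (H : Ar s S P)
    (ha : a ∉ arUsed) (hu : u < 2 ^ S) (hA : s.at a = tny S u) :
    Runs (red call a) s (s.set a (tny S (u % P))) ((2 * C + 200) * (S + T S)) := by
  have hS : 1 ≤ S := by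
    rcases Nat.eq_zero_or_pos S with rfl | h
    · simp at hPS; omega
    · exact h
  have emp := H.emp
  have hi := H.idle
  have u1 := H.u1
  have u2 := H.u2
  have ww := H.ww
  have hE : ∀ r ∈ arScratch, s (Sum.inl r) = [] := emp
  simp only [arUsed, List.mem_append, not_or] at ha
  obtain ⟨ha', ha⟩ := ha
  simp only [List.mem_cons, List.not_mem_nil, or_false, not_or] at ha'
  obtain ⟨aW, aU1, aU2⟩ := ha'
  have hne : ∀ r ∈ arScratch, a ≠ r := fun r hr h => ha (h ▸ hr)
  have hne' : ∀ r ∈ arScratch, r ≠ a := fun r hr h => ha (h ▸ hr)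
  have hμ : 2 ^ S / P < 2 ^ S := Nat.div_lt_self (by positivity) (by omega)
  -- the quotient
  obtain ⟨q, hq⟩ : ∃ q, q = u * (2 ^ S / P) / 2 ^ S := ⟨_, rfl⟩
  have hqu : q ≤ u := by
    rw [hq]
    calc u * (2 ^ S / P) / 2 ^ S ≤ u * 2 ^ S / 2 ^ S :=
          Nat.div_le_div_right (Nat.mul_le_mul_left _ hμ.le)
      _ = u := Nat.mul_div_cancel _ (by positivity)
  obtain ⟨hb1, hb2⟩ := barrett (P := P) (E := S) (by omega) hu
  have hb3 := barrett_mod (P := P) (E := S) (by omega) hu
  rw [← hq] at hb1 hb2 hb3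
  have r1 := runs_ldCC (a := a) (b := R.U2) (hne _ (by decide)) (hne _ (by decide))
    (by decide) (by decide) (by decide) s (hE _ (by decide)) (hE _ (by decide))
    (hE _ (by decide)) hA u2
  have r2 := call_tny hcall hS hu hμ s hi emp
  have r3 := runs_highTo (a := R.K3) (by decide) (by decide) (by decide)
    (s.set R.AZ (bits (bitsOf (2 * S) (u * (2 ^ S / P))))) S _
    (by simpa using ww) (by simpa using hE R.K1 (by decide))
    (by simpa using hE R.K3 (by decide)) (by simp; rfl)
  have e3 : ((s.set R.AZ (bits (bitsOf (2 * S) (u * (2 ^ S / P))))).set R.AZ []).set R.K3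
      (tny S (u * (2 ^ S / P) / 2 ^ S)) = s.set R.K3 (tny S q) := by
    rw [← hq]
    refine funext fun k => ?_
    rcases k with r | j
    · by_cases q1 : r = R.K3
      · subst q1; simp
      by_cases q2 : r = R.AZ
      · subst q2; simpa using (hE R.AZ (by decide)).symm
      simp [q1, q2]
    · simp
  rw [e3] at r3
  have r4 := runs_ldMC (a := R.K3) (b := R.U1) (by decide) (by decide) (by decide)
    (by decide) (by decide) (by decide) (by decide) (s.set R.K3 (tny S q)) (S := S) (x := q)
    (y := P) (by simpa using hE R.K1 (by decide)) (by simpa using hE R.AX (by decide))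
    (by simpa using hE R.AY (by decide)) (by simp) (by simpa using u1)
  have e4 : (s.set R.K3 (tny S q)).set R.K3 [] = s := by
    refine funext fun k => ?_
    rcases k with r | j
    · by_cases q1 : r = R.K3
      · subst q1; simpa using (hE R.K3 (by decide)).symm
      simp [q1]
    · simp
  rw [e4] at r4
  have r5 := call_tny hcall hS (show q < 2 ^ S by omega) hPS s hi emp
  have r6 := runs_lowTo (a := R.K3) (by decide) (by decide) (by decide) (by decide)
    (s.set R.AZ (bits (bitsOf (2 * S) (q * P)))) S _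
    (by simpa using ww) (by simpa using hE R.K1 (by decide))
    (by simpa using hE R.K2 (by decide))
    (by simpa using hE R.K3 (by decide)) (by simp; rfl)
  have e6 : ((s.set R.AZ (bits (bitsOf (2 * S) (q * P)))).set R.AZ []).set R.K3
      (tny S (q * P)) = s.set R.K3 (tny S (q * P)) := by
    refine funext fun k => ?_
    rcases k with r | j
    · by_cases q1 : r = R.K3
      · subst q1; simp
      by_cases q2 : r = R.AZ
      · subst q2; simpa using (hE R.AZ (by decide)).symm
      simp [q1, q2]
    · simp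
  rw [e6] at r6
  have r7 := runs_sbt (a := a) (b := R.K3)
    (by
      simp only [List.mem_cons, List.not_mem_nil, or_false, not_or]
      exact ⟨hne _ (by decide), hne _ (by decide), hne _ (by decide), hne _ (by decide)⟩)
    (by decide) (hne _ (by decide)) (s.set R.K3 (tny S (q * P))) hu
    (show q * P < 2 ^ S by omega) (by simpa using hE R.K4 (by decide))
    (by simpa using hE R.K5 (by decide)) (by simpa using hE R.K6 (by decide))
    (by simpa using hE R.FLAG (by decide))
    (by
      show s.set R.K3 (tny S (q * P)) (Sum.inl a) = _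
      rw [St.set, Function.update_of_ne (by simpa using hne R.K3 (by decide))]
      exact hA) (by simp)
  rw [if_neg (show ¬ u < q * P by omega)] at r7
  have r8 := Runs.clear (Sum.inl R.K3 : Loc J)
    ((s.set R.K3 (tny S (q * P))).set a (tny S (u - q * P)))
  have e8 : Function.update ((s.set R.K3 (tny S (q * P))).set a (tny S (u - q * P)))
      (Sum.inl R.K3) [] = s.set a (tny S (u - q * P)) := by
    refine funext fun k => ?_
    rcases k with r | j
    · by_cases q1 : r = R.K3
      · subst q1
        simpa [hne' R.K3 (by decide)] using (hE R.K3 (by decide)).symm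
      by_cases q2 : r = a
      · subst q2; simp [q1]
      simp [q1, q2]
    · simp
  rw [e8] at r8
  have r9 := runs_sbt (a := a) (b := R.U1)
    (by
      simp only [List.mem_cons, List.not_mem_nil, or_false, not_or]
      exact ⟨hne _ (by decide), hne _ (by decide), hne _ (by decide), hne _ (by decide)⟩)
    (by decide) aU1 (s.set a (tny S (u - q * P))) (show u - q * P < 2 ^ S by omega) hPS
    (by simpa [hne' R.K4 (by decide)] using hE R.K4 (by decide))
    (by simpa [hne' R.K5 (by decide)] using hE R.K5 (by decide))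
    (by simpa [hne' R.K6 (by decide)] using hE R.K6 (by decide))
    (by simpa [hne' R.FLAG (by decide)] using hE R.FLAG (by decide))
    (by simp) (by simpa [Ne.symm aU1] using u1)
  rw [hb3] at r9
  have e9 : (s.set a (tny S (u - q * P))).set a (tny S (u % P)) = s.set a (tny S (u % P)) := by
    simp
  rw [e9] at r9
  have e8' : (((s.set R.K3 (tny S (q * P))).set a (tny S (u - q * P)))
      (Sum.inl R.K3)).length = S := by
    simp [hne' R.K3 (by decide), tny]
  rw [e8'] at r8
  refine (r1.seq (r2.seq (r3.seq (r4.seq (r5.seq (r6.seq (r7.seq (r8.seq r9)))))))).mono ?_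
  have : (2 * C + 200) * (S + T S) = 2 * (C * (S + T S)) + 200 * S + 200 * T S := by ring
  omega

/-- The product of the numbers on `a` and `b` modulo the number on `U1`, to `a`. -/
def mul (call : Pr J E) (a b : R) : Pr J E :=
  (ldMC a b).seq (call.seq ((lowTo a).seq (red call a)))

theorem Ar.set {s : St J E} {S P : ℕ} (H : Ar s S P) {a : R} (ha : a ∉ arUsed)
    (l : List (SSym E)) : Ar (s.set a l) S P := by
  have hne : ∀ r ∈ arUsed, r ≠ a := fun r hr h => ha (h ▸ hr)
  have hg : ∀ r ∈ arUsed, (s.set a l) (Sum.inl r) = s (Sum.inl r) := by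
    intro r hr
    simp [hne r hr]
  exact
    { idle := fun j => by simpa using H.idle j
      emp := fun r hr => by
        rw [hg r (by simp only [arUsed, List.mem_append]; exact Or.inr hr)]
        exact H.emp r hr
      ww := by
        show (s.set a l) (Sum.inl R.WW) = _
        rw [hg R.WW (by decide)]; exact H.ww
      u1 := by
        show (s.set a l) (Sum.inl R.U1) = _
        rw [hg R.U1 (by decide)]; exact H.u1
      u2 := by
        show (s.set a l) (Sum.inl R.U2) = _
        rw [hg R.U2 (by decide)]; exact H.u2 }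

theorem runs_mul {call : Pr J E} {T : ℕ → ℕ} {C : ℕ} (hcall : CallFullSpec call T C)
    {S P u v : ℕ} (hP : 2 ≤ P) (hPS : P < 2 ^ S) {a b : R} (s : St J E) (H : Ar s S P)
    (ha : a ∉ arUsed) (hb : b ∉ arUsed) (hab : a ≠ b) (hu : u < 2 ^ S) (hv : v < 2 ^ S)
    (huv : u * v < 2 ^ S) (hA : s.at a = tny S u) (hB : s.at b = tny S v) :
    Runs (mul call a b) s (s.set a (tny S (u * v % P))) ((3 * C + 300) * (S + T S)) := by
  have hS : 1 ≤ S := by
    rcases Nat.eq_zero_or_pos S with rfl | h
    · simp at hPS; omega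
    · exact h
  have hne : ∀ r ∈ arUsed, a ≠ r := fun r hr h => ha (h ▸ hr)
  have hne' : ∀ r ∈ arUsed, r ≠ a := fun r hr h => ha (h ▸ hr)
  have hneb : ∀ r ∈ arUsed, b ≠ r := fun r hr h => hb (h ▸ hr)
  have hE : ∀ r ∈ arScratch, s (Sum.inl r) = [] := H.emp
  have r1 := runs_ldMC (a := a) (b := b) (hne _ (by decide)) (hne _ (by decide))
    (hne _ (by decide)) (hneb _ (by decide)) (hneb _ (by decide)) (hneb _ (by decide)) hab s
    (hE _ (by decide)) (hE _ (by decide)) (hE _ (by decide)) hA hB
  have H0 := H.set ha ([] : List (SSym E))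
  have r2 := call_tny hcall hS hu hv (s.set a []) H0.idle H0.emp
  have hE0 : ∀ r ∈ arScratch, (s.set a []) (Sum.inl r) = [] := H0.emp
  have r3 := runs_lowTo (a := a) (hne _ (by decide)) (hne _ (by decide)) (hne _ (by decide))
    (hne _ (by decide)) ((s.set a []).set R.AZ (bits (bitsOf (2 * S) (u * v)))) S _
    (by simpa using H0.ww) (by simpa using hE0 R.K1 (by decide))
    (by simpa using hE0 R.K2 (by decide)) (by simp [hne R.AZ (by decide)]) (by simp; rfl)
  have e3 : (((s.set a []).set R.AZ (bits (bitsOf (2 * S) (u * v)))).set R.AZ []).set a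
      (tny S (u * v)) = s.set a (tny S (u * v)) := by
    refine funext fun k => ?_
    rcases k with r | j
    · by_cases q1 : r = a
      · subst q1; simp
      by_cases q2 : r = R.AZ
      · subst q2; simpa [q1] using (hE R.AZ (by decide)).symm
      simp [q1, q2]
    · simp
  rw [e3] at r3
  have r4 := runs_red hcall hP hPS (s.set a (tny S (u * v))) (H.set ha _) ha huv (by simp)
  have e4 : (s.set a (tny S (u * v))).set a (tny S (u * v % P)) =
      s.set a (tny S (u * v % P)) := by simp
  rw [e4] at r4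
  refine (r1.seq (r2.seq (r3.seq r4))).mono ?_
  have e5 : (3 * C + 300) * (S + T S) =
    C * (S + T S) + (2 * C + 200) * (S + T S) + 100 * S + 100 * T S := by ring
  omega

theorem lt_two_pow_of_size {P S : ℕ} (h : 4 * Nat.size P ≤ S) : P < 2 ^ S :=
  Nat.lt_size_self P |>.trans_le (Nat.pow_le_pow_right (by norm_num) (by omega))

theorem mul_lt_of_size {P S u v : ℕ} (h : 4 * Nat.size P ≤ S) (hu : u < P) (hv : v < P) :
    u * v < 2 ^ S := by
  have h1 := Nat.lt_size_self P
  calc u * v < P * P := Nat.mul_lt_mul'' hu hv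
    _ ≤ 2 ^ Nat.size P * 2 ^ Nat.size P := Nat.mul_le_mul h1.le h1.le
    _ = 2 ^ (Nat.size P + Nat.size P) := (pow_add _ _ _).symm
    _ ≤ 2 ^ S := Nat.pow_le_pow_right (by norm_num) (by omega)

theorem mulSpec {call : Pr J E} {T : ℕ → ℕ} {C : ℕ} (hcall : CallFullSpec call T C) :
    MulSpec (mul call) T (3 * C + 300) := by
  intro S P u v a b s hP hS H ha hb hab hu hv hA hB
  have hPS := lt_two_pow_of_size hS
  exact runs_mul hcall hP.two_le hPS s H ha hb hab (hu.trans hPS) (hv.trans hPS)
    (mul_lt_of_size hS hu hv) hA hB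

theorem redSpec {call : Pr J E} {T : ℕ → ℕ} {C : ℕ} (hcall : CallFullSpec call T C) :
    RedSpec (red call) T (2 * C + 200) := by
  intro S P u a s hP hS H ha hu hA
  exact runs_red hcall hP.two_le (lt_two_pow_of_size hS) s H ha hu hA

end Vale.Agent.P338.S2
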