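import Vale.Agent.P338.Defs

/-!
# P338: bit lists, concatenations and the numbers they represent
-/

namespace Vale.Agent.P338

/-! ### `cat` -/

section cat

variable {α : Type}

@[simp] theorem cat_zero (f : ℕ → List α) : cat 0 f = [] := rfl

theorem cat_succ (n : ℕ) (f : ℕ → List α) : cat (n + 1) f = cat n f ++ f n := by
  simp [cat, List.range_succ]

theorem cat_succ' (n : ℕ) (f : ℕ → List α) :
    cat (n + 1) f = f 0 ++ cat n (fun i => f (i + 1)) := by
  simp [cat, List.range_succ_eq_map, List.flatMap_map]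

theorem cat_one (f : ℕ → List α) : cat 1 f = f 0 := by
  simp [cat_succ]

theorem cat_congr {n : ℕ} {f f' : ℕ → List α} (h : ∀ i < n, f i = f' i) :
    cat n f = cat n f' := by
  induction n with
  | zero => rfl
  | succ n ih =>
    rw [cat_succ, cat_succ, ih (fun i hi => h i (by omega)), h n (by omega)]

theorem cat_add (m n : ℕ) (f : ℕ → List α) :
    cat (m + n) f = cat m f ++ cat n (fun i => f (m + i)) := by
  induction n with
  | zero => simp
  | succ n ih => rw [← Nat.add_assoc, cat_succ, ih, cat_succ, List.append_assoc]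

theorem cat_mul (m n : ℕ) (f : ℕ → List α) :
    cat (m * n) f = cat m fun i => cat n fun j => f (i * n + j) := by
  induction m with
  | zero => simp
  | succ m ih => rw [Nat.succ_mul, cat_add, ih, cat_succ]

theorem length_cat (n : ℕ) (f : ℕ → List α) :
    (cat n f).length = ∑ i ∈ Finset.range n, (f i).length := by
  induction n with
  | zero => simp
  | succ n ih => rw [cat_succ, List.length_append, ih, Finset.sum_range_succ]

theorem length_cat_of {n L : ℕ} {f : ℕ → List α} (h : ∀ i < n, (f i).length = L) :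
    (cat n f).length = n * L := by
  rw [length_cat, Finset.sum_congr rfl (fun i hi => h i (Finset.mem_range.1 hi))]
  simp

theorem cat_eq_nil {n : ℕ} (f : ℕ → List α) (h : ∀ i < n, f i = []) :
    cat n f = [] := by
  rw [← List.length_eq_zero_iff, length_cat_of (L := 0) (fun i hi => by simp [h i hi])]
  simp

theorem cat_replicate (n L : ℕ) (a : α) :
    cat n (fun _ => List.replicate L a) = List.replicate (n * L) a := by
  induction n with
  | zero => simp
  | succ n ih => rw [cat_succ, ih, List.replicate_append_replicate, Nat.succ_mul]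

theorem map_cat {β : Type} (φ : α → β) (n : ℕ) (f : ℕ → List α) :
    (cat n f).map φ = cat n fun i => (f i).map φ := by
  simp [cat, List.map_flatMap]

end cat

/-! ### `rot` -/

section rot

variable {α : Type}

@[simp] theorem length_rot (e : ℕ) (l : List α) : (rot e l).length = l.length := by
  simp [rot]
  omega

@[simp] theorem rot_zero (l : List α) : rot 0 l = l := by simp [rot]

theorem rot_length (l : List α) : rot l.length l = l := by simp [rot]

theorem rot_append (l₁ l₂ : List α) : rot l₁.length (l₁ ++ l₂) = l₂ ++ l₁ := by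
  simp [rot]

/-- Rotating a row of `r` blocks of the same length `L` by `e` blocks. -/
theorem rot_cat {r L e : ℕ} {f : ℕ → List α} (h : ∀ i < r, (f i).length = L) (he : e ≤ r) :
    rot (e * L) (cat r f) = cat r fun j => f ((j + e) % r) := by
  obtain ⟨d, rfl⟩ := Nat.exists_eq_add_of_le he
  rw [cat_add, ← length_cat_of (n := e) (L := L) (f := f) (fun i hi => h i (by omega)),
    rot_append, Nat.add_comm e d, cat_add]
  congr 1
  · refine cat_congr fun i hi => ?_
    rw [Nat.mod_eq_of_lt (by omega), Nat.add_comm]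
  · refine cat_congr fun i hi => ?_
    rw [show d + i + e = i + (d + e) by omega, Nat.add_mod_right, Nat.mod_eq_of_lt (by omega)]

end rot

/-! ### `natOf` and `bitsOf` -/

@[simp] theorem natOf_nil : natOf [] = 0 := rfl

theorem natOf_cons (b : Bool) (l : List Bool) : natOf (b :: l) = b.toNat + 2 * natOf l := rfl

theorem natOf_append (l₁ l₂ : List Bool) :
    natOf (l₁ ++ l₂) = natOf l₁ + 2 ^ l₁.length * natOf l₂ := by
  induction l₁ with
  | nil => simp
  | cons b l ih =>
    rw [List.cons_append, natOf_cons, ih, natOf_cons, List.length_cons, pow_succ]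
    ring

theorem natOf_lt (l : List Bool) : natOf l < 2 ^ l.length := by
  induction l with
  | nil => simp
  | cons b l ih =>
    rw [natOf_cons, List.length_cons, pow_succ]
    have : b.toNat ≤ 1 := Bool.toNat_le b
    omega

@[simp] theorem natOf_replicate_false (n : ℕ) : natOf (List.replicate n false) = 0 := by
  induction n with
  | zero => simp
  | succ n ih => rw [List.replicate_succ, natOf_cons, ih]; simp

theorem natOf_append_zeros (l : List Bool) (n : ℕ) :
    natOf (l ++ List.replicate n false) = natOf l := by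
  rw [natOf_append]
  simp

@[simp] theorem length_bitsOf (k z : ℕ) : (bitsOf k z).length = k := by simp [bitsOf]

@[simp] theorem bitsOf_zero_left (z : ℕ) : bitsOf 0 z = [] := by simp [bitsOf]

theorem bitsOf_succ (k z : ℕ) : bitsOf (k + 1) z = z.testBit 0 :: bitsOf k (z / 2) := by
  simp [bitsOf, List.range_succ_eq_map, Nat.testBit_succ]

theorem bitsOf_succ_right (k z : ℕ) : bitsOf (k + 1) z = bitsOf k z ++ [z.testBit k] := by
  simp [bitsOf, List.range_succ]

theorem bitsOf_add (k l z : ℕ) : bitsOf (k + l) z = bitsOf k z ++ bitsOf l (z / 2 ^ k) := by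
  induction l with
  | zero => simp
  | succ l ih =>
    rw [← Nat.add_assoc, bitsOf_succ_right, ih, bitsOf_succ_right, Nat.testBit_div_two_pow]
    simp [Nat.add_comm]

theorem natOf_bitsOf (k z : ℕ) : natOf (bitsOf k z) = z % 2 ^ k := by
  induction k generalizing z with
  | zero => simp [Nat.mod_one]
  | succ k ih =>
    rw [bitsOf_succ, natOf_cons, ih, pow_succ, Nat.mul_comm (2 ^ k) 2, Nat.mod_mul]
    rw [Nat.testBit_zero]
    rcases Nat.mod_two_eq_zero_or_one z with h | h <;> simp [h]

theorem natOf_bitsOf_of_lt {k z : ℕ} (h : z < 2 ^ k) : natOf (bitsOf k z) = z := by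
  rw [natOf_bitsOf, Nat.mod_eq_of_lt h]

theorem natOf_inj {l₁ l₂ : List Bool} (hl : l₁.length = l₂.length)
    (h : natOf l₁ = natOf l₂) : l₁ = l₂ := by
  induction l₁ generalizing l₂ with
  | nil =>
    rw [List.length_nil] at hl
    exact (List.length_eq_zero_iff.1 hl.symm).symm
  | cons b l ih =>
    cases l₂ with
    | nil => simp at hl
    | cons c l' =>
      rw [natOf_cons, natOf_cons] at h
      have hb : b = c := by
        cases b <;> cases c <;> simp_all <;> omega
      subst hb
      rw [ih (by simpa using hl) (by omega)]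

theorem bitsOf_natOf (l : List Bool) : bitsOf l.length (natOf l) = l :=
  natOf_inj (by simp) (natOf_bitsOf_of_lt (natOf_lt l))

theorem bitsOf_natOf_of {l : List Bool} {k : ℕ} (h : l.length = k) : bitsOf k (natOf l) = l := by
  rw [← h, bitsOf_natOf]

theorem bitsOf_zero (k : ℕ) : bitsOf k 0 = List.replicate k false :=
  natOf_inj (by simp) (by simp [natOf_bitsOf])

theorem bitsOf_mod (k z : ℕ) : bitsOf k (z % 2 ^ k) = bitsOf k z :=
  natOf_inj (by simp) (by simp [natOf_bitsOf])

theorem bitsOf_eq_iff {k y z : ℕ} : bitsOf k y = bitsOf k z ↔ y % 2 ^ k = z % 2 ^ k := by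
  constructor
  · intro h
    rw [← natOf_bitsOf, ← natOf_bitsOf, h]
  · intro h
    exact natOf_inj (by simp) (by rw [natOf_bitsOf, natOf_bitsOf, h])

/-- Adding zeros at the high end. -/
theorem bitsOf_add_zeros {k z : ℕ} (h : z < 2 ^ k) (l : ℕ) :
    bitsOf (k + l) z = bitsOf k z ++ List.replicate l false := by
  rw [bitsOf_add, Nat.div_eq_of_lt h, bitsOf_zero]

/-- The value of a concatenation of blocks of the same length. -/
theorem natOf_cat {n L : ℕ} {f : ℕ → List Bool} (h : ∀ i < n, (f i).length = L) :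
    natOf (cat n f) = ∑ i ∈ Finset.range n, natOf (f i) * 2 ^ (L * i) := by
  induction n with
  | zero => simp
  | succ n ih =>
    rw [cat_succ, natOf_append, ih (fun i hi => h i (by omega)), Finset.sum_range_succ,
      length_cat_of (L := L) (fun i hi => h i (by omega)), Nat.mul_comm n L]
    ring

/-- A list of blocks of `L` bits. -/
theorem natOf_cat_bitsOf {n L : ℕ} {c : ℕ → ℕ} (h : ∀ i < n, c i < 2 ^ L) :
    natOf (cat n fun i => bitsOf L (c i)) = ∑ i ∈ Finset.range n, c i * 2 ^ (L * i) := by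
  rw [natOf_cat (L := L) (fun i _ => length_bitsOf _ _)]
  exact Finset.sum_congr rfl fun i hi => by
    rw [natOf_bitsOf_of_lt (h i (Finset.mem_range.1 hi))]

theorem sum_lt_pow {n L : ℕ} {c : ℕ → ℕ} (h : ∀ i < n, c i < 2 ^ L) :
    ∑ i ∈ Finset.range n, c i * 2 ^ (L * i) < 2 ^ (n * L) := by
  rw [← natOf_cat_bitsOf h]
  refine (natOf_lt _).trans_eq ?_
  rw [length_cat_of (L := L) (fun i _ => length_bitsOf _ _)]

/-- The digits in base `2 ^ L` of a number. -/
theorem bitsOf_sum {n L : ℕ} {c : ℕ → ℕ} (h : ∀ i < n, c i < 2 ^ L) :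
    bitsOf (n * L) (∑ i ∈ Finset.range n, c i * 2 ^ (L * i)) =
      cat n fun i => bitsOf L (c i) := by
  rw [← natOf_cat_bitsOf h]
  refine bitsOf_natOf_of ?_
  rw [length_cat_of (L := L) (fun i _ => length_bitsOf _ _)]

/-- The digits in base `2 ^ L` of a number, with zeros at the high end. -/
theorem bitsOf_sum_of_le {n L K : ℕ} {c : ℕ → ℕ} (h : ∀ i < n, c i < 2 ^ L)
    (hK : n * L ≤ K) :
    bitsOf K (∑ i ∈ Finset.range n, c i * 2 ^ (L * i)) =
      (cat n fun i => bitsOf L (c i)) ++ List.replicate (K - n * L) false := by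
  conv_lhs => rw [← Nat.add_sub_cancel' hK]
  rw [bitsOf_add_zeros (sum_lt_pow h), bitsOf_sum h]

/-! ### Rotations and folding of slots -/

/-- The number whose `W` bits are those of `v` rotated by `e` places (towards the low end). -/
def rotN (W e v : ℕ) : ℕ := v / 2 ^ e + v % 2 ^ e * 2 ^ (W - e)

/-- Folding the four chunks of `D` bits of `v`: a number that is congruent to `v` modulo
`2 ^ D + 1`. -/
def foldN (D v : ℕ) : ℕ :=
  v % 2 ^ D + (2 ^ D - 1 - v / 2 ^ D % 2 ^ D) + v / 2 ^ (2 * D) % 2 ^ D +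
    (2 ^ D - 1 - v / 2 ^ (3 * D) % 2 ^ D) + 4

theorem drop_bitsOf {e W : ℕ} (he : e ≤ W) (v : ℕ) :
    (bitsOf W v).drop e = bitsOf (W - e) (v / 2 ^ e) := by
  obtain ⟨d, rfl⟩ := Nat.exists_eq_add_of_le he
  rw [bitsOf_add, Nat.add_sub_cancel_left]
  simp

theorem take_bitsOf {e W : ℕ} (he : e ≤ W) (v : ℕ) :
    (bitsOf W v).take e = bitsOf e v := by
  obtain ⟨d, rfl⟩ := Nat.exists_eq_add_of_le he
  rw [bitsOf_add]
  simp

theorem rotN_lt {W e v : ℕ} (he : e ≤ W) (hv : v < 2 ^ W) : rotN W e v < 2 ^ W := by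
  obtain ⟨d, rfl⟩ := Nat.exists_eq_add_of_le he
  rw [rotN, Nat.add_sub_cancel_left]
  have h1 : v / 2 ^ e < 2 ^ d := by
    rw [Nat.div_lt_iff_lt_mul (by positivity), ← pow_add, Nat.add_comm]
    exact hv
  have h2 : v % 2 ^ e < 2 ^ e := Nat.mod_lt _ (by positivity)
  calc v / 2 ^ e + v % 2 ^ e * 2 ^ d < 2 ^ d + v % 2 ^ e * 2 ^ d := by omega
    _ = (v % 2 ^ e + 1) * 2 ^ d := by ring
    _ ≤ 2 ^ e * 2 ^ d := Nat.mul_le_mul_right _ h2
    _ = 2 ^ (e + d) := (pow_add _ _ _).symm

theorem rot_bitsOf {W e v : ℕ} (he : e ≤ W) (hv : v < 2 ^ W) :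
    rot e (bitsOf W v) = bitsOf W (rotN W e v) := by
  apply natOf_inj
  · simp
  · rw [natOf_bitsOf_of_lt (rotN_lt he hv), rot, drop_bitsOf he, take_bitsOf he,
      natOf_append, natOf_bitsOf, natOf_bitsOf, length_bitsOf, rotN]
    have h1 : v / 2 ^ e < 2 ^ (W - e) := by
      rw [Nat.div_lt_iff_lt_mul (by positivity), ← pow_add, Nat.sub_add_cancel he]
      exact hv
    rw [Nat.mod_eq_of_lt h1]
    ring

/-- The numbers in the slots after folding are at most `2 ^ (D + 2)`. -/
theorem foldN_le (D v : ℕ) : foldN D v ≤ 2 ^ (D + 2) := by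
  rw [foldN, pow_add]
  have h0 : 0 < 2 ^ D := by positivity
  have h1 : v % 2 ^ D < 2 ^ D := Nat.mod_lt _ h0
  have h2 : v / 2 ^ (2 * D) % 2 ^ D < 2 ^ D := Nat.mod_lt _ h0
  have h3 : (2 ^ D - 1 - v / 2 ^ D % 2 ^ D) ≤ 2 ^ D - 1 := Nat.sub_le _ _
  have h4 : (2 ^ D - 1 - v / 2 ^ (3 * D) % 2 ^ D) ≤ 2 ^ D - 1 := Nat.sub_le _ _
  omega

theorem foldN_lt {D : ℕ} (hD : 1 ≤ D) (v : ℕ) : foldN D v < 2 ^ (4 * D) :=
  (foldN_le D v).trans_lt (Nat.pow_lt_pow_right (by norm_num) (by omega))

end Vale.Agent.P338
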