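import Vale.Agent.P338.Lib
import Vale.Agent.P338.Nums

/-!
# P338, second reduction: programs that transform one stack into another
-/

namespace Vale.Agent.P338.S2

open Vale.Agent.P338

variable {ι Γ : Type} [DecidableEq ι]

/-- In every store satisfying `G`, the program `p` takes `l` from the stack `x` and puts `l'`,
reversed, on the stack `o`, in time `t`. -/
def Trn (G : Store ι Γ → Prop) (x o : ι) (p : Prog ι Γ) (l l' : List Γ) (t : ℕ) : Prop :=
  ∀ (s : Store ι Γ) (rest : List Γ), G s → s x = l ++ rest →
    Runs p s (Function.update (Function.update s x rest) o (l'.reverse ++ s o)) t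

/-- The condition `G` does not depend on the stack `i`. -/
def Indep (G : Store ι Γ → Prop) (i : ι) : Prop :=
  ∀ (s : Store ι Γ) (l : List Γ), G s → G (Function.update s i l)

theorem Trn.mono {G : Store ι Γ → Prop} {x o : ι} {p : Prog ι Γ} {l l' : List Γ} {t t' : ℕ}
    (h : Trn G x o p l l' t) (ht : t ≤ t') : Trn G x o p l l' t' :=
  fun s rest hG hx => (h s rest hG hx).mono ht

theorem Trn.congr {G : Store ι Γ → Prop} {x o : ι} {p : Prog ι Γ} {l l' m m' : List Γ} {t : ℕ}
    (h : Trn G x o p l l' t) (hl : l = m) (hl' : l' = m') : Trn G x o p m m' t := by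
  subst hl hl'; exact h

theorem Trn.imp {G G' : Store ι Γ → Prop} {x o : ι} {p : Prog ι Γ} {l l' : List Γ} {t : ℕ}
    (h : Trn G x o p l l' t) (hG : ∀ s, G' s → G s) : Trn G' x o p l l' t :=
  fun s rest hs hx => h s rest (hG s hs) hx

theorem Trn.seq {G : Store ι Γ → Prop} {x o : ι} {p q : Prog ι Γ} {l₁ l₂ m₁ m₂ : List Γ}
    {t₁ t₂ : ℕ} (hxo : x ≠ o) (hx : Indep G x) (ho : Indep G o)
    (h₁ : Trn G x o p l₁ m₁ t₁) (h₂ : Trn G x o q l₂ m₂ t₂) :
    Trn G x o (p.seq q) (l₁ ++ l₂) (m₁ ++ m₂) (t₁ + 1 + t₂) := by
  intro s rest hG hs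
  have r1 := h₁ s (l₂ ++ rest) hG (by rw [hs, List.append_assoc])
  have r2 := h₂ _ rest (ho _ (m₁.reverse ++ s o) (hx _ (l₂ ++ rest) hG))
    (by rw [Function.update_of_ne hxo, Function.update_self])
  refine (r1.seq r2).of_eq ?_
  funext i
  simp only [Function.update_apply]
  split_ifs <;> simp_all

/-- Move as many symbols from `x` to `o` as there are symbols on `u`. -/
def mvn (u t x o : ι) : Prog ι Γ := Prog.forr u t (Prog.mov x o)

/-- Drop as many symbols from `x` as there are symbols on `u`. -/
def drn (u t x : ι) : Prog ι Γ := Prog.forr u t (Prog.pop x)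

theorem Trn.mvn {G : Store ι Γ → Prop} {u t x o : ι} (hut : u ≠ t) (hux : u ≠ x)
    (huo : u ≠ o) (htx : t ≠ x) (hto : t ≠ o) (hxo : x ≠ o) (a : Γ) (l : List Γ)
    (hG : ∀ s, G s → s u = List.replicate l.length a ∧ s t = []) :
    Trn G x o (mvn u t x o) l l (8 * l.length + 1) := by
  intro s rest hs hx
  obtain ⟨hu, ht⟩ := hG s hs
  have h := Runs.forr' hut (body := Prog.mov x o) l.length a
    (fun k => Function.update (Function.update s x (l.drop k ++ rest)) o
      ((l.take k).reverse ++ s o)) (fun _ => 1)
    (fun k _ => by rw [Function.update_of_ne huo, Function.update_of_ne hux, hu])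
    (fun k _ => by rw [Function.update_of_ne hto, Function.update_of_ne htx, ht])
    (by
      intro k hk l₁ l₂
      have e1 : l.drop k = l[k] :: l.drop (k + 1) := (List.drop_eq_getElem_cons hk)
      have e2 : (l.take (k + 1)).reverse = l[k] :: (l.take k).reverse := by
        rw [List.take_add_one, List.getElem?_eq_getElem hk]; simp
      have h1 := Runs.mov (Γ := Γ) hxo (Function.update (Function.update (Function.update
        (Function.update s x (l.drop k ++ rest)) o ((l.take k).reverse ++ s o)) u l₁) t l₂)
        (a := l[k]) (l := l.drop (k + 1) ++ rest) (by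
          rw [Function.update_of_ne htx.symm, Function.update_of_ne hux.symm,
            Function.update_of_ne hxo, Function.update_self, e1, List.cons_append])
      refine h1.of_eq ?_
      rw [e2]
      funext m
      simp only [Function.update_apply]
      split_ifs <;> simp_all)
  simp only [Finset.sum_const, Finset.card_range, smul_eq_mul] at h
  have e : (Function.update (Function.update s x (l.drop 0 ++ rest)) o
      ((l.take 0).reverse ++ s o)) = s := by
    funext m
    simp only [Function.update_apply]
    split_ifs <;> simp_all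
  rw [e] at h
  refine (h.mono (by omega)).of_eq ?_
  simp

theorem Trn.drn {G : Store ι Γ → Prop} {u t x o : ι} (hut : u ≠ t) (hux : u ≠ x)
    (htx : t ≠ x) (hxo : x ≠ o) (a : Γ) (l : List Γ)
    (hG : ∀ s, G s → s u = List.replicate l.length a ∧ s t = []) :
    Trn G x o (drn u t x) l [] (8 * l.length + 1) := by
  intro s rest hs hx
  obtain ⟨hu, ht⟩ := hG s hs
  have h := Runs.forr' hut (body := Prog.pop x) l.length a
    (fun k => Function.update s x (l.drop k ++ rest)) (fun _ => 1)
    (fun k _ => by rw [Function.update_of_ne hux, hu])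
    (fun k _ => by rw [Function.update_of_ne htx, ht])
    (by
      intro k hk l₁ l₂
      have e1 : l.drop k = l[k] :: l.drop (k + 1) := (List.drop_eq_getElem_cons hk)
      refine (Runs.pop x _).of_eq ?_
      funext m
      simp only [Function.update_apply]
      split_ifs <;> simp_all)
  simp only [Finset.sum_const, Finset.card_range, smul_eq_mul] at h
  have e : Function.update s x (l.drop 0 ++ rest) = s := by
    rw [List.drop_zero, ← hx, Function.update_eq_self]
  rw [e] at h
  refine (h.mono (by omega)).of_eq ?_
  rw [List.drop_length, List.nil_append, List.reverse_nil, List.nil_append]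
  funext m
  simp only [Function.update_apply]
  split_ifs <;> simp_all

theorem Trn.fill {G : Store ι Γ → Prop} {u t x o : ι} (hut : u ≠ t) (huo : u ≠ o)
    (hto : t ≠ o) (a z : Γ) (n : ℕ)
    (hG : ∀ s, G s → s u = List.replicate n a ∧ s t = []) :
    Trn G x o (Prog.fill u z o t) [] (List.replicate n z) (8 * n + 1) := by
  intro s rest hs hx
  obtain ⟨hu, ht⟩ := hG s hs
  refine (Runs.fill huo hut hto.symm z a s n hu ht).of_eq ?_
  rw [List.reverse_replicate]
  rw [List.nil_append] at hx
  rw [← hx, Function.update_eq_self]

/-- The rule for loops. -/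
theorem Trn.forr {G : Store ι Γ → Prop} {u t x o : ι} {body : Prog ι Γ} (hut : u ≠ t)
    (hux : u ≠ x) (huo : u ≠ o) (htx : t ≠ x) (hto : t ≠ o) (hxo : x ≠ o)
    (ix : Indep G x) (io : Indep G o) (iu : Indep G u) (it : Indep G t) (a : Γ) (n T : ℕ)
    (f g : ℕ → List Γ) (h : ∀ k < n, Trn G x o body (f k) (g k) T) :
    Trn (fun s => G s ∧ s u = List.replicate n a ∧ s t = []) x o (Prog.forr u t body)
      (cat n f) (cat n g) (n * (T + 7) + 1) := by
  rintro s rest ⟨hG, hu, ht⟩ hx
  have h := Runs.forr' hut (body := body) n a
    (fun k => Function.update (Function.update s x (cat (n - k) (fun i => f (k + i)) ++ rest)) o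
      ((cat k g).reverse ++ s o)) (fun _ => T)
    (fun k _ => by rw [Function.update_of_ne huo, Function.update_of_ne hux, hu])
    (fun k _ => by rw [Function.update_of_ne hto, Function.update_of_ne htx, ht])
    (by
      intro k hk l₁ l₂
      obtain ⟨m, hm⟩ : ∃ m, n - k = m + 1 := ⟨n - k - 1, by omega⟩
      have hm' : n - (k + 1) = m := by omega
      have h1 := h k hk (Function.update (Function.update (Function.update
        (Function.update s x (cat (n - k) (fun i => f (k + i)) ++ rest)) o
          ((cat k g).reverse ++ s o)) u l₁) t l₂) (cat m (fun i => f (k + 1 + i)) ++ rest)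
        (it _ _ (iu _ _ (io _ _ (ix _ _ hG))))
        (by
          rw [Function.update_of_ne htx.symm, Function.update_of_ne hux.symm,
            Function.update_of_ne hxo, Function.update_self, hm, cat_succ']
          simp [Nat.add_assoc, Nat.add_comm 1])
      refine h1.of_eq ?_
      rw [hm', cat_succ]
      funext m
      simp only [Function.update_apply]
      split_ifs <;> simp_all)
  simp only [Finset.sum_const, Finset.card_range, smul_eq_mul] at h
  have e : (Function.update (Function.update s x (cat (n - 0) (fun i => f (0 + i)) ++ rest)) o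
      ((cat 0 g).reverse ++ s o)) = s := by
    rw [cat_zero, List.reverse_nil, List.nil_append, Nat.sub_zero]
    simp only [Nat.zero_add]
    funext m
    simp only [Function.update_apply]
    split_ifs <;> simp_all
  rw [e] at h
  refine (h.mono ?_).of_eq ?_
  · have : n * (T + 7) = n * (T + 4) + 3 * n := by ring
    omega
  · rw [Nat.sub_self, cat_zero, List.nil_append]

/-- The conclusion, when the whole stack is used. -/
theorem Trn.run {G : Store ι Γ → Prop} {x o : ι} {p : Prog ι Γ} {l l' : List Γ} {t : ℕ}
    (h : Trn G x o p l l' t) {s : Store ι Γ} (hG : G s) (hx : s x = l) (ho : s o = []) :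
    Runs p s (Function.update (Function.update s x []) o l'.reverse) t := by
  have := h s [] hG (by rw [hx, List.append_nil])
  rwa [ho, List.append_nil] at this

end Vale.Agent.P338.S2
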