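import Vale.Agent.P338.S2Iface
import Vale.Agent.P338.S2Trn
import Vale.Agent.P338.Chirp
import Vale.Agent.P338.CallFull
import Vale.Agent.P338.ConvProg
import Vale.Agent.P338.Cmd

/-!
# P338, second reduction: the convolution
-/

namespace Vale.Agent.P338.S2

open Vale.Agent.P338

/-! ### Lists -/

/-- The kernel, shifted by one place. -/
def kShift (κ : ℕ → ℕ) (τ : ℕ) : ℕ := if τ = 0 then 0 else κ (τ - 1)

theorem conv5_kShift (r : ℕ) (κ : ℕ → ℕ) (e : ℕ → ℕ → ℕ → ℕ → ℕ → ℕ) (x k y j z : ℕ) :
    conv5 r (kShift κ) e x k y j z =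
      ∑ i ∈ Finset.range r, κ (k + (r - 1) - i) * e x i y j z := by
  unfold conv5
  refine Finset.sum_congr rfl fun i hi => ?_
  rw [Finset.mem_range] at hi
  rw [kShift, if_neg (by omega), Nat.mul_comm]
  congr 2
  omega

theorem bitsOf_zero' (k : ℕ) : bitsOf k 0 = List.replicate k false := by
  refine List.ext_getElem (by simp) fun i h1 h2 => ?_
  simp [bitsOf]

theorem kerList2_kShift {r s : ℕ} (hr : 1 ≤ r) (hs : 1 ≤ s) (S : ℕ) (κ : ℕ → ℕ) :
    kerList2 r s S (kShift κ) = List.replicate (s * S) false ++ cat (2 * r - 1) fun j =>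
      bitsOf S (κ j) ++ List.replicate (s * S - S) false := by
  obtain ⟨n, hn⟩ : ∃ n, 2 * r = n + 1 := ⟨2 * r - 1, by omega⟩
  have hn' : 2 * r - 1 = n := by omega
  have e1 : (s - 1) * S = s * S - S := by rw [Nat.sub_mul, Nat.one_mul]
  have e2 : S ≤ s * S := by
    calc S = 1 * S := (Nat.one_mul S).symm
      _ ≤ s * S := Nat.mul_le_mul_right _ hs
  unfold kerList2
  rw [hn', hn, cat_succ', e1]
  congr 1
  · rw [kShift, if_pos rfl, bitsOf_zero', List.replicate_append_replicate]
    congr 1
    omega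

/-! ### The programs -/

variable {J E : Type} [DecidableEq J]

/-- Abbreviation for the names of stacks. -/
abbrev nm (a : R) : Loc J := Sum.inl a

/-- Expand the blocks of the data. -/
def exX : Pr J E :=
  Prog.forr (nm R.HH) (nm R.S10) ((mvn (nm R.S6) (nm R.S9) (nm R.X) (nm R.OUT)).seq
    ((Prog.fill (nm R.S6) (sb false) (nm R.OUT) (nm R.S9)).seq
      (Prog.fill (nm R.S6) (sb false) (nm R.OUT) (nm R.S9))))

/-- Expand the kernel. -/
def exK : Pr J E :=
  (Prog.fill (nm R.S5) (sb false) (nm R.OUT) (nm R.S9)).seq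
    (Prog.forr (nm R.S8) (nm R.S10) ((mvn (nm R.WW) (nm R.S9) (nm R.XS) (nm R.OUT)).seq
      (Prog.fill (nm R.S7) (sb false) (nm R.OUT) (nm R.S9))))

/-- Select the middle thirds of the blocks. -/
def exZ : Pr J E :=
  Prog.forr (nm R.HH) (nm R.S10) ((drn (nm R.S6) (nm R.S9) (nm R.AZ)).seq
    ((mvn (nm R.S6) (nm R.S9) (nm R.AZ) (nm R.OUT)).seq
      (drn (nm R.S6) (nm R.S9) (nm R.AZ))))

/-- The stacks during the convolution. -/
structure CEnv (s : St J E) (X r S m Rw B : ℕ) : Prop where
  hh : s (nm R.HH) = una X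
  ww : s (nm R.WW) = una S
  mm : s (nm R.MM) = una m
  s5 : s (nm R.S5) = una Rw
  s6 : s (nm R.S6) = una B
  s7 : s (nm R.S7) = una (Rw - S)
  s8 : s (nm R.S8) = una (2 * r - 1)
  s9 : s (nm R.S9) = []
  s10 : s (nm R.S10) = []
  out : s (nm R.OUT) = []
  xs : s (nm R.XS) = []
  ax : s (nm R.AX) = []
  ay : s (nm R.AY) = []
  az : s (nm R.AZ) = []
  cnt : s (nm R.CNT) = []
  clk : s (nm R.CLK) = []
  k1 : s (nm R.K1) = []
  k2 : s (nm R.K2) = []

theorem exX_trn (X B : ℕ) (f : ℕ → List Bool) (hf : ∀ x < X, (f x).length = B) :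
    Trn (fun s : St J E => (s (nm R.S6) = una B ∧ s (nm R.S9) = []) ∧
        s (nm R.HH) = List.replicate X mk ∧ s (nm R.S10) = [])
      (nm R.X) (nm R.OUT) exX (bits (cat X f))
      (bits (cat X fun x => f x ++ List.replicate (2 * B) false)) (X * (24 * B + 12) + 1) := by
  have h := Trn.forr (G := fun s : St J E => s (nm R.S6) = una B ∧ s (nm R.S9) = [])
    (u := nm R.HH) (t := nm R.S10) (x := nm R.X) (o := nm R.OUT)
    (body := ((mvn (nm R.S6) (nm R.S9) (nm R.X) (nm R.OUT)).seq
    ((Prog.fill (nm R.S6) (sb false) (nm R.OUT) (nm R.S9)).seq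
      (Prog.fill (nm R.S6) (sb false) (nm R.OUT) (nm R.S9)))))
    (by simp) (by simp) (by simp) (by simp) (by simp) (by simp)
    (fun s l hs => by simpa using hs) (fun s l hs => by simpa using hs)
    (fun s l hs => by simpa using hs) (fun s l hs => by simpa using hs) mk X (24 * B + 5)
    (fun x => bits (f x)) (fun x => bits (f x) ++ List.replicate (2 * B) (sb false))
    (by
      intro x hx
      have hl : (bits (f x) : List (SSym E)).length = B := by rw [length_bits, hf x hx]
      have h1 := Trn.mvn (G := fun s : St J E => s (nm R.S6) = una B ∧ s (nm R.S9) = [])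
        (u := nm R.S6) (t := nm R.S9) (x := nm R.X) (o := nm R.OUT)
        (by simp) (by simp) (by simp) (by simp) (by simp) (by simp) mk (bits (f x))
        (fun s hs => by rw [hl]; exact hs)
      have h2 := Trn.fill (G := fun s : St J E => s (nm R.S6) = una B ∧ s (nm R.S9) = [])
        (u := nm R.S6) (t := nm R.S9) (x := nm R.X) (o := nm R.OUT)
        (by simp) (by simp) (by simp) mk (sb false) B (fun s hs => hs)
      refine ((h1.seq (by simp) (fun s l hs => by simpa using hs)
        (fun s l hs => by simpa using hs) (h2.seq (by simp) (fun s l hs => by simpa using hs)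
        (fun s l hs => by simpa using hs) h2)).mono ?_).congr ?_ ?_
      · rw [hl]; omega
      · simp
      · rw [List.replicate_append_replicate, ← two_mul])
  refine (h.mono (by ring_nf; omega)).congr ?_ ?_
  · unfold bits; rw [map_cat]
  · unfold bits; rw [map_cat]
    exact cat_congr fun x _ => by simp

theorem exK_trn (N S Rw : ℕ) (f : ℕ → List Bool) (hf : ∀ x < N, (f x).length = S) :
    Trn (fun s : St J E => (s (nm R.WW) = una S ∧ s (nm R.S7) = una (Rw - S) ∧
        s (nm R.S5) = una Rw ∧ s (nm R.S9) = []) ∧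
        s (nm R.S8) = List.replicate N mk ∧ s (nm R.S10) = [])
      (nm R.XS) (nm R.OUT) exK (bits (cat N f))
      (bits (List.replicate Rw false ++ cat N fun x => f x ++ List.replicate (Rw - S) false))
      (8 * Rw + 3 + N * (8 * S + 8 * (Rw - S) + 10)) := by
  have h := Trn.forr (G := fun s : St J E => s (nm R.WW) = una S ∧ s (nm R.S7) = una (Rw - S) ∧
        s (nm R.S5) = una Rw ∧ s (nm R.S9) = [])
    (u := nm R.S8) (t := nm R.S10) (x := nm R.XS) (o := nm R.OUT)
    (body := ((mvn (nm R.WW) (nm R.S9) (nm R.XS) (nm R.OUT)).seq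
      (Prog.fill (nm R.S7) (sb false) (nm R.OUT) (nm R.S9))))
    (by simp) (by simp) (by simp) (by simp) (by simp) (by simp)
    (fun s l hs => by simpa using hs) (fun s l hs => by simpa using hs)
    (fun s l hs => by simpa using hs) (fun s l hs => by simpa using hs) mk N
    (8 * S + 8 * (Rw - S) + 3)
    (fun x => bits (f x)) (fun x => bits (f x) ++ List.replicate (Rw - S) (sb false))
    (by
      intro x hx
      have hl : (bits (f x) : List (SSym E)).length = S := by rw [length_bits, hf x hx]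
      have h1 := Trn.mvn (G := fun s : St J E => s (nm R.WW) = una S ∧
        s (nm R.S7) = una (Rw - S) ∧ s (nm R.S5) = una Rw ∧ s (nm R.S9) = [])
        (u := nm R.WW) (t := nm R.S9) (x := nm R.XS) (o := nm R.OUT)
        (by simp) (by simp) (by simp) (by simp) (by simp) (by simp) mk (bits (f x))
        (fun s hs => by rw [hl]; exact ⟨hs.1, hs.2.2.2⟩)
      have h2 := Trn.fill (G := fun s : St J E => s (nm R.WW) = una S ∧
        s (nm R.S7) = una (Rw - S) ∧ s (nm R.S5) = una Rw ∧ s (nm R.S9) = [])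
        (u := nm R.S7) (t := nm R.S9) (x := nm R.XS) (o := nm R.OUT)
        (by simp) (by simp) (by simp) mk (sb false) (Rw - S) (fun s hs => ⟨hs.2.1, hs.2.2.2⟩)
      refine ((h1.seq (by simp) (fun s l hs => by simpa using hs)
        (fun s l hs => by simpa using hs) h2).mono ?_).congr ?_ ?_
      · rw [hl]; omega
      · simp
      · rfl)
  have h0 := Trn.fill (G := fun s : St J E => (s (nm R.WW) = una S ∧
        s (nm R.S7) = una (Rw - S) ∧ s (nm R.S5) = una Rw ∧ s (nm R.S9) = []) ∧
        s (nm R.S8) = List.replicate N mk ∧ s (nm R.S10) = [])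
        (u := nm R.S5) (t := nm R.S9) (x := nm R.XS) (o := nm R.OUT)
        (by simp) (by simp) (by simp) mk (sb false) Rw (fun s hs => ⟨hs.1.2.2.1, hs.1.2.2.2⟩)
  refine ((h0.seq (by simp) (fun s l hs => by simpa using hs)
    (fun s l hs => by simpa using hs) h).mono (by ring_nf; omega)).congr ?_ ?_
  · unfold bits; rw [map_cat, List.nil_append]
  · unfold bits; rw [List.map_append, map_cat]
    congr 1
    · simp
    · exact cat_congr fun x _ => by simp

theorem exZ_trn (X B : ℕ) (f₁ f₂ f₃ : ℕ → List Bool) (h₁ : ∀ x < X, (f₁ x).length = B)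
    (h₂ : ∀ x < X, (f₂ x).length = B) (h₃ : ∀ x < X, (f₃ x).length = B) :
    Trn (fun s : St J E => (s (nm R.S6) = una B ∧ s (nm R.S9) = []) ∧
        s (nm R.HH) = List.replicate X mk ∧ s (nm R.S10) = [])
      (nm R.AZ) (nm R.OUT) exZ (bits (cat X fun x => f₁ x ++ (f₂ x ++ f₃ x)))
      (bits (cat X f₂)) (X * (24 * B + 12) + 1) := by
  have h := Trn.forr (G := fun s : St J E => s (nm R.S6) = una B ∧ s (nm R.S9) = [])
    (u := nm R.HH) (t := nm R.S10) (x := nm R.AZ) (o := nm R.OUT)
    (body := ((drn (nm R.S6) (nm R.S9) (nm R.AZ)).seq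
    ((mvn (nm R.S6) (nm R.S9) (nm R.AZ) (nm R.OUT)).seq
      (drn (nm R.S6) (nm R.S9) (nm R.AZ)))))
    (by simp) (by simp) (by simp) (by simp) (by simp) (by simp)
    (fun s l hs => by simpa using hs) (fun s l hs => by simpa using hs)
    (fun s l hs => by simpa using hs) (fun s l hs => by simpa using hs) mk X (24 * B + 5)
    (fun x => bits (f₁ x) ++ (bits (f₂ x) ++ bits (f₃ x))) (fun x => [] ++ (bits (f₂ x) ++ []))
    (by
      intro x hx
      have l1 : (bits (f₁ x) : List (SSym E)).length = B := by rw [length_bits, h₁ x hx]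
      have l2 : (bits (f₂ x) : List (SSym E)).length = B := by rw [length_bits, h₂ x hx]
      have l3 : (bits (f₃ x) : List (SSym E)).length = B := by rw [length_bits, h₃ x hx]
      have t1 := Trn.drn (G := fun s : St J E => s (nm R.S6) = una B ∧ s (nm R.S9) = [])
        (u := nm R.S6) (t := nm R.S9) (x := nm R.AZ) (o := nm R.OUT)
        (by simp) (by simp) (by simp) (by simp) mk (bits (f₁ x))
        (fun s hs => by rw [l1]; exact hs)
      have t2 := Trn.mvn (G := fun s : St J E => s (nm R.S6) = una B ∧ s (nm R.S9) = [])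
        (u := nm R.S6) (t := nm R.S9) (x := nm R.AZ) (o := nm R.OUT)
        (by simp) (by simp) (by simp) (by simp) (by simp) (by simp) mk (bits (f₂ x))
        (fun s hs => by rw [l2]; exact hs)
      have t3 := Trn.drn (G := fun s : St J E => s (nm R.S6) = una B ∧ s (nm R.S9) = [])
        (u := nm R.S6) (t := nm R.S9) (x := nm R.AZ) (o := nm R.OUT)
        (by simp) (by simp) (by simp) (by simp) mk (bits (f₃ x))
        (fun s hs => by rw [l3]; exact hs)
      refine (t1.seq (by simp) (fun s l hs => by simpa using hs)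
        (fun s l hs => by simpa using hs) (t2.seq (by simp) (fun s l hs => by simpa using hs)
        (fun s l hs => by simpa using hs) t3)).mono ?_
      rw [l1, l2, l3]; omega)
  refine (h.mono (by ring_nf; omega)).congr ?_ ?_
  · unfold bits; rw [map_cat]
    exact cat_congr fun x _ => by simp
  · unfold bits; rw [map_cat]
    exact cat_congr fun x _ => by simp

/-! ### The operands and the result -/

/-- The first operand. -/
noncomputable def convX : Pr J E :=
  exX.seq ((Prog.rev (nm R.OUT) (nm R.X)).seq (padM R.X R.AX))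

/-- The second operand. -/
noncomputable def convK : Pr J E :=
  (Prog.copyOnto (nm R.KER) (nm R.XS) (nm R.K2)).seq
    (exK.seq ((Prog.rev (nm R.OUT) (nm R.XS)).seq (padM R.XS R.AY)))

/-- The result. -/
noncomputable def convZ : Pr J E :=
  exZ.seq ((Prog.clear (nm R.AZ)).seq (Prog.rev (nm R.OUT) (nm R.X)))

theorem convX_runs {X r S m Rw B : ℕ} {f : ℕ → List Bool} (hf : ∀ x < X, (f x).length = B)
    (hm1 : 1 ≤ m) (hm : X * (3 * B) ≤ m) (hXm : X ≤ m) (s : St J E)
    (he : CEnv s X r S m Rw B) (hx : s (nm R.X) = bits (cat X f)) :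
    Runs convX s ((s.set R.X []).set R.AX
      (bits ((cat X fun x => f x ++ List.replicate (2 * B) false) ++
        List.replicate (m - X * (3 * B)) false))) (50 * m) := by
  set xa := cat X fun x => f x ++ List.replicate (2 * B) false with hxa
  have lxa : xa.length = X * (3 * B) := by
    rw [hxa]
    refine length_cat_of fun x hx => ?_
    rw [List.length_append, hf x hx, List.length_replicate]
    omega
  have r1 := (exX_trn (J := J) (E := E) X B f hf).run (s := s)
    ⟨⟨he.s6, he.s9⟩, he.hh, he.s10⟩ hx he.out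
  rw [← hxa] at r1
  have r2 : Runs (Prog.rev (nm R.OUT) (nm R.X)) (Function.update (Function.update s (nm R.X) [])
      (nm R.OUT) (bits xa).reverse) (s.set R.X (bits xa)) (3 * m) := by
    have h := Runs.rev (i := (nm R.OUT : Loc J)) (j := nm R.X) (by simp)
      (Function.update (Function.update s (nm R.X) []) (nm R.OUT) (bits xa).reverse)
    refine (h.mono ?_).of_eq ?_
    · rw [Function.update_self, List.length_reverse, length_bits, lxa]
      omega
    · have e1 := he.out
      funext i
      simp only [Function.update_apply]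
      split_ifs <;> simp_all
  have r3 := padM_runs (J := J) (E := E) (x := R.X) (y := R.AX) (by simp) (by simp) (by simp)
    (by simp) (by simp) (s.set R.X (bits xa)) xa m (by simp) (by simp [he.ax])
    (by simp [he.k1]) (by simp [he.k2]) (by simp [he.mm]) (by omega)
  rw [lxa] at r3
  refine ((r1.seq (r2.seq r3)).mono ?_).of_eq ?_
  · have : X * (24 * B + 12) = 8 * (X * (3 * B)) + 12 * X := by ring
    omega
  · simp

theorem convK_runs {X r S m Rw B : ℕ} {κ : ℕ → ℕ} {s₀ : ℕ} (hr : 1 ≤ r) (hs₀ : 1 ≤ s₀)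
    (hRw : Rw = s₀ * S) (hS1 : 1 ≤ S) (hm : 2 * (r * Rw) ≤ m) (s : St J E) (xs : List (SSym E))
    (he : CEnv s X r S m Rw B)
    (hk : s (nm R.KER) = bits (cat (2 * r - 1) fun j => bitsOf S (κ j))) :
    Runs convK ((s.set R.X []).set R.AX xs) (((s.set R.X []).set R.AX xs).set R.AY
      (bits (kerList2 r s₀ S (kShift κ) ++ List.replicate (m - 2 * (r * Rw)) false)))
      (60 * m) := by
  have hSRw : S ≤ Rw := by
    rw [hRw]
    calc S = 1 * S := (Nat.one_mul S).symm
      _ ≤ s₀ * S := Nat.mul_le_mul_right _ hs₀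
  have hrRw : Rw ≤ r * Rw := by
    calc Rw = 1 * Rw := (Nat.one_mul _).symm
      _ ≤ r * Rw := Nat.mul_le_mul_right _ hr
  have hkl := kerList2_kShift hr hs₀ S κ
  rw [← hRw] at hkl
  set kl := kerList2 r s₀ S (kShift κ) with hkl0
  have lkl : kl.length = 2 * (r * Rw) := by
    rw [hkl0, length_kerList2 hs₀, hRw]
    ring
  obtain ⟨kk, hkk⟩ : ∃ kk, kk = cat (2 * r - 1) fun j => bitsOf S (κ j) := ⟨_, rfl⟩
  rw [← hkk] at hk
  have lkk : kk.length = (2 * r - 1) * S := by
    rw [hkk]
    exact length_cat_of fun _ _ => length_bitsOf _ _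
  have lkk' : kk.length ≤ m := by
    calc kk.length = (2 * r - 1) * S := lkk
      _ ≤ (2 * r) * Rw := Nat.mul_le_mul (by omega) hSRw
      _ = 2 * (r * Rw) := by ring
      _ ≤ m := hm
  set s1 := (s.set R.X []).set R.AX xs with hs1
  have r1 : Runs (Prog.copyOnto (nm R.KER) (nm R.XS) (nm R.K2)) s1 (s1.set R.XS (bits kk))
      (6 * m + 1) := by
    have h := Runs.copyOnto (a := (nm R.KER : Loc J)) (b := nm R.XS) (t := nm R.K2) (by simp)
      (by simp) (by simp) s1 (by simp [hs1, he.k2])
    refine (h.mono ?_).of_eq ?_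
    · have : s1 (nm R.KER) = bits kk := by simp [hs1, hk]
      rw [this, length_bits]
      omega
    · simp [hs1, hk, he.xs]
  have r2 := (exK_trn (J := J) (E := E) (2 * r - 1) S Rw (fun j => bitsOf S (κ j))
    (fun _ _ => length_bitsOf _ _)).run (s := s1.set R.XS (bits kk))
    ⟨⟨by simp [hs1, he.ww], by simp [hs1, he.s7], by simp [hs1, he.s5],
      by simp [hs1, he.s9]⟩, by simpa [hs1, una] using he.s8, by simp [hs1, he.s10]⟩
    (by simp [hkk]) (by simp [hs1, he.out])
  rw [← hkl] at r2
  have r3 : Runs (Prog.rev (nm R.OUT) (nm R.XS)) (Function.update (Function.update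
      (s1.set R.XS (bits kk)) (nm R.XS) []) (nm R.OUT) (bits kl).reverse)
      (s1.set R.XS (bits kl)) (3 * m) := by
    have h := Runs.rev (i := (nm R.OUT : Loc J)) (j := nm R.XS) (by simp)
      (Function.update (Function.update
      (s1.set R.XS (bits kk)) (nm R.XS) []) (nm R.OUT) (bits kl).reverse)
    refine (h.mono ?_).of_eq ?_
    · rw [Function.update_self, List.length_reverse, length_bits, lkl]
      omega
    · have e1 : s1 (nm R.OUT) = [] := by simp [hs1, he.out]
      funext i
      simp only [Function.update_apply]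
      split_ifs <;> simp_all
  have r4 := padM_runs (J := J) (E := E) (x := R.XS) (y := R.AY) (by simp) (by simp) (by simp)
    (by simp) (by simp) (s1.set R.XS (bits kl)) kl m (by simp) (by simp [hs1, he.ay])
    (by simp [hs1, he.k1]) (by simp [hs1, he.k2]) (by simp [hs1, he.mm]) (by omega)
  rw [lkl] at r4
  refine ((r1.seq (r2.seq (r3.seq r4))).mono ?_).of_eq ?_
  · have e2 : (2 * r - 1) * (8 * S + 8 * (Rw - S) + 10) ≤ 16 * (r * Rw) + 20 * (r * Rw) := by
      calc (2 * r - 1) * (8 * S + 8 * (Rw - S) + 10) ≤ (2 * r) * (8 * Rw + 10 * Rw) :=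
            Nat.mul_le_mul (by omega) (by omega)
        _ = 16 * (r * Rw) + 20 * (r * Rw) := by ring
    omega
  · have e1 : s1 (nm R.XS) = [] := by simp [hs1, he.xs]
    funext i
    simp only [Function.update_apply]
    split_ifs <;> simp_all

theorem convZ_runs {X r S m Rw B : ℕ} {f₁ f₂ f₃ : ℕ → List Bool} {rest : List Bool}
    (h₁ : ∀ x < X, (f₁ x).length = B)
    (h₂ : ∀ x < X, (f₂ x).length = B) (h₃ : ∀ x < X, (f₃ x).length = B)
    (hm1 : 1 ≤ m) (hm : X * (3 * B) ≤ m) (hXm : X ≤ m) (hrest : rest.length ≤ 2 * m)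
    (s : St J E) (he : CEnv s X r S m Rw B) :
    Runs convZ ((s.set R.X []).set R.AZ (bits ((cat X fun x => f₁ x ++ (f₂ x ++ f₃ x)) ++ rest)))
      (s.set R.X (bits (cat X f₂))) (50 * m) := by
  have r1 := exZ_trn (J := J) (E := E) X B f₁ f₂ f₃ h₁ h₂ h₃
    ((s.set R.X []).set R.AZ (bits ((cat X fun x => f₁ x ++ (f₂ x ++ f₃ x)) ++ rest)))
    (bits rest) ⟨⟨by simp [he.s6], by simp [he.s9]⟩, by simpa [una] using he.hh, by simp [he.s10]⟩
    (by simp)
  have e1 : ((s.set R.X []).set R.AZ (bits ((cat X fun x => f₁ x ++ (f₂ x ++ f₃ x)) ++ rest)))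
      (nm R.OUT) = [] := by simp [he.out]
  rw [e1, List.append_nil] at r1
  have r2 := Runs.clear (nm R.AZ : Loc J) (Function.update (Function.update ((s.set R.X []).set
    R.AZ (bits ((cat X fun x => f₁ x ++ (f₂ x ++ f₃ x)) ++ rest))) (nm R.AZ) (bits rest))
    (nm R.OUT) (bits (cat X f₂)).reverse)
  have r3 := Runs.rev (i := (nm R.OUT : Loc J)) (j := nm R.X) (by simp)
    (Function.update (Function.update (Function.update ((s.set R.X []).set
    R.AZ (bits ((cat X fun x => f₁ x ++ (f₂ x ++ f₃ x)) ++ rest))) (nm R.AZ) (bits rest))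
    (nm R.OUT) (bits (cat X f₂)).reverse) (nm R.AZ) [])
  have l2 : (cat X f₂).length = X * B := length_cat_of h₂
  refine ((r1.seq (r2.seq r3)).mono ?_).of_eq ?_
  · have e2 : X * (24 * B + 12) = 8 * (X * (3 * B)) + 12 * X := by ring
    have e3 : X * (3 * B) = 3 * (X * B) := by ring
    simp only [ne_eq, Sum.inl.injEq, reduceCtorEq, not_false_eq_true, Function.update_of_ne,
      Function.update_self, length_bits, List.length_reverse, l2]
    omega
  · have e2 := he.out
    have e3 := he.az
    funext i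
    simp only [Function.update_apply]
    split_ifs <;> simp_all

/-! ### The convolution -/

/-- Compute the sizes. -/
def csize : List (Cmd E) :=
  [.rep R.DD R.WW R.S3, .rep R.RR R.S3 R.S4, .rep R.GG R.S4 R.S5, .rep R.RR R.S5 R.S6,
    .cp R.S5 R.S7, .sub R.WW R.S7, .cp R.RR R.S8, .cp R.RR R.S8, .pop R.S8, .clr R.S3,
    .clr R.S4]

/-- Remove the sizes. -/
def csize' : List (Cmd E) := [.clr R.S5, .clr R.S6, .clr R.S7, .clr R.S8]

/-- The convolution. -/
noncomputable def convS2 (call : Pr J E) : Pr J E :=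
  (cmds csize).seq (convX.seq (convK.seq (call.seq (convZ.seq (cmds csize')))))

theorem csize_runs {X r Y Z t S m w w' : ℕ} {s : St J E} (N : Num X r Y Z t S m w w')
    (e : Env s X r Y Z t S m w w') :
    Runs (cmds csize) s ((((s.set R.S5 (una (Y * (r * Z) * S))).set R.S6
      (una (r * (Y * (r * Z)) * S))).set R.S7 (una (Y * (r * Z) * S - S))).set R.S8
        (una (2 * r - 1))) (200 * m) := by
  have hr1 : 1 ≤ r := by
    have := N.prime.two_le
    omega
  have emp : ∀ q ∈ pScratch, s (Sum.inl q) = [] := e.emp2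
  have hS1 : s (Sum.inl R.S1) = [] := emp _ (by decide)
  have hS2 : s (Sum.inl R.S2) = [] := emp _ (by decide)
  have hS3 : s (Sum.inl R.S3) = [] := emp _ (by decide)
  have hS4 : s (Sum.inl R.S4) = [] := emp _ (by decide)
  have hS5 : s (Sum.inl R.S5) = [] := emp _ (by decide)
  have hS6 : s (Sum.inl R.S6) = [] := emp _ (by decide)
  have hS7 : s (Sum.inl R.S7) = [] := emp _ (by decide)
  have hS8 : s (Sum.inl R.S8) = [] := emp _ (by decide)
  have hRR : s (Sum.inl R.RR) = una r := e.rr
  have hGG : s (Sum.inl R.GG) = una Y := e.gg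
  have hDD : s (Sum.inl R.DD) = una Z := e.dd
  have hWW : s (Sum.inl R.WW) = una S := e.ww
  have h := cmds_spec (J := J) (E := E) csize s (by
    simp only [csize, oks, Cmd.ok, Cmd.eff]
    simp only [St.at, hRR, hGG, hDD, hWW, hS1, hS2, hS3, hS4, hS5, hS6, hS7, hS8,
      Function.update_apply]
    simp [una])
  have a1 : Y * (r * (Z * S)) = Y * (r * Z) * S := by ring
  have a2 : r * (Y * (r * Z) * S) = r * (Y * (r * Z)) * S := by ring
  refine (h.mono ?_).of_eq ?_
  · obtain ⟨A, hA⟩ : ∃ A, A = r * (Y * (r * Z)) * S := ⟨_, rfl⟩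
    have hY1 := N.hY
    have hZ1 := N.hZ
    have hX1 := N.hX
    have hSS : 1 ≤ S := by
      have h1 := N.hS
      have : 0 < Nat.size (r + 1) := Nat.size_pos.2 (by omega)
      omega
    have hA0 : 0 < A := by rw [hA]; positivity
    have hAm : 3 * A ≤ m := by
      refine le_trans ?_ N.hm
      have : A * 1 ≤ A * X := Nat.mul_le_mul_left _ hX1
      have e2 : 3 * (X * r * Y * r * Z) * S = 3 * (A * X) := by rw [hA]; ring
      omega
    have b1 : Z * S ≤ A := Nat.le_of_dvd hA0 ⟨r * Y * r, by rw [hA]; ring⟩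
    have b2 : Z ≤ A := Nat.le_of_dvd hA0 ⟨r * Y * r * S, by rw [hA]; ring⟩
    have b3 : r * (Z * S) ≤ A := Nat.le_of_dvd hA0 ⟨Y * r, by rw [hA]; ring⟩
    have b4 : r ≤ A := Nat.le_of_dvd hA0 ⟨Y * r * Z * S, by rw [hA]; ring⟩
    have b5 : Y * (r * Z) * S ≤ A := Nat.le_of_dvd hA0 ⟨r, by rw [hA]; ring⟩
    have b6 : Y ≤ A := Nat.le_of_dvd hA0 ⟨r * r * Z * S, by rw [hA]; ring⟩
    have b7 : S ≤ A := Nat.le_of_dvd hA0 ⟨r * Y * r * Z, by rw [hA]; ring⟩
    have c1 : Z * (6 * S + 8) = 6 * (Z * S) + 8 * Z := by ring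
    have c2 : r * (6 * (Z * S) + 8) = 6 * (r * (Z * S)) + 8 * r := by ring
    have c3 : Y * (6 * (r * (Z * S)) + 8) = 6 * (Y * (r * Z) * S) + 8 * Y := by ring
    have c4 : r * (6 * (Y * (r * Z) * S) + 8) = 6 * A + 8 * r := by rw [hA]; ring
    simp only [csize, costs, Cmd.cost, Cmd.eff]
    simp only [St.at, hRR, hGG, hDD, hWW, hS3, hS4, hS5, hS6, hS7, hS8,
      Function.update_apply]
    simp only [Sum.inl.injEq, reduceCtorEq, if_false, if_true, length_una,
      List.append_nil, rep_una, c1, c2, c3, c4, a1]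
    omega
  · simp only [csize, effs, Cmd.eff]
    simp only [St.at, hRR, hGG, hDD, hWW, hS3, hS4, hS5, hS6, hS7, hS8,
      Function.update_apply]
    simp only [Sum.inl.injEq, reduceCtorEq, if_false, if_true, length_una,
      List.append_nil, rep_una, a1, a2]
    have d1 : (una (Y * (r * Z) * S) : List (SSym E)).drop S = una (Y * (r * Z) * S - S) := by
      simp [una]
    have d2 : (una r ++ una r : List (SSym E)).tail = una (2 * r - 1) := by
      rw [una_append]
      unfold una
      rw [List.tail_replicate]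
      congr 1
      omega
    funext q
    simp only [Function.update_apply]
    split_ifs <;> simp_all

theorem csize'_runs {r m : ℕ} {s : St J E} (Rw B S : ℕ) (h5 : s (Sum.inl R.S5) = [])
    (h6 : s (Sum.inl R.S6) = []) (h7 : s (Sum.inl R.S7) = []) (h8 : s (Sum.inl R.S8) = [])
    (b5 : Rw ≤ m) (b6 : B ≤ m) (b8 : 2 * r - 1 ≤ m) (hm : 1 ≤ m) (l : List (SSym E)) :
    Runs (cmds csize') (((((s.set R.S5 (una Rw)).set R.S6 (una B)).set R.S7
      (una (Rw - S))).set R.S8 (una (2 * r - 1))).set R.X l) (s.set R.X l) (40 * m) := by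
  have h := cmds_spec (J := J) (E := E) csize' (((((s.set R.S5 (una Rw)).set R.S6
    (una B)).set R.S7 (una (Rw - S))).set R.S8 (una (2 * r - 1))).set R.X l)
    ⟨trivial, trivial, trivial, trivial, trivial⟩
  refine (h.mono ?_).of_eq ?_
  · simp only [csize', costs, Cmd.cost, Cmd.eff, St.at, Function.update_apply, Sum.inl.injEq,
      reduceCtorEq, if_false, if_true, length_una]
    omega
  · simp only [csize', effs, Cmd.eff]
    funext q
    simp only [Function.update_apply]
    split_ifs <;> simp_all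

theorem convSpec {call : Pr J E} {T : ℕ → ℕ} {C : ℕ} (hcall : CallFullSpec call T C) :
    ConvSpec (convS2 call) T (C + 1000) := by
  intro X r Y Z t S m w w' κ e s N En hκ he hker hX
  have hr1 : 1 ≤ r := by
    have := N.prime.two_le
    omega
  have hX1 := N.hX
  have hY1 := N.hY
  have hZ1 := N.hZ
  have hPlt : r + 1 < 2 ^ Nat.size (r + 1) := Nat.lt_size_self _
  have hsz : 0 < Nat.size (r + 1) := Nat.size_pos.2 (by omega)
  have hSS : 1 ≤ S := by
    have h1 := N.hS
    omega
  have hP3 : r * ((r + 1) * (r + 1)) < 2 ^ S := by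
    calc r * ((r + 1) * (r + 1)) ≤ (r + 1) * ((r + 1) * (r + 1)) :=
          Nat.mul_le_mul_right _ (by omega)
      _ ≤ 2 ^ Nat.size (r + 1) * (2 ^ Nat.size (r + 1) * 2 ^ Nat.size (r + 1)) :=
          Nat.mul_le_mul hPlt.le (Nat.mul_le_mul hPlt.le hPlt.le)
      _ = 2 ^ (3 * Nat.size (r + 1)) := by
          rw [← pow_add, ← pow_add]
          congr 1
          ring
      _ < 2 ^ S := by
          refine Nat.pow_lt_pow_right (by norm_num) ?_
          have := N.hS
          omega
  -- sizes
  obtain ⟨s₀, hs₀⟩ : ∃ s₀, s₀ = Y * (r * Z) := ⟨_, rfl⟩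
  obtain ⟨B, hB⟩ : ∃ B, B = r * s₀ * S := ⟨_, rfl⟩
  obtain ⟨Rw, hRw⟩ : ∃ Rw, Rw = s₀ * S := ⟨_, rfl⟩
  have hBRw : r * Rw = B := by rw [hB, hRw]; ring
  have hs₀1 : 1 ≤ s₀ := by rw [hs₀]; exact Nat.mul_pos hY1 (Nat.mul_pos hr1 hZ1)
  have hRw1 : 1 ≤ Rw := by rw [hRw]; exact Nat.mul_pos hs₀1 hSS
  have hRwB : Rw ≤ B := by
    rw [← hBRw]
    calc Rw = 1 * Rw := (Nat.one_mul _).symm
      _ ≤ r * Rw := Nat.mul_le_mul_right _ hr1
  have hrB : r ≤ B := by
    rw [← hBRw]
    calc r = r * 1 := (Nat.mul_one _).symm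
      _ ≤ r * Rw := Nat.mul_le_mul_left _ hRw1
  have hm3 : X * (3 * B) ≤ m := by
    refine le_trans (le_of_eq ?_) N.hm
    rw [hB, hs₀]
    ring
  have hBX : 3 * B ≤ X * (3 * B) := by
    calc 3 * B = 1 * (3 * B) := (Nat.one_mul _).symm
      _ ≤ X * (3 * B) := Nat.mul_le_mul_right _ hX1
  have hXm : X ≤ m := by
    calc X = X * 1 := (Nat.mul_one _).symm
      _ ≤ X * (3 * B) := Nat.mul_le_mul_left _ (by omega)
      _ ≤ m := hm3
  have hm1 : 1 ≤ m := by omega
  -- the environment
  have empA : ∀ q ∈ arScratch, s (Sum.inl q) = [] := En.emp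
  have emp : ∀ q ∈ pScratch, s (Sum.inl q) = [] := En.emp2
  set s1 : St J E := (((s.set R.S5 (una Rw)).set R.S6 (una B)).set R.S7
    (una (Rw - S))).set R.S8 (una (2 * r - 1)) with hs1
  have r1 : Runs (cmds csize) s s1 (200 * m) := by
    have := csize_runs N En
    rwa [← hs₀, ← hB, ← hRw] at this
  have hHH : s (Sum.inl R.HH) = una X := En.hh
  have hWW : s (Sum.inl R.WW) = una S := En.ww
  have hMM : s (Sum.inl R.MM) = una m := En.mm
  have CE : CEnv s1 X r S m Rw B := by
    refine ⟨?_, ?_, ?_, ?_, ?_, ?_, ?_, ?_, ?_, ?_, ?_, ?_, ?_, ?_, ?_, ?_, ?_, ?_⟩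
    · simpa [hs1] using hHH
    · simpa [hs1] using hWW
    · simpa [hs1] using hMM
    · simp [hs1]
    · simp [hs1]
    · simp [hs1]
    · simp [hs1]
    · simpa [hs1] using emp R.S9 (by decide)
    · simpa [hs1] using emp R.S10 (by decide)
    · simpa [hs1] using emp R.OUT (by decide)
    · simpa [hs1] using emp R.XS (by decide)
    · simpa [hs1] using empA R.AX (by decide)
    · simpa [hs1] using empA R.AY (by decide)
    · simpa [hs1] using empA R.AZ (by decide)
    · simpa [hs1] using empA R.CNT (by decide)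
    · simpa [hs1] using empA R.CLK (by decide)
    · simpa [hs1] using empA R.K1 (by decide)
    · simpa [hs1] using empA R.K2 (by decide)
  -- the operands
  obtain ⟨f, hf⟩ : ∃ f : ℕ → List Bool, f = fun x => cat r fun i => cat Y fun y =>
    cat r fun j => cat Z fun z => bitsOf S (e x i y j z) := ⟨_, rfl⟩
  have lf : ∀ x < X, (f x).length = B := by
    intro x _
    rw [hf, hB, hs₀, length_cat_of (L := Y * (r * (Z * S)))]
    · ring
    intro i _
    refine length_cat_of fun y _ => length_cat_of fun j _ => length_cat_of fun z _ =>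
      length_bitsOf _ _
  have hXf : s (Sum.inl R.X) = bits (cat X f) := by rw [hf]; exact hX
  have r2 := convX_runs (J := J) (E := E) (f := f) lf hm1 hm3 hXm s1 CE
    (by simpa [hs1] using hXf)
  have exa : (cat X fun x => f x ++ List.replicate (2 * B) false) =
      xaList2 X r s₀ S (flat5 r Z e) := by
    rw [hf, hs₀, xaList2_flat5, ← hs₀, ← hB]
  rw [exa] at r2
  obtain ⟨xs, hxs⟩ : ∃ xs, xs = xaList2 X r s₀ S (flat5 r Z e) ++
    List.replicate (m - X * (3 * B)) false := ⟨_, rfl⟩
  rw [← hxs] at r2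
  have r3 := convK_runs (J := J) (E := E) (κ := κ) hr1 hs₀1 hRw hSS (m := m)
    (by rw [hBRw]; omega) s1 (bits xs) CE (by simpa [hs1] using hker)
  rw [hBRw] at r3
  obtain ⟨ys, hys⟩ : ∃ ys, ys = kerList2 r s₀ S (kShift κ) ++
    List.replicate (m - 2 * B) false := ⟨_, rfl⟩
  rw [← hys] at r3
  have lxs : xs.length = m := by
    rw [hxs, List.length_append, length_xaList2, List.length_replicate, ← hB]
    omega
  have lys : ys.length = m := by
    rw [hys, List.length_append, length_kerList2 hs₀1, List.length_replicate, ← hB]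
    omega
  -- the call
  have hidle : ∀ j : J, s (Sum.inr j) = [] := En.idle
  have r4 := hcall m xs ys (((s1.set R.X []).set R.AX (bits xs)).set R.AY (bits ys)) hm1
    lxs lys (by intro j; simp [hs1, hidle j])
    (by
      intro i hi
      simp only [List.mem_cons, List.not_mem_nil, or_false] at hi
      rcases hi with rfl | rfl | rfl
      · simpa using CE.az
      · simpa using CE.cnt
      · simpa using CE.clk)
    (by simp) (by simp)
  have e4 : (((((s1.set R.X []).set R.AX (bits xs)).set R.AY (bits ys)).set R.AX []).set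
      R.AY []).set R.AZ (bits (bitsOf (2 * m) (natOf xs * natOf ys))) =
      (s1.set R.X []).set R.AZ (bits (bitsOf (2 * m) (natOf xs * natOf ys))) := by
    have e1 := CE.ax
    have e2 := CE.ay
    funext q
    simp only [Function.update_apply]
    split_ifs <;> simp_all
  rw [e4] at r4
  have n1 : natOf xs * natOf ys = natOf (xaList2 X r s₀ S (flat5 r Z e)) *
      natOf (kerList2 r s₀ S (kShift κ)) := by
    rw [hxs, hys, natOf_append_zeros, natOf_append_zeros]
  have hκ' : ∀ τ < 2 * r, kShift κ τ < r + 1 := by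
    intro τ _
    unfold kShift
    split
    · omega
    · exact hκ _
  obtain ⟨A₁, A₃, l1, l3, hA⟩ := mul_kernel5 (h := X) (r := r) (y := Y) (z := Z) (S := S)
    (K := 2 * m) (P := r + 1) (κ := kShift κ) (V := e) hr1 hY1 hZ1 (by omega) hP3 hκ'
    (by rw [← hs₀, ← hB]; omega) (fun _ _ _ _ _ _ _ _ _ _ => he _ _ _ _ _)
  rw [← hs₀, ← hB] at hA
  rw [n1, hA] at r4
  have r5 := convZ_runs (J := J) (E := E) (X := X) (r := r) (S := S) (m := m) (Rw := Rw)
    (B := B) (f₁ := A₁) (f₂ := fun a => cat r fun k => cat Y fun y => cat r fun j =>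
      cat Z fun z => bitsOf S (conv5 r (kShift κ) e a k y j z)) (f₃ := A₃)
    (rest := List.replicate (2 * m - X * (3 * B)) false)
    (fun a _ => by rw [l1 a, ← hs₀, ← hB])
    (fun a _ => by
      rw [hB, hs₀, length_cat_of (L := Y * (r * (Z * S)))]
      · ring
      intro i _
      refine length_cat_of fun y _ => length_cat_of fun j _ => length_cat_of fun z _ =>
        length_bitsOf _ _)
    (fun a _ => by rw [l3 a, ← hs₀, ← hB]) hm1 hm3 hXm
    (by rw [List.length_replicate]; omega) s1 CE
  have r6 := csize'_runs (J := J) (E := E) (r := r) (m := m) (s := s) Rw B S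
    (emp _ (by decide)) (emp _ (by decide)) (emp _ (by decide)) (emp _ (by decide))
    (by omega) (by omega) (by omega) hm1 (bits (cat X fun a => cat r fun k => cat Y fun y =>
      cat r fun j => cat Z fun z => bitsOf S (conv5 r (kShift κ) e a k y j z)))
  refine ((r1.seq (r2.seq (r3.seq (r4.seq (r5.seq r6))))).mono ?_).of_eq ?_
  · have e9 : (C + 1000) * (m + T m) = C * (m + T m) + 1000 * m + 1000 * T m := by ring
    omega
  · have e9 : (dat X r Y r Z S fun x k y j z =>
        ∑ i ∈ Finset.range r, κ (k + (r - 1) - i) * e x i y j z) =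
        cat X fun a => cat r fun k => cat Y fun y =>
      cat r fun j => cat Z fun z => bitsOf S (conv5 r (kShift κ) e a k y j z) := by
      unfold dat
      simp only [conv5_kShift]
    rw [e9]

end Vale.Agent.P338.S2
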