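import Vale.Agent.P338.S2Post

/-!
# P338, second reduction: the kernel
-/

namespace Vale.Agent.P338.S2

variable {J E : Type} [DecidableEq J]

/-- Preparations. -/
def kerL : List (Cmd E) :=
  [.cp R.RR R.S4, .cp R.RR R.S4, .pop R.S4, .cp R.AL R.V3, .cp R.U1 R.V2]

/-- Cleaning. -/
def kerL' : List (Cmd E) := [.rev R.OUT R.KER, .clr R.V2, .clr R.V3, .clr R.S4]

/-- One number of the kernel. -/
def kerBody (mul : R → R → Pr J E) : Pr J E :=
  (Prog.revOnto (Sum.inl R.V2) (Sum.inl R.OUT) (Sum.inl R.T)).seq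
    ((mul R.V2 R.V3).seq (mul R.V3 R.AL))

/-- The generation of the kernel. -/
def kerProg (mul : R → R → Pr J E) : Pr J E :=
  ((cmds kerL).seq (dec (Sum.inl R.V2) (Sum.inl R.S1))).seq
    ((Prog.forr (Sum.inl R.S4) (Sum.inl R.S5) (kerBody mul)).seq (cmds kerL'))

theorem ker_succ (P w j : ℕ) : ker P w j * (w ^ (j + 1) % P) % P = ker P w (j + 1) := by
  unfold ker
  have h : (j + 1) * (j + 1 + 1) / 2 = j * (j + 1) / 2 + (j + 1) := by
    have h1 : (j + 1) * (j + 1 + 1) = j * (j + 1) + 2 * (j + 1) := by ring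
    rw [h1]
    omega
  rw [h, pow_add w (j * (j + 1) / 2) (j + 1), ← Nat.mul_mod, Nat.mul_assoc]

theorem runs_kerBody {mul : R → R → Pr J E} {T : ℕ → ℕ} {C : ℕ} (hmul : MulSpec mul T C)
    {S P h g w : ℕ} (hP : P.Prime) (hS : 4 * Nat.size P ≤ S) (hh : h < P) (hg : g < P)
    (hw : w < P) (s : St J E) (hs : Ar s S P) (hT : s (Sum.inl R.T) = [])
    (h2 : s (Sum.inl R.V2) = tny S h) (h3 : s (Sum.inl R.V3) = tny S g)
    (h4 : s (Sum.inl R.AL) = tny S w) :
    Runs (kerBody mul) s (((s.set R.OUT ((tny S h).reverse ++ s.at R.OUT)).set R.V2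
      (tny S (h * g % P))).set R.V3 (tny S (g * w % P))) (6 * S + 3 + 2 * (C * (S + T S))) := by
  have r1 := Runs.revOnto (a := (Sum.inl R.V2 : Loc J)) (b := Sum.inl R.OUT)
    (t := Sum.inl R.T) (by simp) (by simp) (by simp) s hT
  rw [h2] at r1
  have r2 := hmul S P h g R.V2 R.V3 (s.set R.OUT ((tny S h).reverse ++ s.at R.OUT)) hP hS
    (hs.put (by decide) _) (by decide) (by decide) (by decide) hh hg (by simp [h2])
    (by simp [h3])
  have r3 := hmul S P g w R.V3 R.AL ((s.set R.OUT ((tny S h).reverse ++ s.at R.OUT)).set R.V2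
      (tny S (h * g % P))) hP hS ((hs.put (by decide) _).put (by decide) _) (by decide)
      (by decide) (by decide) hg hw (by simp [h3]) (by simp [h4])
  refine (r1.seq (r2.seq r3)).mono ?_
  rw [ps_length_tny]
  omega

theorem ker_spec {mul : R → R → Pr J E} {T : ℕ → ℕ} {C : ℕ} (hmul : MulSpec mul T C) :
    KerSpec (kerProg mul) T (4 * C + 200) := by
  intro X r Y Z t S m w w' s hN hE hK
  obtain ⟨hr, htS, hS1, hP1, hw'⟩ := hN.facts
  obtain ⟨emp, hHH, hRR, hGG, hDD, hTM, hWW, hAL, hBE, hU1⟩ := hE.eqs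
  have hT := emp R.T (by simp [pScratch])
  have hOUT := emp R.OUT (by simp [pScratch])
  have hV2 := emp R.V2 (by simp [pScratch])
  have hV3 := emp R.V3 (by simp [pScratch])
  have hS1' := emp R.S1 (by simp [pScratch])
  have hS4 := emp R.S4 (by simp [pScratch])
  have hS5 := emp R.S5 (by simp [pScratch])
  simp only [St.at] at hK
  have hwP := hN.wlt
  have hPp := hN.prime
  have hS4' := hN.hS
  obtain ⟨P, hP⟩ : ∃ P, P = r + 1 := ⟨_, rfl⟩
  have hAr0 : Ar (effs kerL s) S (r + 1) := by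
    refine hE.toAr.effs _ ?_
    simp [arUsed, arScratch, kerL, tg]
  have hok : oks kerL s := by
    simp [kerL, oks, Cmd.ok, Cmd.eff, hS1', hRR, hS4, tail_una]
  set s1 : St J E := (effs kerL s).set R.V2 (tny S (r + 1 - 1)) with hs1
  have hrS : r + 1 < 2 ^ S := (Nat.lt_size_self (r + 1)).trans_le
    (Nat.pow_le_pow_right (by norm_num) (by omega))
  have h0 := runs_dec (a := (Sum.inl R.V2 : Loc J)) (t := Sum.inl R.S1) (by simp)
    (S := S) (v := r + 1) (by omega) hrS (effs kerL s)
    (by simp [kerL, effs, Cmd.eff, hU1, hV2]) (by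
      simp [kerL, effs, Cmd.eff, hS1'])
  have hAr : Ar s1 S (r + 1) := hAr0.put (by decide) _
  rw [← hP] at hAr hwP hPp hS4'
  have e4 : s1 (Sum.inl R.S4) = una (2 * r - 1) := by
    simp [hs1, kerL, effs, Cmd.eff, hRR, hS4, tail_una]
    congr 1; omega
  have e5 : s1 (Sum.inl R.S5) = [] := by simp [hs1, kerL, effs, Cmd.eff, hS5]
  have eT : s1 (Sum.inl R.T) = [] := by simp [hs1, kerL, effs, Cmd.eff, hT]
  have eO : s1 (Sum.inl R.OUT) = [] := by simp [hs1, kerL, effs, Cmd.eff, hOUT]
  have eA : s1 (Sum.inl R.AL) = tny S w := by simp [hs1, kerL, effs, Cmd.eff, hAL]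
  have e2 : s1 (Sum.inl R.V2) = tny S (r + 1 - 1) := by simp [hs1]
  have e3 : s1 (Sum.inl R.V3) = tny S w := by
    simp [hs1, kerL, effs, Cmd.eff, hV3, hAL]
  have h1 := cmds_spec kerL s hok
  set F : ℕ → St J E := fun k => ((s1.set R.OUT
    (bits (cat k fun j => bitsOf S (ker P w j))).reverse).set R.V2 (tny S (ker P w k))).set
      R.V3 (tny S (w ^ (k + 1) % P)) with hF
  have h2 := Runs.forr' (u := (Sum.inl R.S4 : Loc J)) (t := Sum.inl R.S5) (by simp)
    (body := kerBody mul) (2 * r - 1) (mk : SSym E) F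
    (fun _ => 6 * S + 3 + 2 * (C * (S + T S)))
    (fun k _ => by
      simp only [hF]
      simpa [una] using e4)
    (fun k _ => by
      simp only [hF]
      simpa using e5)
    (by
      intro k hk l l'
      have hb := runs_kerBody hmul (S := S) (P := P) (h := ker P w k) (g := w ^ (k + 1) % P)
        (w := w) hPp hS4' (Nat.mod_lt _ hPp.pos) (Nat.mod_lt _ hPp.pos) hwP
        (Function.update (Function.update (F k) (Sum.inl R.S4) l) (Sum.inl R.S5) l')
        ((((((hAr.put (a := R.OUT) (by decide) _).put (a := R.V2) (by decide) _).put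
          (a := R.V3) (by decide) _).put (a := R.S4) (by decide) _).put (a := R.S5)
          (by decide) _))
        (by simpa [hF] using eT) (by simp [hF]) (by simp [hF])
        (by simpa [hF] using eA)
      refine hb.of_eq ?_
      have p1 : w ^ (k + 1) % P * w % P = w ^ (k + 1 + 1) % P := by
        rw [Nat.mod_mul_mod, pow_succ (n := k + 1)]
      rw [ker_succ, p1]
      simp only [hF, cat_succ (n := k), bits_append'', List.reverse_append]
      funext i
      simp only [Function.update_apply, St.at, tny]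
      clear hb h1 h0 hAr hAr0 hok
      split_ifs <;> simp_all)
  have eF : F 0 = s1 := by
    have p0 : ker P w 0 = r + 1 - 1 := by
      unfold ker
      rw [hP]
      simp
    simp only [hF, p0]
    rw [show (w ^ (0 + 1) % P) = w by simp [Nat.mod_eq_of_lt hwP]]
    funext i
    simp only [Function.update_apply]
    split_ifs with q1 q2 q3
    · rw [q1, e3]
    · rw [q2, e2]
    · rw [q3, eO]; simp [bits]
    · rfl
  rw [eF] at h2
  set W : List (SSym E) := bits (cat (2 * r - 1) fun j => bitsOf S (ker P w j)) with hW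
  have h3 := cmds_spec kerL' (F (2 * r - 1)) (by simp [kerL', oks, Cmd.ok])
  have hWl : W.length = (2 * r - 1) * S := by
    rw [hW, length_bits, length_cat_of (L := S)]
    intro j _; simp
  have hfin : effs kerL' (F (2 * r - 1)) = s.set R.KER W := by
    funext i
    rcases i with q | j
    · by_cases hc : q ∈ [R.V2, R.V3, R.S4, R.OUT, R.KER]
      · simp only [List.mem_cons, List.not_mem_nil, or_false] at hc
        rcases hc with rfl | rfl | rfl | rfl | rfl
        · simp [effs, kerL', Cmd.eff, hV2]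
        · simp [effs, kerL', Cmd.eff, hV3]
        · simp [effs, kerL', Cmd.eff, hS4]
        · simp [effs, kerL', Cmd.eff, hOUT]
        · simp [effs, kerL', Cmd.eff, hF, hs1, kerL, hK, hW]
      · simp only [List.mem_cons, List.not_mem_nil, or_false, not_or] at hc
        obtain ⟨c1, c2, c3, c4, c5⟩ := hc
        rw [effs_frame _ _ _ (by simp [kerL', tg, c1, c2, c3, c4, c5])]
        have t1 : (F (2 * r - 1)) (Sum.inl q) = (effs kerL s) (Sum.inl q) := by
          simp [hF, hs1, c1, c2, c4]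
        have t2 : (effs kerL s) (Sum.inl q) = s (Sum.inl q) :=
          effs_frame _ _ _ (by simp [kerL, tg, c1, c2, c3])
        have t3 : (s.set R.KER W) (Sum.inl q) = s (Sum.inl q) := by simp [c5]
        rw [t1, t2, t3]
    · rw [effs_inr]
      have t1 : (F (2 * r - 1)) (Sum.inr j) = (effs kerL s) (Sum.inr j) := by
        simp [hF, hs1]
      have t3 : (s.set R.KER W) (Sum.inr j) = s (Sum.inr j) := by simp
      rw [t1, effs_inr, t3]
  rw [hfin] at h3
  have c1 : costs kerL s ≤ 20 * S + 20 * r + 20 := by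
    simp [kerL, costs, Cmd.cost, Cmd.eff, hRR, hAL, hU1, ps_length_tny]
    omega
  have c3 : costs kerL' (F (2 * r - 1)) ≤ 3 * ((2 * r - 1) * S) + 6 * S + 6 * r + 10 := by
    have : (W.reverse).length = (2 * r - 1) * S := by rw [List.length_reverse, hWl]
    simp [kerL', costs, Cmd.cost, Cmd.eff, hF, ps_length_tny, e4, ← hW, hWl]
    omega
  rw [← hP]
  refine (((h1.seq h0).seq (h2.seq h3)).mono ?_)
  clear_value F
  generalize costs kerL' (F (2 * r - 1)) = K3 at c3 ⊢
  generalize costs kerL s = K1 at c1 ⊢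
  simp only [Finset.sum_const, Finset.card_range, smul_eq_mul]
  obtain ⟨Q, hQ⟩ : ∃ Q, Q = S + T S := ⟨_, rfl⟩
  have d0 : S ≤ Q := by omega
  rw [← hQ]
  obtain ⟨u, rfl⟩ : ∃ u, r = u + 1 := ⟨r - 1, by omega⟩
  have eu : 2 * (u + 1) - 1 = 2 * u + 1 := by omega
  have e1 : (2 * (u + 1) - 1) * (6 * S + 3 + 2 * (C * Q) + 4) =
    12 * (u * S) + 6 * S + 14 * u + 7 + 4 * (u * (C * Q)) + 2 * (C * Q) := by
    rw [eu]; ring
  have e2 : (2 * (u + 1) - 1) * S = 2 * (u * S) + S := by rw [eu]; ring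
  have e3 : (4 * C + 200) * ((u + 1) * Q) = 4 * (u * (C * Q)) + 4 * (C * Q) + 200 * (u * Q) +
    200 * Q := by ring
  rw [e1, e3]
  rw [e2] at c3
  have d1 : u * S ≤ u * Q := Nat.mul_le_mul_left _ d0
  have d2 : u ≤ u * Q := Nat.le_mul_of_pos_right _ (by omega)
  omega

end Vale.Agent.P338.S2
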