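import Vale.Agent.P338.S2Iface
import Vale.Agent.P338.Nums
import Vale.Agent.P338.Lib
import Vale.Agent.P338.Frame
import Vale.Agent.P338.Cmd

/-!
# P338, second reduction: rotations of the rows
-/

namespace Vale.Agent.P338.S2

/-! ### Moving a given number of symbols -/

section

variable {ι Γ : Type} [DecidableEq ι]

/-- Move as many symbols from `i` to `j` as there are symbols on `u`. -/
def movn (u t i j : ι) : Prog ι Γ := Prog.forr u t (Prog.mov i j)

theorem movn_runs {u t i j : ι} (hut : u ≠ t) (hui : u ≠ i) (huj : u ≠ j) (hti : t ≠ i)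
    (htj : t ≠ j) (hij : i ≠ j) (a : Γ) (s : Store ι Γ) (l₁ l₂ : List Γ)
    (hu : s u = List.replicate l₁.length a) (ht : s t = []) (hi : s i = l₁ ++ l₂) :
    Runs (movn u t i j) s
      (Function.update (Function.update s i l₂) j (l₁.reverse ++ s j)) (8 * l₁.length + 1) := by
  have h := Runs.forr' hut (body := Prog.mov i j) l₁.length a
    (fun k => Function.update (Function.update s i (l₁.drop k ++ l₂)) j
      ((l₁.take k).reverse ++ s j)) (fun _ => 1)
    (fun k _ => by rw [Function.update_of_ne huj, Function.update_of_ne hui, hu])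
    (fun k _ => by rw [Function.update_of_ne htj, Function.update_of_ne hti, ht])
    (by
      intro k hk l l'
      have e1 : l₁.drop k = l₁[k] :: l₁.drop (k + 1) := (List.drop_eq_getElem_cons hk)
      have e2 : (l₁.take (k + 1)).reverse = l₁[k] :: (l₁.take k).reverse := by
        rw [List.take_add_one, List.getElem?_eq_getElem hk]; simp
      have h1 := Runs.mov (Γ := Γ) hij (Function.update (Function.update (Function.update
        (Function.update s i (l₁.drop k ++ l₂)) j ((l₁.take k).reverse ++ s j)) u l) t l')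
        (a := l₁[k]) (l := l₁.drop (k + 1) ++ l₂) (by
          rw [Function.update_of_ne hti.symm, Function.update_of_ne hui.symm,
            Function.update_of_ne hij, Function.update_self, e1, List.cons_append])
      refine h1.of_eq ?_
      rw [e2]
      funext m
      simp only [Function.update_apply]
      split_ifs <;> simp_all)
  simp only [Finset.sum_const, Finset.card_range, smul_eq_mul] at h
  have e : (Function.update (Function.update s i (l₁.drop 0 ++ l₂)) j
      ((l₁.take 0).reverse ++ s j)) = s := by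
    funext m
    simp only [Function.update_apply]
    split_ifs <;> simp_all
  rw [e] at h
  refine (h.mono (by omega)).of_eq ?_
  simp

end

/-- The stacks used by the rotation. -/
inductive RQ : Type
  | x | t | s | o | a | b | c2 | u | u2 | hh | h2 | rr | r2 | gg | g2
deriving DecidableEq

variable {Γ : Type}

/-- Replace four of the stacks. -/
def upd (s : Store RQ Γ) (x o a b : List Γ) : Store RQ Γ := fun k =>
  match k with
  | .x => x
  | .o => o
  | .a => a
  | .b => b
  | k => s k

/-- One row: the first part (counted by `p`) goes to the end. -/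
def rowP (pa : Bool) : Prog RQ Γ :=
  (movn (cond pa RQ.a RQ.b) RQ.c2 RQ.x RQ.t).seq ((movn (cond pa RQ.b RQ.a) RQ.c2 RQ.x RQ.o).seq
    ((Prog.rev RQ.t RQ.s).seq (Prog.rev RQ.s RQ.o)))

theorem rowP_runs (pa : Bool) (c : Γ) (s : Store RQ Γ) (l₁ l₂ l₃ : List Γ)
    (h1 : s (cond pa RQ.a RQ.b) = List.replicate l₁.length c)
    (h2 : s (cond pa RQ.b RQ.a) = List.replicate l₂.length c)
    (hx : s RQ.x = l₁ ++ l₂ ++ l₃) (hc2 : s RQ.c2 = []) (ht : s RQ.t = []) (hs : s RQ.s = []) :
    Runs (rowP pa) s (upd s l₃ ((l₂ ++ l₁).reverse ++ s RQ.o) (s RQ.a) (s RQ.b))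
      (14 * (l₁.length + l₂.length) + 5) := by
  have e1 := movn_runs (u := cond pa RQ.a RQ.b) (t := RQ.c2) (i := RQ.x) (j := RQ.t)
    (by cases pa <;> decide) (by cases pa <;> decide)
    (by cases pa <;> decide) (by decide) (by decide) (by decide) c s l₁
    (l₂ ++ l₃) h1 hc2 (by rw [hx, List.append_assoc])
  have e2 := movn_runs (u := cond pa RQ.b RQ.a) (t := RQ.c2) (i := RQ.x) (j := RQ.o)
    (by cases pa <;> decide) (by cases pa <;> decide)
    (by cases pa <;> decide) (by decide) (by decide) (by decide) c
    (Function.update (Function.update s RQ.x (l₂ ++ l₃)) RQ.t (l₁.reverse ++ s RQ.t)) l₂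
    l₃ (by
      rw [Function.update_of_ne (by cases pa <;> decide),
        Function.update_of_ne (by cases pa <;> decide), h2])
    (by rw [Function.update_of_ne (by decide), Function.update_of_ne (by decide), hc2])
    (by rw [Function.update_of_ne (by decide), Function.update_self])
  have e3 := Runs.rev (i := RQ.t) (j := RQ.s) (by decide)
    (Function.update (Function.update (Function.update (Function.update s RQ.x (l₂ ++ l₃)) RQ.t
      (l₁.reverse ++ s RQ.t)) RQ.x l₃) RQ.o (l₂.reverse ++ (Function.update
      (Function.update s RQ.x (l₂ ++ l₃)) RQ.t (l₁.reverse ++ s RQ.t)) RQ.o))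
  refine ((e1.seq (e2.seq (e3.seq (Runs.rev (i := RQ.s) (j := RQ.o) (by decide) _)))).mono
    ?_).of_eq ?_
  · simp [ht, hs]
    omega
  · funext m
    cases m <;> simp [upd, Function.update_apply, ht, hs]

/-- The rows of one digit `i`. -/
def yP (pa : Bool) : Prog RQ Γ := Prog.forr RQ.gg RQ.g2 (rowP pa)

theorem yP_runs (pa : Bool) (c : Γ) (s : Store RQ Γ) (Y A B : ℕ) (f : ℕ → List Γ)
    (rest : List Γ) (hf : ∀ y < Y, (f y).length = A + B)
    (h1 : s (cond pa RQ.a RQ.b) = List.replicate A c)
    (h2 : s (cond pa RQ.b RQ.a) = List.replicate B c)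
    (hx : s RQ.x = cat Y f ++ rest) (hc2 : s RQ.c2 = []) (ht : s RQ.t = []) (hs : s RQ.s = [])
    (hg : s RQ.gg = List.replicate Y c) (hg2 : s RQ.g2 = []) :
    Runs (yP pa) s (upd s rest ((cat Y fun y => rot A (f y)).reverse ++ s RQ.o) (s RQ.a)
      (s RQ.b)) (Y * (14 * (A + B) + 12) + 1) := by
  have h := Runs.forr' (u := RQ.gg) (t := RQ.g2) (by decide) (body := rowP pa) Y c
    (fun k => upd s (cat (Y - k) (fun y => f (k + y)) ++ rest)
      ((cat k fun y => rot A (f y)).reverse ++ s RQ.o) (s RQ.a) (s RQ.b))
    (fun _ => 14 * (A + B) + 5)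
    (fun k _ => by simp only [upd]; exact hg) (fun k _ => by simp only [upd]; exact hg2)
    (by
      intro k hk l l'
      obtain ⟨m, hm⟩ : ∃ m, Y - k = m + 1 := ⟨Y - k - 1, by omega⟩
      have hm' : Y - (k + 1) = m := by omega
      have hl : (f k).length = A + B := hf k hk
      have h3 := rowP_runs pa c (Function.update (Function.update
        (upd s (cat (Y - k) (fun y => f (k + y)) ++ rest)
        ((cat k fun y => rot A (f y)).reverse ++ s RQ.o) (s RQ.a) (s RQ.b)) RQ.gg l) RQ.g2 l')
        ((f k).take A) ((f k).drop A) (cat m (fun y => f (k + 1 + y)) ++ rest)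
        (by
          have : ((f k).take A).length = A := by simp [hl]
          rw [this, ← h1]
          cases pa <;> simp [upd, Function.update_apply])
        (by
          have : ((f k).drop A).length = B := by simp [hl]
          rw [this, ← h2]
          cases pa <;> simp [upd, Function.update_apply])
        (by
          rw [List.take_append_drop, hm, cat_succ']
          simp only [Function.update_apply, upd]
          simp [Nat.add_assoc, Nat.add_comm 1])
        (by simp [upd, hc2])
        (by simp [upd, ht])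
        (by simp [upd, hs])
      refine (h3.mono ?_).of_eq ?_
      · simp [hl]
      · funext q
        cases q <;> simp [upd, Function.update_apply, hm', cat_succ, rot])
  simp only [Finset.sum_const, Finset.card_range, smul_eq_mul] at h
  have e0 : upd s (cat (Y - 0) (fun y => f (0 + y)) ++ rest)
      ((cat 0 fun y => rot A (f y)).reverse ++ s RQ.o) (s RQ.a) (s RQ.b) = s := by
    funext q
    cases q <;> simp [upd, hx]
  rw [e0] at h
  refine (h.mono ?_).of_eq ?_
  · nlinarith
  · simp

/-- The rows of one block. -/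
def iP (pa : Bool) : Prog RQ Γ :=
  Prog.forr RQ.rr RQ.r2 ((yP pa).seq (movn RQ.u RQ.u2 RQ.b RQ.a))

/-- The amount of the rotation of row `i`. -/
def amt (pa : Bool) (n r i : ℕ) : ℕ := if pa then i * n else (r - i) * n

theorem iP_runs (pa : Bool) (c : Γ) (s : Store RQ Γ) (r Y n : ℕ) (f : ℕ → ℕ → List Γ)
    (rest : List Γ) (hf : ∀ i < r, ∀ y < Y, (f i y).length = r * n)
    (ha : s RQ.a = []) (hb : s RQ.b = List.replicate (r * n) c)
    (hu : s RQ.u = List.replicate n c) (hu2 : s RQ.u2 = [])
    (hx : s RQ.x = (cat r fun i => cat Y (f i)) ++ rest) (hc2 : s RQ.c2 = [])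
    (ht : s RQ.t = []) (hs : s RQ.s = [])
    (hg : s RQ.gg = List.replicate Y c) (hg2 : s RQ.g2 = [])
    (hr : s RQ.rr = List.replicate r c) (hr2 : s RQ.r2 = []) :
    Runs (iP pa) s (upd s rest ((cat r fun i => cat Y fun y => rot (amt pa n r i) (f i y)).reverse
      ++ s RQ.o) (List.replicate (r * n) c) []) (r * (Y * (14 * (r * n) + 12) + 8 * n + 10) + 1) := by
  have h := Runs.forr' (u := RQ.rr) (t := RQ.r2) (by decide)
    (body := (yP pa).seq (movn RQ.u RQ.u2 RQ.b RQ.a)) r c
    (fun k => upd s ((cat (r - k) fun i => cat Y (f (k + i))) ++ rest)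
      ((cat k fun i => cat Y fun y => rot (amt pa n r i) (f i y)).reverse ++ s RQ.o)
      (List.replicate (k * n) c) (List.replicate ((r - k) * n) c))
    (fun _ => Y * (14 * (r * n) + 12) + 8 * n + 3)
    (fun k _ => by simp only [upd]; exact hr) (fun k _ => by simp only [upd]; exact hr2)
    (by
      intro k hk l l'
      obtain ⟨m, hm⟩ : ∃ m, r - k = m + 1 := ⟨r - k - 1, by omega⟩
      have hm' : r - (k + 1) = m := by omega
      have hrk : k * n + (m + 1) * n = r * n := by rw [← add_mul]; congr 1; omega
      set s0 : Store RQ Γ := Function.update (Function.update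
        (upd s ((cat (r - k) fun i => cat Y (f (k + i))) ++ rest)
        ((cat k fun i => cat Y fun y => rot (amt pa n r i) (f i y)).reverse ++ s RQ.o)
        (List.replicate (k * n) c) (List.replicate ((r - k) * n) c)) RQ.rr l) RQ.r2 l' with hs0
      have h3 : Runs (yP pa) s0 (upd s0 ((cat m fun i => cat Y (f (k + 1 + i))) ++ rest)
          ((cat Y fun y => rot (amt pa n r k) (f k y)).reverse ++ s0 RQ.o) (s0 RQ.a) (s0 RQ.b))
          (Y * (14 * (r * n) + 12) + 1) := by
        have hl : ∀ y < Y, (f k y).length = r * n := hf k hk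
        cases pa with
        | false =>
          have h4 := yP_runs false c s0 Y ((m + 1) * n) (k * n) (f k)
            ((cat m fun i => cat Y (f (k + 1 + i))) ++ rest)
            (fun y hy => by rw [hl y hy]; omega)
            (by simp [hs0, upd, hm]) (by simp [hs0, upd])
            (by
              simp only [hs0, upd, Function.update_apply]
              rw [hm, cat_succ']
              simp [Nat.add_assoc, Nat.add_comm 1])
            (by simp [hs0, upd, hc2]) (by simp [hs0, upd, ht]) (by simp [hs0, upd, hs])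
            (by simp [hs0, upd, hg]) (by simp [hs0, upd, hg2])
          have e : (m + 1) * n + k * n = r * n := by omega
          rw [e] at h4
          simpa [amt, hm] using h4
        | true =>
          have h4 := yP_runs true c s0 Y (k * n) ((m + 1) * n) (f k)
            ((cat m fun i => cat Y (f (k + 1 + i))) ++ rest)
            (fun y hy => by rw [hl y hy]; omega)
            (by simp [hs0, upd]) (by simp [hs0, upd, hm])
            (by
              simp only [hs0, upd, Function.update_apply]
              rw [hm, cat_succ']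
              simp [Nat.add_assoc, Nat.add_comm 1])
            (by simp [hs0, upd, hc2]) (by simp [hs0, upd, ht]) (by simp [hs0, upd, hs])
            (by simp [hs0, upd, hg]) (by simp [hs0, upd, hg2])
          rw [hrk] at h4
          simpa [amt] using h4
      have h5 := movn_runs (u := RQ.u) (t := RQ.u2) (i := RQ.b) (j := RQ.a) (by decide)
        (by decide) (by decide) (by decide) (by decide) (by decide) c
        (upd s0 ((cat m fun i => cat Y (f (k + 1 + i))) ++ rest)
          ((cat Y fun y => rot (amt pa n r k) (f k y)).reverse ++ s0 RQ.o) (s0 RQ.a) (s0 RQ.b))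
        (List.replicate n c) (List.replicate (m * n) c)
        (by simp [hs0, upd, hu]) (by simp [hs0, upd, hu2])
        (by
          simp only [hs0, upd, Function.update_apply]
          simp [hm, add_mul, add_comm])
      refine ((h3.seq h5).mono ?_).of_eq ?_
      · simp; omega
      · funext q
        cases q <;> simp [upd, hs0, Function.update_apply, hm', cat_succ, add_mul, add_comm])
  simp only [Finset.sum_const, Finset.card_range, smul_eq_mul] at h
  have e0 : upd s ((cat (r - 0) fun i => cat Y (f (0 + i))) ++ rest)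
      ((cat 0 fun i => cat Y fun y => rot (amt pa n r i) (f i y)).reverse ++ s RQ.o)
      (List.replicate (0 * n) c) (List.replicate ((r - 0) * n) c) = s := by
    funext q
    cases q <;> simp [upd, hx, ha, hb]
  rw [e0] at h
  refine (h.mono ?_).of_eq ?_
  · nlinarith
  · simp

/-- All blocks. -/
def xP (pa : Bool) : Prog RQ Γ :=
  Prog.forr RQ.hh RQ.h2 ((iP pa).seq (Prog.rev RQ.a RQ.b))

theorem xP_runs (pa : Bool) (c : Γ) (s : Store RQ Γ) (X r Y n : ℕ)
    (f : ℕ → ℕ → ℕ → List Γ) (hf : ∀ x < X, ∀ i < r, ∀ y < Y, (f x i y).length = r * n)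
    (ha : s RQ.a = []) (hb : s RQ.b = List.replicate (r * n) c)
    (hu : s RQ.u = List.replicate n c) (hu2 : s RQ.u2 = [])
    (hx : s RQ.x = (cat X fun x => cat r fun i => cat Y (f x i))) (hc2 : s RQ.c2 = [])
    (ht : s RQ.t = []) (hs : s RQ.s = [])
    (hg : s RQ.gg = List.replicate Y c) (hg2 : s RQ.g2 = [])
    (hr : s RQ.rr = List.replicate r c) (hr2 : s RQ.r2 = [])
    (hh : s RQ.hh = List.replicate X c) (hh2 : s RQ.h2 = []) :
    Runs (xP pa) s (upd s [] ((cat X fun x => cat r fun i => cat Y fun y =>
      rot (amt pa n r i) (f x i y)).reverse ++ s RQ.o) [] (List.replicate (r * n) c))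
      (X * (r * (Y * (14 * (r * n) + 12) + 8 * n + 10) + 3 * (r * n) + 9) + 1) := by
  have h := Runs.forr' (u := RQ.hh) (t := RQ.h2) (by decide)
    (body := (iP pa).seq (Prog.rev RQ.a RQ.b)) X c
    (fun k => upd s (cat (X - k) fun x => cat r fun i => cat Y (f (k + x) i))
      ((cat k fun x => cat r fun i => cat Y fun y => rot (amt pa n r i) (f x i y)).reverse
        ++ s RQ.o) [] (List.replicate (r * n) c))
    (fun _ => r * (Y * (14 * (r * n) + 12) + 8 * n + 10) + 3 * (r * n) + 2)
    (fun k _ => by simp only [upd]; exact hh) (fun k _ => by simp only [upd]; exact hh2)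
    (by
      intro k hk l l'
      obtain ⟨m, hm⟩ : ∃ m, X - k = m + 1 := ⟨X - k - 1, by omega⟩
      have hm' : X - (k + 1) = m := by omega
      set s0 : Store RQ Γ := Function.update (Function.update
        (upd s (cat (X - k) fun x => cat r fun i => cat Y (f (k + x) i))
        ((cat k fun x => cat r fun i => cat Y fun y => rot (amt pa n r i) (f x i y)).reverse
        ++ s RQ.o) [] (List.replicate (r * n) c)) RQ.hh l) RQ.h2 l' with hs0
      have h4 := iP_runs pa c s0 r Y n (f k)
        (cat m fun x => cat r fun i => cat Y (f (k + 1 + x) i)) (fun i hi y hy => hf k hk i hi y hy)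
        (by simp [hs0, upd]) (by simp [hs0, upd]) (by simp [hs0, upd, hu])
        (by simp [hs0, upd, hu2])
        (by
          simp only [hs0, upd, Function.update_apply]
          rw [hm, cat_succ']
          simp [Nat.add_assoc, Nat.add_comm 1])
        (by simp [hs0, upd, hc2]) (by simp [hs0, upd, ht]) (by simp [hs0, upd, hs])
        (by simp [hs0, upd, hg]) (by simp [hs0, upd, hg2])
        (by simp [hs0, upd, hr]) (by simp [hs0, upd, hr2])
      refine ((h4.seq (Runs.rev (i := RQ.a) (j := RQ.b) (by decide) _)).mono ?_).of_eq ?_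
      · simp [upd]; omega
      · funext q
        cases q <;> simp [upd, hs0, Function.update_apply, hm', cat_succ])
  simp only [Finset.sum_const, Finset.card_range, smul_eq_mul] at h
  have e0 : upd s (cat (X - 0) fun x => cat r fun i => cat Y (f (0 + x) i))
      ((cat 0 fun x => cat r fun i => cat Y fun y => rot (amt pa n r i) (f x i y)).reverse
        ++ s RQ.o) [] (List.replicate (r * n) c) = s := by
    funext q
    cases q <;> simp [upd, hx, ha, hb]
  rw [e0] at h
  refine (h.mono ?_).of_eq ?_
  · nlinarith
  · simp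

/-! ### The programs -/

variable {J E : Type}

/-- The names of the stacks. -/
def RQ.toR : RQ → R
  | .x => R.X
  | .t => R.T
  | .s => R.S
  | .o => R.OUT
  | .a => R.S3
  | .b => R.S4
  | .c2 => R.S5
  | .u => R.S6
  | .u2 => R.S7
  | .hh => R.HH
  | .h2 => R.S8
  | .rr => R.RR
  | .r2 => R.S9
  | .gg => R.GG
  | .g2 => R.S10

theorem RQ.toR_injective : Function.Injective RQ.toR := by
  intro q q' h
  cases q <;> cases q' <;> first | rfl | exact absurd h (by decide)

/-- The names of the stacks. -/
def RQ.loc (q : RQ) : Loc J := Sum.inl q.toR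

theorem RQ.loc_injective : Function.Injective (RQ.loc : RQ → Loc J) :=
  fun _ _ h => RQ.toR_injective (Sum.inl_injective h)

variable [DecidableEq J]

/-- The rotation of all rows. -/
noncomputable def rotP (pa : Bool) : Pr J E :=
  (cmds [.rep R.DD R.TM R.S6, .rep R.RR R.S6 R.S4]).seq
    (((xP pa).map RQ.loc).seq (cmds [.clr R.S4, .clr R.S6, .rev R.OUT R.X]))

theorem rot_bits (k : ℕ) (l : List Bool) :
    rot k (bits l : List (SSym E)) = bits (rot k l) := by
  simp [rot, bits]

theorem bits_cat (n : ℕ) (f : ℕ → List Bool) :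
    (bits (cat n f) : List (SSym E)) = cat n fun i => bits (f i) := by
  unfold bits; exact map_cat _ _ _

theorem rotP_runs (pa : Bool) (X r Y Z t S m w w' : ℕ) (e : ℕ → ℕ → ℕ → ℕ → ℕ → ℕ)
    (s : St J E) (hn : Num X r Y Z t S m w w') (he : Env s X r Y Z t S m w w')
    (hx : s.at R.X = bits (dat X r Y r Z t e)) :
    Runs (rotP pa) s (s.set R.X (bits (dat X r Y r Z t fun x i y j z =>
      e x i y ((j + (if pa then i else r - i)) % r) z))) (120 * (X * r * Y * r * Z * t)) := by
  have emp : ∀ q ∈ pScratch, s (Sum.inl q) = [] := he.emp2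
  have hS1 : s (Sum.inl R.S1) = [] := emp _ (by decide)
  have hS2 : s (Sum.inl R.S2) = [] := emp _ (by decide)
  have hS3 : s (Sum.inl R.S3) = [] := emp _ (by decide)
  have hS4 : s (Sum.inl R.S4) = [] := emp _ (by decide)
  have hS5 : s (Sum.inl R.S5) = [] := emp _ (by decide)
  have hS6 : s (Sum.inl R.S6) = [] := emp _ (by decide)
  have hS7 : s (Sum.inl R.S7) = [] := emp _ (by decide)
  have hS8 : s (Sum.inl R.S8) = [] := emp _ (by decide)
  have hS9 : s (Sum.inl R.S9) = [] := emp _ (by decide)
  have hS10 : s (Sum.inl R.S10) = [] := emp _ (by decide)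
  have hT : s (Sum.inl R.T) = [] := emp _ (by decide)
  have hS : s (Sum.inl R.S) = [] := emp _ (by decide)
  have hOUT : s (Sum.inl R.OUT) = [] := emp _ (by decide)
  have hHH : s (Sum.inl R.HH) = una X := he.hh
  have hRR : s (Sum.inl R.RR) = una r := he.rr
  have hGG : s (Sum.inl R.GG) = una Y := he.gg
  have hDD : s (Sum.inl R.DD) = una Z := he.dd
  have hTM : s (Sum.inl R.TM) = una t := he.tm
  replace hx : s (Sum.inl R.X) = bits (dat X r Y r Z t e) := hx
  have h1 := cmds_spec (J := J) (E := E) [.rep R.DD R.TM R.S6, .rep R.RR R.S6 R.S4] s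
    ⟨⟨by decide, by decide, by decide, by decide, by decide, by decide, by decide, by decide,
      by decide, hS1, hS2, ⟨Z, hDD⟩⟩,
      ⟨by decide, by decide, by decide, by decide, by decide, by decide, by decide, by decide,
      by decide, by simp [Cmd.eff, hS1], by simp [Cmd.eff, hS2], ⟨r, by simp [Cmd.eff, hRR]⟩⟩,
      trivial⟩
  set s1 : St J E := (s.set R.S6 (una (Z * t))).set R.S4 (una (r * (Z * t))) with hs1
  have e1 : effs ([.rep R.DD R.TM R.S6, .rep R.RR R.S6 R.S4] : List (Cmd E)) s = s1 := by
    simp only [effs, Cmd.eff, St.at, hDD, hTM, hRR, hS6, hS4, hs1, length_una, rep_una,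
      List.append_nil, Function.update_apply]
    simp
  rw [e1] at h1
  -- the loops
  have hrow : ∀ (x i y : ℕ), (bits (cat r fun j => cat Z fun z => bitsOf t (e x i y j z)) :
      List (SSym E)).length = r * (Z * t) := by
    intro x i y
    rw [length_bits, length_cat_of (L := Z * t)]
    intro j _
    rw [length_cat_of (L := t)]
    intros; simp
  have h2 := xP_runs (Γ := SSym E) pa mk (fun q => s1 (RQ.loc q)) X r Y (Z * t)
    (fun x i y => bits (cat r fun j => cat Z fun z => bitsOf t (e x i y j z)))
    (fun x _ i _ y _ => hrow x i y)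
    (by simp [hs1, RQ.loc, RQ.toR, hS3]) (by simp [hs1, RQ.loc, RQ.toR, una])
    (by simp [hs1, RQ.loc, RQ.toR, una]) (by simp [hs1, RQ.loc, RQ.toR, hS7])
    (by simp [hs1, RQ.loc, RQ.toR, hx, dat, bits_cat]) (by simp [hs1, RQ.loc, RQ.toR, hS5])
    (by simp [hs1, RQ.loc, RQ.toR, hT]) (by simp [hs1, RQ.loc, RQ.toR, hS])
    (by simp [hs1, RQ.loc, RQ.toR, hGG, una]) (by simp [hs1, RQ.loc, RQ.toR, hS10])
    (by simp [hs1, RQ.loc, RQ.toR, hRR, una]) (by simp [hs1, RQ.loc, RQ.toR, hS9])
    (by simp [hs1, RQ.loc, RQ.toR, hHH, una]) (by simp [hs1, RQ.loc, RQ.toR, hS8])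
  have hrot : ∀ (x i y : ℕ), i < r → rot (amt pa (Z * t) r i)
      (bits (cat r fun j => cat Z fun z => bitsOf t (e x i y j z)) : List (SSym E)) =
      bits (cat r fun j => cat Z fun z =>
        bitsOf t (e x i y ((j + (if pa then i else r - i)) % r) z)) := by
    intro x i y hi
    rw [rot_bits]
    congr 1
    have hl : ∀ j < r, (cat Z fun z => bitsOf t (e x i y j z)).length = Z * t := by
      intro j _
      rw [length_cat_of (L := t)]
      intros; simp
    cases pa with
    | false => exact rot_cat hl (Nat.sub_le _ _)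
    | true => exact rot_cat hl hi.le
  set out : List Bool := dat X r Y r Z t fun x i y j z =>
    e x i y ((j + (if pa then i else r - i)) % r) z with hout
  have hcat : (cat X fun x => cat r fun i => cat Y fun y => rot (amt pa (Z * t) r i)
      (bits (cat r fun j => cat Z fun z => bitsOf t (e x i y j z)) : List (SSym E))) =
      bits out := by
    rw [hout, dat, bits_cat]
    refine cat_congr fun x _ => ?_
    rw [bits_cat]
    refine cat_congr fun i hi => ?_
    rw [bits_cat]
    exact cat_congr fun y _ => hrot x i y hi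
  rw [hcat] at h2
  set s2 : St J E := ((s1.set R.X []).set R.OUT (bits out).reverse).set R.S4
    (una (r * (Z * t))) with hs2
  have h3 : Runs ((xP pa).map RQ.loc) s1 s2 _ := h2.map RQ.loc_injective (S := s1) (S' := s2)
    (fun _ => rfl)
    (by
      intro q
      cases q <;> simp [upd, hs2, hs1, RQ.loc, RQ.toR, hOUT, hS3, una])
    (by
      intro k hk
      rcases k with k | k
      · have h4 : ∀ q : RQ, q.toR ≠ k := fun q hq => hk ⟨q, by rw [RQ.loc, hq]⟩
        have h5 := h4 RQ.x
        have h6 := h4 RQ.o
        have h7 := h4 RQ.b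
        simp only [RQ.toR] at h5 h6 h7
        simp [hs2, h5.symm, h6.symm, h7.symm]
      · simp [hs2])
  have h4 := cmds_spec (J := J) (E := E) [.clr R.S4, .clr R.S6, .rev R.OUT R.X] s2
    ⟨trivial, trivial, by simp [Cmd.ok], trivial⟩
  refine ((h1.seq (h3.seq h4)).mono ?_).of_eq ?_
  · have hr1 : 1 ≤ r := by
      have := hn.prime.two_le
      omega
    have hX1 := hn.hX
    have hY1 := hn.hY
    have hZ1 := hn.hZ
    have ht1 := hn.ht
    have hN : 0 < X * r * Y * r * Z * t := by positivity
    have a1 : Z * t ≤ X * r * Y * r * Z * t := Nat.le_of_dvd hN ⟨X * r * Y * r, by ring⟩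
    have a2 : Z ≤ X * r * Y * r * Z * t := Nat.le_of_dvd hN ⟨X * r * Y * r * t, by ring⟩
    have a3 : r * (Z * t) ≤ X * r * Y * r * Z * t := Nat.le_of_dvd hN ⟨X * r * Y, by ring⟩
    have a4 : r ≤ X * r * Y * r * Z * t := Nat.le_of_dvd hN ⟨X * r * Y * Z * t, by ring⟩
    have a5 : X * r * Y ≤ X * r * Y * r * Z * t := Nat.le_of_dvd hN ⟨r * Z * t, by ring⟩
    have a6 : X * r * (Z * t) ≤ X * r * Y * r * Z * t := Nat.le_of_dvd hN ⟨Y * r, by ring⟩
    have a7 : X * r ≤ X * r * Y * r * Z * t := Nat.le_of_dvd hN ⟨Y * r * Z * t, by ring⟩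
    have a8 : X * (r * (Z * t)) ≤ X * r * Y * r * Z * t := Nat.le_of_dvd hN ⟨r * Y, by ring⟩
    have a9 : X ≤ X * r * Y * r * Z * t := Nat.le_of_dvd hN ⟨r * Y * r * Z * t, by ring⟩
    have a10 : X * r * Y * (r * (Z * t)) = X * r * Y * r * Z * t := by ring
    have hlen : out.length = X * r * Y * r * Z * t := by
      rw [hout, dat, length_cat_of (L := r * (Y * (r * (Z * t))))]
      · ring
      intro x _
      rw [length_cat_of (L := Y * (r * (Z * t)))]
      intro i _
      rw [length_cat_of (L := r * (Z * t))]
      intro y _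
      rw [length_cat_of (L := Z * t)]
      intro j _
      rw [length_cat_of (L := t)]
      intro z _
      simp
    have b1 : X * (r * (Y * (14 * (r * (Z * t)) + 12) + 8 * (Z * t) + 10) + 3 * (r * (Z * t)) + 9)
        = 14 * (X * r * Y * (r * (Z * t))) + 12 * (X * r * Y) + 8 * (X * r * (Z * t)) +
          10 * (X * r) + 3 * (X * (r * (Z * t))) + 9 * X := by ring
    simp only [costs, Cmd.cost, Cmd.eff, St.at, hDD, hTM, hRR, hs2, hs1, length_una,
      Function.update_apply, List.length_reverse, length_bits, hlen, b1]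
    simp only [hS6, List.append_nil, length_rep, length_una, Sum.inl.injEq, reduceCtorEq,
      if_false, if_true, List.length_reverse, length_bits, hlen, hRR]
    have b2 : Z * (6 * t + 8) = 6 * (Z * t) + 8 * Z := by ring
    have b3 : r * (6 * (Z * t) + 8) = 6 * (r * (Z * t)) + 8 * r := by ring
    omega
  · simp only [effs, Cmd.eff, St.at, hs2, hs1]
    funext q
    simp only [Function.update_apply]
    split_ifs <;> simp_all

theorem rotR_spec : RotRSpec (rotP false : Pr J E) 120 := by
  intro X r Y Z t S m w w' e s hn he _ hx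
  exact rotP_runs false X r Y Z t S m w w' e s hn he hx

theorem rotL_spec : RotLSpec (rotP true : Pr J E) 120 := by
  intro X r Y Z t S m w w' e s hn he _ hx
  exact rotP_runs true X r Y Z t S m w w' e s hn he hx

end Vale.Agent.P338.S2
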