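import Vale.Agent.P338.S2SearchC

/-!
# P338: the search for a prime and a primitive root: the complete program
-/

namespace Vale.Agent.P338.Srch

open Vale.Agent.P338 Vale.Agent.P338.S2

/-! ### Number theory -/

/-- The number of `1 ≤ j ≤ k` with `w ^ j % P = 1`. -/
def cntR (P w : ℕ) : ℕ → ℕ
  | 0 => 0
  | k + 1 => if w ^ (k + 1) % P = 1 then cntR P w k + 1 else cntR P w k

theorem cntR_eq_zero (P w k : ℕ) :
    cntR P w k = 0 ↔ ∀ j, 1 ≤ j → j ≤ k → w ^ j % P ≠ 1 := by
  induction k with
  | zero =>
    simp only [cntR, true_iff]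
    intro j h1 h2
    omega
  | succ k ih =>
    rw [cntR]
    split_ifs with h
    · constructor
      · intro h1; exact h1.elim
      · intro h1; exact absurd h (h1 (k + 1) (by omega) le_rfl)
    · rw [ih]
      constructor
      · intro h1 j hj1 hj2
        rcases Nat.lt_or_eq_of_le hj2 with h2 | h2
        · exact h1 j hj1 (by omega)
        · rw [h2]; exact h
      · intro h1 j hj1 hj2
        exact h1 j hj1 (by omega)

theorem cntR_le (P w k : ℕ) : cntR P w k ≤ k := by
  induction k with
  | zero => simp [cntR]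
  | succ k ih =>
    rw [cntR]
    split_ifs <;> omega

theorem pow_eq_one_iff {P w j : ℕ} (hP : 2 ≤ P) :
    (w : ZMod P) ^ j = 1 ↔ w ^ j % P = 1 := by
  have h := ZMod.natCast_eq_natCast_iff' (w ^ j) 1 P
  rw [Nat.mod_eq_of_lt (show 1 < P by omega)] at h
  rw [← h]
  push_cast
  rfl

theorem order_of_cntR {r w : ℕ} (hp : Nat.Prime (r + 1)) (h1 : 1 ≤ w) (h2 : w < r + 1)
    (h : cntR (r + 1) w (r - 1) = 0) : orderOf (w : ZMod (r + 1)) = r := by
  have : Fact (Nat.Prime (r + 1)) := ⟨hp⟩
  have hr : 1 ≤ r := by have := hp.two_le; omega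
  rw [orderOf_eq_iff (by omega)]
  constructor
  · have hw : (w : ZMod (r + 1)) ≠ 0 := by
      intro h0
      have := (ZMod.natCast_eq_zero_iff w (r + 1)).1 h0
      exact absurd (Nat.le_of_dvd (by omega) this) (by omega)
    have := ZMod.pow_card_sub_one_eq_one hw
    simpa using this
  · intro m hm hm0 hw
    rw [pow_eq_one_iff (by omega)] at hw
    exact (cntR_eq_zero _ _ _).1 h m (by omega) (by omega) hw

theorem exists_root {r : ℕ} (hp : Nat.Prime (r + 1)) :
    ∃ j, j + 1 < r + 1 ∧ cntR (r + 1) (j + 1) (r - 1) = 0 := by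
  have : Fact (Nat.Prime (r + 1)) := ⟨hp⟩
  have hr : 1 ≤ r := by have := hp.two_le; omega
  obtain ⟨g, hg⟩ := IsCyclic.exists_generator (α := (ZMod (r + 1))ˣ)
  have ho : orderOf g = r := by
    rw [orderOf_eq_card_of_forall_mem_zpowers hg, Nat.card_eq_fintype_card,
      ZMod.card_units_eq_totient, Nat.totient_prime hp]
    rfl
  obtain ⟨w, hw⟩ : ∃ w, w = (g : ZMod (r + 1)).val := ⟨_, rfl⟩
  have hwP : w < r + 1 := by rw [hw]; exact ZMod.val_lt _
  have hcast : (w : ZMod (r + 1)) = g := by rw [hw]; simp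
  have hw1 : 1 ≤ w := by
    rcases Nat.eq_zero_or_pos w with h | h
    · rw [h] at hcast
      have : (g : ZMod (r + 1)) ≠ 0 := g.ne_zero
      exact absurd hcast.symm (by simpa using this)
    · exact h
  refine ⟨w - 1, by omega, ?_⟩
  rw [show w - 1 + 1 = w by omega, cntR_eq_zero]
  intro j hj1 hj2 hj
  rw [← pow_eq_one_iff (by omega), hcast] at hj
  have h1 : g ^ j = 1 := by
    apply Units.ext
    push_cast
    exact hj
  have h2 := orderOf_dvd_of_pow_eq_one h1
  rw [ho] at h2
  exact absurd (Nat.le_of_dvd (by omega) h2) (by omega)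

/-! ### The loop rule for embedded programs -/

theorem RunsE.loop_iter_le {κ ι Γ : Type} {e : κ → ι} (he : Function.Injective e)
    {S : Store ι Γ} {c : (κ → Option Γ) → Bool} {p : Prog ι Γ} (n : ℕ)
    (st : ℕ → Store κ Γ) (T : ℕ)
    (hc : ∀ k < n, c (tops (st k)) = true) (hn : c (tops (st n)) = false)
    (hb : ∀ k < n, RunsE e S p (st k) (st (k + 1)) T) :
    RunsE e S (Prog.loop (fun tp => c fun i => tp (e i)) p) (st 0) (st n) (n * (T + 2)) := by
  refine Runs.loop_iter_le n (fun k => ovw e (st k) S) T ?_ ?_ hb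
  · intro k hk
    rw [tops_ovw he]; exact hc k hk
  · rw [tops_ovw he]; exact hn

/-! ### The embedding -/

variable {J E : Type}

/-- The names of the stacks in the big program. -/
def emb : Q → Loc J
  | .x => Sum.inl R.NN
  | .r => Sum.inl R.RR
  | .s => Sum.inl R.WW
  | .u1 => Sum.inl R.U1
  | .u2 => Sum.inl R.U2
  | .al => Sum.inl R.AL
  | .be => Sum.inl R.BE
  | .a => Sum.inl R.S3
  | .b => Sum.inl R.S4
  | .c => Sum.inl R.S5
  | .d => Sum.inl R.S6
  | .e => Sum.inl R.S7
  | .f => Sum.inl R.S8
  | .g => Sum.inl R.S9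

theorem emb_inj : Function.Injective (emb : Q → Loc J) := by
  intro a b h
  cases a <;> cases b <;> simp_all [emb]

variable [DecidableEq J]

/-- The environment holds in the embedded store. -/
theorem ar_ovw {s : St J E} (hi : s.Idle) (he : s.Empty arScratch) (v : V E) {S P : ℕ}
    (h1 : v.s = una S) (h2 : v.u1 = tny S P) (h3 : v.u2 = tny S (2 ^ S / P)) :
    Ar (ovw emb v.st s) S P where
  idle := by
    intro j
    rw [ovw_of_not _ _ (by rintro ⟨q, hq⟩; cases q <;> simp [emb] at hq)]
    exact hi j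
  emp := by
    intro r hr
    rw [ovw_of_not _ _ (by
      rintro ⟨q, hq⟩
      cases q <;> simp only [emb, Sum.inl.injEq] at hq <;> subst hq <;>
        revert hr <;> decide)]
    exact he r hr
  ww := by
    show ovw emb v.st s (emb Q.s) = _
    rw [ovw_apply emb_inj]; exact h1
  u1 := by
    show ovw emb v.st s (emb Q.u1) = _
    rw [ovw_apply emb_inj]; exact h2
  u2 := by
    show ovw emb v.st s (emb Q.u2) = _
    rw [ovw_apply emb_inj]; exact h3

theorem runs_mulE {mul : R → R → Pr J E} {T : ℕ → ℕ} {C : ℕ} (hmul : MulSpec mul T C)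
    {s : St J E} (hi : s.Idle) (he : s.Empty arScratch) (v : V E) {S P x y : ℕ}
    (hP : Nat.Prime P) (hS : 4 * Nat.size P ≤ S)
    (h1 : v.s = una S) (h2 : v.u1 = tny S P) (h3 : v.u2 = tny S (2 ^ S / P))
    (hx : x < P) (hy : y < P) (h4 : v.be = tny S x) (h5 : v.al = tny S y) :
    RunsE emb s (mul R.BE R.AL) v.st ({ v with be := tny S (x * y % P) } : V E).st
      (C * (S + T S)) := by
  have h := hmul S P x y R.BE R.AL (ovw emb v.st s) hP hS (ar_ovw hi he v h1 h2 h3)
    (by decide) (by decide) (by decide) hx hy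
    (by
      show ovw emb v.st s (emb Q.be) = _
      rw [ovw_apply emb_inj]; exact h4)
    (by
      show ovw emb v.st s (emb Q.al) = _
      rw [ovw_apply emb_inj]; exact h5)
  unfold RunsE
  refine conv h rfl ?_ le_rfl
  show Function.update (ovw emb v.st s) (emb Q.be) _ = _
  rw [← ovw_update emb_inj]
  congr 1
  funext q; cases q <;> simp [V.st]

/-! ### One candidate -/

/-- Test whether the number on `al` is a primitive root: compute its powers on `be`. -/
noncomputable def tryP (mul : R → R → Pr J E) : Pr J E :=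
  (((Prog.copyOnto Q.r Q.c Q.b).seq ((Prog.pop Q.c).seq (setOne Q.be))).map emb).seq
    (Prog.loop (fun tp => nonempty Q.c fun i => tp (emb i))
      (((Prog.pop Q.c).map emb).seq ((mul R.BE R.AL).seq (chk.map emb))))

theorem runs_tryP {mul : R → R → Pr J E} {T : ℕ → ℕ} {C : ℕ} (hmul : MulSpec mul T C)
    {s : St J E} (hi : s.Idle) (he : s.Empty arScratch) (v : V E) {S r w : ℕ}
    (hP : Nat.Prime (r + 1)) (hS : 4 * Nat.size (r + 1) ≤ S) (hr : v.r = una r)
    (h1 : v.s = una S) (h2 : v.u1 = tny S (r + 1)) (h3 : v.u2 = tny S (2 ^ S / (r + 1)))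
    (hw : w < r + 1) (h5 : v.al = tny S w) (hbe : v.be = []) (hb : v.b = [])
    (hc : v.c = []) (hf : v.f = []) (hg : v.g = []) :
    RunsE emb s (tryP mul) v.st
      ({ v with
          be := tny S (w ^ (r - 1) % (r + 1))
          f := una (cntR (r + 1) w (r - 1)) } : V E).st
      (r * (C * (S + T S) + 10 * S + 20) + 20 * S) := by
  have hr1 : 1 ≤ r := by have := hP.two_le; omega
  have hsz : 0 < Nat.size (r + 1) := Nat.size_pos.2 (by omega)
  have hS1 : 1 ≤ S := by omega
  have hPS : r + 1 < 2 ^ S := (Nat.lt_size_self (r + 1)).trans_le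
    (Nat.pow_le_pow_right (by norm_num) (by omega))
  obtain ⟨q, hq⟩ := Nat.exists_eq_add_of_le hr1
  have r1 : Runs (Prog.copyOnto Q.r Q.c Q.b) v.st ({ v with c := una r } : V E).st
      (6 * r + 1) := by
    refine conv (Runs.copyOnto (a := Q.r) (b := Q.c) (t := Q.b) (by decide) (by decide)
      (by decide) v.st hb) rfl ?_ ?_
    · funext q; cases q <;> simp [V.st, hc, hr]
    · show 6 * (v.r).length + 1 ≤ _
      rw [hr, length_una]
  have r2 : Runs (Prog.pop Q.c) ({ v with c := una r } : V E).st
      ({ v with c := una (r - 1) } : V E).st 1 :=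
    (Runs.pop Q.c _).of_eq (by
      have e1 : (una r : List (SSym E)) = mk :: una (r - 1) := by
        rw [hq, Nat.add_comm 1 q]; rfl
      rw [e1]
      funext p; cases p <;> simp [V.st])
  have r3 : Runs (setOne Q.be) ({ v with c := una (r - 1) } : V E).st
      ({ v with c := una (r - 1), be := tny S 1 } : V E).st (8 * S + 5) :=
    (runs_setOne (a := Q.be) (by decide) (by decide) _ hS1 h1 hb hbe).of_eq (by
      funext p; cases p <;> simp [V.st, tny])
  have r4 := RunsE.small emb_inj s (r1.seq (r2.seq r3))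
  have r5 := RunsE.loop_iter_le (S := s) emb_inj (c := nonempty Q.c)
    (p := ((Prog.pop Q.c).map emb).seq ((mul R.BE R.AL).seq (chk.map emb))) (r - 1)
    (fun k => ({ v with
      c := una (r - 1 - k)
      be := tny S (w ^ k % (r + 1))
      f := una (cntR (r + 1) w k) } : V E).st) (1 + 1 + (C * (S + T S) + 1 + (10 * S + 5)))
    (by
      intro k hk
      rw [nonempty_tops]
      show (!(una (r - 1 - k) : List (SSym E)).isEmpty) = true
      rw [una_isEmpty]; simp; omega)
    (by
      rw [nonempty_tops]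
      show (!(una (r - 1 - (r - 1)) : List (SSym E)).isEmpty) = false
      rw [una_isEmpty]; simp)
    (by
      intro k hk
      obtain ⟨j, hj⟩ : ∃ j, r - 1 - k = j + 1 := ⟨r - 1 - k - 1, by omega⟩
      have hj' : r - 1 - (k + 1) = j := by omega
      have s1 : Runs (Prog.pop Q.c)
          ({ v with
            c := una (r - 1 - k)
            be := tny S (w ^ k % (r + 1))
            f := una (cntR (r + 1) w k) } : V E).st
          ({ v with
            c := una (r - 1 - (k + 1))
            be := tny S (w ^ k % (r + 1))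
            f := una (cntR (r + 1) w k) } : V E).st 1 :=
        (Runs.pop Q.c _).of_eq (by
          rw [hj, hj']
          funext p; cases p <;> simp [V.st, una_succ])
      have s2 := runs_mulE hmul hi he
          ({ v with
            c := una (r - 1 - (k + 1))
            be := tny S (w ^ k % (r + 1))
            f := una (cntR (r + 1) w k) } : V E) hP hS h1 h2 h3
            (Nat.mod_lt (w ^ k) (by omega)) hw rfl h5
      have e1 : w ^ k % (r + 1) * w % (r + 1) = w ^ (k + 1) % (r + 1) := by
        rw [pow_succ, Nat.mod_mul_mod]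
      rw [e1] at s2
      have hlt : w ^ (k + 1) % (r + 1) < 2 ^ S := (Nat.mod_lt _ (by omega)).trans hPS
      have s3 := runs_chk
          ({ v with
            c := una (r - 1 - (k + 1))
            be := tny S (w ^ (k + 1) % (r + 1))
            f := una (cntR (r + 1) w k) } : V E) hS1 hlt rfl hb hg
      refine RunsE.of_eq ((RunsE.small emb_inj s s1).seq
        (s2.seq (RunsE.small emb_inj s s3))) ?_
      have e2 : (if w ^ (k + 1) % (r + 1) = 1 then mk :: una (cntR (r + 1) w k)
              else una (cntR (r + 1) w k) : List (SSym E)) =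
          una (cntR (r + 1) w (k + 1)) := by
        rw [cntR]
        split_ifs <;> rfl
      rw [e2])
  have r4' : RunsE emb s (((Prog.copyOnto Q.r Q.c Q.b).seq ((Prog.pop Q.c).seq
      (setOne Q.be))).map emb) v.st
      ({ v with
        c := una (r - 1 - 0)
        be := tny S (w ^ 0 % (r + 1))
        f := una (cntR (r + 1) w 0) } : V E).st
        (6 * r + 1 + 1 + (1 + 1 + (8 * S + 5))) := by
    refine r4.of_eq ?_
    rw [pow_zero, Nat.mod_eq_of_lt (by omega)]
    funext p; cases p <;> simp [V.st, hf, cntR, una]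
  refine RunsE.mono (RunsE.of_eq (r4'.seq r5) ?_) ?_
  · funext p; cases p <;> simp [V.st, hc, una]
  · rw [hq]
    simp only [Nat.add_sub_cancel_left]
    have : (1 + q) * (C * (S + T S) + 10 * S + 20) =
      C * (S + T S) + 10 * S + 20 + q * (C * (S + T S) + 10 * S + 20) := by ring
    rw [this]
    have h3 : q * (1 + 1 + (C * (S + T S) + 1 + (10 * S + 5)) + 2) + q * 10 =
      q * (C * (S + T S) + 10 * S + 20) := by ring
    omega

/-- The search for a primitive root. -/
noncomputable def root (mul : R → R → Pr J E) : Pr J E :=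
  ((setOne Q.al).map emb).seq ((tryP mul).seq
    (Prog.loop (fun tp => nonempty Q.f fun i => tp (emb i))
      ((((Prog.clear Q.f).seq ((Prog.clear Q.be).seq (incP Q.al Q.b))).map emb).seq
        (tryP mul))))

theorem runs_root {mul : R → R → Pr J E} {T : ℕ → ℕ} {C : ℕ} (hmul : MulSpec mul T C)
    {s : St J E} (hi : s.Idle) (he : s.Empty arScratch) (v : V E) {S r : ℕ}
    (hP : Nat.Prime (r + 1)) (hS : 4 * Nat.size (r + 1) ≤ S) (hr : v.r = una r)
    (h1 : v.s = una S) (h2 : v.u1 = tny S (r + 1)) (h3 : v.u2 = tny S (2 ^ S / (r + 1)))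
    (hal : v.al = []) (hbe : v.be = []) (hb : v.b = [])
    (hc : v.c = []) (hf : v.f = []) (hg : v.g = []) :
    ∃ w, w < r + 1 ∧ orderOf (w : ZMod (r + 1)) = r ∧
      RunsE emb s (root mul) v.st
        ({ v with al := tny S w, be := tny S (w ^ (r - 1) % (r + 1)) } : V E).st
        ((r + 1) * (r * (C * (S + T S) + 10 * S + 40) + 60 * S)) := by
  classical
  have hr1 : 1 ≤ r := by have := hP.two_le; omega
  have hsz : 0 < Nat.size (r + 1) := Nat.size_pos.2 (by omega)
  have hS1 : 1 ≤ S := by omega
  have hPS : r + 1 < 2 ^ S := (Nat.lt_size_self (r + 1)).trans_le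
    (Nat.pow_le_pow_right (by norm_num) (by omega))
  obtain ⟨g, hg1, hg2⟩ := exists_root hP
  have hex : ∃ j, cntR (r + 1) (j + 1) (r - 1) = 0 := ⟨g, hg2⟩
  obtain ⟨n, hn⟩ : ∃ n, n = Nat.find hex := ⟨_, rfl⟩
  have hn0 : cntR (r + 1) (n + 1) (r - 1) = 0 := by rw [hn]; exact Nat.find_spec hex
  have hnm : ∀ j < n, cntR (r + 1) (j + 1) (r - 1) ≠ 0 :=
    fun j hj => Nat.find_min hex (hn ▸ hj)
  have hng : n ≤ g := by rw [hn]; exact Nat.find_min' hex hg2
  refine ⟨n + 1, by omega, order_of_cntR hP (by omega) (by omega) hn0, ?_⟩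
  have r1 := RunsE.small emb_inj s (runs_setOne (E := E) (a := Q.al) (by decide) (by decide)
    v.st hS1 h1 hb hal)
  have r1' : RunsE emb s ((setOne Q.al).map emb) v.st ({ v with al := tny S 1 } : V E).st
      (8 * S + 5) :=
    r1.of_eq (by funext p; cases p <;> simp [V.st, tny])
  have r2 := runs_tryP hmul hi he ({ v with al := tny S 1 } : V E) hP hS hr h1 h2 h3
    (w := 1) (by omega) rfl hbe hb hc hf hg
  have r3 := RunsE.loop_iter_le (S := s) emb_inj (c := nonempty Q.f)
    (p := (((Prog.clear Q.f).seq ((Prog.clear Q.be).seq (incP Q.al Q.b))).map emb).seq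
        (tryP mul)) n
    (fun j => ({ v with
      al := tny S (j + 1)
      be := tny S ((j + 1) ^ (r - 1) % (r + 1))
      f := una (cntR (r + 1) (j + 1) (r - 1)) } : V E).st)
    (3 * r + 1 + (3 * S + 1 + (6 * S + 6)) + 1 +
      (r * (C * (S + T S) + 10 * S + 20) + 20 * S))
    (by
      intro j hj
      rw [nonempty_tops]
      show (!(una (cntR (r + 1) (j + 1) (r - 1)) : List (SSym E)).isEmpty) = true
      rw [una_isEmpty]
      have := hnm j hj
      simp [this])
    (by
      rw [nonempty_tops]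
      show (!(una (cntR (r + 1) (n + 1) (r - 1)) : List (SSym E)).isEmpty) = false
      rw [una_isEmpty, hn0]; simp)
    (by
      intro j hj
      have s1 := Runs.clear Q.f
        ({ v with
          al := tny S (j + 1)
          be := tny S ((j + 1) ^ (r - 1) % (r + 1))
          f := una (cntR (r + 1) (j + 1) (r - 1)) } : V E).st
      have s2 := Runs.clear Q.be
        ({ v with
          al := tny S (j + 1)
          be := tny S ((j + 1) ^ (r - 1) % (r + 1)) } : V E).st
      have s3 := runs_incP (a := Q.al) (b := Q.b) (by decide)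
        ({ v with al := tny S (j + 1) } : V E).st (S := S) (v := j + 1) (by omega) rfl hb
      have s4 := runs_tryP hmul hi he ({ v with al := tny S (j + 1 + 1) } : V E) hP hS hr
        h1 h2 h3 (w := j + 1 + 1) (by omega) rfl hbe hb hc hf hg
      have s1' : Runs (Prog.clear Q.f) ({ v with
          al := tny S (j + 1)
          be := tny S ((j + 1) ^ (r - 1) % (r + 1))
          f := una (cntR (r + 1) (j + 1) (r - 1)) } : V E).st ({ v with
          al := tny S (j + 1)
          be := tny S ((j + 1) ^ (r - 1) % (r + 1)) } : V E).st (3 * r) := by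
        refine conv s1 rfl ?_ ?_
        · funext p; cases p <;> simp [V.st, hf]
        · show 3 * (una (cntR (r + 1) (j + 1) (r - 1)) : List (SSym E)).length ≤ _
          rw [length_una]
          have := cntR_le (r + 1) (j + 1) (r - 1)
          omega
      have s2' : Runs (Prog.clear Q.be) ({ v with
          al := tny S (j + 1)
          be := tny S ((j + 1) ^ (r - 1) % (r + 1)) } : V E).st
          ({ v with al := tny S (j + 1) } : V E).st (3 * S) := by
        refine conv s2 rfl ?_ ?_
        · funext p; cases p <;> simp [V.st, hbe]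
        · show 3 * (tny S ((j + 1) ^ (r - 1) % (r + 1)) : List (SSym E)).length ≤ _
          simp [tny]
      have s3' : Runs (incP Q.al Q.b) ({ v with al := tny S (j + 1) } : V E).st
          ({ v with al := tny S (j + 1 + 1) } : V E).st (6 * S + 6) := by
        refine s3.of_eq ?_
        funext p; cases p <;> simp [V.st, tny]
      exact (RunsE.small emb_inj s (s1'.seq (s2'.seq s3'))).seq s4)
  refine RunsE.mono (RunsE.of_eq (r1'.seq (r2.seq r3)) ?_) ?_
  · rw [hn0]
    funext p; cases p <;> simp [V.st, hf, una]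
  · have hnr : n + 1 ≤ r := by omega
    obtain ⟨A, hA⟩ : ∃ A, A = r * (C * (S + T S) + 10 * S + 20) := ⟨_, rfl⟩
    have hB : r * (C * (S + T S) + 10 * S + 40) = A + 20 * r := by rw [hA]; ring
    rw [← hA, hB]
    have h4 : n * (3 * r + 1 + (3 * S + 1 + (6 * S + 6)) + 1 + (A + 20 * S) + 2) =
      n * (A + 29 * S + 3 * r + 11) := by ring
    have h5 : (n + 1) * (A + 29 * S + 3 * r + 11) ≤ r * (A + 29 * S + 3 * r + 11) :=
      Nat.mul_le_mul_right _ hnr
    have h6 : (n + 1) * (A + 29 * S + 3 * r + 11) =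
      n * (A + 29 * S + 3 * r + 11) + (A + 29 * S + 3 * r + 11) := by ring
    have h7 : (r + 1) * (A + 20 * r + 60 * S) = r * (A + 29 * S + 3 * r + 11) +
      (31 * (r * S) + 17 * (r * r) + 9 * r + A + 60 * S) := by ring
    rw [h4, h7]
    have h8 : S ≤ r * S := Nat.le_mul_of_pos_left S hr1
    omega

/-! ### The complete program -/

/-- The search. -/
noncomputable def search (mul : R → R → Pr J E) : Pr J E :=
  ((findP.seq (binP.seq divP)).map emb).seq (root mul)

theorem searchSpec {mul : R → R → Pr J E} {T : ℕ → ℕ} {C : ℕ} (hmul : MulSpec mul T C) :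
    SearchSpec (search mul) T (4 * C + 4000) := by
  intro x S s hx hS hi hs1 hs2 hs3 hN hW
  obtain ⟨v, hv⟩ : ∃ v : V E, v = ⟨una x, [], una S, [], [], [], [], [], [], [], [], [], [],
    []⟩ := ⟨_, rfl⟩
  have hv0 : ovw emb v.st s = s := by
    have : v.st = fun i => s (emb i) := by
      rw [hv]
      funext q
      cases q
      · exact hN.symm
      · exact (hs3 R.RR (by decide)).symm
      · exact hW.symm
      · exact (hs3 R.U1 (by decide)).symm
      · exact (hs3 R.U2 (by decide)).symm
      · exact (hs3 R.AL (by decide)).symm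
      · exact (hs3 R.BE (by decide)).symm
      · exact (hs2 R.S3 (by decide)).symm
      · exact (hs2 R.S4 (by decide)).symm
      · exact (hs2 R.S5 (by decide)).symm
      · exact (hs2 R.S6 (by decide)).symm
      · exact (hs2 R.S7 (by decide)).symm
      · exact (hs2 R.S8 (by decide)).symm
      · exact (hs2 R.S9 (by decide)).symm
    rw [this]
    exact ovw_self emb_inj s
  obtain ⟨r, hr1, hr2, hP, r1⟩ := runs_findP v (x := x) hx (by rw [hv]) (by rw [hv])
    (by rw [hv]) (by rw [hv]) (by rw [hv]) (by rw [hv]) (by rw [hv]) (by rw [hv])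
  have hr : 1 ≤ r := by omega
  have hsz : Nat.size (r + 1) ≤ Nat.size (2 * x) := Nat.size_le_size hr2
  have hsz1 : 0 < Nat.size (r + 1) := Nat.size_pos.2 (by omega)
  have hS' : 4 * Nat.size (r + 1) ≤ S := by omega
  have hPS : r + 1 < 2 ^ S := (Nat.lt_size_self (r + 1)).trans_le
    (Nat.pow_le_pow_right (by norm_num) (by omega))
  have r2 := runs_binP ({ v with r := una r } : V E) (r := r) (S := S) rfl (by rw [hv])
    (by rw [hv]) (by rw [hv]) (by rw [hv]) hPS
  have r3 := runs_divP ({ v with r := una r, u1 := bits (bitsOf S (r + 1)) } : V E)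
    (r := r) (S := S) hr rfl (by rw [hv]) (by rw [hv]) (by rw [hv]) (by rw [hv])
    (by rw [hv]) (by rw [hv]) (by rw [hv]) (by rw [hv])
  obtain ⟨w, hw1, hw2, r4⟩ := runs_root hmul hi hs1
    ({ v with
      r := una r
      u1 := bits (bitsOf S (r + 1))
      u2 := bits (bitsOf S (2 ^ S / (r + 1))) } : V E) (S := S) (r := r) hP hS' rfl
      (by rw [hv]) rfl rfl (by rw [hv]) (by rw [hv]) (by rw [hv]) (by rw [hv]) (by rw [hv])
      (by rw [hv])
  refine ⟨r, w, w ^ (r - 1) % (r + 1), hr1, hr2, hP, hw1, hw2, rfl, ?_⟩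
  have r5 := (RunsE.small emb_inj s (r1.seq (r2.seq r3))).seq r4
  unfold RunsE at r5
  rw [hv0] at r5
  refine conv r5 rfl ?_ ?_
  · have e : ({ v with
        r := una r
        u1 := bits (bitsOf S (r + 1))
        u2 := bits (bitsOf S (2 ^ S / (r + 1)))
        al := tny S w
        be := tny S (w ^ (r - 1) % (r + 1)) } : V E).st =
        Function.update (Function.update (Function.update (Function.update
        (Function.update v.st Q.r (una r)) Q.u1 (tny S (r + 1))) Q.u2
        (tny S (2 ^ S / (r + 1)))) Q.al (tny S w)) Q.be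
        (tny S (w ^ (r - 1) % (r + 1))) := by
      funext p; cases p <;> simp [V.st, tny]
    show ovw emb ({ v with
        r := una r
        u1 := bits (bitsOf S (r + 1))
        u2 := bits (bitsOf S (2 ^ S / (r + 1)))
        al := tny S w
        be := tny S (w ^ (r - 1) % (r + 1)) } : V E).st s = _
    rw [e, ovw_update emb_inj, ovw_update emb_inj, ovw_update emb_inj, ovw_update emb_inj,
      ovw_update emb_inj, hv0]
    rfl
  · obtain ⟨B, hB⟩ : ∃ B, B = S + T S := ⟨_, rfl⟩
    have hSB : S ≤ B := by omega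
    have hS4 : 4 ≤ S := by omega
    have h5 : (r + 1) * (S + 1) ≤ (2 * x) * (2 * S) := Nat.mul_le_mul hr2 (by omega)
    have h6 : (2 * x) * (2 * S) ≤ 4 * (x * B) := by
      calc (2 * x) * (2 * S) = 4 * (x * S) := by ring
        _ ≤ 4 * (x * B) := Nat.mul_le_mul_left _ (Nat.mul_le_mul_left _ hSB)
    have h7 : x * B ≤ x ^ 2 * B := by
      refine Nat.mul_le_mul_right _ ?_
      rw [pow_two]
      exact Nat.le_mul_of_pos_left x hx
    have h8 : r * (C * B + 10 * S + 40) + 60 * S ≤ (2 * x) * (C * B + 10 * B + 40 * B) +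
        60 * (x * B) := by
      refine Nat.add_le_add (Nat.mul_le_mul (by omega) (by omega)) ?_
      exact Nat.mul_le_mul_left _ (hSB.trans (Nat.le_mul_of_pos_left B hx))
    have h9 : (r + 1) * (r * (C * B + 10 * S + 40) + 60 * S) ≤ (2 * x) *
        ((2 * x) * (C * B + 10 * B + 40 * B) + 60 * (x * B)) := Nat.mul_le_mul hr2 h8
    have h10 : (2 * x) * ((2 * x) * (C * B + 10 * B + 40 * B) + 60 * (x * B)) =
        4 * C * (x ^ 2 * B) + 320 * (x ^ 2 * B) := by ring
    have h11 : 1 ≤ x ^ 2 * B := Nat.mul_pos (by positivity) (by omega)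
    rw [← hB]
    have h12 : (4 * C + 4000) * (x ^ 3 + x ^ 2 * B) = 4 * C * (x ^ 2 * B) +
      4000 * (x ^ 2 * B) + 4 * C * x ^ 3 + 4000 * x ^ 3 := by ring
    omega

end Vale.Agent.P338.Srch
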