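import Vale.Agent.P338.S2Iface
import Vale.Agent.P338.Chirp
import Vale.Agent.P338.Lib

/-!
# P338, second reduction: the swap of two digits, assembled from its parts
-/

namespace Vale.Agent.P338.S2

open Vale.Agent.P338

/-! ### The identity -/

/-- Rotation to the right. -/
def vRotR (r : ℕ) (e : ℕ → ℕ → ℕ → ℕ → ℕ → ℕ) (x i y j z : ℕ) : ℕ :=
  e x i y ((j + (r - i)) % r) z

/-- Rotation to the left. -/
def vRotL (r : ℕ) (e : ℕ → ℕ → ℕ → ℕ → ℕ → ℕ) (x i y j z : ℕ) : ℕ :=
  e x i y ((j + i) % r) z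

/-- First pass. -/
def vPre (r w' : ℕ) (e : ℕ → ℕ → ℕ → ℕ → ℕ → ℕ) (x i y j z : ℕ) : ℕ :=
  e x i y j z * fPre (r + 1) w' i % (r + 1)

/-- Second pass. -/
def vMid (r w w' : ℕ) (e : ℕ → ℕ → ℕ → ℕ → ℕ → ℕ) (x k y j z : ℕ) : ℕ :=
  e x k y j z % (r + 1) * fMid (r + 1) w w' k j % (r + 1)

/-- Third pass. -/
def vPost (r w' : ℕ) (e : ℕ → ℕ → ℕ → ℕ → ℕ → ℕ) (x l y j z : ℕ) : ℕ :=
  e x l y j z % (r + 1) * fPost (r + 1) w' l % (r + 1)

/-- Convolution. -/
def vConv (r : ℕ) (κ : ℕ → ℕ) (e : ℕ → ℕ → ℕ → ℕ → ℕ → ℕ) (x k y j z : ℕ) : ℕ :=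
  ∑ i ∈ Finset.range r, κ (k + (r - 1) - i) * e x i y j z

theorem choose_two_eq (n : ℕ) : (n + 1).choose 2 = n * (n + 1) / 2 := by
  rw [Nat.choose_two_right, Nat.add_sub_cancel, Nat.mul_comm]

theorem choose_two_eq' (n : ℕ) : n.choose 2 = n * (n - 1) / 2 := Nat.choose_two_right n

/-- The values after the third pass, modulo `P`. -/
theorem cast_steps {r w w' : ℕ} (hP : Nat.Prime (r + 1)) (hr : 2 ≤ r)
    (hord : orderOf (w : ZMod (r + 1)) = r) (hw' : w' = w ^ (r - 1) % (r + 1))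
    (e : ℕ → ℕ → ℕ → ℕ → ℕ → ℕ) {x l y j z : ℕ} (hl : l < r) (hj : j < r) :
    ((vPost r w' (vConv r (ker (r + 1) w) (vMid r w w' (vConv r (ker (r + 1) w)
      (vPre r w' e)))) x l y j z : ℕ) : ZMod (r + 1)) =
      ((e x ((j + (r - l)) % r) y j z : ℕ) : ZMod (r + 1)) := by
  have : Fact (Nat.Prime (r + 1)) := ⟨hP⟩
  have hPr : ((r : ℕ) : ZMod (r + 1)) = -1 := by
    have h1 : ((r + 1 : ℕ) : ZMod (r + 1)) = 0 := ZMod.natCast_self _
    push_cast at h1
    exact eq_neg_of_add_eq_zero_left h1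
  have hodd : (r + 1) % 2 = 1 := by
    rcases hP.eq_two_or_odd with h | h
    · omega
    · exact h
  obtain ⟨ρ, hρ⟩ : ∃ ρ, r = 2 * ρ := ⟨r / 2, by omega⟩
  have hww : ((w : ℕ) : ZMod (r + 1)) * ((w' : ℕ) : ZMod (r + 1)) = 1 := by
    have h1 : ((w' : ℕ) : ZMod (r + 1)) = ((w : ℕ) : ZMod (r + 1)) ^ (r - 1) := by
      rw [hw', ZMod.natCast_mod]
      push_cast
      rfl
    rw [h1, ← pow_succ', Nat.sub_add_cancel (by omega)]
    have h2 := pow_orderOf_eq_one ((w : ℕ) : ZMod (r + 1))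
    rwa [hord] at h2
  let u : (ZMod (r + 1))ˣ := ⟨((w : ℕ) : ZMod (r + 1)), ((w' : ℕ) : ZMod (r + 1)), hww, by
    rw [mul_comm, hww]⟩
  have hu : (u : ZMod (r + 1)) = ((w : ℕ) : ZMod (r + 1)) := rfl
  have hu' : ((u⁻¹ : (ZMod (r + 1))ˣ) : ZMod (r + 1)) = ((w' : ℕ) : ZMod (r + 1)) := rfl
  have huord : orderOf u = r := by rw [← orderOf_units, hu, hord]
  have huρ : u ^ ρ = -1 := by
    have h1 : u ^ ρ * u ^ ρ = 1 := by
      rw [← pow_add, ← Nat.two_mul, ← hρ]
      have h2 := pow_orderOf_eq_one u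
      rwa [huord] at h2
    have h3 : ((u ^ ρ : (ZMod (r + 1))ˣ) : ZMod (r + 1)) *
        ((u ^ ρ : (ZMod (r + 1))ˣ) : ZMod (r + 1)) = 1 := by
      rw [← Units.val_mul, h1, Units.val_one]
    rcases mul_self_eq_one_iff.1 h3 with h | h
    · exfalso
      have h4 : u ^ ρ = 1 := by
        ext
        rw [h, Units.val_one]
      have h5 := orderOf_dvd_of_pow_eq_one h4
      rw [huord] at h5
      have := Nat.le_of_dvd (by omega) h5
      omega
    · ext
      rw [h, Units.val_neg, Units.val_one]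
  -- the factors
  have h₁ : ∀ i, ((fPre (r + 1) w' i : ℕ) : ZMod (r + 1)) =
      ((u ^ (-((((i + 1).choose 2 : ℕ)) : ℤ)) : (ZMod (r + 1))ˣ) : ZMod (r + 1)) := by
    intro i
    rw [fPre, ZMod.natCast_mod, zpow_neg, zpow_natCast, ← inv_pow, Units.val_pow_eq_pow_val,
      hu', choose_two_eq]
    push_cast
    rfl
  have h₂ : ∀ k e, ((fMid (r + 1) w w' k e : ℕ) : ZMod (r + 1)) =
      ((u ^ ((k : ℤ) * e - k * k) : (ZMod (r + 1))ˣ) : ZMod (r + 1)) := by
    intro k e
    have e1 : u ^ ((k : ℤ) * e) = u ^ (k * e) := by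
      rw [← zpow_natCast]; push_cast; rfl
    have e2 : u ^ (-((k : ℤ) * k)) = u⁻¹ ^ (k * k) := by
      rw [zpow_neg, ← inv_zpow, ← zpow_natCast]; push_cast; rfl
    rw [fMid, ZMod.natCast_mod, sub_eq_add_neg, zpow_add, Units.val_mul, e1, e2,
      Units.val_pow_eq_pow_val, Units.val_pow_eq_pow_val, hu, hu']
    push_cast
    rfl
  have h₃ : ∀ l, ((fPost (r + 1) w' l : ℕ) : ZMod (r + 1)) =
      -((u ^ (-(((l.choose 2 : ℕ)) : ℤ)) : (ZMod (r + 1))ˣ) : ZMod (r + 1)) := by
    intro l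
    rw [fPost, ZMod.natCast_mod, zpow_neg, zpow_natCast, ← inv_pow, Units.val_pow_eq_pow_val,
      hu', choose_two_eq', Nat.add_sub_cancel, Nat.cast_mul, hPr]
    push_cast
    ring
  have hκ : ∀ k < r, ∀ i < r, ((ker (r + 1) w (k + (r - 1) - i) : ℕ) : ZMod (r + 1)) =
      -((u ^ (((r + k - i).choose 2 : ℕ) : ℤ) : (ZMod (r + 1))ˣ) : ZMod (r + 1)) := by
    intro k hk i hi
    have e1 : r + k - i = (k + (r - 1) - i) + 1 := by omega
    rw [ker, ZMod.natCast_mod, e1, zpow_natCast, Units.val_pow_eq_pow_val, hu, choose_two_eq,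
      Nat.add_sub_cancel, Nat.cast_mul, hPr]
    push_cast
    ring
  rw [← chirp_column hρ (by omega) huord huρ hPr
    (fun i => ((e x i y j z : ℕ) : ZMod (r + 1))) hl hj]
  unfold vPost vConv
  rw [ZMod.natCast_mod, Nat.cast_mul, ZMod.natCast_mod, h₃, Nat.cast_sum]
  congr 1
  refine Finset.sum_congr rfl fun k hk => ?_
  rw [Finset.mem_range] at hk
  rw [Nat.cast_mul, hκ l hl k hk, vMid, ZMod.natCast_mod, Nat.cast_mul, ZMod.natCast_mod, h₂,
    Nat.cast_sum]
  have h5 : ∑ i ∈ Finset.range r,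
      ((ker (r + 1) w (k + (r - 1) - i) * vPre r w' e x i y j z : ℕ) : ZMod (r + 1)) =
      -∑ i ∈ Finset.range r,
        (((e x i y j z : ℕ) : ZMod (r + 1)) *
          ((u ^ (-((((i + 1).choose 2 : ℕ)) : ℤ)) : (ZMod (r + 1))ˣ) : ZMod (r + 1))) *
          ((u ^ (((r + k - i).choose 2 : ℕ) : ℤ) : (ZMod (r + 1))ˣ) : ZMod (r + 1)) := by
    rw [← Finset.sum_neg_distrib]
    refine Finset.sum_congr rfl fun i hi => ?_
    rw [Finset.mem_range] at hi
    rw [Nat.cast_mul, hκ k hk i hi, vPre, ZMod.natCast_mod, Nat.cast_mul, h₁]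
    ring
  rw [h5]
  ring

/-- **Correctness of the swap.** -/
theorem steps_spec {r w w' : ℕ} (hP : Nat.Prime (r + 1)) (hr : 2 ≤ r)
    (hord : orderOf (w : ZMod (r + 1)) = r) (hw' : w' = w ^ (r - 1) % (r + 1))
    (e : ℕ → ℕ → ℕ → ℕ → ℕ → ℕ) {x i y j z : ℕ} (he : e x j y i z < r + 1) (hi : i < r)
    (hj : j < r) :
    vRotL r (vPost r w' (vConv r (ker (r + 1) w) (vMid r w w' (vConv r (ker (r + 1) w)
      (vPre r w' (vRotR r e)))))) x i y j z = e x j y i z := by
  have hk : (j + i) % r < r := Nat.mod_lt _ (by omega)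
  have h6 := cast_steps hP hr hord hw' (vRotR r e) (x := x) (y := y) (z := z) hi hk
  have e1 : ((j + i) % r + (r - i)) % r = j := by
    rw [Nat.mod_add_mod, show j + i + (r - i) = j + r by omega, Nat.add_mod_right,
      Nat.mod_eq_of_lt (by omega)]
  have e2 : ((j + i) % r + (r - j)) % r = i := by
    rw [Nat.mod_add_mod, show j + i + (r - j) = i + r by omega, Nat.add_mod_right,
      Nat.mod_eq_of_lt (by omega)]
  rw [e1] at h6
  have e3 : vRotR r e x j y ((j + i) % r) z = e x j y i z := by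
    unfold vRotR
    rw [e2]
  rw [e3] at h6
  have h7 := (ZMod.natCast_eq_natCast_iff _ _ _).1 h6
  exact Nat.ModEq.eq_of_lt_of_lt h7 (Nat.mod_lt _ (by omega)) he

/-- The case `r = 1`. -/
theorem steps_one {r w w' : ℕ} (hr : r = 1) (hw : w = 1) (hw' : w' = 1)
    (e : ℕ → ℕ → ℕ → ℕ → ℕ → ℕ) {x i y j z : ℕ} (he : e x j y i z < 2) (hi : i < r)
    (hj : j < r) :
    vRotL r (vPost r w' (vConv r (ker (r + 1) w) (vMid r w w' (vConv r (ker (r + 1) w)
      (vPre r w' (vRotR r e)))))) x i y j z = e x j y i z := by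
  subst hr hw hw'
  obtain rfl : i = 0 := by omega
  obtain rfl : j = 0 := by omega
  simp [vRotL, vPost, vConv, vMid, vPre, vRotR, fPre, fMid, fPost, ker]
  omega

/-! ### The environment -/

variable {J E : Type} [DecidableEq J]

omit [DecidableEq J] in
theorem Num.r_pos {X r Y Z t S m w w' : ℕ} (N : Num X r Y Z t S m w w') : 1 ≤ r := by
  have := N.prime.two_le
  omega

/-- Stacks that may be changed without changing the environment. -/
theorem Env.set {s : St J E} {X r Y Z t S m w w' : ℕ} (e : Env s X r Y Z t S m w w') {a : R}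
    (ha : a = R.X ∨ a = R.KER) (l : List (SSym E)) : Env (s.set a l) X r Y Z t S m w w' := by
  obtain ⟨⟨h1, h2, h3, h4, h5⟩, h6, h7, h8, h9, h10, h11, h12, h13, h14⟩ := e
  have key : ∀ b : R, b ≠ a → (s.set a l) (Sum.inl b) = s (Sum.inl b) := by
    intro b hb
    exact Function.update_of_ne (by simpa using hb) _ _
  have hne : ∀ b ∈ arScratch ++ pScratch ++ [R.WW, R.U1, R.U2, R.HH, R.RR, R.GG, R.DD, R.TM,
      R.MM, R.AL, R.BE], b ≠ a := by
    rcases ha with rfl | rfl <;> decide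
  simp only [St.at] at h3 h4 h5 h7 h8 h9 h10 h11 h12 h13 h14
  refine ⟨⟨?_, ?_, ?_, ?_, ?_⟩, ?_, ?_, ?_, ?_, ?_, ?_, ?_, ?_, ?_⟩
  · intro j
    have := h1 j
    simp [this]
  · intro b hb
    have := h2 b hb
    rw [key b (hne b (by simp [hb])), this]
  · simp only [St.at]; rw [key _ (hne _ (by simp)), h3]
  · simp only [St.at]; rw [key _ (hne _ (by simp)), h4]
  · simp only [St.at]; rw [key _ (hne _ (by simp)), h5]
  · intro b hb
    have := h6 b hb
    rw [key b (hne b (by simp [hb])), this]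
  · simp only [St.at]; rw [key _ (hne _ (by simp)), h7]
  · simp only [St.at]; rw [key _ (hne _ (by simp)), h8]
  · simp only [St.at]; rw [key _ (hne _ (by simp)), h9]
  · simp only [St.at]; rw [key _ (hne _ (by simp)), h10]
  · simp only [St.at]; rw [key _ (hne _ (by simp)), h11]
  · simp only [St.at]; rw [key _ (hne _ (by simp)), h12]
  · simp only [St.at]; rw [key _ (hne _ (by simp)), h13]
  · simp only [St.at]; rw [key _ (hne _ (by simp)), h14]

theorem dat_congr {X r Y r' Z k : ℕ} {e e' : ℕ → ℕ → ℕ → ℕ → ℕ → ℕ}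
    (h : ∀ x < X, ∀ i < r, ∀ y < Y, ∀ j < r', ∀ z < Z, e x i y j z = e' x i y j z) :
    dat X r Y r' Z k e = dat X r Y r' Z k e' :=
  cat_congr fun x hx => cat_congr fun i hi => cat_congr fun y hy => cat_congr fun j hj =>
    cat_congr fun z hz => by rw [h x hx i hi y hy j hj z hz]

/-! ### The assembly -/

/-- The parts of the swap. -/
structure Parts (J E : Type) [DecidableEq J] (Tb Tt : ℕ → ℕ) (C : ℕ) where
  rotR : Pr J E
  rotL : Pr J E
  pre : Pr J E
  mid : Pr J E
  post : Pr J E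
  gker : Pr J E
  cv : Pr J E
  rotR_spec : RotRSpec rotR C
  rotL_spec : RotLSpec rotL C
  pre_spec : PreSpec pre Tt C
  mid_spec : MidSpec mid Tt C
  post_spec : PostSpec post Tt C
  gker_spec : KerSpec gker Tt C
  cv_spec : ConvSpec cv Tb C

namespace Parts

variable {Tb Tt : ℕ → ℕ} {C : ℕ} (A : Parts J E Tb Tt C)

/-- The swap program. -/
def swap : Pr J E :=
  A.rotR.seq (A.pre.seq (A.gker.seq (A.cv.seq (A.mid.seq (A.cv.seq
    ((Prog.clear (Sum.inl R.KER)).seq (A.post.seq A.rotL)))))))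

theorem swap_spec : SwapSpec2 A.swap Tb Tt (10 * C + 20) := by
  intro X r Y Z t S m w w' e s N En hK he hX
  have hr1 := N.r_pos
  have hprime := N.prime
  -- sizes
  set n := X * r * Y * r * Z with hn
  have hPlt : r + 1 < 2 ^ Nat.size (r + 1) := Nat.lt_size_self _
  have htS : t ≤ S := by
    by_contra hcon
    have h1 : 2 ^ S ≤ 2 ^ t := Nat.pow_le_pow_right (by norm_num) (by omega)
    have h2 : 2 ^ Nat.size (r + 1) ≤ 2 ^ S :=
      Nat.pow_le_pow_right (by norm_num) (by have := N.hS; omega)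
    have := N.tP
    omega
  have hPS : r + 1 < 2 ^ S :=
    hPlt.trans_le (Nat.pow_le_pow_right (by norm_num) (by have := N.hS; omega))
  have hP3 : r * ((r + 1) * (r + 1)) < 2 ^ S := by
    calc r * ((r + 1) * (r + 1)) ≤ (r + 1) * ((r + 1) * (r + 1)) :=
          Nat.mul_le_mul_right _ (by omega)
      _ ≤ 2 ^ Nat.size (r + 1) * (2 ^ Nat.size (r + 1) * 2 ^ Nat.size (r + 1)) :=
          Nat.mul_le_mul hPlt.le (Nat.mul_le_mul hPlt.le hPlt.le)
      _ = 2 ^ (3 * Nat.size (r + 1)) := by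
          rw [← pow_add, ← pow_add]
          congr 1
          ring
      _ < 2 ^ S := by
          refine Nat.pow_lt_pow_right (by norm_num) ?_
          have := N.hS
          have : 0 < Nat.size (r + 1) := Nat.size_pos.2 (by omega)
          omega
  have hrn : r ≤ n := by
    have h1 : 1 ≤ X * r * Y := Nat.mul_pos (Nat.mul_pos N.hX hr1) N.hY
    have h2 : 1 * r * 1 ≤ X * r * Y * r * Z :=
      Nat.mul_le_mul (Nat.mul_le_mul h1 le_rfl) N.hZ
    omega
  obtain ⟨U, hU⟩ : ∃ U, U = m + Tb m + n * (S + Tt S) := ⟨_, rfl⟩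
  have hnS : n * S ≤ n * (S + Tt S) := Nat.mul_le_mul_left _ (by omega)
  have hnU : n * (S + Tt S) ≤ U := by omega
  have hntU : n * t ≤ U := (Nat.mul_le_mul_left _ htS).trans (hnS.trans hnU)
  have hrU : r * (S + Tt S) ≤ U := (Nat.mul_le_mul_right _ hrn).trans hnU
  have hrSU : r * S ≤ U := (Nat.mul_le_mul_left r (by omega : S ≤ S + Tt S)).trans hrU
  have hS1 : 1 ≤ S := by
    have h1 := N.hS
    have : 0 < Nat.size (r + 1) := Nat.size_pos.2 (by omega)
    omega
  have hU1 : 1 ≤ U := by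
    have h1 : 1 * 1 ≤ r * S := Nat.mul_le_mul hr1 hS1
    omega
  -- the values
  obtain ⟨v1, hv1⟩ : ∃ v1, v1 = vRotR r e := ⟨_, rfl⟩
  obtain ⟨v2, hv2⟩ : ∃ v2, v2 = vPre r w' v1 := ⟨_, rfl⟩
  obtain ⟨v3, hv3⟩ : ∃ v3, v3 = vConv r (ker (r + 1) w) v2 := ⟨_, rfl⟩
  obtain ⟨v4, hv4⟩ : ∃ v4, v4 = vMid r w w' v3 := ⟨_, rfl⟩
  obtain ⟨v5, hv5⟩ : ∃ v5, v5 = vConv r (ker (r + 1) w) v4 := ⟨_, rfl⟩
  obtain ⟨v6, hv6⟩ : ∃ v6, v6 = vPost r w' v5 := ⟨_, rfl⟩
  have hker : ∀ j, ker (r + 1) w j < r + 1 := fun j => Nat.mod_lt _ (by omega)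
  have b1 : ∀ x i y j z, v1 x i y j z < 2 ^ t := fun x i y j z => by
    rw [hv1]; exact he _ _ _ _ _
  have b2 : ∀ x i y j z, v2 x i y j z < r + 1 := fun x i y j z => by
    rw [hv2]; exact Nat.mod_lt _ (by omega)
  have bconv : ∀ v : ℕ → ℕ → ℕ → ℕ → ℕ → ℕ, (∀ x i y j z, v x i y j z < r + 1) →
      ∀ x i y j z, vConv r (ker (r + 1) w) v x i y j z < 2 ^ S := by
    intro v hv x i y j z
    refine lt_of_le_of_lt ?_ hP3
    unfold vConv
    calc _ ≤ ∑ i ∈ Finset.range r, (r + 1) * (r + 1) :=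
          Finset.sum_le_sum fun i _ => Nat.mul_le_mul (hker _).le (hv _ _ _ _ _).le
      _ = r * ((r + 1) * (r + 1)) := by rw [Finset.sum_const, Finset.card_range, smul_eq_mul]
  have b3 : ∀ x i y j z, v3 x i y j z < 2 ^ S := fun x i y j z => by
    rw [hv3]; exact bconv _ b2 _ _ _ _ _
  have b4 : ∀ x i y j z, v4 x i y j z < r + 1 := fun x i y j z => by
    rw [hv4]; exact Nat.mod_lt _ (by omega)
  have b5 : ∀ x i y j z, v5 x i y j z < 2 ^ S := fun x i y j z => by
    rw [hv5]; exact bconv _ b4 _ _ _ _ _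
  -- the programs
  have hXX : ∀ (s : St J E) (l l' : List (SSym E)), (s.set R.X l).set R.X l' = s.set R.X l' :=
    fun s l l' => by simp
  obtain ⟨K, hKdef⟩ : ∃ K : List (SSym E),
    K = bits (cat (2 * r - 1) fun j => bitsOf S (ker (r + 1) w j)) := ⟨_, rfl⟩
  have r1 : Runs A.rotR s (s.set R.X (bits (dat X r Y r Z t v1))) (C * U) := by
    rw [hv1]
    exact (A.rotR_spec X r Y Z t S m w w' e s N En hK hX).mono (Nat.mul_le_mul_left _ hntU)
  have r2 : Runs A.pre (s.set R.X (bits (dat X r Y r Z t v1)))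
      (s.set R.X (bits (dat X r Y r Z S v2))) (C * U) := by
    have h := A.pre_spec X r Y Z t S m w w' v1 _ N
      (En.set (Or.inl rfl) (bits (dat X r Y r Z t v1)))
      (by simp only [St.at] at hK; simp [hK]) b1 (by simp)
    rw [hXX] at h
    rw [hv2]
    exact h.mono (Nat.mul_le_mul_left _ hnU)
  have r3 : Runs A.gker (s.set R.X (bits (dat X r Y r Z S v2)))
      ((s.set R.X (bits (dat X r Y r Z S v2))).set R.KER K) (C * U) := by
    have h := A.gker_spec X r Y Z t S m w w' _ N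
      (En.set (Or.inl rfl) (bits (dat X r Y r Z S v2)))
      (by simp only [St.at] at hK; simp [hK])
    rw [hKdef]
    exact h.mono (Nat.mul_le_mul_left _ hrU)
  have hcomm : ∀ (l l' : List (SSym E)), ((s.set R.X l).set R.KER K).set R.X l' =
      (s.set R.X l').set R.KER K := by
    intro l l'
    funext i
    simp only [Function.update_apply]
    split_ifs <;> simp_all
  have rc : ∀ v : ℕ → ℕ → ℕ → ℕ → ℕ → ℕ, (∀ x i y j z, v x i y j z < r + 1) →
      Runs A.cv ((s.set R.X (bits (dat X r Y r Z S v))).set R.KER K)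
      ((s.set R.X (bits (dat X r Y r Z S (vConv r (ker (r + 1) w) v)))).set R.KER K)
      (C * U) := by
    intro v hv
    have h := A.cv_spec X r Y Z t S m w w' (ker (r + 1) w) v
      ((s.set R.X (bits (dat X r Y r Z S v))).set R.KER K) N
      ((En.set (Or.inl rfl) _).set (Or.inr rfl) _) hker hv (by simp [hKdef]) (by simp)
    rw [hcomm] at h
    exact h.mono (Nat.mul_le_mul_left _ (by omega))
  have r4 := rc v2 b2
  rw [← hv3] at r4
  have r5 : Runs A.mid ((s.set R.X (bits (dat X r Y r Z S v3))).set R.KER K)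
      ((s.set R.X (bits (dat X r Y r Z S v4))).set R.KER K) (C * U) := by
    have h := A.mid_spec X r Y Z t S m w w' v3 K _ N
      ((En.set (Or.inl rfl) (bits (dat X r Y r Z S v3))).set (Or.inr rfl) K)
      (by simp) b3 (by simp)
    rw [hcomm] at h
    rw [hv4]
    exact h.mono (Nat.mul_le_mul_left _ hnU)
  have r6 := rc v4 b4
  rw [← hv5] at r6
  have r7 : Runs (Prog.clear (Sum.inl R.KER))
      ((s.set R.X (bits (dat X r Y r Z S v5))).set R.KER K)
      (s.set R.X (bits (dat X r Y r Z S v5))) (6 * U) := by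
    have h := Runs.clear (Sum.inl R.KER : Loc J)
      ((s.set R.X (bits (dat X r Y r Z S v5))).set R.KER K)
    refine (h.mono ?_).of_eq ?_
    · have e1 : K.length = (2 * r - 1) * S := by
        rw [hKdef, length_bits]
        exact length_cat_of fun _ _ => length_bitsOf _ _
      have e2 : (2 * r - 1) * S ≤ 2 * (r * S) := by
        calc (2 * r - 1) * S ≤ (2 * r) * S := Nat.mul_le_mul_right _ (by omega)
          _ = 2 * (r * S) := by ring
      simp only [St.set, Function.update_self]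
      omega
    · simp only [St.at] at hK
      funext i
      simp only [Function.update_apply]
      split_ifs <;> simp_all
  have r8 : Runs A.post (s.set R.X (bits (dat X r Y r Z S v5)))
      (s.set R.X (bits (dat X r Y r Z t v6))) (C * U) := by
    have h := A.post_spec X r Y Z t S m w w' v5 _ N
      (En.set (Or.inl rfl) (bits (dat X r Y r Z S v5)))
      (by simp only [St.at] at hK; simp [hK]) b5 (by simp)
    rw [hXX] at h
    rw [hv6]
    exact h.mono (Nat.mul_le_mul_left _ hnU)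
  have r9 : Runs A.rotL (s.set R.X (bits (dat X r Y r Z t v6)))
      (s.set R.X (bits (dat X r Y r Z t fun x i y j z => e x j y i z))) (C * U) := by
    have h := A.rotL_spec X r Y Z t S m w w' v6 _ N
      (En.set (Or.inl rfl) (bits (dat X r Y r Z t v6)))
      (by simp only [St.at] at hK; simp [hK]) (by simp)
    rw [hXX] at h
    refine (h.mono (Nat.mul_le_mul_left _ hntU)).of_eq ?_
    have e1 : dat X r Y r Z t (fun x i y j z => v6 x i y ((j + i) % r) z) =
        dat X r Y r Z t fun x i y j z => e x j y i z := by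
      refine dat_congr fun x _ i hi y _ j hj z _ => ?_
      rcases Nat.lt_or_ge r 2 with hr2 | hr2
      · have hr' : r = 1 := by omega
        subst hr'
        have hw1 : w = 1 := by
          have h1 := N.order
          rw [orderOf_eq_one_iff] at h1
          have h2 := N.wlt
          interval_cases w
          · exact absurd h1 (by decide)
          · rfl
        have hw2 : w' = 1 := by rw [N.w'eq, hw1]; rfl
        have h1 := steps_one rfl hw1 hw2 e (x := x) (y := y) (z := z)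
          (lt_of_lt_of_le (he _ _ _ _ _) N.tP) hi hj
        rw [hv6, hv5, hv4, hv3, hv2, hv1]
        exact h1
      · have h1 := steps_spec hprime hr2 N.order N.w'eq e (x := x) (y := y) (z := z)
          (lt_of_lt_of_le (he _ _ _ _ _) N.tP) hi hj
        rw [hv6, hv5, hv4, hv3, hv2, hv1]
        exact h1
    rw [e1]
  refine ((r1.seq (r2.seq (r3.seq (r4.seq (r5.seq (r6.seq (r7.seq (r8.seq r9)))))))).mono ?_)
  have e9 : (10 * C + 20) * U = 10 * (C * U) + 20 * U := by ring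
  rw [← hU, e9]
  omega

end Parts

end Vale.Agent.P338.S2
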