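import Vale.Agent.P338.S2ParC
import Vale.Agent.P338.S2Rot
import Vale.Agent.P338.S2Swap
import Vale.Agent.P338.S2Conv
import Vale.Agent.P338.S2Arith
import Vale.Agent.P338.S2Ker
import Vale.Agent.P338.S2Search

/-!
# P338, second reduction: the programs, from the two multiplication routines
-/

namespace Vale.Agent.P338.S2

variable {J E : Type} [DecidableEq J]

/-- The parts of the swap. -/
noncomputable def realParts {cb ct : Pr J E} {Tb Tt : ℕ → ℕ} {C₁ C₂ : ℕ}
    (hb : CallFullSpec cb Tb C₁) (ht : CallFullSpec ct Tt C₂) :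
    Parts J E Tb Tt (C₁ + 20 * C₂ + 4000) where
  rotR := rotP false
  rotL := rotP true
  pre := prePass (mul ct)
  mid := midPass (red ct) (mul ct)
  post := postPass (red ct) (mul ct)
  gker := kerProg (mul ct)
  cv := convS2 cb
  rotR_spec := by
    intro X r Y Z t S m w w' e s h1 h2 h3 h4
    exact (rotR_spec X r Y Z t S m w w' e s h1 h2 h3 h4).mono (Nat.mul_le_mul_right _ (by omega))
  rotL_spec := by
    intro X r Y Z t S m w w' e s h1 h2 h3 h4
    exact (rotL_spec X r Y Z t S m w w' e s h1 h2 h3 h4).mono (Nat.mul_le_mul_right _ (by omega))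
  pre_spec := by
    intro X r Y Z t S m w w' e s h1 h2 h3 h4 h5
    exact (pre_spec (mulSpec ht) X r Y Z t S m w w' e s h1 h2 h3 h4 h5).mono
      (Nat.mul_le_mul_right _ (by omega))
  mid_spec := by
    intro X r Y Z t S m w w' e K s h1 h2 h3 h4 h5
    exact (mid_spec (redSpec ht) (mulSpec ht) X r Y Z t S m w w' e K s h1 h2 h3 h4 h5).mono
      (Nat.mul_le_mul_right _ (by omega))
  post_spec := by
    intro X r Y Z t S m w w' e s h1 h2 h3 h4 h5
    exact (post_spec (redSpec ht) (mulSpec ht) X r Y Z t S m w w' e s h1 h2 h3 h4 h5).mono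
      (Nat.mul_le_mul_right _ (by omega))
  gker_spec := by
    intro X r Y Z t S m w w' s h1 h2 h3
    exact (ker_spec (mulSpec ht) X r Y Z t S m w w' s h1 h2 h3).mono
      (Nat.mul_le_mul_right _ (by omega))
  cv_spec := by
    intro X r Y Z t S m w w' κ e s h1 h2 h3 h4 h5 h6
    exact (convSpec hb X r Y Z t S m w w' κ e s h1 h2 h3 h4 h5 h6).mono
      (Nat.mul_le_mul_right _ (by omega))

/-- The programs for `k` levels. -/
theorem exists_progs {cb ct small : Pr J E} {Tb Tt : ℕ → ℕ} {C₁ C₂ C₃ : ℕ}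
    (hb : CallFullSpec cb Tb C₁) (ht : CallFullSpec ct Tt C₂) (hs : SmallSpec small C₃)
    (k : ℕ) : ∃ (p d : Pr J E) (C D : ℕ), ParSpec p k Tt C ∧ DSpec d k Tb Tt D :=
  ⟨_, _, _, _, parSpec (Srch.searchSpec (mulSpec ht)) k, dswap_spec (realParts hb ht).swap_spec hs k⟩

end Vale.Agent.P338.S2
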