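import Vale.Agent.P338.S2Iface
import Vale.Agent.P338.S2Trn
import Vale.Agent.P338.Cmd

/-!
# P338, second reduction: the swap of two small digits by shuffles
-/

namespace Vale.Agent.P338.S2

open Vale.Agent.P338

/-! ### Blocks -/

section blocks

variable {ι Γ : Type} [DecidableEq ι]

/-- Separate the even from the odd entries. -/
def unshB (u t x o y z : ι) : Prog ι Γ :=
  (Prog.forr u t ((Prog.mov x o).seq (Prog.mov x y))).seq ((Prog.rev y z).seq (Prog.rev z o))

/-- Merge the two halves. -/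
def shB (u t x o y z : ι) : Prog ι Γ :=
  (mvn u t x y).seq ((Prog.rev y z).seq (Prog.forr u t ((Prog.mov z o).seq (Prog.mov x o))))

theorem Trn.unshB {G : Store ι Γ → Prop} {u t x o y z : ι} (hut : u ≠ t) (hux : u ≠ x)
    (huo : u ≠ o) (huy : u ≠ y) (htx : t ≠ x) (hto : t ≠ o) (hty : t ≠ y) (hxo : x ≠ o)
    (hxy : x ≠ y) (hxz : x ≠ z) (hoy : o ≠ y) (hoz : o ≠ z) (hyz : y ≠ z)
    (c : Γ) (q : ℕ) (a b : ℕ → Γ)
    (hG : ∀ s, G s → s u = List.replicate q c ∧ s t = [] ∧ s y = [] ∧ s z = []) :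
    Trn G x o (unshB u t x o y z) (cat q fun i => [a i, b i])
      ((cat q fun i => [a i]) ++ cat q fun i => [b i]) (16 * q + 3) := by
  intro s rest hs hx
  obtain ⟨hu, ht, hy, hz⟩ := hG s hs
  have h := Runs.forr' hut (body := (Prog.mov x o).seq (Prog.mov x y)) q c
    (fun k => Function.update (Function.update (Function.update s x
      ((cat (q - k) fun i => [a (k + i), b (k + i)]) ++ rest)) o
      ((cat k fun i => [a i]).reverse ++ s o)) y (cat k fun i => [b i]).reverse) (fun _ => 3)
    (fun k _ => by rw [Function.update_of_ne huy, Function.update_of_ne huo,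
      Function.update_of_ne hux, hu])
    (fun k _ => by rw [Function.update_of_ne hty, Function.update_of_ne hto,
      Function.update_of_ne htx, ht])
    (by
      intro k hk l₁ l₂
      obtain ⟨m, hm⟩ : ∃ m, q - k = m + 1 := ⟨q - k - 1, by omega⟩
      have hm' : q - (k + 1) = m := by omega
      have e1 : (cat (q - k) fun i => [a (k + i), b (k + i)]) =
          a k :: b k :: (cat m fun i => [a (k + 1 + i), b (k + 1 + i)]) := by
        rw [hm, cat_succ']
        simp [Nat.add_assoc, Nat.add_comm 1]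
      have h1 := Runs.mov (Γ := Γ) hxo (Function.update (Function.update
        (Function.update (Function.update (Function.update s x
      ((cat (q - k) fun i => [a (k + i), b (k + i)]) ++ rest)) o
      ((cat k fun i => [a i]).reverse ++ s o)) y (cat k fun i => [b i]).reverse) u l₁) t l₂)
        (a := a k) (l := b k :: (cat m fun i => [a (k + 1 + i), b (k + 1 + i)]) ++ rest) (by
          rw [Function.update_of_ne htx.symm, Function.update_of_ne hux.symm,
            Function.update_of_ne hxy, Function.update_of_ne hxo, Function.update_self, e1]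
          rfl)
      have h2 := Runs.mov (Γ := Γ) hxy (Function.update (Function.update (Function.update
        (Function.update
        (Function.update (Function.update (Function.update s x
      ((cat (q - k) fun i => [a (k + i), b (k + i)]) ++ rest)) o
      ((cat k fun i => [a i]).reverse ++ s o)) y (cat k fun i => [b i]).reverse) u l₁) t l₂) x
        (b k :: (cat m fun i => [a (k + 1 + i), b (k + 1 + i)]) ++ rest)) o (a k ::
        (Function.update (Function.update
        (Function.update (Function.update (Function.update s x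
      ((cat (q - k) fun i => [a (k + i), b (k + i)]) ++ rest)) o
      ((cat k fun i => [a i]).reverse ++ s o)) y (cat k fun i => [b i]).reverse) u l₁) t l₂) o))
        (a := b k) (l := (cat m fun i => [a (k + 1 + i), b (k + 1 + i)]) ++ rest) (by
          rw [Function.update_of_ne hxo, Function.update_self]
          rfl)
      refine (h1.seq h2).of_eq ?_
      rw [hm', cat_succ, cat_succ]
      funext w
      simp only [Function.update_apply]
      split_ifs <;> simp_all)
  simp only [Finset.sum_const, Finset.card_range, smul_eq_mul] at h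
  have e : (Function.update (Function.update (Function.update s x
      ((cat (q - 0) fun i => [a (0 + i), b (0 + i)]) ++ rest)) o
      ((cat 0 fun i => [a i]).reverse ++ s o)) y (cat 0 fun i => [b i]).reverse) = s := by
    simp only [Nat.zero_add, Nat.sub_zero, cat_zero, List.reverse_nil, List.nil_append]
    funext w
    simp only [Function.update_apply]
    split_ifs <;> simp_all
  rw [e, Nat.sub_self, cat_zero, List.nil_append] at h
  have h3 := Runs.rev hyz (Function.update (Function.update (Function.update s x rest) o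
    ((cat q fun i => [a i]).reverse ++ s o)) y (cat q fun i => [b i]).reverse)
  have h4 := Runs.rev hoz.symm (Function.update (Function.update (Function.update
    (Function.update (Function.update s x rest) o
    ((cat q fun i => [a i]).reverse ++ s o)) y (cat q fun i => [b i]).reverse) y []) z
    (((Function.update (Function.update (Function.update s x rest) o
    ((cat q fun i => [a i]).reverse ++ s o)) y (cat q fun i => [b i]).reverse) y).reverse ++
    (Function.update (Function.update (Function.update s x rest) o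
    ((cat q fun i => [a i]).reverse ++ s o)) y (cat q fun i => [b i]).reverse) z))
  have l1 : (cat q fun i => [b i]).length = q := by
    rw [length_cat_of (L := 1) (fun _ _ => rfl), Nat.mul_one]
  refine ((h.seq (h3.seq h4)).mono ?_).of_eq ?_
  · rw [Function.update_self, Function.update_self, Function.update_of_ne hyz.symm,
      Function.update_of_ne hoz.symm, Function.update_of_ne hxz.symm, hz, List.append_nil]
    simp only [List.length_reverse, l1]
    omega
  · funext w
    simp only [Function.update_apply]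
    split_ifs <;> simp_all

theorem Trn.shB {G : Store ι Γ → Prop} {u t x o y z : ι} (hut : u ≠ t) (hux : u ≠ x)
    (huo : u ≠ o) (huy : u ≠ y) (huz : u ≠ z) (htx : t ≠ x) (hto : t ≠ o) (hty : t ≠ y)
    (htz : t ≠ z) (hxo : x ≠ o)
    (hxy : x ≠ y) (hxz : x ≠ z) (hoy : o ≠ y) (hoz : o ≠ z) (hyz : y ≠ z)
    (c : Γ) (q : ℕ) (a b : ℕ → Γ)
    (hG : ∀ s, G s → s u = List.replicate q c ∧ s t = [] ∧ s y = [] ∧ s z = []) :
    Trn G x o (shB u t x o y z) ((cat q fun i => [a i]) ++ cat q fun i => [b i])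
      (cat q fun i => [a i, b i]) (21 * q + 4) := by
  intro s rest hs hx
  obtain ⟨hu, ht, hy, hz⟩ := hG s hs
  have l1 : (cat q fun i => [a i]).length = q := by
    rw [length_cat_of (L := 1) (fun _ _ => rfl), Nat.mul_one]
  have h1 := Trn.mvn (G := fun s' : Store ι Γ => s' u = List.replicate q c ∧ s' t = [])
    (x := x) (o := y) hut hux huy htx hty hxy c (cat q fun i => [a i])
    (fun s' h => by rw [l1]; exact h) s ((cat q fun i => [b i]) ++ rest) ⟨hu, ht⟩
    (by rw [hx, List.append_assoc])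
  rw [hy, List.append_nil, l1] at h1
  have h2 := Runs.rev hyz (Function.update (Function.update s x ((cat q fun i => [b i]) ++ rest))
    y (cat q fun i => [a i]).reverse)
  have h := Runs.forr' hut (body := (Prog.mov z o).seq (Prog.mov x o)) q c
    (fun k => Function.update (Function.update (Function.update s x
      ((cat (q - k) fun i => [b (k + i)]) ++ rest)) z (cat (q - k) fun i => [a (k + i)])) o
      ((cat k fun i => [a i, b i]).reverse ++ s o)) (fun _ => 3)
    (fun k _ => by rw [Function.update_of_ne huo, Function.update_of_ne huz,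
      Function.update_of_ne hux, hu])
    (fun k _ => by rw [Function.update_of_ne hto, Function.update_of_ne htz,
      Function.update_of_ne htx, ht])
    (by
      intro k hk l₁ l₂
      obtain ⟨m, hm⟩ : ∃ m, q - k = m + 1 := ⟨q - k - 1, by omega⟩
      have hm' : q - (k + 1) = m := by omega
      have e1 : (cat (q - k) fun i => [b (k + i)]) =
          b k :: (cat m fun i => [b (k + 1 + i)]) := by
        rw [hm, cat_succ']
        simp [Nat.add_assoc, Nat.add_comm 1]
      have e2 : (cat (q - k) fun i => [a (k + i)]) =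
          a k :: (cat m fun i => [a (k + 1 + i)]) := by
        rw [hm, cat_succ']
        simp [Nat.add_assoc, Nat.add_comm 1]
      have h1 := Runs.mov (Γ := Γ) hoz.symm (Function.update (Function.update
        (Function.update (Function.update (Function.update s x
      ((cat (q - k) fun i => [b (k + i)]) ++ rest)) z (cat (q - k) fun i => [a (k + i)])) o
      ((cat k fun i => [a i, b i]).reverse ++ s o)) u l₁) t l₂)
        (a := a k) (l := (cat m fun i => [a (k + 1 + i)])) (by
          rw [Function.update_of_ne htz.symm, Function.update_of_ne huz.symm,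
            Function.update_of_ne hoz.symm, Function.update_self, e2])
      have h2 := Runs.mov (Γ := Γ) hxo (Function.update (Function.update (Function.update
        (Function.update
        (Function.update (Function.update (Function.update s x
      ((cat (q - k) fun i => [b (k + i)]) ++ rest)) z (cat (q - k) fun i => [a (k + i)])) o
      ((cat k fun i => [a i, b i]).reverse ++ s o)) u l₁) t l₂) z
        (cat m fun i => [a (k + 1 + i)])) o (a k ::
        (Function.update (Function.update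
        (Function.update (Function.update (Function.update s x
      ((cat (q - k) fun i => [b (k + i)]) ++ rest)) z (cat (q - k) fun i => [a (k + i)])) o
      ((cat k fun i => [a i, b i]).reverse ++ s o)) u l₁) t l₂) o))
        (a := b k) (l := (cat m fun i => [b (k + 1 + i)]) ++ rest) (by
          rw [Function.update_of_ne hxo, Function.update_of_ne hxz,
            Function.update_of_ne htx.symm, Function.update_of_ne hux.symm,
            Function.update_of_ne hxo, Function.update_of_ne hxz, Function.update_self, e1]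
          rfl)
      refine (h1.seq h2).of_eq ?_
      rw [hm', cat_succ]
      funext w
      simp only [Function.update_apply]
      split_ifs <;> simp_all)
  simp only [Finset.sum_const, Finset.card_range, smul_eq_mul] at h
  refine ((h1.seq ((h2.of_eq ?_).seq h)).mono ?_).of_eq ?_
  · simp only [Nat.zero_add, Nat.sub_zero, cat_zero, List.reverse_nil, List.nil_append]
    funext w
    simp only [Function.update_apply]
    split_ifs <;> simp_all
  · rw [Function.update_self, List.length_reverse, l1]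
    omega
  · rw [Nat.sub_self, cat_zero, cat_zero, List.nil_append]
    funext w
    simp only [Function.update_apply]
    split_ifs <;> simp_all

end blocks

/-! ### The indices -/

/-- The entries after `s` separations. -/
def uS (u : ℕ → Bool) (M τ s k : ℕ) : Bool :=
  u (k % (M * 2 ^ (τ - s)) * 2 ^ s + k / (M * 2 ^ (τ - s)))

/-- The entries after `s` shuffles. -/
def wS (u : ℕ → Bool) (c τ s k : ℕ) : Bool :=
  u (k % 2 ^ s * (c * 2 ^ (τ - s)) + k / 2 ^ s)

theorem uS_step {M τ s : ℕ} (hM : 1 ≤ M) (hs : s < τ) (u : ℕ → Bool) (k e : ℕ) (he : e < 2) :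
    uS u M τ (s + 1) (e * (M * 2 ^ (τ - 1)) + k) = uS u M τ s (k * 2 + e) := by
  obtain ⟨d, rfl⟩ := Nat.exists_eq_add_of_lt hs
  have e1 : s + d + 1 - s = d + 1 := by omega
  have e2 : s + d + 1 - (s + 1) = d := by omega
  have e3 : s + d + 1 - 1 = s + d := by omega
  rw [uS, uS, e1, e2, e3]
  have hP : 0 < M * 2 ^ d := Nat.mul_pos hM (by positivity)
  have h0 : e * (M * 2 ^ (s + d)) + k = k + (e * 2 ^ s) * (M * 2 ^ d) := by
    rw [pow_add]; ring
  have h5 : M * 2 ^ (d + 1) = 2 * (M * 2 ^ d) := by rw [pow_succ]; ring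
  have h1 : (e * (M * 2 ^ (s + d)) + k) % (M * 2 ^ d) = k % (M * 2 ^ d) := by
    rw [h0, Nat.add_mul_mod_self_right]
  have h2 : (e * (M * 2 ^ (s + d)) + k) / (M * 2 ^ d) = k / (M * 2 ^ d) + e * 2 ^ s := by
    rw [h0, Nat.add_mul_div_right _ _ hP]
  have h3 : (k * 2 + e) % (M * 2 ^ (d + 1)) = k % (M * 2 ^ d) * 2 + e := by
    rw [h5, Nat.mod_mul]
    have : (k * 2 + e) / 2 = k := by omega
    rw [this]
    omega
  have h4 : (k * 2 + e) / (M * 2 ^ (d + 1)) = k / (M * 2 ^ d) := by
    rw [h5, ← Nat.div_div_eq_div_mul]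
    congr 1
    omega
  rw [h1, h2, h3, h4, pow_succ]
  congr 1
  ring

theorem wS_step {c τ s : ℕ} (hs : s < τ) (u : ℕ → Bool) (k e : ℕ) (he : e < 2) :
    wS u c τ (s + 1) (k * 2 + e) = wS u c τ s (e * (c * 2 ^ (τ - 1)) + k) := by
  obtain ⟨d, rfl⟩ := Nat.exists_eq_add_of_lt hs
  have e1 : s + d + 1 - s = d + 1 := by omega
  have e2 : s + d + 1 - (s + 1) = d := by omega
  have e3 : s + d + 1 - 1 = s + d := by omega
  rw [wS, wS, e1, e2, e3]
  have hP : 0 < 2 ^ s := by positivity
  have h0 : e * (c * 2 ^ (s + d)) + k = k + (e * (c * 2 ^ d)) * 2 ^ s := by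
    rw [pow_add]; ring
  have h1 : (e * (c * 2 ^ (s + d)) + k) % 2 ^ s = k % 2 ^ s := by
    rw [h0, Nat.add_mul_mod_self_right]
  have h2 : (e * (c * 2 ^ (s + d)) + k) / 2 ^ s = k / 2 ^ s + e * (c * 2 ^ d) := by
    rw [h0, Nat.add_mul_div_right _ _ hP]
  have h3 : (k * 2 + e) % 2 ^ (s + 1) = k % 2 ^ s * 2 + e := by
    rw [pow_succ', Nat.mod_mul]
    have : (k * 2 + e) / 2 = k := by omega
    rw [this]
    omega
  have h4 : (k * 2 + e) / 2 ^ (s + 1) = k / 2 ^ s := by
    rw [pow_succ', ← Nat.div_div_eq_div_mul]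
    congr 1
    omega
  rw [h1, h2, h3, h4, pow_succ 2 d]
  congr 1
  ring

/-- `h` blocks of `n` bits. -/
def blk (h n : ℕ) (v : ℕ → ℕ → Bool) : List Bool := cat h fun x => cat n fun k => [v x k]

theorem uS_zero {M τ k : ℕ} (u : ℕ → Bool) (hk : k < M * 2 ^ τ) : uS u M τ 0 k = u k := by
  rw [uS, Nat.sub_zero, Nat.mod_eq_of_lt hk, Nat.div_eq_of_lt hk, pow_zero, Nat.mul_one,
    Nat.add_zero]

theorem wS_zero {c τ k : ℕ} (u : ℕ → Bool) : wS u c τ 0 k = u k := by
  rw [wS, pow_zero, Nat.mod_one, Nat.zero_mul, Nat.zero_add, Nat.div_one]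

theorem dig_eq_blk (h τ c : ℕ) (f : ℕ → ℕ → ℕ → ℕ → Bool) :
    dig h (2 ^ τ) c f = blk h (2 ^ τ * c * 2 ^ τ) fun x k =>
      uS (fun K => f x (K / (c * 2 ^ τ)) (K / 2 ^ τ % c) (K % 2 ^ τ)) (2 ^ τ * c) τ 0 k := by
  have hN : 0 < 2 ^ τ := by positivity
  unfold dig blk
  refine cat_congr fun x _ => ?_
  rw [Nat.mul_assoc, cat_mul]
  refine cat_congr fun a ha => ?_
  rw [cat_mul]
  refine cat_congr fun y hy => cat_congr fun b hb => ?_
  have h1 : y * 2 ^ τ + b < c * 2 ^ τ := by
    calc y * 2 ^ τ + b < y * 2 ^ τ + 2 ^ τ := by omega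
      _ = (y + 1) * 2 ^ τ := by ring
      _ ≤ c * 2 ^ τ := Nat.mul_le_mul_right _ hy
  have hc : 0 < c := by omega
  have hcN : 0 < c * 2 ^ τ := by omega
  have h2 : a * (c * 2 ^ τ) + (y * 2 ^ τ + b) < 2 ^ τ * c * 2 ^ τ := by
    calc a * (c * 2 ^ τ) + (y * 2 ^ τ + b) < a * (c * 2 ^ τ) + c * 2 ^ τ := by omega
      _ = (a + 1) * (c * 2 ^ τ) := by ring
      _ ≤ 2 ^ τ * (c * 2 ^ τ) := Nat.mul_le_mul_right _ ha
      _ = 2 ^ τ * c * 2 ^ τ := by ring
  beta_reduce
  rw [uS_zero _ h2]
  have e1 : (a * (c * 2 ^ τ) + (y * 2 ^ τ + b)) / (c * 2 ^ τ) = a := by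
    rw [Nat.add_comm, Nat.add_mul_div_right _ _ hcN, Nat.div_eq_of_lt h1, Nat.zero_add]
  have e2 : a * (c * 2 ^ τ) + (y * 2 ^ τ + b) = b + (a * c + y) * 2 ^ τ := by ring
  have e3 : (a * (c * 2 ^ τ) + (y * 2 ^ τ + b)) / 2 ^ τ % c = y := by
    rw [e2, Nat.add_mul_div_right _ _ hN, Nat.div_eq_of_lt hb, Nat.zero_add, Nat.add_comm,
      Nat.add_mul_mod_self_right, Nat.mod_eq_of_lt hy]
  have e4 : (a * (c * 2 ^ τ) + (y * 2 ^ τ + b)) % 2 ^ τ = b := by
    rw [e2, Nat.add_mul_mod_self_right, Nat.mod_eq_of_lt hb]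
  rw [e1, e3, e4]

theorem blk_mid (h τ c : ℕ) (f : ℕ → ℕ → ℕ → ℕ → Bool) :
    (blk h (2 ^ τ * c * 2 ^ τ) fun x k =>
      uS (fun K => f x (K / (c * 2 ^ τ)) (K / 2 ^ τ % c) (K % 2 ^ τ)) (2 ^ τ * c) τ τ k) =
    blk (h * 2 ^ τ) (2 ^ τ * c) fun x' k =>
      wS (fun m => f (x' / 2 ^ τ) (m / c) (m % c) (x' % 2 ^ τ)) c τ 0 k := by
  have hN : 0 < 2 ^ τ := by positivity
  unfold blk
  rw [cat_mul h (2 ^ τ)]
  refine cat_congr fun x _ => ?_
  rw [Nat.mul_comm (2 ^ τ * c) (2 ^ τ), cat_mul (2 ^ τ) (2 ^ τ * c)]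
  refine cat_congr fun b hb => cat_congr fun m hm => ?_
  have hc : 0 < c := by
    rcases Nat.eq_zero_or_pos c with h0 | h0
    · rw [h0] at hm; simp at hm
    · exact h0
  have hcN : 0 < 2 ^ τ * c := by positivity
  beta_reduce
  rw [wS_zero, uS, Nat.sub_self, pow_zero, Nat.mul_one]
  have e1 : (b * (2 ^ τ * c) + m) % (2 ^ τ * c) = m := by
    rw [Nat.add_comm, Nat.add_mul_mod_self_right, Nat.mod_eq_of_lt hm]
  have e2 : (b * (2 ^ τ * c) + m) / (2 ^ τ * c) = b := by
    rw [Nat.add_comm, Nat.add_mul_div_right _ _ hcN, Nat.div_eq_of_lt hm, Nat.zero_add]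
  have e3 : (x * 2 ^ τ + b) / 2 ^ τ = x := by
    rw [Nat.add_comm, Nat.add_mul_div_right _ _ hN, Nat.div_eq_of_lt hb, Nat.zero_add]
  have e4 : (x * 2 ^ τ + b) % 2 ^ τ = b := by
    rw [Nat.add_comm, Nat.add_mul_mod_self_right, Nat.mod_eq_of_lt hb]
  have e5 : (m * 2 ^ τ + b) / (c * 2 ^ τ) = m / c := by
    rw [Nat.mul_comm c, ← Nat.div_div_eq_div_mul, Nat.add_comm, Nat.add_mul_div_right _ _ hN,
      Nat.div_eq_of_lt hb, Nat.zero_add]
  have e6 : (m * 2 ^ τ + b) / 2 ^ τ = m := by
    rw [Nat.add_comm, Nat.add_mul_div_right _ _ hN, Nat.div_eq_of_lt hb, Nat.zero_add]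
  have e7 : (m * 2 ^ τ + b) % 2 ^ τ = b := by
    rw [Nat.add_comm, Nat.add_mul_mod_self_right, Nat.mod_eq_of_lt hb]
  rw [e1, e2, e3, e4, e5, e6, e7]

theorem blk_end (h τ c : ℕ) (f : ℕ → ℕ → ℕ → ℕ → Bool) :
    (blk (h * 2 ^ τ) (2 ^ τ * c) fun x' k =>
      wS (fun m => f (x' / 2 ^ τ) (m / c) (m % c) (x' % 2 ^ τ)) c τ τ k) =
    dig h (2 ^ τ) c fun x a y b => f x b y a := by
  have hN : 0 < 2 ^ τ := by positivity
  unfold blk dig
  rw [cat_mul h (2 ^ τ)]
  refine cat_congr fun x _ => cat_congr fun b hb => ?_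
  rw [Nat.mul_comm (2 ^ τ) c, cat_mul c (2 ^ τ)]
  refine cat_congr fun y hy => cat_congr fun a ha => ?_
  have hc : 0 < c := by omega
  beta_reduce
  rw [wS, Nat.sub_self, pow_zero, Nat.mul_one]
  have e1 : (y * 2 ^ τ + a) % 2 ^ τ = a := by
    rw [Nat.add_comm, Nat.add_mul_mod_self_right, Nat.mod_eq_of_lt ha]
  have e2 : (y * 2 ^ τ + a) / 2 ^ τ = y := by
    rw [Nat.add_comm, Nat.add_mul_div_right _ _ hN, Nat.div_eq_of_lt ha, Nat.zero_add]
  have e3 : (x * 2 ^ τ + b) / 2 ^ τ = x := by
    rw [Nat.add_comm, Nat.add_mul_div_right _ _ hN, Nat.div_eq_of_lt hb, Nat.zero_add]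
  have e4 : (x * 2 ^ τ + b) % 2 ^ τ = b := by
    rw [Nat.add_comm, Nat.add_mul_mod_self_right, Nat.mod_eq_of_lt hb]
  have e5 : (a * c + y) / c = a := by
    rw [Nat.add_comm, Nat.add_mul_div_right _ _ hc, Nat.div_eq_of_lt hy, Nat.zero_add]
  have e6 : (a * c + y) % c = y := by
    rw [Nat.add_comm, Nat.add_mul_mod_self_right, Nat.mod_eq_of_lt hy]
  rw [e1, e2, e3, e4, e5, e6]

/-! ### The passes -/

theorem bits_pairs {E : Type} (q : ℕ) (g : ℕ → Bool) :
    (bits (cat (q * 2) fun k => [g k]) : List (SSym E)) =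
      cat q fun i => [sb (g (i * 2)), sb (g (i * 2 + 1))] := by
  rw [cat_mul]
  unfold bits
  rw [map_cat]
  refine cat_congr fun i _ => ?_
  rw [map_cat]
  rfl

theorem bits_halves {E : Type} (q : ℕ) (g : ℕ → Bool) :
    (bits (cat (q * 2) fun k => [g k]) : List (SSym E)) =
      (cat q fun i => [sb (g i)]) ++ cat q fun i => [sb (g (q + i))] := by
  rw [Nat.mul_two, cat_add]
  unfold bits
  rw [List.map_append, map_cat, map_cat]
  rfl

theorem bits_blk {E : Type} (h n : ℕ) (v : ℕ → ℕ → Bool) :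
    (bits (blk h n v) : List (SSym E)) = cat h fun x => bits (cat n fun k => [v x k]) := by
  unfold blk bits
  exact map_cat _ _ _

theorem length_blk (h n : ℕ) (v : ℕ → ℕ → Bool) : (blk h n v).length = h * n := by
  refine length_cat_of fun x _ => ?_
  rw [length_cat_of (L := 1) (fun _ _ => rfl), Nat.mul_one]

variable {J E : Type} [DecidableEq J]

/-- One separation in all blocks. -/
def unP : Pr J E :=
  (Prog.forr (Sum.inl R.HH) (Sum.inl R.S9) (unshB (Sum.inl R.S7) (Sum.inl R.S10) (Sum.inl R.X)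
    (Sum.inl R.OUT) (Sum.inl R.T) (Sum.inl R.S))).seq (Prog.rev (Sum.inl R.OUT) (Sum.inl R.X))

/-- One shuffle in all blocks. -/
def shP : Pr J E :=
  (Prog.forr (Sum.inl R.S8) (Sum.inl R.S9) (shB (Sum.inl R.S6) (Sum.inl R.S10) (Sum.inl R.X)
    (Sum.inl R.OUT) (Sum.inl R.T) (Sum.inl R.S))).seq (Prog.rev (Sum.inl R.OUT) (Sum.inl R.X))

theorem unP_runs {h q : ℕ} {v v' : ℕ → ℕ → Bool}
    (hv : ∀ x, ∀ k < q, v' x k = v x (k * 2) ∧ v' x (q + k) = v x (k * 2 + 1))
    (s : St J E) (hH : s (Sum.inl R.HH) = una h) (h7 : s (Sum.inl R.S7) = una q)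
    (h9 : s (Sum.inl R.S9) = []) (h10 : s (Sum.inl R.S10) = []) (hT : s (Sum.inl R.T) = [])
    (hS : s (Sum.inl R.S) = []) (hO : s (Sum.inl R.OUT) = [])
    (hX : s (Sum.inl R.X) = bits (blk h (q * 2) v)) :
    Runs unP s (s.set R.X (bits (blk h (q * 2) v'))) (h * (22 * q + 10) + 2) := by
  have t1 := Trn.forr (G := fun s : St J E => s (Sum.inl R.S7) = una q ∧
      s (Sum.inl R.S10) = [] ∧ s (Sum.inl R.T) = [] ∧ s (Sum.inl R.S) = [])
    (u := Sum.inl R.HH) (t := Sum.inl R.S9) (x := Sum.inl R.X) (o := Sum.inl R.OUT)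
    (body := unshB (Sum.inl R.S7) (Sum.inl R.S10) (Sum.inl R.X)
    (Sum.inl R.OUT) (Sum.inl R.T) (Sum.inl R.S))
    (by simp) (by simp) (by simp) (by simp) (by simp) (by simp)
    (fun s l hs => by simpa using hs) (fun s l hs => by simpa using hs)
    (fun s l hs => by simpa using hs) (fun s l hs => by simpa using hs) mk h (16 * q + 3)
    (fun x => cat q fun i => [sb (v x (i * 2)), sb (v x (i * 2 + 1))])
    (fun x => (cat q fun i => [sb (v x (i * 2))]) ++ cat q fun i => [sb (v x (i * 2 + 1))])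
    (fun x _ => Trn.unshB (by simp) (by simp) (by simp) (by simp) (by simp) (by simp) (by simp)
      (by simp) (by simp) (by simp) (by simp) (by simp) (by simp) mk q
      (fun i => sb (v x (i * 2))) (fun i => sb (v x (i * 2 + 1))) (fun s hs => hs))
  have e1 : (cat h fun x => cat q fun i => [sb (v x (i * 2)), sb (v x (i * 2 + 1))] :
      List (SSym E)) = bits (blk h (q * 2) v) := by
    rw [bits_blk]
    exact cat_congr fun x _ => (bits_pairs q (v x)).symm
  have e2 : (cat h fun x => (cat q fun i => [sb (v x (i * 2))]) ++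
      cat q fun i => [sb (v x (i * 2 + 1))] : List (SSym E)) = bits (blk h (q * 2) v') := by
    rw [bits_blk]
    refine cat_congr fun x _ => ?_
    rw [bits_halves]
    congr 1
    · exact cat_congr fun i hi => by rw [(hv x i hi).1]
    · exact cat_congr fun i hi => by rw [(hv x i hi).2]
  have r1 := (t1.congr e1 e2).run (s := s) ⟨⟨h7, h10, hT, hS⟩, hH, h9⟩ hX hO
  have r2 := Runs.rev (i := (Sum.inl R.OUT : Loc J)) (j := Sum.inl R.X) (by simp)
    (Function.update (Function.update s (Sum.inl R.X) []) (Sum.inl R.OUT)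
      (bits (blk h (q * 2) v')).reverse)
  refine ((r1.seq r2).mono ?_).of_eq ?_
  · rw [Function.update_self, List.length_reverse, length_bits, length_blk]
    have : h * (22 * q + 10) = h * (16 * q + 3 + 7) + 3 * (h * (q * 2)) := by ring
    omega
  · funext w
    simp only [Function.update_apply]
    split_ifs <;> simp_all

theorem shP_runs {h q : ℕ} {v v' : ℕ → ℕ → Bool}
    (hv : ∀ x, ∀ k < q, v' x (k * 2) = v x k ∧ v' x (k * 2 + 1) = v x (q + k))
    (s : St J E) (hH : s (Sum.inl R.S8) = una h) (h6 : s (Sum.inl R.S6) = una q)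
    (h9 : s (Sum.inl R.S9) = []) (h10 : s (Sum.inl R.S10) = []) (hT : s (Sum.inl R.T) = [])
    (hS : s (Sum.inl R.S) = []) (hO : s (Sum.inl R.OUT) = [])
    (hX : s (Sum.inl R.X) = bits (blk h (q * 2) v)) :
    Runs shP s (s.set R.X (bits (blk h (q * 2) v'))) (h * (27 * q + 11) + 2) := by
  have t1 := Trn.forr (G := fun s : St J E => s (Sum.inl R.S6) = una q ∧
      s (Sum.inl R.S10) = [] ∧ s (Sum.inl R.T) = [] ∧ s (Sum.inl R.S) = [])
    (u := Sum.inl R.S8) (t := Sum.inl R.S9) (x := Sum.inl R.X) (o := Sum.inl R.OUT)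
    (body := shB (Sum.inl R.S6) (Sum.inl R.S10) (Sum.inl R.X)
    (Sum.inl R.OUT) (Sum.inl R.T) (Sum.inl R.S))
    (by simp) (by simp) (by simp) (by simp) (by simp) (by simp)
    (fun s l hs => by simpa using hs) (fun s l hs => by simpa using hs)
    (fun s l hs => by simpa using hs) (fun s l hs => by simpa using hs) mk h (21 * q + 4)
    (fun x => (cat q fun i => [sb (v x i)]) ++ cat q fun i => [sb (v x (q + i))])
    (fun x => cat q fun i => [sb (v x i), sb (v x (q + i))])
    (fun x _ => Trn.shB (by simp) (by simp) (by simp) (by simp) (by simp) (by simp) (by simp)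
      (by simp) (by simp) (by simp) (by simp) (by simp) (by simp) (by simp) (by simp) mk q
      (fun i => sb (v x i)) (fun i => sb (v x (q + i))) (fun s hs => hs))
  have e1 : (cat h fun x => (cat q fun i => [sb (v x i)]) ++
      cat q fun i => [sb (v x (q + i))] : List (SSym E)) = bits (blk h (q * 2) v) := by
    rw [bits_blk]
    exact cat_congr fun x _ => (bits_halves q (v x)).symm
  have e2 : (cat h fun x => cat q fun i => [sb (v x i), sb (v x (q + i))] :
      List (SSym E)) = bits (blk h (q * 2) v') := by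
    rw [bits_blk]
    refine cat_congr fun x _ => ?_
    rw [bits_pairs]
    exact cat_congr fun i hi => by rw [(hv x i hi).1, (hv x i hi).2]
  have r1 := (t1.congr e1 e2).run (s := s) ⟨⟨h6, h10, hT, hS⟩, hH, h9⟩ hX hO
  have r2 := Runs.rev (i := (Sum.inl R.OUT : Loc J)) (j := Sum.inl R.X) (by simp)
    (Function.update (Function.update s (Sum.inl R.X) []) (Sum.inl R.OUT)
      (bits (blk h (q * 2) v')).reverse)
  refine ((r1.seq r2).mono ?_).of_eq ?_
  · rw [Function.update_self, List.length_reverse, length_bits, length_blk]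
    have : h * (27 * q + 11) = h * (21 * q + 4 + 7) + 3 * (h * (q * 2)) := by ring
    omega
  · funext w
    simp only [Function.update_apply]
    split_ifs <;> simp_all

/-- Repeat a program on `X` once for every symbol of `RHO`. -/
theorem loop_runs {p : Pr J E} {τ T : ℕ} (s : St J E) (D : ℕ → List (SSym E))
    (hr : s (Sum.inl R.RHO) = una τ) (h11 : s (Sum.inl R.S11) = [])
    (hX : s (Sum.inl R.X) = D 0)
    (hp : ∀ k < τ, ∀ l l' : List (SSym E),
      Runs p (((s.set R.X (D k)).set R.RHO l).set R.S11 l')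
        (((s.set R.X (D (k + 1))).set R.RHO l).set R.S11 l') T) :
    Runs (Prog.forr (Sum.inl R.RHO) (Sum.inl R.S11) p) s (s.set R.X (D τ))
      (τ * (T + 7) + 1) := by
  have h := Runs.forr' (u := (Sum.inl R.RHO : Loc J)) (t := Sum.inl R.S11) (by simp) (body := p)
    τ mk (fun k => s.set R.X (D k)) (fun _ => T)
    (fun k _ => by simp [hr, una])
    (fun k _ => by simp [h11])
    hp
  simp only [Finset.sum_const, Finset.card_range, smul_eq_mul] at h
  rw [show s.set R.X (D 0) = s by rw [← hX]; exact Function.update_eq_self _ _] at h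
  refine h.mono ?_
  have : τ * (T + 7) = τ * (T + 4) + 3 * τ := by ring
  omega

/-! ### The program -/

/-- Double the number on `S3`, the old one goes to `S4`. -/
def dblC : List (Cmd E) := [.clr R.S4, .cp R.S3 R.S4, .cp R.S3 R.S5, .rev R.S5 R.S3]

/-- The swap of the two small digits. -/
noncomputable def smallP : Pr J E :=
  (cmds [.push R.S3 mk]).seq
    ((Prog.forr (Sum.inl R.RHO) (Sum.inl R.S11) (cmds dblC)).seq
      ((cmds [.rep R.GG R.S4 R.S6, .rep R.S3 R.S6 R.S7, .rep R.HH R.S3 R.S8]).seq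
        ((Prog.forr (Sum.inl R.RHO) (Sum.inl R.S11) unP).seq
          ((Prog.forr (Sum.inl R.RHO) (Sum.inl R.S11) shP).seq
            (cmds [.clr R.S3, .clr R.S4, .clr R.S6, .clr R.S7, .clr R.S8])))))

/-- Half of `2 ^ k`. -/
def hf (k : ℕ) : ℕ := if k = 0 then 0 else 2 ^ (k - 1)

theorem hf_le (k : ℕ) : hf k ≤ 2 ^ k := by
  unfold hf
  split
  · exact Nat.zero_le _
  · exact Nat.pow_le_pow_right (by norm_num) (by omega)

theorem dbl_runs {τ : ℕ} (s : St J E) (hr : s (Sum.inl R.RHO) = una τ)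
    (h1 : s (Sum.inl R.S1) = []) (h3 : s (Sum.inl R.S3) = una 1) (h4 : s (Sum.inl R.S4) = [])
    (h5 : s (Sum.inl R.S5) = []) (h11 : s (Sum.inl R.S11) = []) :
    Runs (Prog.forr (Sum.inl R.RHO) (Sum.inl R.S11) (cmds dblC)) s
      ((s.set R.S3 (una (2 ^ τ))).set R.S4 (una (hf τ))) (τ * (18 * 2 ^ τ + 14) + 1) := by
  have h := Runs.forr' (u := (Sum.inl R.RHO : Loc J)) (t := Sum.inl R.S11) (by simp)
    (body := cmds dblC) τ mk
    (fun k => (s.set R.S3 (una (2 ^ k))).set R.S4 (una (hf k)))
    (fun _ => 18 * 2 ^ τ + 7)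
    (fun k _ => by simp [hr, una])
    (fun k _ => by simp [h11])
    (by
      intro k hk l l'
      have hc := cmds_spec (J := J) (E := E) dblC
        ((((s.set R.S3 (una (2 ^ k))).set R.S4 (una (hf k))).set R.RHO l).set R.S11 l') (by
        simp only [dblC, oks, Cmd.ok, Cmd.eff]
        simp [h1])
      have hp : 2 ^ k ≤ 2 ^ τ := Nat.pow_le_pow_right (by norm_num) hk.le
      have hl := hf_le k
      refine (hc.mono ?_).of_eq ?_
      · simp only [dblC, costs, Cmd.cost, Cmd.eff, St.at, Function.update_apply, Sum.inl.injEq,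
          reduceCtorEq, if_false, if_true, length_una, h5, List.append_nil]
        omega
      · have e1 : hf (k + 1) = 2 ^ k := by simp [hf]
        have e2 : (una (2 ^ k) : List (SSym E)).reverse ++ una (2 ^ k) = una (2 ^ (k + 1)) := by
          unfold una
          rw [List.reverse_replicate, List.replicate_append_replicate, pow_succ, Nat.mul_two]
        simp only [dblC, effs, Cmd.eff, St.at, Function.update_apply, Sum.inl.injEq,
          reduceCtorEq, if_false, if_true, h5, List.append_nil, e2, e1]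
        funext q
        simp only [Function.update_apply]
        split_ifs <;> simp_all)
  simp only [Finset.sum_const, Finset.card_range, smul_eq_mul] at h
  have e0 : (s.set R.S3 (una (2 ^ 0))).set R.S4 (una (hf 0)) = s := by
    have e1 : hf 0 = 0 := rfl
    rw [e1, pow_zero]
    funext q
    simp only [Function.update_apply]
    split_ifs <;> simp_all [una]
  rw [e0] at h
  refine h.mono ?_
  have : τ * (18 * 2 ^ τ + 14) = τ * (18 * 2 ^ τ + 7 + 4) + 3 * τ := by ring
  omega

theorem small_clean (s : St J E) (hS3 : s (Sum.inl R.S3) = []) (hS4 : s (Sum.inl R.S4) = [])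
    (hS6 : s (Sum.inl R.S6) = []) (hS7 : s (Sum.inl R.S7) = []) (hS8 : s (Sum.inl R.S8) = [])
    (l3 l4 l6 l7 l8 z : List (SSym E)) :
    effs ([.clr R.S3, .clr R.S4, .clr R.S6, .clr R.S7, .clr R.S8] : List (Cmd E))
      ((((((s.set R.S3 l3).set R.S4 l4).set R.S6 l6).set R.S7 l7).set R.S8 l8).set R.X z) =
      s.set R.X z := by
  simp only [effs, Cmd.eff]
  funext q
  simp only [Function.update_apply]
  split_ifs <;> simp_all

theorem smallSpec : SmallSpec (smallP : Pr J E) 300 := by
  intro h τ c f s hh hc hidle hem hem2 hHH hRHO hGG hX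
  have emp : ∀ r ∈ pScratch, r ≠ R.RHO → s (Sum.inl r) = [] := hem2
  have hS1 : s (Sum.inl R.S1) = [] := emp _ (by decide) (by decide)
  have hS2 : s (Sum.inl R.S2) = [] := emp _ (by decide) (by decide)
  have hS3 : s (Sum.inl R.S3) = [] := emp _ (by decide) (by decide)
  have hS4 : s (Sum.inl R.S4) = [] := emp _ (by decide) (by decide)
  have hS5 : s (Sum.inl R.S5) = [] := emp _ (by decide) (by decide)
  have hS6 : s (Sum.inl R.S6) = [] := emp _ (by decide) (by decide)
  have hS7 : s (Sum.inl R.S7) = [] := emp _ (by decide) (by decide)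
  have hS8 : s (Sum.inl R.S8) = [] := emp _ (by decide) (by decide)
  have hS9 : s (Sum.inl R.S9) = [] := emp _ (by decide) (by decide)
  have hS10 : s (Sum.inl R.S10) = [] := emp _ (by decide) (by decide)
  have hS11 : s (Sum.inl R.S11) = [] := emp _ (by decide) (by decide)
  have hT : s (Sum.inl R.T) = [] := emp _ (by decide) (by decide)
  have hS : s (Sum.inl R.S) = [] := emp _ (by decide) (by decide)
  have hOUT : s (Sum.inl R.OUT) = [] := emp _ (by decide) (by decide)
  replace hHH : s (Sum.inl R.HH) = una h := hHH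
  replace hRHO : s (Sum.inl R.RHO) = una τ := hRHO
  replace hGG : s (Sum.inl R.GG) = una c := hGG
  replace hX : s (Sum.inl R.X) = bits (dig h (2 ^ τ) c f) := hX
  -- numbers
  obtain ⟨N, hN⟩ : ∃ N, N = 2 ^ τ := ⟨_, rfl⟩
  obtain ⟨q₁, hq₁⟩ : ∃ q₁, q₁ = N * (c * hf τ) := ⟨_, rfl⟩
  obtain ⟨q₂, hq₂⟩ : ∃ q₂, q₂ = c * hf τ := ⟨_, rfl⟩
  have hN1 : 1 ≤ N := by rw [hN]; exact Nat.one_le_two_pow
  obtain ⟨D, hD⟩ : ∃ D, D = h * N * c * N := ⟨_, rfl⟩
  have hD0 : 0 < D := by rw [hD]; positivity
  have b1 : N ≤ D := Nat.le_of_dvd hD0 ⟨h * N * c, by rw [hD]; ring⟩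
  have b2 : c * N ≤ D := Nat.le_of_dvd hD0 ⟨h * N, by rw [hD]; ring⟩
  have b3 : h * N ≤ D := Nat.le_of_dvd hD0 ⟨c * N, by rw [hD]; ring⟩
  have b4 : c ≤ D := Nat.le_of_dvd hD0 ⟨h * N * N, by rw [hD]; ring⟩
  have b5 : h ≤ D := Nat.le_of_dvd hD0 ⟨N * c * N, by rw [hD]; ring⟩
  have b6 : N * (c * N) ≤ D := Nat.le_of_dvd hD0 ⟨h, by rw [hD]; ring⟩
  have hhf : hf τ ≤ N := by rw [hN]; exact hf_le τ
  have b7 : c * hf τ ≤ D := (Nat.mul_le_mul_left _ hhf).trans b2
  have b8 : N * (c * hf τ) ≤ D :=
    (Nat.mul_le_mul_left _ (Nat.mul_le_mul_left _ hhf)).trans b6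
  have b9 : h * (N * (c * hf τ)) ≤ D := by
    calc h * (N * (c * hf τ)) ≤ h * (N * (c * N)) :=
          Nat.mul_le_mul_left _ (Nat.mul_le_mul_left _ (Nat.mul_le_mul_left _ hhf))
      _ = D := by rw [hD]; ring
  -- the numbers on the stacks
  have r1 := cmds_spec (J := J) (E := E) [.push R.S3 mk] s ⟨trivial, trivial⟩
  have e1 : effs ([.push R.S3 mk] : List (Cmd E)) s = s.set R.S3 (una 1) := by
    simp [effs, Cmd.eff, hS3, una]
  rw [e1] at r1
  have r2 := dbl_runs (τ := τ) (s.set R.S3 (una 1)) (by simp [hRHO]) (by simp [hS1]) (by simp)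
    (by simp [hS4]) (by simp [hS5]) (by simp [hS11])
  rw [← hN] at r2
  have e2 : ((s.set R.S3 (una 1)).set R.S3 (una N)).set R.S4 (una (hf τ)) =
      (s.set R.S3 (una N)).set R.S4 (una (hf τ)) := by simp
  rw [e2] at r2
  have r3 := cmds_spec (J := J) (E := E)
    [.rep R.GG R.S4 R.S6, .rep R.S3 R.S6 R.S7, .rep R.HH R.S3 R.S8]
    ((s.set R.S3 (una N)).set R.S4 (una (hf τ))) (by
      simp only [oks, Cmd.ok, Cmd.eff]
      simp only [St.at, hGG, hHH, hS1, hS2, hS6, hS7, Function.update_apply]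
      simp [una])
  set s1 : St J E := ((((s.set R.S3 (una N)).set R.S4 (una (hf τ))).set R.S6 (una q₂)).set R.S7
    (una q₁)).set R.S8 (una (h * N)) with hs1
  have e3 : effs ([.rep R.GG R.S4 R.S6, .rep R.S3 R.S6 R.S7, .rep R.HH R.S3 R.S8] :
      List (Cmd E)) ((s.set R.S3 (una N)).set R.S4 (una (hf τ))) = s1 := by
    simp only [effs, Cmd.eff, St.at, hGG, hHH, hS6, hS7, hS8, Function.update_apply,
      Sum.inl.injEq, reduceCtorEq, if_false, if_true, length_una, List.append_nil, rep_una,
      hs1, hq₁, hq₂]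
  rw [e3] at r3
  -- the separations
  obtain ⟨u, hu⟩ : ∃ u : ℕ → ℕ → Bool, u = fun x K => f x (K / (c * 2 ^ τ)) (K / 2 ^ τ % c)
    (K % 2 ^ τ) := ⟨_, rfl⟩
  have hτq₁ : ∀ k < τ, q₁ = (N * c) * 2 ^ (τ - 1) := by
    intro k hk
    rw [hq₁, hf, if_neg (by omega)]
    ring
  have hτn₁ : ∀ k < τ, N * c * N = q₁ * 2 := by
    intro k hk
    have : 2 ^ τ = 2 ^ (τ - 1) * 2 := by
      rw [← pow_succ]
      congr 1
      omega
    rw [hτq₁ k hk]
    nth_rw 2 [hN]
    rw [this]
    ring
  have r4 := loop_runs (J := J) (E := E) (p := unP) (τ := τ) (T := h * (22 * q₁ + 10) + 2) s1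
    (fun k => bits (blk h (N * c * N) fun x => uS (u x) (N * c) τ k))
    (by simp [hs1, hRHO]) (by simp [hs1, hS11])
    (by
      have := dig_eq_blk h τ c f
      simp only [hs1]
      rw [show (Sum.inl R.X : Loc J) = Sum.inl R.X from rfl]
      simp [hX, this, hu, hN])
    (by
      intro k hk l l'
      rw [hτn₁ k hk]
      refine (unP_runs (h := h) (q := q₁) (v := fun x => uS (u x) (N * c) τ k)
        (v' := fun x => uS (u x) (N * c) τ (k + 1)) ?_ _ (by simp [hs1, hHH]) (by simp [hs1])
        (by simp [hs1, hS9]) (by simp [hs1, hS10]) (by simp [hs1, hT]) (by simp [hs1, hS])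
        (by simp [hs1, hOUT]) (by simp)).of_eq ?_
      · intro x i hi
        have hM : 1 ≤ N * c := Nat.mul_pos hN1 hc
        have s0 := uS_step hM hk (u x) i 0 (by norm_num)
        have s1 := uS_step hM hk (u x) i 1 (by norm_num)
        rw [← hτq₁ k hk] at s0 s1
        rw [Nat.zero_mul, Nat.zero_add, Nat.add_zero] at s0
        rw [Nat.one_mul] at s1
        exact ⟨s0, s1⟩
      · funext w
        simp only [Function.update_apply]
        split_ifs <;> simp_all)
  -- the shuffles
  obtain ⟨g, hg⟩ : ∃ g : ℕ → ℕ → Bool, g = fun x' m => f (x' / 2 ^ τ) (m / c) (m % c)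
    (x' % 2 ^ τ) := ⟨_, rfl⟩
  have emid : (blk h (N * c * N) fun x => uS (u x) (N * c) τ τ) =
      blk (h * N) (N * c) fun x' => wS (g x') c τ 0 := by
    have := blk_mid h τ c f
    rw [← hN] at this
    rw [hu, hg, ← hN]
    exact this
  have eend : (blk (h * N) (N * c) fun x' => wS (g x') c τ τ) =
      dig h N c fun x a y b => f x b y a := by
    have := blk_end h τ c f
    rw [← hN] at this
    rw [hg, ← hN]
    exact this
  have hq₂' : ∀ k < τ, q₂ = c * 2 ^ (τ - 1) := by
    intro k hk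
    rw [hq₂, hf, if_neg (by omega)]
  have hn₂ : ∀ k < τ, N * c = q₂ * 2 := by
    intro k hk
    have : 2 ^ τ = 2 ^ (τ - 1) * 2 := by
      rw [← pow_succ]
      congr 1
      omega
    rw [hq₂' k hk, hN, this]
    ring
  rw [emid] at r4
  have r5 := loop_runs (J := J) (E := E) (p := shP) (τ := τ)
    (T := h * N * (27 * q₂ + 11) + 2)
    (s1.set R.X (bits (blk (h * N) (N * c) fun x' => wS (g x') c τ 0)))
    (fun k => bits (blk (h * N) (N * c) fun x' => wS (g x') c τ k))
    (by simp [hs1, hRHO]) (by simp [hs1, hS11]) (by simp)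
    (by
      intro k hk l l'
      rw [hn₂ k hk]
      refine (shP_runs (h := h * N) (q := q₂) (v := fun x => wS (g x) c τ k)
        (v' := fun x => wS (g x) c τ (k + 1)) ?_ _ (by simp [hs1]) (by simp [hs1])
        (by simp [hs1, hS9]) (by simp [hs1, hS10]) (by simp [hs1, hT]) (by simp [hs1, hS])
        (by simp [hs1, hOUT]) (by simp)).of_eq ?_
      · intro x i hi
        have s0 := wS_step hk (c := c) (g x) i 0 (by norm_num)
        have s1 := wS_step hk (c := c) (g x) i 1 (by norm_num)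
        rw [← hq₂' k hk] at s0 s1
        rw [Nat.zero_mul, Nat.zero_add, Nat.add_zero] at s0
        rw [Nat.one_mul] at s1
        exact ⟨s0, s1⟩
      · funext w
        simp only [Function.update_apply]
        split_ifs <;> simp_all)
  rw [eend] at r5
  have e5 : (s1.set R.X (bits (blk (h * N) (N * c) fun x' => wS (g x') c τ 0))).set R.X
      (bits (dig h N c fun x a y b => f x b y a)) =
      s1.set R.X (bits (dig h N c fun x a y b => f x b y a)) := by simp
  rw [e5] at r5
  have r6 := cmds_spec (J := J) (E := E)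
    [.clr R.S3, .clr R.S4, .clr R.S6, .clr R.S7, .clr R.S8]
    (s1.set R.X (bits (dig h N c fun x a y b => f x b y a)))
    ⟨trivial, trivial, trivial, trivial, trivial, trivial⟩
  refine ((r1.seq (r2.seq (r3.seq (r4.seq (r5.seq r6))))).mono ?_).of_eq ?_
  · have a1 : costs ([.push R.S3 mk] : List (Cmd E)) s = 3 := rfl
    have a3 : costs ([.rep R.GG R.S4 R.S6, .rep R.S3 R.S6 R.S7, .rep R.HH R.S3 R.S8] :
        List (Cmd E)) ((s.set R.S3 (una N)).set R.S4 (una (hf τ))) ≤ 60 * D := by
      simp only [costs, Cmd.cost, Cmd.eff, St.at, hGG, hHH, hS6, Function.update_apply,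
        Sum.inl.injEq, reduceCtorEq, if_false, if_true, length_una, List.append_nil, rep_una]
      have c1 : c * (6 * hf τ + 8) = 6 * (c * hf τ) + 8 * c := by ring
      have c2 : N * (6 * (c * hf τ) + 8) = 6 * (N * (c * hf τ)) + 8 * N := by ring
      have c3 : h * (6 * N + 8) = 6 * (h * N) + 8 * h := by ring
      rw [c1, c2, c3]
      omega
    have a6 : costs ([.clr R.S3, .clr R.S4, .clr R.S6, .clr R.S7, .clr R.S8] : List (Cmd E))
        (s1.set R.X (bits (dig h N c fun x a y b => f x b y a))) ≤ 30 * D := by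
      simp only [costs, Cmd.cost, Cmd.eff, St.at, hs1, Function.update_apply,
        Sum.inl.injEq, reduceCtorEq, if_false, if_true, length_una, hq₁, hq₂]
      omega
    have a2 : τ * (18 * N + 14) ≤ 32 * (D * τ) := by
      calc τ * (18 * N + 14) ≤ τ * (18 * D + 14 * D) := Nat.mul_le_mul_left _ (by omega)
        _ = 32 * (D * τ) := by ring
    have a4 : τ * (h * (22 * q₁ + 10) + 2 + 7) ≤ 41 * (D * τ) := by
      have d1 : h * (22 * q₁ + 10) = 22 * (h * (N * (c * hf τ))) + 10 * h := by
        rw [hq₁]; ring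
      calc τ * (h * (22 * q₁ + 10) + 2 + 7) ≤ τ * (41 * D) :=
            Nat.mul_le_mul_left _ (by omega)
        _ = 41 * (D * τ) := by ring
    have a5 : τ * (h * N * (27 * q₂ + 11) + 2 + 7) ≤ 47 * (D * τ) := by
      have d1 : h * N * (27 * q₂ + 11) = 27 * (h * (N * (c * hf τ))) + 11 * (h * N) := by
        rw [hq₂]; ring
      calc τ * (h * N * (27 * q₂ + 11) + 2 + 7) ≤ τ * (47 * D) :=
            Nat.mul_le_mul_left _ (by omega)
        _ = 47 * (D * τ) := by ring
    have a9 : 300 * (h * 2 ^ τ * c * 2 ^ τ * (τ + 1)) = 300 * (D * τ) + 300 * D := by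
      rw [← hN, hD]; ring
    rw [a1, a9]
    omega
  · rw [← hN]
    exact small_clean s hS3 hS4 hS6 hS7 hS8 _ _ _ _ _ _

end Vale.Agent.P338.S2
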