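import Vale.Agent.P338.Lib
import Vale.Agent.P338.Nums

/-!
# P338: programs that read a block from one stack and write a block on another
-/

namespace Vale.Agent.P338.Lv

variable {ι Γ : Type} [DecidableEq ι]

/-- `Str x o body s w v T`: in the store `s`, the program `body` reads the block `w` from the
stack `x` and writes the block `v` (reversed) on the stack `o`, in time `T`. -/
def Str (x o : ι) (body : Prog ι Γ) (s : Store ι Γ) (w v : List Γ) (T : ℕ) : Prop :=
  ∀ rest out : List Γ, Runs body
    (Function.update (Function.update s x (w ++ rest)) o out)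
    (Function.update (Function.update s x rest) o (v.reverse ++ out)) T

theorem Str.mono {x o : ι} {body : Prog ι Γ} {s : Store ι Γ} {w v : List Γ} {T T' : ℕ}
    (h : Str x o body s w v T) (hT : T ≤ T') : Str x o body s w v T' :=
  fun rest out => (h rest out).mono hT

theorem Str.of_eq {x o : ι} {body : Prog ι Γ} {s : Store ι Γ} {w v w' v' : List Γ} {T : ℕ}
    (h : Str x o body s w v T) (hw : w = w') (hv : v = v') : Str x o body s w' v' T := by
  subst hw; subst hv; exact h

theorem Str.seq {x o : ι} {b₁ b₂ : Prog ι Γ} {s : Store ι Γ} {w₁ w₂ v₁ v₂ : List Γ}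
    {T₁ T₂ : ℕ} (h₁ : Str x o b₁ s w₁ v₁ T₁) (h₂ : Str x o b₂ s w₂ v₂ T₂) :
    Str x o (b₁.seq b₂) s (w₁ ++ w₂) (v₁ ++ v₂) (T₁ + 1 + T₂) := by
  intro rest out
  have e1 := h₁ (w₂ ++ rest) out
  have e2 := h₂ rest (v₁.reverse ++ out)
  have e3 := e1.seq e2
  rwa [← List.append_assoc, ← List.append_assoc, ← List.reverse_append] at e3

theorem Str.mov {x o : ι} (hxo : x ≠ o) (s : Store ι Γ) (a : Γ) :
    Str x o (Prog.mov x o) s [a] [a] 1 := by
  intro rest out
  refine (Runs.mov hxo _ (a := a) (l := rest) ?_).of_eq ?_
  · rw [Function.update_of_ne hxo, Function.update_self]; rfl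
  · funext m
    simp only [Function.update_apply]
    split_ifs <;> simp_all

theorem Str.push (x o : ι) (s : Store ι Γ) (a : Γ) :
    Str x o (Prog.push o a) s [] [a] 1 := by
  intro rest out
  refine (Runs.push o a _).of_eq ?_
  funext m
  simp only [Function.update_apply]
  split_ifs <;> simp_all

theorem Str.pop {x o : ι} (hxo : x ≠ o) (s : Store ι Γ) (a : Γ) :
    Str x o (Prog.pop x) s [a] [] 1 := by
  intro rest out
  refine (Runs.pop x _).of_eq ?_
  funext m
  simp only [Function.update_apply]
  split_ifs <;> simp_all

/-- The rule for loops. -/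
theorem Str.forr {u t x o : ι} (hut : u ≠ t) (hux : u ≠ x) (huo : u ≠ o) (htx : t ≠ x)
    (hto : t ≠ o) {body : Prog ι Γ} {s : Store ι Γ} (n : ℕ) (a : Γ)
    (w v : ℕ → List Γ) (T : ℕ) (hu : s u = List.replicate n a) (ht : s t = [])
    (h : ∀ k < n, ∀ l l' : List Γ,
      Str x o body (Function.update (Function.update s u l) t l') (w k) (v k) T) :
    Str x o (Prog.forr u t body) s (cat n w) (cat n v) (n * (T + 7) + 1) := by
  intro rest out
  have key : ∀ k ≤ n, cat n w = cat k w ++ cat (n - k) (fun i => w (k + i)) := by
    intro k hk
    rw [← cat_add, Nat.add_sub_cancel' hk]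
  have h1 := Runs.forr' hut (body := body) n a
    (fun k => Function.update (Function.update s x (cat (n - k) (fun i => w (k + i)) ++ rest)) o
      ((cat k v).reverse ++ out)) (fun _ => T)
    (by
      intro k hk
      rw [Function.update_of_ne huo, Function.update_of_ne hux, hu])
    (by
      intro k hk
      rw [Function.update_of_ne hto, Function.update_of_ne htx, ht])
    (by
      intro k hk l l'
      have h2 := h k hk l l' (cat (n - (k + 1)) (fun i => w (k + 1 + i)) ++ rest)
        ((cat k v).reverse ++ out)
      obtain ⟨m, hm⟩ : ∃ m, n - k = m + 1 := ⟨n - k - 1, by omega⟩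
      have hm' : n - (k + 1) = m := by omega
      have e1 : cat (n - k) (fun i => w (k + i)) =
          w k ++ cat (n - (k + 1)) (fun i => w (k + 1 + i)) := by
        rw [hm, hm', cat_succ']
        simp only [Nat.add_zero]
        congr 1
        exact cat_congr fun i _ => by rw [Nat.add_right_comm, Nat.add_assoc]
      have e2 : (Function.update (Function.update (Function.update (Function.update s x
          (cat (n - k) (fun i => w (k + i)) ++ rest)) o ((cat k v).reverse ++ out)) u l) t l') =
          (Function.update (Function.update (Function.update (Function.update s u l) t l') x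
            (w k ++ (cat (n - (k + 1)) (fun i => w (k + 1 + i)) ++ rest))) o
            ((cat k v).reverse ++ out)) := by
        rw [e1, List.append_assoc]
        funext m
        simp only [Function.update_apply]
        split_ifs <;> simp_all
      have e3 : (Function.update (Function.update (Function.update (Function.update s x
          (cat (n - (k + 1)) (fun i => w (k + 1 + i)) ++ rest)) o
            ((cat (k + 1) v).reverse ++ out)) u l) t l') =
          (Function.update (Function.update (Function.update (Function.update s u l) t l') x
            (cat (n - (k + 1)) (fun i => w (k + 1 + i)) ++ rest)) o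
            ((v k).reverse ++ ((cat k v).reverse ++ out))) := by
        rw [cat_succ, List.reverse_append, List.append_assoc]
        funext m
        simp only [Function.update_apply]
        split_ifs <;> simp_all
      rw [e2, e3]
      exact h2)
  have e0 : ∑ k ∈ Finset.range n, (T + 4) + 3 * n + 1 ≤ n * (T + 7) + 1 := by
    simp only [Finset.sum_const, Finset.card_range, smul_eq_mul]
    have : n * (T + 7) = n * (T + 4) + 3 * n := by ring
    omega
  have h2 := h1.mono e0
  simpa using h2

/-- Loops in which nothing is read. -/
theorem cat_nil {α : Type} (n : ℕ) : cat n (fun _ => ([] : List α)) = [] :=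
  cat_eq_nil _ fun _ _ => rfl

theorem cat_singleton {α : Type} (n : ℕ) (a : α) : cat n (fun _ => [a]) = List.replicate n a := by
  have := cat_replicate n 1 a
  simpa using this

end Vale.Agent.P338.Lv
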