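import Vale.Agent.P338.Lib
import Vale.Agent.P338.Nums

/-!
# P338: routines for the top level of the transposing machines
-/

namespace Vale.Agent.P338

variable {ι Γ : Type} [DecidableEq ι]

/-! ### Pushing a constant number of symbols -/

/-- Push `n` times the symbol `a` on `i`. -/
def Prog.pushN : ℕ → ι → Γ → Prog ι Γ
  | 0, _, _ => Prog.skip
  | n + 1, i, a => (Prog.pushN n i a).seq (Prog.push i a)

theorem Runs.pushN (n : ℕ) (i : ι) (a : Γ) (s : Store ι Γ) :
    Runs (Prog.pushN n i a) s (Function.update s i (List.replicate n a ++ s i)) (2 * n + 1) := by
  induction n with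
  | zero => exact (Runs.skip s).of_eq (by simp)
  | succ n ih =>
    refine ((ih.seq (Runs.push i a _)).mono (by omega)).of_eq ?_
    funext k
    simp only [Function.update_apply]
    split_ifs <;> simp_all [List.replicate_succ]

/-! ### Moving `n` symbols -/

/-- Move from `x` to `y` as many symbols as there are on `u`. -/
def Prog.movs (u t x y : ι) : Prog ι Γ := Prog.forr u t (Prog.mov x y)

theorem Runs.movs {u t x y : ι} (hut : u ≠ t) (hux : u ≠ x) (huy : u ≠ y) (htx : t ≠ x)
    (hty : t ≠ y) (hxy : x ≠ y) (c : Γ) (s : Store ι Γ) (l₁ l₂ : List Γ)
    (hu : s u = List.replicate l₁.length c) (ht : s t = []) (hx : s x = l₁ ++ l₂) :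
    Runs (Prog.movs u t x y) s
      (Function.update (Function.update s x l₂) y (l₁.reverse ++ s y)) (8 * l₁.length + 1) := by
  have h := Runs.forr' hut (body := Prog.mov x y) l₁.length c
    (fun k => Function.update (Function.update s x (l₁.drop k ++ l₂)) y
      ((l₁.take k).reverse ++ s y)) (fun _ => 1)
    (fun k _ => by rw [Function.update_of_ne huy, Function.update_of_ne hux, hu])
    (fun k _ => by rw [Function.update_of_ne hty, Function.update_of_ne htx, ht])
    (by
      intro k hk l l'
      have hd : l₁.drop k = l₁[k] :: l₁.drop (k + 1) := List.drop_eq_getElem_cons hk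
      have h1 := Runs.mov hxy
        (Function.update (Function.update (Function.update (Function.update s x
          (l₁.drop k ++ l₂)) y ((l₁.take k).reverse ++ s y)) u l) t l')
        (a := l₁[k]) (l := l₁.drop (k + 1) ++ l₂) (by
          rw [Function.update_of_ne htx.symm, Function.update_of_ne hux.symm,
            Function.update_of_ne hxy, Function.update_self, hd, List.cons_append])
      refine h1.of_eq ?_
      have e : (l₁.take (k + 1)).reverse = l₁[k] :: (l₁.take k).reverse := by
        rw [List.take_succ_eq_append_getElem hk, List.reverse_append]; rfl
      funext m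
      simp only [Function.update_apply, e]
      split_ifs <;> simp_all)
  simp only [Finset.sum_const, Finset.card_range, smul_eq_mul] at h
  have e0 : Function.update (Function.update s x (l₁.drop 0 ++ l₂)) y
      ((l₁.take 0).reverse ++ s y) = s := by
    funext m
    simp only [Function.update_apply]
    split_ifs <;> simp_all
  rw [e0] at h
  refine (h.mono (by omega)).of_eq ?_
  simp

/-! ### Counting symbols -/

/-- Reverse `x` onto `y`, pushing `k` symbols `a` on `i` for every symbol of `x`. -/
def Prog.tag (x y : ι) (k : ℕ) (i : ι) (a : Γ) : Prog ι Γ :=
  Prog.loop (nonempty x) ((Prog.mov x y).seq (Prog.pushN k i a))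

theorem Runs.tag {x y i : ι} (hxy : x ≠ y) (hxi : x ≠ i) (hyi : y ≠ i) (k : ℕ) (a : Γ)
    (s : Store ι Γ) :
    Runs (Prog.tag x y k i a) s
      (Function.update (Function.update (Function.update s x []) y ((s x).reverse ++ s y)) i
        (List.replicate (k * (s x).length) a ++ s i))
      ((2 * k + 5) * (s x).length) := by
  induction h : s x generalizing s with
  | nil =>
    refine (Runs.loopF (by simp [h])).of_eq ?_
    funext m
    simp only [Function.update_apply]
    split_ifs <;> simp_all
  | cons b l ih =>
    have h1 := (Runs.mov hxy s h).seq (Runs.pushN k i a _)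
    have h2 := ih (Function.update (Function.update (Function.update s x l) y (b :: s y)) i
      (List.replicate k a ++ s i)) (by
        rw [Function.update_of_ne hxi, Function.update_of_ne hxy, Function.update_self])
    have h3 := Runs.loopT (c := nonempty x) (p := (Prog.mov x y).seq (Prog.pushN k i a))
      (by simp [h]) (h1.of_eq (by
        congr 1
        rw [Function.update_of_ne hyi.symm, Function.update_of_ne hxi.symm])) h2
    refine (h3.mono ?_).of_eq ?_
    · simp only [List.length_cons]
      have : (2 * k + 5) * (l.length + 1) = (2 * k + 5) * l.length + (2 * k + 5) := by ring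
      omega
    · have e : List.replicate (k * (l.length + 1)) a =
          List.replicate (k * l.length) a ++ List.replicate k a := by
        rw [List.replicate_append_replicate]; congr 1
      funext m
      simp only [Function.update_apply, List.length_cons, e, List.append_assoc]
      clear e
      split_ifs <;> simp_all

/-! ### Maximum and differences of numbers in unary -/

/-- Remove the tops of `u` and `v` and push `a` on `w`. -/
def Prog.pop2push (u v w : ι) (a : Γ) : Prog ι Γ :=
  Prog.act fun _ l => if l = u then Op.pop else if l = v then Op.pop
    else if l = w then Op.push a else Op.keep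

theorem Runs.pop2push {u v w : ι} (huw : u ≠ w) (hvw : v ≠ w) (a : Γ)
    (s : Store ι Γ) :
    Runs (Prog.pop2push u v w a) s
      (Function.update (Function.update (Function.update s u (s u).tail) v (s v).tail) w
        (a :: s w)) 1 := by
  refine (Runs.act _ s).of_eq ?_
  funext m
  simp only [Function.update_apply]
  split_ifs <;> simp_all

/-- The maximum of the lengths of `u` and `v` is added to `w`; `u` and `v` become empty. -/
def Prog.maxOnto (u v w : ι) (a : Γ) : Prog ι Γ :=
  Prog.loop (fun tp => (tp u).isSome || (tp v).isSome) (Prog.pop2push u v w a)

theorem Runs.maxOnto {u v w : ι} (huv : u ≠ v) (huw : u ≠ w) (hvw : v ≠ w) (a : Γ)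
    (s : Store ι Γ) :
    Runs (Prog.maxOnto u v w a) s
      (Function.update (Function.update (Function.update s u []) v []) w
        (List.replicate (max (s u).length (s v).length) a ++ s w))
      (3 * max (s u).length (s v).length) := by
  induction h : max (s u).length (s v).length generalizing s with
  | zero =>
    have h1 : s u = [] := List.length_eq_zero_iff.1 (by omega)
    have h2 : s v = [] := List.length_eq_zero_iff.1 (by omega)
    refine (Runs.loopF (by simp [h1, h2])).of_eq ?_
    funext m
    simp only [Function.update_apply]
    split_ifs <;> simp_all
  | succ n ih =>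
    have h1 := Runs.pop2push huw hvw a s
    have h2 := ih (Function.update (Function.update (Function.update s u (s u).tail) v
      (s v).tail) w (a :: s w)) (by
        rw [Function.update_of_ne huw, Function.update_of_ne huv, Function.update_self,
          Function.update_of_ne hvw, Function.update_self]
        simp only [List.length_tail]
        omega)
    have h3 := Runs.loopT (c := fun tp => (tp u).isSome || (tp v).isSome)
      (p := Prog.pop2push u v w a) (by
        simp only [tops_apply, List.isSome_head?, Bool.or_eq_true]
        rcases Nat.eq_zero_or_pos (s u).length with h0 | h0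
        · right
          intro hv
          rw [hv, h0] at h
          simp at h
        · left
          exact List.length_pos_iff.1 h0) h1 h2
    refine (h3.mono (by omega)).of_eq ?_
    have e : List.replicate (n + 1) a = List.replicate n a ++ [a] := by
      rw [List.replicate_succ']
    funext m
    simp only [Function.update_apply, e]
    split_ifs <;> simp_all

/-- Remove symbols from `u` and `v` until one of them is empty. -/
def Prog.subtr (u v : ι) : Prog ι Γ :=
  Prog.loop (fun tp => (tp u).isSome && (tp v).isSome)
    (Prog.act fun _ l => if l = u then Op.pop else if l = v then Op.pop else Op.keep)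

theorem Runs.subtr {u v : ι} (huv : u ≠ v) (s : Store ι Γ) :
    Runs (Prog.subtr u v) s
      (Function.update (Function.update s u ((s u).drop (s v).length)) v
        ((s v).drop (s u).length))
      (3 * min (s u).length (s v).length) := by
  induction h : min (s u).length (s v).length generalizing s with
  | zero =>
    rcases Nat.eq_zero_or_pos (s u).length with h0 | h0
    · have h1 : s u = [] := List.length_eq_zero_iff.1 h0
      refine (Runs.loopF (by simp [h1])).of_eq ?_
      funext m
      simp only [Function.update_apply]
      split_ifs <;> simp_all
    · have h1 : s v = [] := List.length_eq_zero_iff.1 (by omega)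
      refine (Runs.loopF (by simp [h1])).of_eq ?_
      funext m
      simp only [Function.update_apply]
      split_ifs <;> simp_all
  | succ n ih =>
    obtain ⟨b, l, hu⟩ := List.exists_cons_of_length_pos (show 0 < (s u).length by omega)
    obtain ⟨b', l', hv⟩ := List.exists_cons_of_length_pos (show 0 < (s v).length by omega)
    have h1 : Runs (Prog.act fun _ l => if l = u then Op.pop else if l = v then Op.pop
        else Op.keep) s (Function.update (Function.update s u l) v l') 1 := by
      refine (Runs.act _ s).of_eq ?_
      funext m
      simp only [Function.update_apply]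
      split_ifs <;> simp_all
    have h2 := ih (Function.update (Function.update s u l) v l') (by
        rw [Function.update_of_ne huv, Function.update_self, Function.update_self]
        rw [hu, hv] at h
        simp only [List.length_cons] at h
        omega)
    have h3 := Runs.loopT (c := fun tp => (tp u).isSome && (tp v).isSome) (by
        simp [hu, hv]) h1 h2
    refine (h3.mono (by omega)).of_eq ?_
    funext m
    simp only [Function.update_apply]
    split_ifs <;> simp_all

/-! ### Products of numbers in unary -/

/-- Push `k` symbols `a` on `i` for each pair of a symbol of `u` and a symbol of `v`. -/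
def Prog.mulOnto (u t v t' : ι) (k : ℕ) (i : ι) (a : Γ) : Prog ι Γ :=
  Prog.forr u t (Prog.forr v t' (Prog.pushN k i a))

theorem Runs.scaleOnto {v t' i : ι} (hvt : v ≠ t') (hvi : v ≠ i) (hti : t' ≠ i) (k : ℕ)
    (a c : Γ) (s : Store ι Γ) (n : ℕ) (hv : s v = List.replicate n c) (ht : s t' = []) :
    Runs (Prog.forr v t' (Prog.pushN k i a)) s
      (Function.update s i (List.replicate (n * k) a ++ s i)) (n * (2 * k + 8) + 1) := by
  have h := Runs.forr' hvt (body := Prog.pushN k i a) n c
    (fun j => Function.update s i (List.replicate (j * k) a ++ s i)) (fun _ => 2 * k + 1)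
    (fun j _ => by rw [Function.update_of_ne hvi, hv])
    (fun j _ => by rw [Function.update_of_ne hti, ht])
    (by
      intro j hj l l'
      refine (Runs.pushN k i a _).of_eq ?_
      have e : List.replicate ((j + 1) * k) a = List.replicate k a ++
          List.replicate (j * k) a := by
        rw [List.replicate_append_replicate]; congr 1; ring
      funext m
      simp only [Function.update_apply, e, List.append_assoc]
      clear e
      split_ifs <;> simp_all)
  simp only [Finset.sum_const, Finset.card_range, smul_eq_mul] at h
  have e0 : Function.update s i (List.replicate (0 * k) a ++ s i) = s := by simp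
  rw [e0] at h
  refine h.mono ?_
  ring_nf
  omega

theorem Runs.mulOnto {u t v t' i : ι} (hut : u ≠ t) (huv : u ≠ v) (hut' : u ≠ t')
    (hui : u ≠ i) (htv : t ≠ v) (htt' : t ≠ t') (hti : t ≠ i)
    (hvt : v ≠ t') (hvi : v ≠ i) (hti' : t' ≠ i) (k : ℕ)
    (a c c' : Γ) (s : Store ι Γ) (n n' : ℕ) (hu : s u = List.replicate n c)
    (hv : s v = List.replicate n' c') (ht : s t = []) (ht' : s t' = []) :
    Runs (Prog.mulOnto u t v t' k i a) s
      (Function.update s i (List.replicate (n * (n' * k)) a ++ s i))
      (n * (n' * (2 * k + 8) + 8) + 1) := by
  have h := Runs.forr' hut (body := Prog.forr v t' (Prog.pushN k i a)) n c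
    (fun j => Function.update s i (List.replicate (j * (n' * k)) a ++ s i))
    (fun _ => n' * (2 * k + 8) + 1)
    (fun j _ => by rw [Function.update_of_ne hui, hu])
    (fun j _ => by rw [Function.update_of_ne hti, ht])
    (by
      intro j hj l l'
      refine (Runs.scaleOnto hvt hvi hti' k a c' _ n' ?_ ?_).of_eq ?_
      · rw [Function.update_of_ne htv.symm, Function.update_of_ne huv.symm,
          Function.update_of_ne hvi, hv]
      · rw [Function.update_of_ne htt'.symm, Function.update_of_ne hut'.symm,
          Function.update_of_ne hti', ht']
      have e : List.replicate ((j + 1) * (n' * k)) a = List.replicate (n' * k) a ++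
          List.replicate (j * (n' * k)) a := by
        rw [List.replicate_append_replicate]; congr 1; ring
      funext m
      simp only [Function.update_apply, e, List.append_assoc]
      clear e
      split_ifs <;> simp_all)
  simp only [Finset.sum_const, Finset.card_range, smul_eq_mul] at h
  have e0 : Function.update s i (List.replicate (0 * (n' * k)) a ++ s i) = s := by simp
  rw [e0] at h
  refine h.mono ?_
  ring_nf
  omega

/-- Remove from `x` as many symbols as there are on `u`. -/
def Prog.drops (u t x : ι) : Prog ι Γ := Prog.forr u t (Prog.pop x)

theorem Runs.drops {u t x : ι} (hut : u ≠ t) (hux : u ≠ x) (htx : t ≠ x)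
    (c : Γ) (s : Store ι Γ) (l₁ l₂ : List Γ)
    (hu : s u = List.replicate l₁.length c) (ht : s t = []) (hx : s x = l₁ ++ l₂) :
    Runs (Prog.drops u t x) s (Function.update s x l₂) (8 * l₁.length + 1) := by
  have h := Runs.forr' hut (body := Prog.pop x) l₁.length c
    (fun k => Function.update s x (l₁.drop k ++ l₂)) (fun _ => 1)
    (fun k _ => by rw [Function.update_of_ne hux, hu])
    (fun k _ => by rw [Function.update_of_ne htx, ht])
    (by
      intro k hk l l'
      have hd : l₁.drop k = l₁[k] :: l₁.drop (k + 1) := List.drop_eq_getElem_cons hk
      refine (Runs.pop x _).of_eq ?_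
      funext m
      simp only [Function.update_apply, hd, List.cons_append]
      split_ifs <;> simp_all)
  simp only [Finset.sum_const, Finset.card_range, smul_eq_mul] at h
  have e0 : Function.update s x (l₁.drop 0 ++ l₂) = s := by
    funext m
    simp only [Function.update_apply]
    split_ifs <;> simp_all
  rw [e0] at h
  refine (h.mono (by omega)).of_eq ?_
  simp

end Vale.Agent.P338
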