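import Vale.Agent.P338.SSIface
import Vale.Agent.P338.TopLib
import Vale.Agent.P338.Stream

/-!
# P338, third part: the adder, and the specification `SplitSpec`
-/

namespace Vale.Agent.P338.SS

variable {E : Type}

/-! ### Addition of bit lists -/

/-- The sum of `l`, of `m` (only if `f` is true) and of the carry `c`. -/
def addL (f : Bool) : Bool → List Bool → List Bool → List Bool
  | c, a :: l, b :: m =>
    (a ^^ (f && b) ^^ c) :: addL f ((a && (f && b)) || (a && c) || ((f && b) && c)) l m
  | _, [], _ => []
  | _, _ :: _, [] => []

/-- The final carry. -/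
def addB (f : Bool) : Bool → List Bool → List Bool → Bool
  | c, a :: l, b :: m => addB f ((a && (f && b)) || (a && c) || ((f && b) && c)) l m
  | c, [], _ => c
  | c, _ :: _, [] => c

theorem length_addL (f : Bool) (l : List Bool) : ∀ (c : Bool) (m : List Bool),
    l.length = m.length → (addL f c l m).length = l.length := by
  induction l with
  | nil => intro c m _; simp [addL]
  | cons a l ih =>
    intro c m h
    rcases m with _ | ⟨b, m⟩
    · simp at h
    · simp only [addL, List.length_cons]
      rw [ih _ m (by simpa using h)]

theorem natOf_addL (f : Bool) (l : List Bool) : ∀ (c : Bool) (m : List Bool),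
    l.length = m.length →
    natOf (addL f c l m) + 2 ^ l.length * (addB f c l m).toNat =
      natOf l + (if f then natOf m else 0) + c.toNat := by
  induction l with
  | nil =>
    intro c m h
    rcases m with _ | ⟨b, m⟩
    · simp [addL, addB]
    · simp at h
  | cons a l ih =>
    intro c m h
    rcases m with _ | ⟨b, m⟩
    · simp at h
    · have h1 := ih ((a && (f && b)) || (a && c) || ((f && b) && c)) m (by simpa using h)
      simp only [addL, addB, natOf_cons, List.length_cons, pow_succ]
      have e : 2 ^ l.length * 2 * (addB f ((a && (f && b)) || (a && c) || ((f && b) && c)) l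
          m).toNat = 2 * (2 ^ l.length * (addB f ((a && (f && b)) || (a && c) ||
          ((f && b) && c)) l m).toNat) := by ring
      rw [e]
      generalize 2 ^ l.length * (addB f ((a && (f && b)) || (a && c) || ((f && b) && c)) l
          m).toNat = z at *
      generalize natOf (addL f ((a && (f && b)) || (a && c) || ((f && b) && c)) l m) = y at *
      cases f <;> cases a <;> cases b <;> cases c <;> simp at h1 ⊢ <;> omega

/-! ### The adder program -/

/-- The bit on top of a stack. -/
def bitOf : Option (SSym E) → Bool
  | some (Sum.inl (Base.bit b)) => b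
  | _ => false

/-- One step of the addition of `b` to `A`; the sum goes to `T1`, the bits of `b` are saved on
`T2`, the carry is on `C1`, and `b` counts only if `EE` is not empty. -/
def addStep (b : Q) : PQ E :=
  Prog.act fun tp i =>
    let a := bitOf (tp Q.A)
    let f := (tp Q.EE).isSome
    let y := bitOf (tp b)
    let c := (tp Q.C1).isSome
    let c' := (a && (f && y)) || (a && c) || ((f && y) && c)
    if i = Q.A then Op.pop
    else if i = b then Op.pop
    else if i = Q.T1 then Op.push (sb (a ^^ (f && y) ^^ c))
    else if i = Q.T2 then Op.push (sb y)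
    else if i = Q.C1 then (if c' && !c then Op.push mk else if c && !c' then Op.pop else Op.keep)
    else Op.keep

/-- Add `b` to `A` (as long as `A` is not empty). -/
def adder (b : Q) : PQ E := Prog.loop (nonempty Q.A) (addStep b)

/-- A flag. -/
def flg (c : Bool) : List (SSym E) := if c then [mk] else []

theorem runs_addStep {b : Q} (h1 : b ≠ Q.A) (h2 : b ≠ Q.T1) (h3 : b ≠ Q.T2) (h4 : b ≠ Q.C1)
    (s : SQ E) (a y c f : Bool) (l m : List (SSym E))
    (hA : s Q.A = sb a :: l) (hb : s b = sb y :: m) (hC : s Q.C1 = flg c)
    (hE : (s Q.EE).head?.isSome = f) :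
    Runs (addStep b) s (Function.update (Function.update (Function.update (Function.update
      (Function.update s Q.A l) b m) Q.T1 (sb (a ^^ (f && y) ^^ c) :: s Q.T1)) Q.T2
      (sb y :: s Q.T2)) Q.C1 (flg ((a && (f && y)) || (a && c) || ((f && y) && c)))) 1 := by
  refine (Runs.act _ s).of_eq ?_
  have tA : tops s Q.A = some (sb a) := by simp [hA]
  have tb : tops s b = some (sb y) := by simp [hb]
  have tC : (tops s Q.C1).isSome = c := by cases c <;> simp [hC, flg]
  have tE : (tops s Q.EE).isSome = f := by rw [tops_apply]; exact hE
  have bA : bitOf (tops s Q.A) = a := by rw [tA]; rfl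
  have bb : bitOf (tops s b) = y := by rw [tb]; rfl
  funext i
  simp only [bA, bb, tC, tE, Function.update_apply]
  by_cases i1 : i = Q.A
  · subst i1; simp [hA, h1.symm]
  · by_cases i2 : i = b
    · subst i2; simp [hb, h1, h2, h3, h4]
    · by_cases i3 : i = Q.T1
      · subst i3; simp [h2.symm]
      · by_cases i4 : i = Q.T2
        · subst i4; simp [h3.symm]
        · by_cases i5 : i = Q.C1
          · subst i5
            cases a <;> cases y <;> cases c <;> cases f <;> simp [h4.symm, hC, flg]
          · simp [i1, i2, i3, i4, i5]

theorem runs_adder {b : Q} (h1 : b ≠ Q.A) (h2 : b ≠ Q.T1) (h3 : b ≠ Q.T2) (h4 : b ≠ Q.C1)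
    (h5 : b ≠ Q.EE) (f : Bool) (l : List Bool) : ∀ (c : Bool) (m : List Bool) (s : SQ E)
    (rest : List (SSym E)), l.length = m.length → s Q.A = bits l → s b = bits m ++ rest →
    s Q.C1 = flg c → (s Q.EE).head?.isSome = f →
    Runs (adder b) s (Function.update (Function.update (Function.update (Function.update
      (Function.update s Q.A []) b rest) Q.T1 ((bits (addL f c l m)).reverse ++ s Q.T1)) Q.T2
      ((bits m).reverse ++ s Q.T2)) Q.C1 (flg (addB f c l m))) (3 * l.length) := by
  induction l with
  | nil =>
    intro c m s rest hl hA hb hC hE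
    rcases m with _ | ⟨y, m⟩
    · refine (Runs.loopF (by simp [hA, bits])).of_eq ?_
      funext i
      simp only [Function.update_apply]
      split_ifs <;> simp_all [addL, addB, bits]
    · simp at hl
  | cons a l ih =>
    intro c m s rest hl hA hb hC hE
    rcases m with _ | ⟨y, m⟩
    · simp at hl
    · have r1 := runs_addStep h1 h2 h3 h4 s a y c f (bits l) (bits m ++ rest)
        (by simpa [bits] using hA) (by simpa [bits] using hb) hC hE
      have r2 := ih ((a && (f && y)) || (a && c) || ((f && y) && c)) m
        (Function.update (Function.update (Function.update (Function.update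
      (Function.update s Q.A (bits l)) b (bits m ++ rest)) Q.T1
        (sb (a ^^ (f && y) ^^ c) :: s Q.T1)) Q.T2
      (sb y :: s Q.T2)) Q.C1 (flg ((a && (f && y)) || (a && c) || ((f && y) && c)))) rest
        (by simpa using hl) (by simp [h1.symm]) (by simp [h2, h3, h4]) (by simp)
        (by simpa [h5.symm] using hE)
      have r3 := Runs.loopT (c := nonempty Q.A) (p := addStep b) (by simp [hA, bits]) r1 r2
      refine (r3.mono (by simp only [List.length_cons]; omega)).of_eq ?_
      funext i
      simp only [Function.update_apply, addL, addB, bits, List.map_cons, List.reverse_cons,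
        List.append_assoc, List.cons_append, List.nil_append]
      clear r1 r2 r3 ih
      by_cases i5 : i = Q.C1
      · simp [i5]
      · by_cases i4 : i = Q.T2
        · simp [i4]
        · by_cases i3 : i = Q.T1
          · simp [i3]
          · by_cases i2 : i = b
            · simp [i2, h2, h3, h4]
            · by_cases i1 : i = Q.A
              · subst i1; simp [i2]
              · simp [i1, i2, i3, i4, i5]

/-! ### Pieces -/

/-- Push `n * |PP|` zeros on `O`. -/
def zerosP : ℕ → PQ E
  | 0 => Prog.skip
  | n + 1 => (zerosP n).seq (Prog.fill Q.PP (sb false) Q.O Q.F3)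

theorem str_zerosP (n p : ℕ) (s : SQ E) (hP : s Q.PP = una p) (hF : s Q.F3 = []) :
    Lv.Str Q.X Q.O (zerosP n) s [] (bits (List.replicate (n * p) false)) (n * (8 * p + 2) + 1)
    := by
  induction n with
  | zero =>
    intro rest out
    refine (Runs.skip _).of_eq ?_ |>.mono (by omega)
    simp [bits]
  | succ n ih =>
    have h1 : Lv.Str Q.X Q.O (Prog.fill Q.PP (sb false) Q.O Q.F3) s []
        (bits (List.replicate p false)) (8 * p + 1) := by
      intro rest out
      refine (Runs.fill (u := Q.PP) (b := Q.O) (t := Q.F3) (by decide) (by decide)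
        (by decide) (sb false) mk _ p (by simpa [una] using hP) (by simpa using hF)).of_eq ?_
      funext i
      cases i <;> simp [bits]
    refine ((ih.seq h1).mono ?_).of_eq ?_ ?_
    · have : (n + 1) * (8 * p + 2) = n * (8 * p + 2) + (8 * p + 2) := by ring
      omega
    · simp
    · have e : (n + 1) * p = n * p + p := by ring
      rw [e, List.replicate_add]
      simp [bits]

theorem str_movP (p v : ℕ) (s : SQ E) (hP : s Q.PP = una p) (hF : s Q.F3 = []) :
    Lv.Str Q.X Q.O (Prog.movs Q.PP Q.F3 Q.X Q.O) s (bits (bitsOf p v)) (bits (bitsOf p v))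
      (8 * p + 1) := by
  intro rest out
  have l1 : (bits (bitsOf p v) : List (SSym E)).length = p := by simp
  refine ((Runs.movs (u := Q.PP) (t := Q.F3) (x := Q.X) (y := Q.O) (by decide) (by decide)
    (by decide) (by decide) (by decide) (by decide) (mk : SSym E) _ (bits (bitsOf p v)) rest
    (by rw [l1]; simpa [una] using hP) (by simpa using hF) (by simp)).mono
      (by rw [l1])).of_eq ?_
  funext i
  cases i <;> simp

/-- The pieces, padded with zeros. -/
def splitP : PQ E :=
  (Prog.forr Q.HB Q.F1
    ((Prog.forr Q.QQ Q.F2 ((Prog.movs Q.PP Q.F3 Q.X Q.O).seq (zerosP 7))).seq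
      (Prog.forr Q.QQ Q.F2 (zerosP 8)))).seq (Prog.rev Q.O Q.X)

theorem split_spec : SplitSpec (splitP : PQ E) 500 := by
  intro h H p F s hc hH hp hF hHB hQQ hPP hX
  have cO : s Q.O = [] := hc Q.O (by simp [sc])
  have cF1 : s Q.F1 = [] := hc Q.F1 (by simp [sc])
  have cF2 : s Q.F2 = [] := hc Q.F2 (by simp [sc])
  have cF3 : s Q.F3 = [] := hc Q.F3 (by simp [sc])
  have key : ∀ β < h, ∀ l l' : List (SSym E),
      Lv.Str Q.X Q.O
        ((Prog.forr Q.QQ Q.F2 ((Prog.movs Q.PP Q.F3 Q.X Q.O).seq (zerosP 7))).seq
          (Prog.forr Q.QQ Q.F2 (zerosP 8)))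
        (Function.update (Function.update s Q.HB l) Q.F1 l')
        (bits (cat H fun i => bitsOf p (F β i)))
        (bits (cat (2 * H) fun i => bitsOf (8 * p) (if i < H then F β i else 0)))
        (H * (64 * p + 25) + 1 + 1 + (H * (64 * p + 25) + 1)) := by
    intro β _ l l'
    have k1 : ∀ i < H, ∀ m m' : List (SSym E), Lv.Str Q.X Q.O
        ((Prog.movs Q.PP Q.F3 Q.X Q.O).seq (zerosP 7))
        (Function.update (Function.update (Function.update (Function.update s Q.HB l) Q.F1 l')
          Q.QQ m) Q.F2 m')
        (bits (bitsOf p (F β i))) (bits (bitsOf (8 * p) (F β i))) (64 * p + 17) := by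
      intro i _ m m'
      refine (((str_movP p (F β i) _ (by simpa using hPP) (by simpa using cF3)).seq
        (str_zerosP 7 p _ (by simpa using hPP) (by simpa using cF3))).mono (by omega)).of_eq
          (by simp) ?_
      have e : 8 * p = p + 7 * p := by ring
      rw [e, bitsOf_add_zeros (hF β i)]
      simp [bits]
    have k2 : ∀ i < H, ∀ m m' : List (SSym E), Lv.Str Q.X Q.O (zerosP 8)
        (Function.update (Function.update (Function.update (Function.update s Q.HB l) Q.F1 l')
          Q.QQ m) Q.F2 m')
        [] (bits (bitsOf (8 * p) 0)) (64 * p + 17) := by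
      intro i _ m m'
      refine ((str_zerosP 8 p _ (by simpa using hPP) (by simpa using cF3)).mono
        (by omega)).of_eq rfl ?_
      rw [bitsOf_zero]
    have s1 := Lv.Str.forr (u := Q.QQ) (t := Q.F2) (x := Q.X) (o := Q.O) (by decide)
      (by decide) (by decide) (by decide) (by decide)
      (s := Function.update (Function.update s Q.HB l) Q.F1 l') H (mk : SSym E)
      (fun i => bits (bitsOf p (F β i))) (fun i => bits (bitsOf (8 * p) (F β i)))
      (64 * p + 17) (by simpa [una] using hQQ) (by simpa using cF2) k1
    have s2 := Lv.Str.forr (u := Q.QQ) (t := Q.F2) (x := Q.X) (o := Q.O) (by decide)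
      (by decide) (by decide) (by decide) (by decide)
      (s := Function.update (Function.update s Q.HB l) Q.F1 l') H (mk : SSym E)
      (fun _ => []) (fun _ => bits (bitsOf (8 * p) 0))
      (64 * p + 17) (by simpa [una] using hQQ) (by simpa using cF2) k2
    refine ((s1.seq s2).mono ?_).of_eq ?_ ?_
    · have e1 : H * (64 * p + 17 + 7) ≤ H * (64 * p + 25) :=
        Nat.mul_le_mul_left _ (by omega)
      omega
    · rw [Lv.cat_nil, List.append_nil]
      exact (map_cat _ _ _).symm
    · have e2 : 2 * H = H + H := by ring
      have e3 : ∀ l l' : List Bool, (bits (l ++ l') : List (SSym E)) = bits l ++ bits l' := by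
        intro l l'; simp [bits]
      have e4 : ∀ (n : ℕ) (f : ℕ → List Bool), (bits (cat n f) : List (SSym E)) =
          cat n fun i => bits (f i) := fun n f => map_cat _ _ _
      rw [e2, cat_add, e3, e4, e4]
      congr 1
      · exact cat_congr fun i hi => by simp [hi]
      · exact cat_congr fun i hi => by simp
  have s3 := Lv.Str.forr (u := Q.HB) (t := Q.F1) (x := Q.X) (o := Q.O) (by decide)
      (by decide) (by decide) (by decide) (by decide)
      (s := s) h (mk : SSym E)
      (fun β => bits (cat H fun i => bitsOf p (F β i)))
      (fun β => bits (cat (2 * H) fun i => bitsOf (8 * p) (if i < H then F β i else 0)))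
      (H * (64 * p + 25) + 1 + 1 + (H * (64 * p + 25) + 1)) (by simpa [una] using hHB) cF1 key
  have e0 : Function.update (Function.update s Q.X ((cat h fun β => bits (cat H fun i =>
      bitsOf p (F β i))) ++ [])) Q.O [] = s := by
    have : (cat h fun β => bits (cat H fun i => bitsOf p (F β i))) ++ [] = s Q.X := by
      rw [hX, List.append_nil, arr, bits, map_cat]
      rfl
    rw [this, ← cO]
    funext i
    cases i <;> simp
  have r1 := s3 [] []
  rw [e0] at r1
  have r2 := Runs.rev (i := Q.O) (j := Q.X) (by decide) (Function.update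
    (Function.update s Q.X []) Q.O ((cat h fun β => bits (cat (2 * H) fun i =>
      bitsOf (8 * p) (if i < H then F β i else 0))).reverse ++ [] : List (SSym E)))
  refine ((r1.seq r2).mono ?_).of_eq ?_
  · have l1 : ((cat h fun β => bits (cat (2 * H) fun i =>
      bitsOf (8 * p) (if i < H then F β i else 0))) : List (SSym E)).length =
        h * (2 * H * (8 * p)) := by
      refine length_cat_of fun β _ => ?_
      rw [length_bits]
      exact length_cat_of fun i _ => length_bitsOf _ _
    rw [Function.update_self, List.append_nil, List.length_reverse, l1]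
    have e1 : h * (H * (64 * p + 25) + 1 + 1 + (H * (64 * p + 25) + 1) + 7) =
      128 * (h * H * p) + 50 * (h * H) + 10 * h := by ring
    have e2 : h * (2 * H * (8 * p)) = 16 * (h * H * p) := by ring
    rw [e1, e2]
    have d1 : h * H ≤ h * H * p := Nat.le_mul_of_pos_right _ hp
    have d2 : h ≤ h * H := Nat.le_mul_of_pos_right _ hH
    omega
  · have e3 : (cat h fun β => bits (cat (2 * H) fun i =>
      bitsOf (8 * p) (if i < H then F β i else 0)) : List (SSym E)) =
        bits (arr h (2 * H) (8 * p) fun β i => if i < H then F β i else 0) := by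
      rw [arr, bits, map_cat]; rfl
    rw [e3]
    funext i
    cases i <;> simp [cO]

end Vale.Agent.P338.SS
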