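import Vale.Agent.P338.SSBase

/-!
# P338, third part: addition of the coefficients (specification `AsmSpec`)
-/

namespace Vale.Agent.P338.SS

variable {E : Type}

/-! ### Pure part -/

/-- The partial sum. -/
def ps (p : ℕ) (c : ℕ → ℕ) (k : ℕ) : ℕ := ∑ i ∈ Finset.range k, c i * 2 ^ (p * i)

theorem ps_succ (p : ℕ) (c : ℕ → ℕ) (k : ℕ) :
    ps p c (k + 1) = ps p c k + 2 ^ (k * p) * c k := by
  rw [ps, Finset.sum_range_succ, Nat.mul_comm k p, Nat.mul_comm (2 ^ (p * k)) (c k)]
  rfl

theorem ps_succ_div (p : ℕ) (c : ℕ → ℕ) (k : ℕ) :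
    ps p c (k + 1) / 2 ^ (k * p) = ps p c k / 2 ^ (k * p) + c k := by
  rw [ps_succ, Nat.add_mul_div_left _ _ (by positivity)]

theorem ps_next (p : ℕ) (c : ℕ → ℕ) (k : ℕ) :
    ps p c (k + 1) / 2 ^ ((k + 1) * p) = (ps p c k / 2 ^ (k * p) + c k) / 2 ^ p := by
  rw [← ps_succ_div, Nat.div_div_eq_div_mul, ← pow_add, Nat.succ_mul]

theorem ps_div_lt {p : ℕ} (hp : 1 ≤ p) (c : ℕ → ℕ) (K : ℕ) (hc : ∀ i < K, c i < 2 ^ (4 * p))
    (k : ℕ) (hk : k ≤ K) : ps p c k / 2 ^ (k * p) < 2 ^ (4 * p) := by
  induction k with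
  | zero =>
    have : ps p c 0 = 0 := by simp [ps]
    rw [this, Nat.zero_div]
    positivity
  | succ k ih =>
    rw [ps_next, Nat.div_lt_iff_lt_mul (by positivity)]
    have h1 := ih (by omega)
    have h2 := hc k (by omega)
    have h3 : 2 ≤ 2 ^ p := by
      calc 2 = 2 ^ 1 := rfl
        _ ≤ 2 ^ p := Nat.pow_le_pow_right (by norm_num) hp
    have h4 : 2 ^ (4 * p) * 2 ≤ 2 ^ (4 * p) * 2 ^ p := Nat.mul_le_mul_left _ h3
    omega

theorem bitsOf_ps_succ (p : ℕ) (c : ℕ → ℕ) (k : ℕ) :
    bitsOf ((k + 1) * p) (ps p c (k + 1)) = bitsOf (k * p) (ps p c k) ++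
      bitsOf p (ps p c k / 2 ^ (k * p) + c k) := by
  have h1 : bitsOf (k * p) (ps p c (k + 1)) = bitsOf (k * p) (ps p c k) := by
    rw [bitsOf_eq_iff, ps_succ, Nat.add_mul_mod_self_left]
  rw [Nat.succ_mul, bitsOf_add, h1, ps_succ_div]

/-! ### The program -/

theorem runs_adderX (s : SQ E) (x y o v t1 t2 e : List (SSym E)) (f c : Bool) (l m : List Bool)
    (hl : l.length = m.length) (he : e.head?.isSome = f) :
    Runs (adder Q.X) (bst s (bits m ++ x) y o (bits l) v t1 t2 (flg c) e)
      (bst s x y o [] v ((bits (addL f c l m)).reverse ++ t1) ((bits m).reverse ++ t2)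
        (flg (addB f c l m)) e) (3 * l.length) := by
  refine (runs_adder (b := Q.X) (by decide) (by decide) (by decide) (by decide) (by decide)
    f l c m _ x hl rfl (by simp [bst]) rfl he).of_eq ?_
  funext i
  cases i <;> simp [bst]

/-- One coefficient. -/
def asmStep : PQ E :=
  ((adder Q.X).seq (carryP.seq ((Prog.fill Q.PP (sb false) Q.T1 Q.F3).seq
    (Prog.pop Q.T1)))).seq
    ((Prog.rev Q.T1 Q.A).seq ((Prog.clear Q.T2).seq (Prog.movs Q.PP Q.F3 Q.A Q.O)))

theorem runs_asmStep (s : SQ E) (p a v : ℕ) (x y o : List (SSym E)) (hp : 1 ≤ p)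
    (ha : a < 2 ^ (4 * p)) (hv : v < 2 ^ (4 * p)) (hP : s Q.PP = una p) (hF3 : s Q.F3 = []) :
    Runs asmStep (bst s (bits (bitsOf (4 * p) v) ++ x) y o (bits (bitsOf (4 * p) a)) [] [] [] []
        [mk])
      (bst s x y ((bits (bitsOf p (a + v))).reverse ++ o)
        (bits (bitsOf (4 * p) ((a + v) / 2 ^ p))) [] [] [] [] [mk])
      (60 * p + 20) := by
  have r1 := runs_adderX s x y o [] [] [] [mk] true false (bitsOf (4 * p) a) (bitsOf (4 * p) v)
    (by simp) rfl
  have r2 := runs_carryP s (addB true false (bitsOf (4 * p) a) (bitsOf (4 * p) v)) x y o [] []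
    ((bits (addL true false (bitsOf (4 * p) a) (bitsOf (4 * p) v))).reverse ++ [])
    ((bits (bitsOf (4 * p) v)).reverse ++ []) [mk]
  have e1 : (sb (addB true false (bitsOf (4 * p) a) (bitsOf (4 * p) v)) ::
      ((bits (addL true false (bitsOf (4 * p) a) (bitsOf (4 * p) v))).reverse ++ []) :
        List (SSym E)) = (bits (bitsOf (4 * p + 1) (a + v))).reverse := by
    have := addL_bitsOf true ha hv
    simp only [if_true] at this
    rw [← this]
    simp [bits]
  have r3 := Runs.fill (u := Q.PP) (b := Q.T1) (t := Q.F3) (by decide) (by decide) (by decide)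
    (sb false) (mk : SSym E)
    (bst s x y o [] [] (bits (bitsOf (4 * p + 1) (a + v))).reverse
      (bits (bitsOf (4 * p) v)).reverse [] [mk]) p
    (by simpa [bst, una] using hP) (by simpa [bst] using hF3)
  have r4 := Runs.pop Q.T1 (bst s x y o [] [] (List.replicate p (sb false) ++
    (bits (bitsOf (4 * p + 1) (a + v))).reverse) (bits (bitsOf (4 * p) v)).reverse [] [mk])
  have e2 : (List.replicate p (sb false) ++
      (bits (bitsOf (4 * p + 1) (a + v))).reverse : List (SSym E)).tail =
      (bits (bitsOf (5 * p) (a + v))).reverse := by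
    obtain ⟨d, rfl⟩ : ∃ d, p = d + 1 := ⟨p - 1, by omega⟩
    have e3 : 5 * (d + 1) = (4 * (d + 1) + 1) + d := by ring
    have e4 : a + v < 2 ^ (4 * (d + 1) + 1) := by
      rw [pow_succ]; omega
    rw [e3, bitsOf_add_zeros e4]
    simp [bits, List.replicate_succ]
  have r5 := Runs.rev (i := Q.T1) (j := Q.A) (by decide) (bst s x y o [] []
    (bits (bitsOf (5 * p) (a + v))).reverse (bits (bitsOf (4 * p) v)).reverse [] [mk])
  have r6 := Runs.clear Q.T2 (bst s x y o (bits (bitsOf (5 * p) (a + v))) []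
    [] (bits (bitsOf (4 * p) v)).reverse [] [mk])
  have e5 : (bits (bitsOf (5 * p) (a + v)) : List (SSym E)) =
      bits (bitsOf p (a + v)) ++ bits (bitsOf (4 * p) ((a + v) / 2 ^ p)) := by
    have : 5 * p = p + 4 * p := by ring
    rw [this, bitsOf_add]
    simp [bits]
  have r7 := Runs.movs (u := Q.PP) (t := Q.F3) (x := Q.A) (y := Q.O) (by decide) (by decide)
    (by decide) (by decide) (by decide) (by decide) (mk : SSym E)
    (bst s x y o (bits (bitsOf (5 * p) (a + v))) [] [] [] [] [mk])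
    (bits (bitsOf p (a + v))) (bits (bitsOf (4 * p) ((a + v) / 2 ^ p)))
    (by simpa [bst, una] using hP) (by simpa [bst] using hF3) (by simpa [bst] using e5)
  have q1 := (runs_start r1 (s₀ := bst s (bits (bitsOf (4 * p) v) ++ x) y o
      (bits (bitsOf (4 * p) a)) [] [] [] [] [mk]) (by simp [flg])).seq ((r2.of_eq
      (s'' := bst s x y o [] [] (bits (bitsOf (4 * p + 1) (a + v))).reverse
      (bits (bitsOf (4 * p) v)).reverse [] [mk]) (by rw [e1, List.append_nil])).seq
      ((r3.of_eq (s'' := bst s x y o [] [] (List.replicate p (sb false) ++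
    (bits (bitsOf (4 * p + 1) (a + v))).reverse) (bits (bitsOf (4 * p) v)).reverse [] [mk]) (by
      funext i
      cases i <;> simp [bst])).seq (r4.of_eq (s'' := bst s x y o [] []
      (bits (bitsOf (5 * p) (a + v))).reverse (bits (bitsOf (4 * p) v)).reverse [] [mk]) (by
      rw [← e2]
      funext i
      cases i <;> simp [bst]))))
  have q2 := (r5.of_eq (s'' := bst s x y o (bits (bitsOf (5 * p) (a + v))) []
    [] (bits (bitsOf (4 * p) v)).reverse [] [mk]) (by
      funext i
      cases i <;> simp [bst])).seq ((r6.of_eq (s'' := bst s x y o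
        (bits (bitsOf (5 * p) (a + v))) [] [] [] [] [mk]) (by
      funext i
      cases i <;> simp [bst])).seq (r7.of_eq (s'' := bst s x y
        ((bits (bitsOf p (a + v))).reverse ++ o)
        (bits (bitsOf (4 * p) ((a + v) / 2 ^ p))) [] [] [] [] [mk]) (by
      funext i
      cases i <;> simp [bst])))
  refine (q1.seq q2).mono ?_
  simp only [bst, List.length_reverse, length_bits, length_bitsOf]
  omega

/-- One number. -/
def asmOne : PQ E :=
  ((Prog.fill Q.DD (sb false) Q.A Q.F3).seq (Prog.push Q.EE mk)).seq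
    ((Prog.forr Q.QQ Q.F2 asmStep).seq ((Prog.clear Q.A).seq (Prog.pop Q.EE)))

theorem runs_asmLoop (s : SQ E) (K p : ℕ) (c : ℕ → ℕ) (X Y O : List (SSym E)) (hp : 1 ≤ p)
    (hc : ∀ i < K, c i < 2 ^ (4 * p)) (hQ : s Q.QQ = una K) (hP : s Q.PP = una p)
    (hF2 : s Q.F2 = []) (hF3 : s Q.F3 = []) :
    Runs (Prog.forr Q.QQ Q.F2 asmStep)
      (bst s (bits (cat K fun i => bitsOf (4 * p) (c i)) ++ X) Y O (bits (bitsOf (4 * p) 0))
        [] [] [] [] [mk])
      (bst s X Y ((bits (bitsOf (K * p) (ps p c K))).reverse ++ O)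
        (bits (bitsOf (4 * p) (ps p c K / 2 ^ (K * p)))) [] [] [] [] [mk])
      (K * (60 * p + 27) + 1) := by
  have h := Runs.forr' (u := Q.QQ) (t := Q.F2) (by decide) (body := asmStep) K (mk : SSym E)
    (fun k => bst s (bits (cat (K - k) fun i => bitsOf (4 * p) (c (k + i))) ++ X) Y
      ((bits (bitsOf (k * p) (ps p c k))).reverse ++ O)
      (bits (bitsOf (4 * p) (ps p c k / 2 ^ (k * p)))) [] [] [] [] [mk]) (fun _ => 60 * p + 20)
    (fun k _ => by simpa [bst, una] using hQ)
    (fun k _ => by simpa [bst] using hF2)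
    (by
      intro k hk l l'
      rw [bst_upd2 _ _ _ _ _ _ _ _ _ _ _ _ (by simp) (by simp),
        bst_upd2 _ _ _ _ _ _ _ _ _ _ _ _ (by simp) (by simp)]
      have h1 := runs_asmStep (Function.update (Function.update s Q.QQ l) Q.F2 l') p
        (ps p c k / 2 ^ (k * p)) (c k)
        (bits (cat (K - (k + 1)) fun i => bitsOf (4 * p) (c (k + 1 + i))) ++ X) Y
        ((bits (bitsOf (k * p) (ps p c k))).reverse ++ O) hp (ps_div_lt hp c K hc k hk.le)
        (hc k hk) (by simpa using hP) (by simpa using hF3)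
      have e1 : (bits (cat (K - k) fun i => bitsOf (4 * p) (c (k + i))) ++ X : List (SSym E)) =
          bits (bitsOf (4 * p) (c k)) ++
            (bits (cat (K - (k + 1)) fun i => bitsOf (4 * p) (c (k + 1 + i))) ++ X) := by
        obtain ⟨d, hd⟩ : ∃ d, K - k = d + 1 := ⟨K - k - 1, by omega⟩
        have hd' : K - (k + 1) = d := by omega
        rw [hd, hd', cat_succ']
        simp only [Nat.add_zero, bits, List.map_append, List.append_assoc]
        congr 3
        exact cat_congr fun i _ => by rw [Nat.add_right_comm, Nat.add_assoc]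
      have e2 : ((bits (bitsOf p (ps p c k / 2 ^ (k * p) + c k))).reverse ++
          ((bits (bitsOf (k * p) (ps p c k))).reverse ++ O) : List (SSym E)) =
          (bits (bitsOf ((k + 1) * p) (ps p c (k + 1)))).reverse ++ O := by
        rw [bitsOf_ps_succ]
        simp [bits]
      rw [← e1, e2, ← ps_next] at h1
      exact h1)
  refine runs_start ((h.mono ?_).of_eq ?_) ?_
  · simp only [Finset.sum_const, Finset.card_range, smul_eq_mul]
    ring_nf
    omega
  · simp [bits]
  · simp [ps, bits]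

theorem runs_asmOne (s : SQ E) (K p : ℕ) (c : ℕ → ℕ) (X Y O : List (SSym E)) (hp : 1 ≤ p)
    (hc : ∀ i < K, c i < 2 ^ (4 * p)) (hQ : s Q.QQ = una K) (hP : s Q.PP = una p)
    (hD : s Q.DD = una (4 * p))
    (hF2 : s Q.F2 = []) (hF3 : s Q.F3 = []) :
    Runs asmOne
      (bst s (bits (cat K fun i => bitsOf (4 * p) (c i)) ++ X) Y O [] [] [] [] [] [])
      (bst s X Y ((bits (bitsOf (K * p) (ps p c K))).reverse ++ O) [] [] [] [] [] [])
      (K * (60 * p + 27) + 44 * p + 10) := by
  have r1 := Runs.fill (u := Q.DD) (b := Q.A) (t := Q.F3) (by decide) (by decide) (by decide)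
    (sb false) (mk : SSym E)
    (bst s (bits (cat K fun i => bitsOf (4 * p) (c i)) ++ X) Y O [] [] [] [] [] []) (4 * p)
    (by simpa [bst, una] using hD) (by simpa [bst] using hF3)
  have r2 := Runs.push Q.EE (mk : SSym E)
    (bst s (bits (cat K fun i => bitsOf (4 * p) (c i)) ++ X) Y O (bits (bitsOf (4 * p) 0))
      [] [] [] [] [])
  have r3 := runs_asmLoop s K p c X Y O hp hc hQ hP hF2 hF3
  have r4 := Runs.clear Q.A (bst s X Y ((bits (bitsOf (K * p) (ps p c K))).reverse ++ O)
        (bits (bitsOf (4 * p) (ps p c K / 2 ^ (K * p)))) [] [] [] [] [mk])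
  have r5 := Runs.pop Q.EE (bst s X Y ((bits (bitsOf (K * p) (ps p c K))).reverse ++ O)
        [] [] [] [] [] [mk])
  have q1 := (r1.of_eq (s'' := bst s (bits (cat K fun i => bitsOf (4 * p) (c i)) ++ X) Y O
      (bits (bitsOf (4 * p) 0)) [] [] [] [] []) (by
    rw [bitsOf_zero]
    funext i
    cases i <;> simp [bst, bits])).seq (r2.of_eq (s'' := bst s
      (bits (cat K fun i => bitsOf (4 * p) (c i)) ++ X) Y O (bits (bitsOf (4 * p) 0))
      [] [] [] [] [mk]) (by
    funext i
    cases i <;> simp [bst]))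
  have q2 := r3.seq ((r4.of_eq (s'' := bst s X Y
      ((bits (bitsOf (K * p) (ps p c K))).reverse ++ O) [] [] [] [] [] [mk]) (by
    funext i
    cases i <;> simp [bst])).seq (r5.of_eq (s'' := bst s X Y
      ((bits (bitsOf (K * p) (ps p c K))).reverse ++ O) [] [] [] [] [] []) (by
    funext i
    cases i <;> simp [bst])))
  refine (q1.seq q2).mono ?_
  simp only [bst, length_bits, length_bitsOf]
  omega

/-- All numbers. -/
def asmP : PQ E := (Prog.forr Q.HB Q.F1 asmOne).seq (Prog.rev Q.O Q.X)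

theorem asm_spec : AsmSpec (asmP : PQ E) 200 := by
  intro h K p c s hcl hK hp hc _ hHB hQQ hDD hPP hX
  have cO : s Q.O = [] := hcl Q.O (by simp [sc])
  have cA : s Q.A = [] := hcl Q.A (by simp [sc])
  have cV : s Q.V = [] := hcl Q.V (by simp [sc])
  have cT1 : s Q.T1 = [] := hcl Q.T1 (by simp [sc])
  have cT2 : s Q.T2 = [] := hcl Q.T2 (by simp [sc])
  have cC1 : s Q.C1 = [] := hcl Q.C1 (by simp [sc])
  have cEE : s Q.EE = [] := hcl Q.EE (by simp [sc])
  have cF1 : s Q.F1 = [] := hcl Q.F1 (by simp [sc])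
  have cF2 : s Q.F2 = [] := hcl Q.F2 (by simp [sc])
  have cF3 : s Q.F3 = [] := hcl Q.F3 (by simp [sc])
  have r1 := Runs.forr' (u := Q.HB) (t := Q.F1) (by decide) (body := asmOne) h (mk : SSym E)
    (fun k => bst s (bits (cat (h - k) fun j => cat K fun i => bitsOf (4 * p) (c (k + j) i)))
      (s Q.Y) (bits (cat k fun j => bitsOf (K * p) (ps p (c j) K))).reverse [] [] [] [] [] [])
    (fun _ => K * (60 * p + 27) + 44 * p + 10)
    (fun k _ => by simpa [bst, una] using hHB)
    (fun k _ => by simpa [bst] using cF1)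
    (by
      intro k hk l l'
      rw [bst_upd2 _ _ _ _ _ _ _ _ _ _ _ _ (by simp) (by simp),
        bst_upd2 _ _ _ _ _ _ _ _ _ _ _ _ (by simp) (by simp)]
      have h1 := runs_asmOne (Function.update (Function.update s Q.HB l) Q.F1 l') K p (c k)
        (bits (cat (h - (k + 1)) fun j => cat K fun i => bitsOf (4 * p) (c (k + 1 + j) i)))
        (s Q.Y) (bits (cat k fun j => bitsOf (K * p) (ps p (c j) K))).reverse hp (hc k hk)
        (by simpa using hQQ) (by simpa using hPP) (by simpa using hDD)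
        (by simpa using cF2) (by simpa using cF3)
      have e1 : (bits (cat (h - k) fun j => cat K fun i => bitsOf (4 * p) (c (k + j) i)) :
          List (SSym E)) = bits (cat K fun i => bitsOf (4 * p) (c k i)) ++
            bits (cat (h - (k + 1)) fun j => cat K fun i => bitsOf (4 * p) (c (k + 1 + j) i)) := by
        obtain ⟨d, hd⟩ : ∃ d, h - k = d + 1 := ⟨h - k - 1, by omega⟩
        have hd' : h - (k + 1) = d := by omega
        rw [hd, hd', cat_succ']
        simp only [Nat.add_zero, bits, List.map_append]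
        congr 2
        exact cat_congr fun i _ => by rw [Nat.add_right_comm, Nat.add_assoc]
      have e2 : (bits (cat (k + 1) fun j => bitsOf (K * p) (ps p (c j) K)) :
          List (SSym E)).reverse = (bits (bitsOf (K * p) (ps p (c k) K))).reverse ++
            (bits (cat k fun j => bitsOf (K * p) (ps p (c j) K))).reverse := by
        rw [cat_succ]
        simp [bits]
      rw [e1, e2]
      exact h1)
  have r2 := Runs.rev (i := Q.O) (j := Q.X) (by decide) (bst s [] (s Q.Y)
      (bits (cat h fun j => bitsOf (K * p) (ps p (c j) K))).reverse [] [] [] [] [] [])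
  have q := (runs_start (r1.of_eq (s'' := bst s [] (s Q.Y)
      (bits (cat h fun j => bitsOf (K * p) (ps p (c j) K))).reverse [] [] [] [] [] []) (by
      simp [bits])) (s₀ := s) (by
      funext i
      cases i <;> simp [bst, hX, arr, cO, cA, cV, cT1, cT2, cC1, cEE, bits])).seq r2
  refine (q.mono ?_).of_eq ?_
  · have l1 : (cat h fun j => bitsOf (K * p) (ps p (c j) K)).length = h * (K * p) :=
      length_cat_of fun i _ => length_bitsOf _ _
    simp only [bst, List.length_reverse, length_bits, l1, Finset.sum_const, Finset.card_range,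
      smul_eq_mul]
    have e1 : h * (K * (60 * p + 27) + 44 * p + 10 + 4) = 60 * (h * K * p) + 27 * (h * K) +
      44 * (h * p) + 14 * h := by ring
    have e2 : 3 * (h * (K * p)) = 3 * (h * K * p) := by ring
    rw [e1, e2]
    have d1 : h * K ≤ h * K * p := Nat.le_mul_of_pos_right _ hp
    have d2 : h ≤ h * K := Nat.le_mul_of_pos_right _ hK
    have d3 : h * p ≤ h * K * p := Nat.mul_le_mul_right _ d2
    omega
  · have e3 : (arr h 1 (K * p) fun β _ => ∑ i ∈ Finset.range K, c β i * 2 ^ (p * i)) =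
        cat h fun j => bitsOf (K * p) (ps p (c j) K) :=
      cat_congr fun i _ => cat_one _
    rw [e3]
    funext i
    cases i <;> simp [bst, cO, cA, cV, cT1, cT2, cC1, cEE]

end Vale.Agent.P338.SS
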