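import Vale.Agent.P338.SSAdd

/-!
# P338, third part: the school method (specification `BaseSpec`)
-/

namespace Vale.Agent.P338.SS

variable {E : Type}

/-! ### Pure part -/

theorem addL_bitsOf {S a y : ℕ} (f : Bool) (ha : a < 2 ^ S) (hy : y < 2 ^ S) :
    addL f false (bitsOf S a) (bitsOf S y) ++ [addB f false (bitsOf S a) (bitsOf S y)] =
      bitsOf (S + 1) (a + if f then y else 0) := by
  have hl : (bitsOf S a).length = (bitsOf S y).length := by simp
  apply natOf_inj
  · rw [List.length_append, length_addL _ _ _ _ hl]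
    simp
  · have h := natOf_addL f (bitsOf S a) false (bitsOf S y) hl
    rw [natOf_append, length_addL _ _ _ _ hl]
    rw [length_bitsOf, natOf_bitsOf_of_lt ha, natOf_bitsOf_of_lt hy] at h
    rw [length_bitsOf, natOf_bitsOf_of_lt]
    · simp only [natOf_cons, natOf_nil]
      simp only [Bool.toNat_false] at h
      omega
    · rw [pow_succ]
      split_ifs <;> omega

/-- The partial product. -/
def pp (x y k : ℕ) : ℕ := x % 2 ^ k * y

theorem pp_zero (x y : ℕ) : pp x y 0 = 0 := by simp [pp, Nat.mod_one]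

theorem pp_full {x y S : ℕ} (hx : x < 2 ^ S) : pp x y S = x * y := by
  rw [pp, Nat.mod_eq_of_lt hx]

theorem pp_succ (x y k : ℕ) :
    pp x y (k + 1) = pp x y k + 2 ^ k * (if x.testBit k then y else 0) := by
  have h : x % 2 ^ (k + 1) = x % 2 ^ k + 2 ^ k * (x.testBit k).toNat := by
    rw [pow_succ, Nat.mod_mul, Nat.testBit_eq_decide_div_mod_eq]
    congr 2
    rcases Nat.mod_two_eq_zero_or_one (x / 2 ^ k) with h | h <;> simp [h]
  rw [pp, pp, h, Nat.add_mul]
  cases x.testBit k <;> simp

theorem pp_div_lt {x y S k : ℕ} (hy : y < 2 ^ S) : pp x y k / 2 ^ k < 2 ^ S := by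
  rw [Nat.div_lt_iff_lt_mul (by positivity), pp]
  have h1 : x % 2 ^ k < 2 ^ k := Nat.mod_lt _ (by positivity)
  calc x % 2 ^ k * y ≤ x % 2 ^ k * 2 ^ S := Nat.mul_le_mul_left _ hy.le
    _ < 2 ^ k * 2 ^ S := Nat.mul_lt_mul_of_pos_right h1 (by positivity)
    _ = 2 ^ S * 2 ^ k := Nat.mul_comm _ _

theorem pp_succ_div (x y k : ℕ) :
    pp x y (k + 1) / 2 ^ k = pp x y k / 2 ^ k + if x.testBit k then y else 0 := by
  rw [pp_succ, Nat.add_mul_div_left _ _ (by positivity)]

theorem bitsOf_pp_succ (x y k : ℕ) :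
    bitsOf (k + 1) (pp x y (k + 1)) = bitsOf k (pp x y k) ++
      [(pp x y k / 2 ^ k + if x.testBit k then y else 0).testBit 0] := by
  have h1 : bitsOf k (pp x y (k + 1)) = bitsOf k (pp x y k) := by
    rw [bitsOf_eq_iff, pp_succ, Nat.add_mul_mod_self_left]
  have h2 : (pp x y (k + 1)).testBit k =
      (pp x y k / 2 ^ k + if x.testBit k then y else 0).testBit 0 := by
    rw [← pp_succ_div, Nat.testBit_div_two_pow, Nat.zero_add]
  rw [bitsOf_succ_right, h1, h2]

theorem pp_next (x y k : ℕ) :
    pp x y (k + 1) / 2 ^ (k + 1) =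
      (pp x y k / 2 ^ k + if x.testBit k then y else 0) / 2 := by
  rw [← pp_succ_div, Nat.div_div_eq_div_mul, ← pow_succ]

theorem bitsOf_prod {x y S : ℕ} (hx : x < 2 ^ S) :
    bitsOf (2 * S) (x * y) = bitsOf S (pp x y S) ++ bitsOf S (pp x y S / 2 ^ S) := by
  rw [pp_full hx, Nat.two_mul, bitsOf_add]

/-! ### The stores -/

theorem runs_start {ι Γ : Type} {p : Prog ι Γ} {s s₀ s' : Store ι Γ} {t : ℕ}
    (h : Runs p s s' t) (hs : s = s₀) : Runs p s₀ s' t := hs ▸ h

/-- The stores during the school method. -/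
def bst (s : SQ E) (x y o a v t1 t2 c e : List (SSym E)) : SQ E := fun r =>
  match r with
  | Q.X => x
  | Q.Y => y
  | Q.O => o
  | Q.A => a
  | Q.V => v
  | Q.T1 => t1
  | Q.T2 => t2
  | Q.C1 => c
  | Q.EE => e
  | r => s r

theorem runs_adderV (s : SQ E) (x y o t1 t2 e : List (SSym E)) (f c : Bool) (l m : List Bool)
    (hl : l.length = m.length) (he : e.head?.isSome = f) :
    Runs (adder Q.V) (bst s x y o (bits l) (bits m) t1 t2 (flg c) e)
      (bst s x y o [] [] ((bits (addL f c l m)).reverse ++ t1) ((bits m).reverse ++ t2)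
        (flg (addB f c l m)) e) (3 * l.length) := by
  refine (runs_adder (b := Q.V) (by decide) (by decide) (by decide) (by decide) (by decide)
    f l c m _ [] hl rfl (by simp [bst]) rfl he).of_eq ?_
  funext i
  cases i <;> simp [bst]

/-- Fetch a bit of `X`. -/
def fetch : PQ E :=
  Prog.act fun tp i =>
    if i = Q.X then Op.pop
    else if i = Q.EE then (if bitOf (tp Q.X) then Op.push mk else Op.keep)
    else Op.keep

theorem runs_fetch (s : SQ E) (b : Bool) (x y o a v t1 t2 c : List (SSym E)) :
    Runs fetch (bst s (sb b :: x) y o a v t1 t2 c []) (bst s x y o a v t1 t2 c (flg b)) 1 := by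
  refine (Runs.act _ _).of_eq ?_
  funext i
  cases i <;> cases b <;> simp [bst, flg, bitOf, sb]

/-- Put the carry on `T1`. -/
def carryP : PQ E :=
  Prog.act fun tp i =>
    if i = Q.T1 then Op.push (sb (tp Q.C1).isSome)
    else if i = Q.C1 then Op.pop
    else Op.keep

theorem runs_carryP (s : SQ E) (b : Bool) (x y o a v t1 t2 e : List (SSym E)) :
    Runs carryP (bst s x y o a v t1 t2 (flg b) e) (bst s x y o a v (sb b :: t1) t2 [] e) 1 := by
  refine (Runs.act _ _).of_eq ?_
  funext i
  cases i <;> cases b <;> simp [bst, flg]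

/-- One bit of `X`. -/
def baseStep : PQ E :=
  (fetch.seq ((adder Q.V).seq (carryP.seq (Prog.pop Q.EE)))).seq
    ((Prog.rev Q.T2 Q.V).seq ((Prog.rev Q.T1 Q.A).seq (Prog.mov Q.A Q.O)))

theorem runs_baseStep (s : SQ E) (S a v : ℕ) (b : Bool) (x y o : List (SSym E))
    (ha : a < 2 ^ S) (hv : v < 2 ^ S) :
    Runs baseStep (bst s (sb b :: x) y o (bits (bitsOf S a)) (bits (bitsOf S v)) [] [] [] [])
      (bst s x y (sb ((a + if b then v else 0).testBit 0) :: o)
        (bits (bitsOf S ((a + if b then v else 0) / 2))) (bits (bitsOf S v)) [] [] [] [])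
      (9 * S + 13) := by
  have r1 := runs_fetch s b x y o (bits (bitsOf S a)) (bits (bitsOf S v)) [] [] []
  have r2 := runs_adderV s x y o [] [] (flg b) b false (bitsOf S a) (bitsOf S v) (by simp)
    (by cases b <;> simp [flg])
  have r3 := runs_carryP s (addB b false (bitsOf S a) (bitsOf S v)) x y o [] []
    ((bits (addL b false (bitsOf S a) (bitsOf S v))).reverse ++ [])
    ((bits (bitsOf S v)).reverse ++ []) (flg b)
  have r4 := Runs.pop Q.EE (bst s x y o [] []
    (sb (addB b false (bitsOf S a) (bitsOf S v)) ::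
      ((bits (addL b false (bitsOf S a) (bitsOf S v))).reverse ++ []))
    ((bits (bitsOf S v)).reverse ++ []) [] (flg b))
  have r5 := Runs.rev (i := Q.T2) (j := Q.V) (by decide) (bst s x y o [] []
    (sb (addB b false (bitsOf S a) (bitsOf S v)) ::
      ((bits (addL b false (bitsOf S a) (bitsOf S v))).reverse ++ []))
    ((bits (bitsOf S v)).reverse ++ []) [] [])
  have e1 : (sb (addB b false (bitsOf S a) (bitsOf S v)) ::
      ((bits (addL b false (bitsOf S a) (bitsOf S v))).reverse ++ []) : List (SSym E)) =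
      (bits (bitsOf (S + 1) (a + if b then v else 0))).reverse := by
    rw [← addL_bitsOf b ha hv]
    simp [bits]
  have r6 := Runs.rev (i := Q.T1) (j := Q.A) (by decide) (bst s x y o [] (bits (bitsOf S v))
    (bits (bitsOf (S + 1) (a + if b then v else 0))).reverse [] [] [])
  have r7 := Runs.mov (i := Q.A) (j := Q.O) (by decide) (bst s x y o
    (bits (bitsOf (S + 1) (a + if b then v else 0))) (bits (bitsOf S v)) [] [] [] [])
    (a := sb ((a + if b then v else 0).testBit 0))
    (l := bits (bitsOf S ((a + if b then v else 0) / 2))) (by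
      show bits (bitsOf (S + 1) (a + if b then v else 0)) = _
      rw [bitsOf_succ]
      rfl)
  have q1 := r1.seq ((r2.of_eq (by simp [flg])).seq (r3.seq (r4.of_eq (s'' := bst s x y o [] []
    (sb (addB b false (bitsOf S a) (bitsOf S v)) ::
      ((bits (addL b false (bitsOf S a) (bitsOf S v))).reverse ++ []))
    ((bits (bitsOf S v)).reverse ++ []) [] []) (by
      funext i
      cases i <;> cases b <;> simp [bst, flg]))))
  have q2 := (r5.of_eq (s'' := bst s x y o [] (bits (bitsOf S v))
    (bits (bitsOf (S + 1) (a + if b then v else 0))).reverse [] [] []) (by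
      rw [e1]
      funext i
      cases i <;> simp [bst])).seq ((r6.of_eq (s'' := bst s x y o
    (bits (bitsOf (S + 1) (a + if b then v else 0))) (bits (bitsOf S v)) [] [] [] []) (by
      funext i
      cases i <;> simp [bst])).seq (r7.of_eq (s'' := bst s x y
        (sb ((a + if b then v else 0).testBit 0) :: o)
        (bits (bitsOf S ((a + if b then v else 0) / 2))) (bits (bitsOf S v)) [] [] [] []) (by
      funext i
      cases i <;> simp [bst])))
  refine (q1.seq q2).mono ?_
  simp only [bst, List.append_nil, List.length_reverse, length_bits, length_bitsOf]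
  omega

theorem bst_upd2 (s : SQ E) (x y o a v t1 t2 c e l l' : List (SSym E)) {u w : Q}
    (hu : u ∈ [Q.WW, Q.HB, Q.QQ]) (hw : w ∈ [Q.F1, Q.F2, Q.F3]) :
    Function.update (Function.update (bst s x y o a v t1 t2 c e) u l) w l' =
      bst (Function.update (Function.update s u l) w l') x y o a v t1 t2 c e := by
  simp only [List.mem_cons, List.not_mem_nil, or_false] at hu hw
  funext i
  rcases hu with rfl | rfl | rfl <;> rcases hw with rfl | rfl | rfl <;> cases i <;> simp [bst]

theorem runs_baseLoop (s : SQ E) (S x v : ℕ) (X Y O : List (SSym E))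
    (hv : v < 2 ^ S) (hW : s Q.WW = una S) (hF2 : s Q.F2 = []) :
    Runs (Prog.forr Q.WW Q.F2 baseStep)
      (bst s (bits (bitsOf S x) ++ X) Y O (bits (bitsOf S 0)) (bits (bitsOf S v)) [] [] [] [])
      (bst s X Y ((bits (bitsOf S (pp x v S))).reverse ++ O)
        (bits (bitsOf S (pp x v S / 2 ^ S))) (bits (bitsOf S v)) [] [] [] [])
      (S * (9 * S + 20) + 1) := by
  have h := Runs.forr' (u := Q.WW) (t := Q.F2) (by decide) (body := baseStep) S (mk : SSym E)
    (fun k => bst s (bits (bitsOf (S - k) (x / 2 ^ k)) ++ X) Y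
      ((bits (bitsOf k (pp x v k))).reverse ++ O) (bits (bitsOf S (pp x v k / 2 ^ k)))
      (bits (bitsOf S v)) [] [] [] []) (fun _ => 9 * S + 13)
    (fun k _ => by simpa [bst, una] using hW)
    (fun k _ => by simpa [bst] using hF2)
    (by
      intro k hk l l'
      rw [bst_upd2 _ _ _ _ _ _ _ _ _ _ _ _ (by simp) (by simp),
        bst_upd2 _ _ _ _ _ _ _ _ _ _ _ _ (by simp) (by simp)]
      have h1 := runs_baseStep (Function.update (Function.update s Q.WW l) Q.F2 l') S
        (pp x v k / 2 ^ k) v (x.testBit k) (bits (bitsOf (S - (k + 1)) (x / 2 ^ (k + 1))) ++ X) Y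
        ((bits (bitsOf k (pp x v k))).reverse ++ O) (pp_div_lt hv) hv
      have e1 : (bits (bitsOf (S - k) (x / 2 ^ k)) ++ X : List (SSym E)) =
          sb (x.testBit k) :: (bits (bitsOf (S - (k + 1)) (x / 2 ^ (k + 1))) ++ X) := by
        obtain ⟨d, hd⟩ : ∃ d, S - k = d + 1 := ⟨S - k - 1, by omega⟩
        have hd' : S - (k + 1) = d := by omega
        rw [hd, hd', bitsOf_succ, Nat.testBit_div_two_pow, Nat.zero_add,
          Nat.div_div_eq_div_mul, ← pow_succ]
        rfl
      have e2 : (sb ((pp x v k / 2 ^ k + if x.testBit k then v else 0).testBit 0) ::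
          ((bits (bitsOf k (pp x v k))).reverse ++ O) : List (SSym E)) =
          (bits (bitsOf (k + 1) (pp x v (k + 1)))).reverse ++ O := by
        rw [bitsOf_pp_succ]
        simp [bits]
      rw [← e1, e2, ← pp_next] at h1
      exact h1)
  refine runs_start ((h.mono ?_).of_eq ?_) ?_
  · simp only [Finset.sum_const, Finset.card_range, smul_eq_mul]
    ring_nf
    omega
  · simp [bits]
  · simp [pp_zero, bits]

/-- The product of one pair. -/
def basePair : PQ E :=
  ((Prog.movs Q.WW Q.F3 Q.Y Q.T1).seq (Prog.rev Q.T1 Q.V)).seq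
    ((Prog.fill Q.WW (sb false) Q.A Q.F3).seq
      ((Prog.forr Q.WW Q.F2 baseStep).seq
        ((Prog.rev Q.A Q.O).seq (Prog.clear Q.V))))

theorem runs_basePair (s : SQ E) (S x v : ℕ) (X Y O : List (SSym E))
    (hx : x < 2 ^ S) (hv : v < 2 ^ S) (hW : s Q.WW = una S) (hF2 : s Q.F2 = [])
    (hF3 : s Q.F3 = []) :
    Runs basePair
      (bst s (bits (bitsOf S x) ++ X) (bits (bitsOf S v) ++ Y) O [] [] [] [] [] [])
      (bst s X Y ((bits (bitsOf (2 * S) (x * v))).reverse ++ O) [] [] [] [] [] [])
      (S * (9 * S + 45) + 8) := by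
  have r1 := Runs.movs (u := Q.WW) (t := Q.F3) (x := Q.Y) (y := Q.T1) (by decide) (by decide)
    (by decide) (by decide) (by decide) (by decide) (mk : SSym E)
    (bst s (bits (bitsOf S x) ++ X) (bits (bitsOf S v) ++ Y) O [] [] [] [] [] [])
    (bits (bitsOf S v)) Y (by simpa [bst, una] using hW) (by simpa [bst] using hF3) rfl
  have r2 := Runs.rev (i := Q.T1) (j := Q.V) (by decide)
    (bst s (bits (bitsOf S x) ++ X) Y O [] [] (bits (bitsOf S v)).reverse [] [] [])
  have r3 := Runs.fill (u := Q.WW) (b := Q.A) (t := Q.F3) (by decide) (by decide) (by decide)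
    (sb false) (mk : SSym E)
    (bst s (bits (bitsOf S x) ++ X) Y O [] (bits (bitsOf S v)) [] [] [] []) S
    (by simpa [bst, una] using hW) (by simpa [bst] using hF3)
  have r4 := runs_baseLoop s S x v X Y O hv hW hF2
  have r5 := Runs.rev (i := Q.A) (j := Q.O) (by decide)
    (bst s X Y ((bits (bitsOf S (pp x v S))).reverse ++ O)
        (bits (bitsOf S (pp x v S / 2 ^ S))) (bits (bitsOf S v)) [] [] [] [])
  have r6 := Runs.clear Q.V (bst s X Y ((bits (bitsOf (2 * S) (x * v))).reverse ++ O) []
    (bits (bitsOf S v)) [] [] [] [])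
  have q1 := (r1.of_eq (s'' := bst s (bits (bitsOf S x) ++ X) Y O [] []
      (bits (bitsOf S v)).reverse [] [] []) (by
    funext i
    cases i <;> simp [bst])).seq (r2.of_eq (s'' := bst s (bits (bitsOf S x) ++ X) Y O []
      (bits (bitsOf S v)) [] [] [] []) (by
    funext i
    cases i <;> simp [bst]))
  have q2 := (r3.of_eq (s'' := bst s (bits (bitsOf S x) ++ X) Y O (bits (bitsOf S 0))
      (bits (bitsOf S v)) [] [] [] []) (by
    rw [bitsOf_zero]
    funext i
    cases i <;> simp [bst, bits])).seq (r4.seq ((r5.of_eq (s'' := bst s X Y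
      ((bits (bitsOf (2 * S) (x * v))).reverse ++ O) [] (bits (bitsOf S v)) [] [] [] []) (by
    rw [bitsOf_prod hx]
    funext i
    cases i <;> simp [bst, bits])).seq (r6.of_eq (s'' := bst s X Y
      ((bits (bitsOf (2 * S) (x * v))).reverse ++ O) [] [] [] [] [] []) (by
    funext i
    cases i <;> simp [bst]))))
  refine (q1.seq q2).mono ?_
  simp only [bst, List.length_reverse, length_bits, length_bitsOf]
  ring_nf
  omega

/-- The products of all pairs. -/
def baseP : PQ E := (Prog.forr Q.HB Q.F1 basePair).seq (Prog.rev Q.O Q.X)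

theorem base_spec : BaseSpec (baseP : PQ E) 100 := by
  intro h S x y s hc hS hx hy hHB hWW hX hY
  have cO : s Q.O = [] := hc Q.O (by simp [sc])
  have cA : s Q.A = [] := hc Q.A (by simp [sc])
  have cV : s Q.V = [] := hc Q.V (by simp [sc])
  have cT1 : s Q.T1 = [] := hc Q.T1 (by simp [sc])
  have cT2 : s Q.T2 = [] := hc Q.T2 (by simp [sc])
  have cC1 : s Q.C1 = [] := hc Q.C1 (by simp [sc])
  have cEE : s Q.EE = [] := hc Q.EE (by simp [sc])
  have cF1 : s Q.F1 = [] := hc Q.F1 (by simp [sc])
  have cF2 : s Q.F2 = [] := hc Q.F2 (by simp [sc])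
  have cF3 : s Q.F3 = [] := hc Q.F3 (by simp [sc])
  have r1 := Runs.forr' (u := Q.HB) (t := Q.F1) (by decide) (body := basePair) h (mk : SSym E)
    (fun k => bst s (bits (cat (h - k) fun j => bitsOf S (x (k + j))))
      (bits (cat (h - k) fun j => bitsOf S (y (k + j))))
      (bits (cat k fun j => bitsOf (2 * S) (x j * y j))).reverse [] [] [] [] [] [])
    (fun _ => S * (9 * S + 45) + 8)
    (fun k _ => by simpa [bst, una] using hHB)
    (fun k _ => by simpa [bst] using cF1)
    (by
      intro k hk l l'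
      rw [bst_upd2 _ _ _ _ _ _ _ _ _ _ _ _ (by simp) (by simp),
        bst_upd2 _ _ _ _ _ _ _ _ _ _ _ _ (by simp) (by simp)]
      have h1 := runs_basePair (Function.update (Function.update s Q.HB l) Q.F1 l') S
        (x k) (y k) (bits (cat (h - (k + 1)) fun j => bitsOf S (x (k + 1 + j))))
        (bits (cat (h - (k + 1)) fun j => bitsOf S (y (k + 1 + j))))
        (bits (cat k fun j => bitsOf (2 * S) (x j * y j))).reverse (hx k) (hy k)
        (by simpa using hWW) (by simpa using cF2) (by simpa using cF3)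
      have e1 : ∀ z : ℕ → ℕ, (bits (cat (h - k) fun j => bitsOf S (z (k + j))) :
          List (SSym E)) = bits (bitsOf S (z k)) ++
            bits (cat (h - (k + 1)) fun j => bitsOf S (z (k + 1 + j))) := by
        intro z
        obtain ⟨d, hd⟩ : ∃ d, h - k = d + 1 := ⟨h - k - 1, by omega⟩
        have hd' : h - (k + 1) = d := by omega
        rw [hd, hd', cat_succ']
        simp only [Nat.add_zero, bits, List.map_append]
        congr 2
        exact cat_congr fun i _ => by rw [Nat.add_right_comm, Nat.add_assoc]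
      have e2 : (bits (cat (k + 1) fun j => bitsOf (2 * S) (x j * y j)) :
          List (SSym E)).reverse = (bits (bitsOf (2 * S) (x k * y k))).reverse ++
            (bits (cat k fun j => bitsOf (2 * S) (x j * y j))).reverse := by
        rw [cat_succ]
        simp [bits]
      rw [e1 x, e1 y, e2]
      exact h1)
  have r2 := Runs.rev (i := Q.O) (j := Q.X) (by decide) (bst s [] []
      (bits (cat h fun j => bitsOf (2 * S) (x j * y j))).reverse [] [] [] [] [] [])
  have q := (runs_start (r1.of_eq (s'' := bst s [] []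
      (bits (cat h fun j => bitsOf (2 * S) (x j * y j))).reverse [] [] [] [] [] []) (by
      simp [bits])) (s₀ := s) (by
      have e3 : ∀ z : ℕ → ℕ, (arr h 1 S fun j _ => z j) = cat h fun j => bitsOf S (z j) := by
        intro z
        exact cat_congr fun i _ => cat_one _
      funext i
      cases i <;> simp [bst, hX, hY, e3, cO, cA, cV, cT1, cT2, cC1, cEE, bits])).seq r2
  refine (q.mono ?_).of_eq ?_
  · have l1 : (cat h fun j => bitsOf (2 * S) (x j * y j)).length = h * (2 * S) :=
      length_cat_of fun i _ => length_bitsOf _ _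
    simp only [bst, List.length_reverse, length_bits, l1, Finset.sum_const, Finset.card_range,
      smul_eq_mul]
    have e1 : h * (S * (9 * S + 45) + 8 + 4) = 9 * (h * S * S) + 45 * (h * S) + 12 * h := by ring
    have e2 : 3 * (h * (2 * S)) = 6 * (h * S) := by ring
    rw [e1, e2]
    have d1 : h * S ≤ h * S * S := Nat.le_mul_of_pos_right _ hS
    have d2 : h ≤ h * S := Nat.le_mul_of_pos_right _ hS
    omega
  · have e3 : (arr h 1 (2 * S) fun j _ => x j * y j) =
        cat h fun j => bitsOf (2 * S) (x j * y j) :=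
      cat_congr fun i _ => cat_one _
    rw [e3]
    funext i
    cases i <;> simp [bst, cO, cA, cV, cT1, cT2, cC1, cEE]

end Vale.Agent.P338.SS
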