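import Vale.Agent.P338.SSIface
import Vale.Agent.P338.CallFull
import Vale.Agent.P338.Frame

/-!
# P338, third part: the built-in multiplication as a called program
-/

namespace Vale.Agent.P338.SS

open Vale.Agent.P338

variable {J E : Type} [DecidableEq J]

/-- The names of the stacks of the multiplication program. -/
def qn (ι : Q → J) (q : Q) : Loc J := Sum.inr (ι q)

omit [DecidableEq J] in
theorem qn_injective {ι : Q → J} (hι : Function.Injective ι) : Function.Injective (qn ι) :=
  fun _ _ h => hι (Sum.inr_injective h)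

/-- Move a list from `a` to `b`, through `t`. -/
def mvl (a b t : Loc J) : Pr J E := (Prog.rev a t).seq (Prog.rev t b)

theorem mvl_runs {a b t : Loc J} (hab : a ≠ b) (hat : a ≠ t) (hbt : b ≠ t) (s : St J E)
    (l : List (SSym E)) (ha : s a = l) (hb : s b = []) (ht : s t = []) :
    Runs (mvl a b t) s (Function.update (Function.update s a []) b l) (6 * l.length + 1) := by
  have h1 := Runs.rev hat s
  have h2 := Runs.rev hbt.symm (Function.update (Function.update s a []) t
    ((s a).reverse ++ s t))
  refine ((h1.seq h2).mono ?_).of_eq ?_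
  · rw [Function.update_self, ha, ht, List.append_nil, List.length_reverse]
    omega
  · funext i
    simp only [Function.update_apply]
    split_ifs <;> simp_all

/-- The built-in multiplication as a program that is called. -/
noncomputable def ssCall (ι : Q → J) (p : PQ E) : Pr J E :=
  (mvl (Sum.inl R.AX) (qn ι Q.AX) (qn ι Q.O)).seq
    ((mvl (Sum.inl R.AY) (qn ι Q.AY) (qn ι Q.O)).seq
      ((p.map (qn ι)).seq (mvl (qn ι Q.AZ) (Sum.inl R.AZ) (qn ι Q.O))))

theorem le_tSS (m : ℕ) : m ≤ tSS m := by
  unfold tSS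
  calc m = m * 1 := (Nat.mul_one m).symm
    _ ≤ m * (Nat.log 2 m + 1) ^ 4 := Nat.mul_le_mul_left _ (Nat.one_le_pow _ _ (by omega))

theorem ssCall_spec {p : PQ E} {C : ℕ} (hp : MainSpec p C) {ι : Q → J}
    (hι : Function.Injective ι) : CallFullSpec (ssCall ι p) tSS (C + 40) := by
  intro m xs ys s hm hx hy hidle hemp hax hay
  replace hidle : ∀ j : J, s (Sum.inr j) = [] := hidle
  have haz : s (Sum.inl R.AZ) = [] := hemp R.AZ (by simp)
  replace hax : s (Sum.inl R.AX) = bits xs := hax
  replace hay : s (Sum.inl R.AY) = bits ys := hay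
  have hne : ∀ q q' : Q, q ≠ q' → qn ι q ≠ qn ι q' := fun q q' h h' => h (qn_injective hι h')
  have e1 := hne Q.AX Q.AY (by decide)
  have e2 := hne Q.AX Q.AZ (by decide)
  have e3 := hne Q.AX Q.O (by decide)
  have e4 := hne Q.AY Q.AZ (by decide)
  have e5 := hne Q.AY Q.O (by decide)
  have e6 := hne Q.AZ Q.O (by decide)
  have hq : ∀ q, s (qn ι q) = [] := fun q => hidle _
  have hl : ∀ (r : R) (q : Q), (Sum.inl r : Loc J) ≠ qn ι q := fun r q => by simp [qn]
  have hr : ∀ (r : R) (q : Q), qn ι q ≠ (Sum.inl r : Loc J) := fun r q => by simp [qn]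
  obtain ⟨z, hz⟩ : ∃ z : List Bool, z = bitsOf (2 * m) (natOf xs * natOf ys) := ⟨_, rfl⟩
  rw [← hz]
  have r1 := mvl_runs (hl R.AX Q.AX) (hl R.AX Q.O) e3 s (bits xs) hax (hq _) (hq _)
  set s1 : St J E := Function.update (Function.update s (Sum.inl R.AX) []) (qn ι Q.AX) (bits xs)
    with hs1
  have r2 := mvl_runs (hl R.AY Q.AY) (hl R.AY Q.O) e5 s1 (bits ys)
    (by simp [hs1, hay, hl]) (by simp [hs1, hq, hr, e1.symm]) (by simp [hs1, hq, hr, e3.symm])
  set s2 : St J E := Function.update (Function.update s1 (Sum.inl R.AY) []) (qn ι Q.AY)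
    (bits ys) with hs2
  have hsm := hp m xs ys (fun q => s2 (qn ι q)) hm hx hy
    (by simp [hs2, hs1, hr, e1]) (by simp [hs2])
    (by
      intro q h1 h2
      have f1 := hne q Q.AX h1
      have f2 := hne q Q.AY h2
      simp [hs2, hs1, hr, f1, f2, hq])
  rw [← hz] at hsm
  set s3 : St J E := Function.update (Function.update (Function.update s (Sum.inl R.AX) [])
    (Sum.inl R.AY) []) (qn ι Q.AZ) (bits z) with hs3
  have r3 : Runs (p.map (qn ι)) s2 s3 (C * tSS m) := by
    refine hsm.map (qn_injective hι) (fun _ => rfl) ?_ ?_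
    · intro q
      by_cases h1 : q = Q.AZ
      · subst h1; simp [hs3]
      have f1 := hne q Q.AZ h1
      rw [Function.update_of_ne h1]
      have f3 : s3 (qn ι q) = [] := by
        simp [hs3, f1, hr, hq]
      rw [f3]
      by_cases h2 : q = Q.AY
      · subst h2; simp
      rw [Function.update_of_ne h2]
      by_cases h3 : q = Q.AX
      · subst h3; simp
      rw [Function.update_of_ne h3]
      simp [hs2, hs1, hne q Q.AY h2, hne q Q.AX h3, hr, hq]
    · intro k hk
      have g : ∀ q, k ≠ qn ι q := fun q h => hk ⟨q, h.symm⟩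
      rw [hs3, hs2, hs1, Function.update_of_ne (g _), Function.update_of_ne (g _)]
      simp only [Function.update_apply, if_neg (g Q.AX)]
  have r4 := mvl_runs (hr R.AZ Q.AZ) e6 (hl R.AZ Q.O) s3 (bits z) (by simp [hs3])
    (by simp [hs3, hl, haz]) (by simp [hs3, e6.symm, hr, hq])
  refine ((r1.seq (r2.seq (r3.seq r4))).mono ?_).of_eq ?_
  · have l3 : z.length = 2 * m := by rw [hz, length_bitsOf]
    have h4 := le_tSS m
    rw [length_bits, length_bits, length_bits, hx, hy, l3]
    have e9 : (C + 40) * (m + tSS m) = C * m + C * tSS m + 40 * m + 40 * tSS m := by ring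
    rw [e9]
    have : 0 ≤ C * m := Nat.zero_le _
    omega
  · rw [hs3]
    funext k
    by_cases g : k = qn ι Q.AZ
    · subst g
      simp [hr, hq]
    · simp only [St.set, Function.update_apply, if_neg g]

/-! ### More stacks -/

/-- The names of the stacks, with more stacks for the machine. -/
def lft {J₁ : Type} (ι : J₁ → J) : Loc J₁ → Loc J := Sum.map id ι

omit [DecidableEq J] in
theorem lft_injective {J₁ : Type} {ι : J₁ → J} (hι : Function.Injective ι) :
    Function.Injective (lft ι) := Sum.map_injective.2 ⟨Function.injective_id, hι⟩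

/-- A called program, in the presence of more stacks. -/
theorem callFullSpec_lift {J₁ : Type} [DecidableEq J₁] {call : Pr J₁ E} {T : ℕ → ℕ} {C : ℕ}
    (h : CallFullSpec call T C) {ι : J₁ → J} (hι : Function.Injective ι) :
    CallFullSpec (call.map (lft ι)) T C := by
  intro m xs ys s hm hx hy hidle hemp hax hay
  have h1 := h m xs ys (fun k => s (lft ι k)) hm hx hy (fun j => hidle (ι j))
    (fun r hr => hemp r hr) hax hay
  refine h1.map (lft_injective hι) (fun _ => rfl) ?_ ?_
  · intro k
    rcases k with r | j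
    · simp only [lft, Sum.map_inl, id, St.set, Function.update_apply, Sum.inl.injEq]
    · simp only [lft, Sum.map_inr, St.set, Function.update_apply, reduceCtorEq, if_false]
  · intro k hk
    have g : ∀ r : R, k ≠ Sum.inl r := fun r h => hk ⟨Sum.inl r, h.symm⟩
    simp only [St.set, Function.update_apply, if_neg (g _)]

end Vale.Agent.P338.SS
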