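import Vale.Agent.P338.SSLevel

/-!
# P338, third part: one level of the multiplication, down
-/

namespace Vale.Agent.P338.SS

variable {E : Type}

/-! ### Pure facts -/

theorem bitsOf_pieces (P H z : ℕ) :
    bitsOf (H * P) z = cat H fun i => bitsOf P (z / 2 ^ (P * i) % 2 ^ P) := by
  induction H with
  | zero => simp
  | succ H ih =>
    rw [Nat.succ_mul, bitsOf_add, ih, cat_succ, bitsOf_mod, Nat.mul_comm P H]

theorem dn_arr_one (h W : ℕ) (F : ℕ → ℕ → ℕ) : arr h 1 W F = arr h 1 W fun j _ => F j 0 := by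
  unfold arr
  simp only [cat_one]

theorem arr_pieces (h P H : ℕ) (x : ℕ → ℕ) :
    arr h 1 (H * P) (fun β _ => x β) =
      arr h H P (fun β i => x β / 2 ^ (P * i) % 2 ^ P) := by
  unfold arr
  simp only [cat_one, bitsOf_pieces]

theorem lpH_eq (u : ℕ) : lpH u = 2 ^ (u - u / 2 + 3) := by
  rw [lpH, pow_add, Nat.mul_comm]; norm_num

theorem half_K {u i : ℕ} (hi : i < lpk u) :
    lpK u / 2 ^ (i + 1) = 2 ^ (lpk u - 1 - i) := by
  rw [lpK_eq, Nat.pow_div (by omega) (by norm_num)]
  congr 1; omega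

theorem half_K' {u i : ℕ} (hi : i < lpk u) :
    lpK u / 2 ^ i = 2 * (lpK u / 2 ^ (i + 1)) := by
  rw [half_K hi, lpK_eq, Nat.pow_div (by omega) (by norm_num), ← pow_succ']
  congr 1; omega

theorem D_eq (u : ℕ) : lpD u = 2 ^ (lpk u - 1) * (lpD u / lpH u) := by
  have h : lpH u = 2 ^ (lpk u - 1) := by
    rw [lpH_eq, lpk]
    rfl
  rw [← h]
  have h2 := st_eq u
  unfold lpD lpH at *
  rcases Nat.even_or_odd' u with ⟨k, rfl | rfl⟩
  · have h3 : 2 * k - 2 * k / 2 = k := by omega
    rw [h2, h3, show 2 * k / 2 = k by omega, show 2 * k % 2 = 0 by omega]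
    ring
  · have h3 : 2 * k + 1 - (2 * k + 1) / 2 = k + 1 := by omega
    rw [h2, h3, show (2 * k + 1) / 2 = k by omega, show (2 * k + 1) % 2 = 1 by omega]
    ring

theorem st_stage {u i : ℕ} (hi : i < lpk u) :
    2 ^ i * (lpD u / lpH u) = lpD u / (lpK u / 2 ^ (i + 1)) := by
  rw [half_K hi]
  conv_rhs => rw [D_eq u]
  rw [show lpk u - 1 = (lpk u - 1 - i) + i by omega, pow_add, Nat.mul_assoc,
    show lpk u - 1 - i + i - i = lpk u - 1 - i by omega,
    Nat.mul_div_cancel_left _ (by positivity)]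

theorem st_le {u i : ℕ} (hi : i < lpk u) : 2 ^ i * (lpD u / lpH u) ≤ lpD u := by
  rw [st_stage hi]; exact Nat.div_le_self _ _

theorem pow_halves (u : ℕ) : 2 ^ (u / 2) * 2 ^ (u - u / 2) = 2 ^ u := by
  rw [← pow_add]; congr 1; omega

/-! ### The stages -/

/-- One stage. -/
noncomputable def dn_stageP (fwd : PQ E) : PQ E :=
  ((Prog.pop L.kp).map le).seq (fwd.seq
    (((dblU L.hb L.f1).seq ((halfU L.qq L.f1).seq (dblU L.st L.f1))).map le))

/-- The small store before stage `i`. -/
def dst (v : LV E) (u h : ℕ) (x : ℕ → ℕ) (i : ℕ) : LV E := { v with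
  x := bits (arr (h * 2 ^ i) (lpK u / 2 ^ i) (lpW u)
    (fwdIter (lpW u) (lpD u) (lpK u) i (pcs u x)))
  hb := una (h * 2 ^ i)
  qq := una (lpK u / 2 ^ (i + 1))
  st := una (2 ^ i * (lpD u / lpH u))
  kp := una (lpk u - i) }

theorem runs_dn_stageP {fwd : PQ E} {C : ℕ} (hf : FwdSpec fwd C) {s : SQ E} (hs : Clean s)
    {v : LV E} (hv : v.Ok) {u h : ℕ} (x : ℕ → ℕ) (hh : 1 ≤ h)
    (hw : v.ww = una (lpW u)) {i : ℕ} (hi : i < lpk u) :
    RunsE le s (dn_stageP fwd) (dst v u h x i).s (dst v u h x (i + 1)).s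
      ((9 * C + 38) * (h * (32 * 2 ^ u))) := by
  have hP2 := pow_halves u
  have hK := half_K hi
  have hK' := half_K' hi
  have hst := st_stage hi
  have hF : ∀ β j, fwdIter (lpW u) (lpD u) (lpK u) i (pcs u x) β j < 2 ^ lpW u := by
    refine fwdIter_lt _ _ (fun β j => ?_) i
    refine (pcs_lt u x β j).trans_le (Nat.pow_le_pow_right (by norm_num) ?_)
    unfold lpP lpW; omega
  obtain ⟨h1, h2, h3, h4⟩ := hv
  have hq1 : 1 ≤ lpK u / 2 ^ (i + 1) := by rw [hK]; exact Nat.one_le_two_pow
  have hle : lpK u / 2 ^ (i + 1) * (2 ^ i * (lpD u / lpH u)) ≤ lpD u := by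
    rw [hst]; exact Nat.mul_div_le _ _
  have r1 : Runs (Prog.pop L.kp) (dst v u h x i).s
      ({ dst v u h x i with kp := una (lpk u - (i + 1)) } : LV E).s 1 :=
    (Runs.pop L.kp _).of_eq (by
      obtain ⟨j, hj⟩ : ∃ j, lpk u - i = j + 1 := ⟨lpk u - i - 1, by omega⟩
      have hj' : lpk u - (i + 1) = j := by omega
      funext m; cases m <;> simp [LV.s, dst, hj, hj', u_succ])
  have r2 := runs_fwdE hf hs
    (v := ({ dst v u h x i with kp := una (lpk u - (i + 1)) } : LV E))
    (v' := ({ dst v u h x i with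
      kp := una (lpk u - (i + 1))
      x := bits (arr (h * 2 ^ (i + 1)) (lpK u / 2 ^ (i + 1)) (lpW u)
        (fwdIter (lpW u) (lpD u) (lpK u) (i + 1) (pcs u x))) } : LV E))
    ⟨h1, h2, h3, h4⟩ (h := h * 2 ^ i) (q := lpK u / 2 ^ (i + 1)) (W := lpW u)
    (st := 2 ^ i * (lpD u / lpH u))
    (F := fwdIter (lpW u) (lpD u) (lpK u) i (pcs u x)) hq1
    (by unfold lpW; have := Nat.one_le_two_pow (n := u / 2); omega)
    (hle.trans (by unfold lpD lpW; omega)) hF rfl rfl hw rfl
    (by show bits (arr (h * 2 ^ i) (lpK u / 2 ^ i) (lpW u) _) = _; rw [hK'])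
    (by
      rw [show h * 2 ^ (i + 1) = 2 * (h * 2 ^ i) by ring, fwdIter, ← hst]
      funext m; cases m <;> simp [LV.s, dst])
  have r3 := runs_dbl L.hb L.f1 (by decide)
    ({ dst v u h x i with
      kp := una (lpk u - (i + 1))
      x := bits (arr (h * 2 ^ (i + 1)) (lpK u / 2 ^ (i + 1)) (lpW u)
        (fwdIter (lpW u) (lpD u) (lpK u) (i + 1) (pcs u x))) } : LV E)
    ({ dst v u h x i with
      kp := una (lpk u - (i + 1))
      hb := una (h * 2 ^ (i + 1))
      x := bits (arr (h * 2 ^ (i + 1)) (lpK u / 2 ^ (i + 1)) (lpW u)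
        (fwdIter (lpW u) (lpD u) (lpK u) (i + 1) (pcs u x))) } : LV E)
    (n := h * 2 ^ i) rfl h1 (by
      rw [show h * 2 ^ (i + 1) = 2 * (h * 2 ^ i) by ring]
      funext m; cases m <;> simp [LV.s, dst])
  have r4 := runs_half L.qq L.f1 (by decide)
    ({ dst v u h x i with
      kp := una (lpk u - (i + 1))
      hb := una (h * 2 ^ (i + 1))
      x := bits (arr (h * 2 ^ (i + 1)) (lpK u / 2 ^ (i + 1)) (lpW u)
        (fwdIter (lpW u) (lpD u) (lpK u) (i + 1) (pcs u x))) } : LV E)
    ({ dst v u h x i with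
      kp := una (lpk u - (i + 1))
      hb := una (h * 2 ^ (i + 1))
      qq := una (lpK u / 2 ^ (i + 1 + 1))
      x := bits (arr (h * 2 ^ (i + 1)) (lpK u / 2 ^ (i + 1)) (lpW u)
        (fwdIter (lpW u) (lpD u) (lpK u) (i + 1) (pcs u x))) } : LV E)
    (n := lpK u / 2 ^ (i + 1)) rfl h1 (by
      rw [Nat.div_div_eq_div_mul, ← pow_succ]
      funext m; cases m <;> simp [LV.s, dst])
  have r5 := runs_dbl L.st L.f1 (by decide)
    ({ dst v u h x i with
      kp := una (lpk u - (i + 1))
      hb := una (h * 2 ^ (i + 1))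
      qq := una (lpK u / 2 ^ (i + 1 + 1))
      x := bits (arr (h * 2 ^ (i + 1)) (lpK u / 2 ^ (i + 1)) (lpW u)
        (fwdIter (lpW u) (lpD u) (lpK u) (i + 1) (pcs u x))) } : LV E)
    (dst v u h x (i + 1))
    (n := 2 ^ i * (lpD u / lpH u)) rfl h1 (by
      rw [show 2 * (2 ^ i * (lpD u / lpH u)) = 2 ^ (i + 1) * (lpD u / lpH u) by ring]
      funext m; cases m <;> simp [LV.s, dst])
  refine RunsE.conv ((RunsE.small le_inj s r1).seq (r2.seq
    (RunsE.small le_inj s (r3.seq (r4.seq r5))))) rfl rfl ?_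
  -- the time
  obtain ⟨N, hN⟩ : ∃ N, N = h * (32 * 2 ^ u) := ⟨_, rfl⟩
  have hN1 : 1 ≤ N := by
    rw [hN]
    exact Nat.mul_pos hh (by positivity)
  have e1 : h * 2 ^ i * (lpK u / 2 ^ (i + 1)) * lpW u = 8 * N := by
    rw [hK, Nat.mul_assoc h, ← pow_add, show i + (lpk u - 1 - i) = u - u / 2 + 3 by
      unfold lpk at *; omega, hN, ← hP2, lpW, pow_add]
    ring
  have e2 : h * 2 ^ i ≤ N := by
    have : 2 ^ i ≤ 32 * 2 ^ u := by
      calc 2 ^ i ≤ 2 ^ (5 + u) :=
            Nat.pow_le_pow_right (by norm_num) (by unfold lpk at hi; omega)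
        _ = 32 * 2 ^ u := by rw [pow_add]; norm_num
    rw [hN]
    exact Nat.mul_le_mul_left _ this
  have e3 : lpK u / 2 ^ (i + 1) ≤ N := by
    have : lpK u / 2 ^ (i + 1) ≤ 1 * (32 * 2 ^ u) := by
      rw [hK, Nat.one_mul]
      calc 2 ^ (lpk u - 1 - i) ≤ 2 ^ (5 + u) :=
            Nat.pow_le_pow_right (by norm_num) (by unfold lpk at *; omega)
        _ = 32 * 2 ^ u := by rw [pow_add]; norm_num
    rw [hN]
    exact this.trans (Nat.mul_le_mul_right _ hh)
  have e4 : 2 ^ i * (lpD u / lpH u) ≤ N := by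
    have h5 := st_le hi
    have : lpD u ≤ 1 * (32 * 2 ^ u) := by
      unfold lpD
      have : 2 ^ (u / 2) ≤ 2 ^ u := Nat.pow_le_pow_right (by norm_num) (by omega)
      omega
    rw [hN]
    exact h5.trans (this.trans (Nat.mul_le_mul_right _ hh))
  rw [e1, ← hN]
  have e5 : (9 * C + 38) * N = C * (8 * N) + C * N + 38 * N := by ring
  have e6 : C * (8 * N + 1) = C * (8 * N) + C := by ring
  have e7 : C ≤ C * N := Nat.le_mul_of_pos_right C hN1
  omega

/-! ### The whole level -/

/-- The end of a level. -/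
def endD : Prog L (SSym E) :=
  (Prog.clear .st).seq <| (Prog.clear .ww).seq <| (Prog.clear .pp).seq <|
  (Prog.clear .dd).seq <| (Prog.push .fr (Sum.inl (Base.num 7))).seq <|
  (Prog.fill .uu mk .fr .f1).seq <| (halfU .uu .f1)

theorem runs_endD {v : LV E} (hv : v.Ok) {a b c d u : ℕ} (h1 : v.st = una a)
    (h2 : v.ww = una b) (h3 : v.pp = una c) (h4 : v.dd = una d) (h5 : v.uu = una u) :
    Runs endD v.s ({ v with
      st := []
      ww := []
      pp := []
      dd := []
      uu := una (u / 2)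
      fr := frm u ++ v.fr } : LV E).s
      (3 * (a + b + c + d) + 18 * u + 10) := by
  obtain ⟨g1, g2, g3, g4⟩ := hv
  have r1 := runs_clr .st v ({ v with st := [] } : LV E) h1
    (by funext m; cases m <;> simp [LV.s])
  have r2 := runs_clr .ww ({ v with st := [] } : LV E) ({ v with st := [], ww := [] } : LV E)
    h2 (by funext m; cases m <;> simp [LV.s])
  have r3 := runs_clr .pp ({ v with st := [], ww := [] } : LV E)
    ({ v with st := [], ww := [], pp := [] } : LV E)
    h3 (by funext m; cases m <;> simp [LV.s])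
  have r4 := runs_clr .dd ({ v with st := [], ww := [], pp := [] } : LV E)
    ({ v with st := [], ww := [], pp := [], dd := [] } : LV E)
    h4 (by funext m; cases m <;> simp [LV.s])
  have r5 : Runs (Prog.push .fr (Sum.inl (Base.num 7)))
      ({ v with st := [], ww := [], pp := [], dd := [] } : LV E).s
      ({ v with
        st := []
        ww := []
        pp := []
        dd := []
        fr := Sum.inl (Base.num 7) :: v.fr } : LV E).s 1 :=
    (Runs.push L.fr _ _).of_eq (by funext m; cases m <;> simp [LV.s])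
  have r6 : Runs (Prog.fill .uu mk .fr .f1)
      ({ v with
        st := []
        ww := []
        pp := []
        dd := []
        fr := Sum.inl (Base.num 7) :: v.fr } : LV E).s
      ({ v with
        st := []
        ww := []
        pp := []
        dd := []
        fr := frm u ++ v.fr } : LV E).s (8 * u + 1) := by
    refine runs_conv (Runs.fill (u := L.uu) (b := L.fr) (t := L.f1) (by decide) (by decide)
      (by decide) mk mk _ u h5 g1) rfl ?_ le_rfl
    funext m; cases m <;> simp [LV.s, frm, una]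
  have r7 := runs_half .uu .f1 (by decide)
    ({ v with
        st := []
        ww := []
        pp := []
        dd := []
        fr := frm u ++ v.fr } : LV E)
    ({ v with
      st := []
      ww := []
      pp := []
      dd := []
      uu := una (u / 2)
      fr := frm u ++ v.fr } : LV E) (n := u) h5 g1
    (by funext m; cases m <;> simp [LV.s])
  exact runs_conv (r1.seq <| r2.seq <| r3.seq <| r4.seq <| r5.seq <| r6.seq r7) rfl rfl
    (by omega)

/-- One level of the transform. -/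
noncomputable def downP (fwd split : PQ E) : PQ E :=
  (parL.map le).seq <| split.seq <|
  (Prog.loop (fun tp => nonempty L.kp fun i => tp (le i)) (dn_stageP fwd)).seq <|
  (endD.map le)

theorem down_spec {fwd split : PQ E} {C₁ C₂ : ℕ} (hf : FwdSpec fwd C₁)
    (hsp : SplitSpec split C₂) :
    DownSpec (downP fwd split) (9 * C₁ + 2 * C₂ + 3000) := by
  intro u h x fr s hs hpar hu hh hx h0 h1 h2 h3
  obtain ⟨v, hv⟩ : ∃ v, v = LV.of s := ⟨_, rfl⟩
  have hov : ovw le v.s s = s := by rw [hv]; exact ovw_of s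
  have ok : v.Ok := by
    rw [hv]
    exact ⟨hs Q.F1 (by decide), hs Q.F2 (by decide), hs Q.F3 (by decide),
      hs Q.F4 (by decide)⟩
  obtain ⟨g1, g2, g3, g4⟩ := ok
  have p1 : v.qq = [] := by rw [hv]; exact hpar Q.QQ (by simp [par])
  have p2 : v.ww = [] := by rw [hv]; exact hpar Q.WW (by simp [par])
  have p3 : v.st = [] := by rw [hv]; exact hpar Q.ST (by simp [par])
  have p4 : v.pp = [] := by rw [hv]; exact hpar Q.PP (by simp [par])
  have p5 : v.dd = [] := by rw [hv]; exact hpar Q.DD (by simp [par])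
  have p6 : v.kp = [] := by rw [hv]; exact hpar Q.KP (by simp [par])
  have q0 : v.uu = una u := by rw [hv]; exact h0
  have q1 : v.hb = una h := by rw [hv]; exact h1
  have q2 : v.fr = fr := by rw [hv]; exact h2
  have q3 : v.x = bits (arr h 1 (32 * 2 ^ u) fun β _ => x β) := by rw [hv]; exact h3
  have hP2 := pow_halves u
  have hHP : lpH u * lpP u = 32 * 2 ^ u := by rw [Nat.mul_comm]; exact lpH_mul_lpP u
  have hk4 : 4 ≤ lpk u := by unfold lpk; omega
  have r1 := RunsE.small le_inj s (runs_parL v hu q0 p1 p2 p3 p4 p5 p6 g1 g2 g3 g4)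
  have r2 := runs_splitE hsp hs
    (v := ({ v with
      qq := una (lpH u)
      ww := una (lpW u)
      st := una (lpD u / lpH u)
      pp := una (lpP u)
      dd := una (lpD u)
      kp := una (lpk u) } : LV E))
    (v' := dst ({ v with
      ww := una (lpW u)
      pp := una (lpP u)
      dd := una (lpD u) } : LV E) u h x 0)
    ⟨g1, g2, g3, g4⟩ (h := h) (H := lpH u) (P := lpP u)
    (F := fun β i => x β / 2 ^ (lpP u * i) % 2 ^ lpP u)
    (by unfold lpH; have := Nat.one_le_two_pow (n := u - u / 2); omega)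
    (by unfold lpP; have := Nat.one_le_two_pow (n := u / 2); omega)
    (fun β i => Nat.mod_lt _ (by positivity)) q1 rfl rfl
    (by
      show v.x = _
      rw [q3, ← hHP, arr_pieces])
    (by
      have e1 : lpK u / 2 ^ 0 = 2 * lpH u := by rw [pow_zero, Nat.div_one, lpK_eq']
      have e2 : lpK u / 2 ^ (0 + 1) = lpH u := by
        rw [Nat.zero_add, pow_one, lpK_eq', Nat.mul_div_cancel_left _ (by norm_num)]
      have e3 : 8 * lpP u = lpW u := by unfold lpP lpW; omega
      have e4 : fwdIter (lpW u) (lpD u) (lpK u) 0 (pcs u x) =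
        fun β i => if i < lpH u then x β / 2 ^ (lpP u * i) % 2 ^ lpP u else 0 := rfl
      unfold dst
      rw [e1, e2, e4, e3]
      funext m; cases m <;> simp [LV.s, q1])
  have r3 := RunsE.loop_le (S := s) le_inj (c := nonempty L.kp) (p := dn_stageP fwd) (lpk u)
    (fun i => (dst ({ v with
      ww := una (lpW u)
      pp := una (lpP u)
      dd := una (lpD u) } : LV E) u h x i).s)
    ((9 * C₁ + 38) * (h * (32 * 2 ^ u)))
    (by
      intro k hk
      rw [nonempty_tops]
      show (!(una (lpk u - k) : List (SSym E)).isEmpty) = true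
      rw [u_isEmpty]; simp; omega)
    (by
      rw [nonempty_tops]
      show (!(una (lpk u - lpk u) : List (SSym E)).isEmpty) = false
      rw [u_isEmpty]; simp)
    (fun k hk => runs_dn_stageP hf hs
      (v := ({ v with
        ww := una (lpW u)
        pp := una (lpP u)
        dd := una (lpD u) } : LV E)) ⟨g1, g2, g3, g4⟩ x hh rfl hk)
  have r4 := RunsE.small le_inj s (runs_endD
    (v := dst ({ v with
      ww := una (lpW u)
      pp := una (lpP u)
      dd := una (lpD u) } : LV E) u h x (lpk u)) ⟨g1, g2, g3, g4⟩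
      (a := 2 ^ lpk u * (lpD u / lpH u)) (b := lpW u) (c := lpP u) (d := lpD u) (u := u)
      rfl rfl rfl rfl q0)
  have r5 := r1.seq (r2.seq (r3.seq r4))
  refine runs_conv r5 hov ?_ ?_
  · have e1 : lpK u / 2 ^ lpk u = 1 := by rw [lpK_eq]; exact Nat.div_self (by positivity)
    have e2 : lpK u / 2 ^ (lpk u + 1) = 0 := by
      rw [lpK_eq, pow_succ]
      exact Nat.div_eq_of_lt (by have := Nat.one_le_two_pow (n := lpk u); omega)
    have e3 : ({ dst ({ v with
        ww := una (lpW u)
        pp := una (lpP u)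
        dd := una (lpD u) } : LV E) u h x (lpk u) with
          st := []
          ww := []
          pp := []
          dd := []
          uu := una (u / 2)
          fr := frm u ++ (dst ({ v with
            ww := una (lpW u)
            pp := una (lpP u)
            dd := una (lpD u) } : LV E) u h x (lpk u)).fr } : LV E).s =
        Function.update (Function.update (Function.update (Function.update v.s
          L.uu (una (u / 2))) L.hb (una (h * lpK u))) L.fr (frm u ++ fr))
          L.x (bits (arr (h * lpK u) 1 (32 * 2 ^ (u / 2)) fun j _ => leaf u x j)) := by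
      have e4 : arr (h * lpK u) 1 (32 * 2 ^ (u / 2)) (fun j _ => leaf u x j) =
          arr (h * 2 ^ lpk u) (lpK u / 2 ^ lpk u) (lpW u)
            (fwdIter (lpW u) (lpD u) (lpK u) (lpk u) (pcs u x)) := by
        rw [e1, dn_arr_one, ← lpK_eq]
        rfl
      rw [e4]
      unfold dst
      rw [e2, Nat.sub_self, ← lpK_eq]
      funext m; cases m <;> simp [LV.s, p1, p2, p3, p4, p5, p6, q2, u_zero]
    show ovw le _ s = _
    rw [e3, ovw_update le_inj, ovw_update le_inj, ovw_update le_inj, ovw_update le_inj, hov]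
    rfl
  · obtain ⟨N, hN⟩ : ∃ N, N = h * (32 * 2 ^ u) := ⟨_, rfl⟩
    have hpu : 1 ≤ 2 ^ u := Nat.one_le_two_pow
    have hN1 : 32 * 2 ^ u ≤ N := by
      rw [hN]
      exact Nat.le_mul_of_pos_left _ hh
    have t1 : u ≤ 2 ^ u := Nat.lt_two_pow_self.le
    have t2 : 2 ^ (u / 2) ≤ 2 ^ u := Nat.pow_le_pow_right (by norm_num) (by omega)
    have t3 : 2 ^ lpk u * (lpD u / lpH u) = 2 * lpD u := by
      conv_rhs => rw [D_eq u]
      obtain ⟨k, hk⟩ : ∃ k, lpk u = k + 1 := ⟨lpk u - 1, by omega⟩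
      rw [hk, Nat.add_sub_cancel, pow_succ]
      ring
    have t4 : lpW u ≤ 32 * 2 ^ u := by unfold lpW; omega
    have t5 : lpD u ≤ 16 * 2 ^ u := by unfold lpD; omega
    have t6 : lpP u ≤ 4 * 2 ^ u := by unfold lpP; omega
    have t7 : h * lpH u * lpP u = N := by rw [Nat.mul_assoc, hHP, hN]
    rw [← hN, t7, t3]
    obtain ⟨B, hB⟩ : ∃ B, B = (9 * C₁ + 38) * N := ⟨_, rfl⟩
    have t8 : (9 * C₁ + 2 * C₂ + 3000) * (N * lpk u) =
        lpk u * B + 2 * (C₂ * (N * lpk u)) + 2962 * (N * lpk u) := by rw [hB]; ring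
    have t9 : lpk u * (B + 2) = lpk u * B + 2 * lpk u := by ring
    have t10 : C₂ * (N + 1) ≤ 2 * (C₂ * (N * lpk u)) := by
      have h5 : N + 1 ≤ 2 * (N * lpk u) := by
        have : N * 4 ≤ N * lpk u := Nat.mul_le_mul_left _ hk4
        omega
      calc C₂ * (N + 1) ≤ C₂ * (2 * (N * lpk u)) := Nat.mul_le_mul_left _ h5
        _ = 2 * (C₂ * (N * lpk u)) := by ring
    have t11 : N * 4 ≤ N * lpk u := Nat.mul_le_mul_left _ hk4
    have t12 : lpk u ≤ N * lpk u := Nat.le_mul_of_pos_left _ (by omega)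
    rw [← hB, t8, t9]
    omega

end Vale.Agent.P338.SS
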