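import Vale.Agent.P338.SSRed

/-!
# P338, third part: normalisation of the numbers
-/

namespace Vale.Agent.P338.SS

open Vale.Agent.P338.Lv (Str)

variable {E : Type}

/-- Normalise one number of `2 * D` bits. -/
def nrmB : PQ E :=
  (Prog.forr Q.WW Q.T1 (Prog.mov Q.X Q.A)).seq
    ((Prog.rev Q.A Q.P).seq
      ((Prog.forr Q.KP Q.T1 (Prog.mov Q.P Q.A)).seq
        ((Prog.rev Q.P Q.V).seq
          ((Prog.rev Q.A Q.P).seq
            ((Prog.rev Q.V Q.P).seq
              ((Prog.forr Q.DD Q.T1 (Prog.mov Q.P Q.A)).seq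
                ((Prog.rev Q.A Q.V).seq
                  ((scan2 Q.V Q.P Q.A Q.F1 x3 bw).seq
                    ((Prog.rev Q.A Q.P).seq
                      (scan1 Q.P Q.O Q.F1 (fun a c => a ^^ c) (fun a c => a && c)))))))))))

/-- The list form of the result. -/
theorem nrm_bits {D κ v : ℕ} (hκ : κ ≤ 2 * D) (hv : v < 2 ^ (2 * D)) (hn : nrm D κ v < 2 ^ D) :
    siO (fun a c => a ^^ c) (fun a c => a && c)
      (scC bw false (bitsOf D (rotN (2 * D) κ v)) (bitsOf D (rotN (2 * D) κ v / 2 ^ D)))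
      (scO x3 bw false (bitsOf D (rotN (2 * D) κ v)) (bitsOf D (rotN (2 * D) κ v / 2 ^ D))) =
        bitsOf D (nrm D κ v) ∧
    siC (fun a c => a && c)
      (scC bw false (bitsOf D (rotN (2 * D) κ v)) (bitsOf D (rotN (2 * D) κ v / 2 ^ D)))
      (scO x3 bw false (bitsOf D (rotN (2 * D) κ v)) (bitsOf D (rotN (2 * D) κ v / 2 ^ D))) =
        false := by
  have hp : 0 < 2 ^ D := by positivity
  have hr : rotN (2 * D) κ v < 2 ^ (2 * D) := rotN_lt hκ hv
  have hdef : nrm D κ v = if rotN (2 * D) κ v / 2 ^ D ≤ rotN (2 * D) κ v % 2 ^ D then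
    rotN (2 * D) κ v % 2 ^ D - rotN (2 * D) κ v / 2 ^ D
  else rotN (2 * D) κ v % 2 ^ D + 2 ^ D + 1 - rotN (2 * D) κ v / 2 ^ D := rfl
  set r := rotN (2 * D) κ v with hrr
  have hl : (bitsOf D r).length = (bitsOf D (r / 2 ^ D)).length := by simp
  have h1 := sub_val false (bitsOf D r) (bitsOf D (r / 2 ^ D)) hl
  have hlo := length_scO x3 bw false (bitsOf D r) (bitsOf D (r / 2 ^ D)) hl
  set c := scC bw false (bitsOf D r) (bitsOf D (r / 2 ^ D)) with hc
  set s := scO x3 bw false (bitsOf D r) (bitsOf D (r / 2 ^ D)) with hs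
  have h2 := inc_val c s
  rw [length_bitsOf] at h1 hlo
  rw [hlo] at h2
  have hh : r / 2 ^ D < 2 ^ D := by
    rw [Nat.div_lt_iff_lt_mul hp, ← pow_add]
    rwa [← Nat.two_mul]
  have hm : r % 2 ^ D < 2 ^ D := Nat.mod_lt _ hp
  rw [natOf_bitsOf_of_lt hh, natOf_bitsOf] at h1
  have hsl : natOf s < 2 ^ D := by rw [← hlo]; exact natOf_lt s
  have hil : natOf (siO (fun a c => a ^^ c) (fun a c => a && c) c s) < 2 ^ D := by
    conv_rhs => rw [← hlo, ← length_siO (fun a c => a ^^ c) (fun a c => a && c) c s]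
    exact natOf_lt _
  have key : natOf (siO (fun a c => a ^^ c) (fun a c => a && c) c s) = nrm D κ v ∧
      siC (fun a c => a && c) c s = false := by
    rcases Bool.eq_false_or_eq_true c with h | h
    · rw [h] at h1 h2 ⊢
      simp only [Bool.toNat_true, Bool.toNat_false, Nat.mul_one, Nat.add_zero] at h1 h2
      have h3 : ¬ r / 2 ^ D ≤ r % 2 ^ D := by omega
      rw [if_neg h3] at hdef
      rcases Bool.eq_false_or_eq_true (siC (fun a c => a && c) true s) with h4 | h4
      · rw [h4] at h2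
        simp only [Bool.toNat_true, Nat.mul_one] at h2
        omega
      · rw [h4] at h2
        simp only [Bool.toNat_false, Nat.mul_zero] at h2
        exact ⟨by omega, h4⟩
    · rw [h] at h1 h2 ⊢
      simp only [Bool.toNat_false, Nat.mul_zero, Nat.add_zero] at h1 h2
      have h3 : r / 2 ^ D ≤ r % 2 ^ D := by omega
      rw [if_pos h3] at hdef
      rcases Bool.eq_false_or_eq_true (siC (fun a c => a && c) false s) with h4 | h4
      · rw [h4] at h2
        simp only [Bool.toNat_true, Nat.mul_one] at h2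
        omega
      · rw [h4] at h2
        simp only [Bool.toNat_false, Nat.mul_zero] at h2
        exact ⟨by omega, h4⟩
  refine ⟨?_, key.2⟩
  refine natOf_inj (by rw [length_siO, hlo, length_bitsOf]) ?_
  rw [natOf_bitsOf, key.1, Nat.mod_eq_of_lt hn]

theorem nrm_str {D κ v : ℕ} (hκ : κ ≤ D) (hv : v < 2 ^ (2 * D))
    (hn : nrm D κ v < 2 ^ D) (s : SQ E) (h : Emp s) (hw : s Q.WW = una (2 * D))
    (hd : s Q.DD = una D) (hk : s Q.KP = una κ) :
    Str Q.X Q.O nrmB s (bits (bitsOf (2 * D) v)) (bits (bitsOf D (nrm D κ v)))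
      (65 * D + 20) := by
  intro rest out
  have h0 := h
  obtain ⟨h1, h2, h3, h4, h5⟩ := h
  rw [rst_eq s _ _ h0, rst_eq s _ _ h0]
  obtain ⟨e1, e2⟩ := nrm_bits (by omega : κ ≤ 2 * D) hv hn
  have hκ2 : κ ≤ 2 * D := by omega
  have hrot := rot_bitsOf hκ2 hv
  obtain ⟨aa, haa⟩ : ∃ aa, aa = (bitsOf (2 * D) v).take κ := ⟨_, rfl⟩
  obtain ⟨bb, hbb⟩ : ∃ bb, bb = (bitsOf (2 * D) v).drop κ := ⟨_, rfl⟩
  have hab : bitsOf (2 * D) v = aa ++ bb := by rw [haa, hbb, List.take_append_drop]
  have hla : aa.length = κ := by rw [haa, List.length_take, length_bitsOf]; omega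
  have hlb : bb.length = 2 * D - κ := by rw [hbb, List.length_drop, length_bitsOf]
  have hba : bb ++ aa = bitsOf (2 * D) (rotN (2 * D) κ v) := by
    rw [← hrot, rot, ← haa, ← hbb]
  rw [Nat.two_mul D, bitsOf_add, ← Nat.two_mul] at hba
  set lo := bitsOf D (rotN (2 * D) κ v) with hlo
  set hi := bitsOf D (rotN (2 * D) κ v / 2 ^ D) with hhi
  have hll : lo.length = hi.length := by simp [hlo, hhi]
  have hlD : lo.length = D := by simp [hlo]
  have hl2 := length_scO x3 bw false lo hi hll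
  -- the number to `A` and to `P`
  have r1 := Runs.movs (u := Q.WW) (t := Q.T1) (x := Q.X) (o := Q.A) (by decide) (by decide)
    (by decide) (by decide) (by decide) (by decide)
    (rst s ⟨bits (aa ++ bb) ++ rest, out, [], [], [], [], [], s Q.T2, s Q.T3, s Q.HB,
      s Q.QQ, s Q.WW, s Q.DD, s Q.KP⟩) (bits (aa ++ bb)) rest (2 * D)
    (by rw [← hab]; simp) (by simp [hw]) (by simp) (by simp)
  have r2 := Runs.rev (Γ := SSym E) (i := Q.A) (j := Q.P) (by decide)
    (rst s ⟨rest, out, (bits (aa ++ bb)).reverse, [], [], [], [], s Q.T2, s Q.T3, s Q.HB,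
      s Q.QQ, s Q.WW, s Q.DD, s Q.KP⟩)
  -- rotation
  have r3 := Runs.movs (u := Q.KP) (t := Q.T1) (x := Q.P) (o := Q.A) (by decide) (by decide)
    (by decide) (by decide) (by decide) (by decide)
    (rst s ⟨rest, out, [], bits (aa ++ bb), [], [], [], s Q.T2, s Q.T3, s Q.HB,
      s Q.QQ, s Q.WW, s Q.DD, s Q.KP⟩) (bits aa) (bits bb) κ
    (by simp [hla]) (by simp [hk]) (by simp) (by simp [bits])
  have r4 := Runs.rev (Γ := SSym E) (i := Q.P) (j := Q.V) (by decide)
    (rst s ⟨rest, out, (bits aa).reverse, bits bb, [], [], [], s Q.T2, s Q.T3, s Q.HB,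
      s Q.QQ, s Q.WW, s Q.DD, s Q.KP⟩)
  have r5 := Runs.rev (Γ := SSym E) (i := Q.A) (j := Q.P) (by decide)
    (rst s ⟨rest, out, (bits aa).reverse, [], (bits bb).reverse, [], [], s Q.T2, s Q.T3,
      s Q.HB, s Q.QQ, s Q.WW, s Q.DD, s Q.KP⟩)
  have r6 := Runs.rev (Γ := SSym E) (i := Q.V) (j := Q.P) (by decide)
    (rst s ⟨rest, out, [], bits aa, (bits bb).reverse, [], [], s Q.T2, s Q.T3,
      s Q.HB, s Q.QQ, s Q.WW, s Q.DD, s Q.KP⟩)
  -- the difference
  have r7 := Runs.movs (u := Q.DD) (t := Q.T1) (x := Q.P) (o := Q.A) (by decide) (by decide)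
    (by decide) (by decide) (by decide) (by decide)
    (rst s ⟨rest, out, [], bits bb ++ bits aa, [], [], [], s Q.T2, s Q.T3, s Q.HB,
      s Q.QQ, s Q.WW, s Q.DD, s Q.KP⟩) (bits lo) (bits hi) D
    (by simp [hlD]) (by simp [hd]) (by simp)
    (by rw [rst_p, ← rd_bits_append, ← rd_bits_append, hba])
  have r8 := Runs.rev (Γ := SSym E) (i := Q.A) (j := Q.V) (by decide)
    (rst s ⟨rest, out, (bits lo).reverse, bits hi, [], [], [], s Q.T2, s Q.T3,
      s Q.HB, s Q.QQ, s Q.WW, s Q.DD, s Q.KP⟩)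
  have r9 := Runs.scan2 (i := Q.V) (j := Q.P) (o := Q.A) (q := Q.F1) (by decide) (by decide)
    (by decide) (by decide) (by decide) (by decide) x3 bw lo hi hll false []
    (rst s ⟨rest, out, [], bits hi, bits lo, [], [], s Q.T2, s Q.T3, s Q.HB,
      s Q.QQ, s Q.WW, s Q.DD, s Q.KP⟩) (by simp) (by simp) (by simp)
  have r10 := Runs.rev (Γ := SSym E) (i := Q.A) (j := Q.P) (by decide)
    (rst s ⟨rest, out, (bits (scO x3 bw false lo hi)).reverse, [], [],
      fl (scC bw false lo hi), [], s Q.T2, s Q.T3, s Q.HB,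
      s Q.QQ, s Q.WW, s Q.DD, s Q.KP⟩)
  have r11 := Runs.scan1 (i := Q.P) (o := Q.O) (q := Q.F1) (by decide) (by decide)
    (by decide) (fun a c => a ^^ c) (fun a c => a && c) (scO x3 bw false lo hi)
    (scC bw false lo hi)
    (rst s ⟨rest, out, [], bits (scO x3 bw false lo hi), [],
      fl (scC bw false lo hi), [], s Q.T2, s Q.T3, s Q.HB,
      s Q.QQ, s Q.WW, s Q.DD, s Q.KP⟩) (by simp) (by simp)
  have hl3 : (bits (aa ++ bb) : List (SSym E)).length = 2 * D := by rw [← hab]; simp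
  simp only [rset_x, rset_o, rset_a, rset_p, rset_v, rset_f, rst_o, rst_a, rst_p, rst_v,
    List.append_nil, List.reverse_reverse, List.length_reverse, hl3, length_bits, hl2, hlD,
    hla, hlb, e1, e2, fl_false] at r1 r2 r3 r4 r5 r6 r7 r8 r9 r10 r11
  rw [hab]
  refine ((r1.seq (r2.seq (r3.seq (r4.seq (r5.seq (r6.seq (r7.seq (r8.seq (r9.seq
    (r10.seq r11)))))))))).mono ?_)
  omega

/-- The normalisation of all numbers. -/
def nrmP : PQ E :=
  (Prog.forr Q.HB Q.T2 (Prog.forr Q.QQ Q.T3 nrmB)).seq (Prog.rev Q.O Q.X)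

theorem bits_arr (h K W : ℕ) (F : ℕ → ℕ → ℕ) :
    (bits (arr h K W F) : List (SSym E)) =
      cat h fun β => cat K fun i => bits (bitsOf W (F β i)) := by
  unfold arr
  rw [bits_cat]
  exact cat_congr fun β _ => bits_cat _ _

theorem normSpec : NormSpec (nrmP : PQ E) 120 := by
  intro h K D κ F s hc hK hD hκ hF hn hH hQ hw hd hk hX
  have he := hc.emp
  have hO : s Q.O = [] := hc _ (by decide)
  have hT2 : s Q.T2 = [] := hc _ (by decide)
  have hT3 : s Q.T3 = [] := hc _ (by decide)
  have h1 := Str.forr (u := Q.HB) (t := Q.T2) (x := Q.X) (o := Q.O) (by decide) (by decide)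
    (by decide) (by decide) (by decide) (body := (Prog.forr Q.QQ Q.T3 nrmB : PQ E)) (s := s)
    h mk
    (fun β => cat K fun i => bits (bitsOf (2 * D) (F β i)))
    (fun β => cat K fun i => bits (bitsOf D (nrm D κ (F β i))))
    (K * (65 * D + 20 + 7) + 1) hH hT2 (by
      intro β hβ l l'
      refine Str.forr (u := Q.QQ) (t := Q.T3) (x := Q.X) (o := Q.O) (by decide) (by decide)
        (by decide) (by decide) (by decide) K mk _ _ (65 * D + 20)
        (by simpa [una] using hQ) (by simpa using hT3) ?_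
      intro i hi m m'
      refine nrm_str hκ (hF β i) (hn β hβ i hi) _ ⟨?_, ?_, ?_, ?_, ?_⟩ ?_ ?_ ?_
      · simpa using he.a
      · simpa using he.p
      · simpa using he.v
      · simpa using he.f
      · simpa using he.t1
      · simpa using hw
      · simpa using hd
      · simpa using hk)
  have h2 := h1 [] []
  rw [List.append_nil, List.append_nil, ← bits_arr, ← bits_arr] at h2
  have e0 : Function.update (Function.update s Q.X (bits (arr h K (2 * D) F)))
      Q.O [] = s := by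
    rw [← hX, Function.update_eq_self, ← hO, Function.update_eq_self]
  rw [e0] at h2
  have h3 := Runs.rev (Γ := SSym E) (i := Q.O) (j := Q.X) (by decide)
    (Function.update (Function.update s Q.X []) Q.O
      (bits (arr h K D fun β i => nrm D κ (F β i)) : List (SSym E)).reverse)
  refine ((h2.seq h3).mono ?_).of_eq ?_
  · have hla : (bits (arr h K D fun β i => nrm D κ (F β i)) : List (SSym E)).length =
        h * (K * D) := by
      rw [length_bits]
      unfold arr
      rw [length_cat_of (L := K * D)]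
      intro β _
      rw [length_cat_of (L := D)]
      intro i _
      simp
    rw [Function.update_self, List.length_reverse, hla]
    have : h * (K * (65 * D + 20 + 7) + 1 + 7) + 1 + 1 + 3 * (h * (K * D)) =
      68 * (h * K * D) + 27 * (h * K) + 8 * h + 2 := by ring
    have h4 : h ≤ h * K := Nat.le_mul_of_pos_right _ hK
    have h5 : h * K ≤ h * K * D := Nat.le_mul_of_pos_right _ hD
    omega
  · funext r
    simp only [Function.update_apply]
    split_ifs <;> simp_all

end Vale.Agent.P338.SS
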