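import Vale.Agent.P338.SSRedA

/-!
# P338, third part: reduction and normalisation of the numbers
-/

namespace Vale.Agent.P338.SS

open Vale.Agent.P338.Lv (Str)

variable {E : Type}

/-- The contents of the stacks used by the passes. -/
structure RS (E : Type) : Type where
  x : List (SSym E)
  o : List (SSym E)
  a : List (SSym E)
  p : List (SSym E)
  v : List (SSym E)
  f : List (SSym E)
  t1 : List (SSym E)
  t2 : List (SSym E)
  t3 : List (SSym E)
  hb : List (SSym E)
  qq : List (SSym E)
  ww : List (SSym E)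
  dd : List (SSym E)
  kp : List (SSym E)

/-- The store: the stacks of `g`, and all others from `s`. -/
def rst (s : SQ E) (g : RS E) : SQ E
  | .X => g.x
  | .O => g.o
  | .A => g.a
  | .P => g.p
  | .V => g.v
  | .F1 => g.f
  | .T1 => g.t1
  | .T2 => g.t2
  | .T3 => g.t3
  | .HB => g.hb
  | .QQ => g.qq
  | .WW => g.ww
  | .DD => g.dd
  | .KP => g.kp
  | r => s r

@[simp] theorem rst_x (s : SQ E) (g : RS E) : rst s g Q.X = g.x := rfl
@[simp] theorem rst_o (s : SQ E) (g : RS E) : rst s g Q.O = g.o := rfl
@[simp] theorem rst_a (s : SQ E) (g : RS E) : rst s g Q.A = g.a := rfl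
@[simp] theorem rst_p (s : SQ E) (g : RS E) : rst s g Q.P = g.p := rfl
@[simp] theorem rst_v (s : SQ E) (g : RS E) : rst s g Q.V = g.v := rfl
@[simp] theorem rst_f (s : SQ E) (g : RS E) : rst s g Q.F1 = g.f := rfl
@[simp] theorem rst_t1 (s : SQ E) (g : RS E) : rst s g Q.T1 = g.t1 := rfl
@[simp] theorem rst_t2 (s : SQ E) (g : RS E) : rst s g Q.T2 = g.t2 := rfl
@[simp] theorem rst_t3 (s : SQ E) (g : RS E) : rst s g Q.T3 = g.t3 := rfl
@[simp] theorem rst_hb (s : SQ E) (g : RS E) : rst s g Q.HB = g.hb := rfl
@[simp] theorem rst_qq (s : SQ E) (g : RS E) : rst s g Q.QQ = g.qq := rfl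
@[simp] theorem rst_ww (s : SQ E) (g : RS E) : rst s g Q.WW = g.ww := rfl
@[simp] theorem rst_dd (s : SQ E) (g : RS E) : rst s g Q.DD = g.dd := rfl
@[simp] theorem rst_kp (s : SQ E) (g : RS E) : rst s g Q.KP = g.kp := rfl

@[simp] theorem rset_x (s : SQ E) (g : RS E) (l : List (SSym E)) :
    Function.update (rst s g) Q.X l = rst s { g with x := l } := by
  funext r; cases r <;> rfl

@[simp] theorem rset_o (s : SQ E) (g : RS E) (l : List (SSym E)) :
    Function.update (rst s g) Q.O l = rst s { g with o := l } := by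
  funext r; cases r <;> rfl

@[simp] theorem rset_a (s : SQ E) (g : RS E) (l : List (SSym E)) :
    Function.update (rst s g) Q.A l = rst s { g with a := l } := by
  funext r; cases r <;> rfl

@[simp] theorem rset_p (s : SQ E) (g : RS E) (l : List (SSym E)) :
    Function.update (rst s g) Q.P l = rst s { g with p := l } := by
  funext r; cases r <;> rfl

@[simp] theorem rset_v (s : SQ E) (g : RS E) (l : List (SSym E)) :
    Function.update (rst s g) Q.V l = rst s { g with v := l } := by
  funext r; cases r <;> rfl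

@[simp] theorem rset_f (s : SQ E) (g : RS E) (l : List (SSym E)) :
    Function.update (rst s g) Q.F1 l = rst s { g with f := l } := by
  funext r; cases r <;> rfl

@[simp] theorem rset_t1 (s : SQ E) (g : RS E) (l : List (SSym E)) :
    Function.update (rst s g) Q.T1 l = rst s { g with t1 := l } := by
  funext r; cases r <;> rfl

@[simp] theorem rset_t2 (s : SQ E) (g : RS E) (l : List (SSym E)) :
    Function.update (rst s g) Q.T2 l = rst s { g with t2 := l } := by
  funext r; cases r <;> rfl

@[simp] theorem rset_t3 (s : SQ E) (g : RS E) (l : List (SSym E)) :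
    Function.update (rst s g) Q.T3 l = rst s { g with t3 := l } := by
  funext r; cases r <;> rfl

@[simp] theorem rset_hb (s : SQ E) (g : RS E) (l : List (SSym E)) :
    Function.update (rst s g) Q.HB l = rst s { g with hb := l } := by
  funext r; cases r <;> rfl

@[simp] theorem rset_qq (s : SQ E) (g : RS E) (l : List (SSym E)) :
    Function.update (rst s g) Q.QQ l = rst s { g with qq := l } := by
  funext r; cases r <;> rfl

@[simp] theorem rset_ww (s : SQ E) (g : RS E) (l : List (SSym E)) :
    Function.update (rst s g) Q.WW l = rst s { g with ww := l } := by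
  funext r; cases r <;> rfl

@[simp] theorem rset_dd (s : SQ E) (g : RS E) (l : List (SSym E)) :
    Function.update (rst s g) Q.DD l = rst s { g with dd := l } := by
  funext r; cases r <;> rfl

@[simp] theorem rset_kp (s : SQ E) (g : RS E) (l : List (SSym E)) :
    Function.update (rst s g) Q.KP l = rst s { g with kp := l } := by
  funext r; cases r <;> rfl

/-! ### The body of the reduction -/

/-- Reduce one number of `2 * W` bits. -/
def redB : PQ E :=
  (Prog.forr Q.WW Q.T1 (Prog.mov Q.X Q.A)).seq
    ((Prog.rev Q.A Q.P).seq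
      ((scan2 Q.P Q.X Q.A Q.F1 x3 mj).seq
        ((Prog.rev Q.A Q.P).seq
          (scan1 Q.P Q.O Q.F1 (fun a c => a ^^ c) (fun a c => a && c)))))

/-- The list form of the result. -/
theorem redW_bits {W z : ℕ} (hz : z < 2 ^ (2 * W)) :
    siO (fun a c => a ^^ c) (fun a c => a && c) (scC mj false (bitsOf W z) (bitsOf W (z / 2 ^ W)))
      (scO x3 mj false (bitsOf W z) (bitsOf W (z / 2 ^ W))) = bitsOf W (redW W z) ∧
    siC (fun a c => a && c) (scC mj false (bitsOf W z) (bitsOf W (z / 2 ^ W)))
      (scO x3 mj false (bitsOf W z) (bitsOf W (z / 2 ^ W))) = false := by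
  have hp : 0 < 2 ^ W := by positivity
  have hl : (bitsOf W z).length = (bitsOf W (z / 2 ^ W)).length := by simp
  have h1 := add_val false (bitsOf W z) (bitsOf W (z / 2 ^ W)) hl
  have hlo := length_scO x3 mj false (bitsOf W z) (bitsOf W (z / 2 ^ W)) hl
  set c := scC mj false (bitsOf W z) (bitsOf W (z / 2 ^ W)) with hc
  set s := scO x3 mj false (bitsOf W z) (bitsOf W (z / 2 ^ W)) with hs
  have h2 := inc_val c s
  rw [length_bitsOf] at h1 hlo
  rw [hlo] at h2
  have hh : z / 2 ^ W < 2 ^ W := by
    rw [Nat.div_lt_iff_lt_mul hp, ← pow_add]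
    rwa [← Nat.two_mul]
  have hm : z % 2 ^ W < 2 ^ W := Nat.mod_lt _ hp
  rw [natOf_bitsOf, natOf_bitsOf_of_lt hh] at h1
  have hsl : natOf s < 2 ^ W := by rw [← hlo]; exact natOf_lt s
  have hil : natOf (siO (fun a c => a ^^ c) (fun a c => a && c) c s) < 2 ^ W := by
    conv_rhs => rw [← hlo, ← length_siO (fun a c => a ^^ c) (fun a c => a && c) c s]
    exact natOf_lt _
  have hredW : redW W z = (z % 2 ^ W + z / 2 ^ W + (z % 2 ^ W + z / 2 ^ W) / 2 ^ W) % 2 ^ W := rfl
  have hF : siC (fun a c => a && c) c s = false := by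
    cases hcc : siC (fun a c => a && c) c s with
    | false => rfl
    | true =>
      exfalso
      rw [hcc] at h2
      rcases Bool.eq_false_or_eq_true c with h | h
      · rw [h] at h1 h2
        simp only [Bool.toNat_true, Bool.toNat_false, Nat.mul_one, Nat.add_zero] at h1 h2
        omega
      · rw [h] at h1 h2
        simp only [Bool.toNat_true, Bool.toNat_false, Nat.mul_one, Nat.mul_zero,
          Nat.add_zero] at h1 h2
        omega
  refine ⟨?_, hF⟩
  rw [hF] at h2
  refine natOf_inj (by rw [length_siO, hlo, length_bitsOf]) ?_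
  rw [natOf_bitsOf]
  have hval : natOf (siO (fun a c => a ^^ c) (fun a c => a && c) c s) = redW W z := by
    rw [hredW]
    cases hcc : c with
    | false =>
      rw [hcc] at h1 h2
      simp only [Bool.toNat_false, Nat.mul_zero, Nat.add_zero] at h1 h2
      have e1 : (z % 2 ^ W + z / 2 ^ W) / 2 ^ W = 0 := Nat.div_eq_of_lt (by omega)
      rw [e1, Nat.add_zero, Nat.mod_eq_of_lt (by omega)]
      omega
    | true =>
      rw [hcc] at h1 h2
      simp only [Bool.toNat_true, Nat.mul_one, Bool.toNat_false, Nat.mul_zero, Nat.add_zero]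
        at h1 h2
      have e1 : (z % 2 ^ W + z / 2 ^ W) / 2 ^ W = 1 := by
        apply Nat.div_eq_of_lt_le <;> omega
      rw [e1]
      have e2 : z % 2 ^ W + z / 2 ^ W + 1 = natOf s + 1 + 2 ^ W := by omega
      rw [e2, Nat.add_mod_right, Nat.mod_eq_of_lt (by omega)]
      omega
  rw [hval, Nat.mod_eq_of_lt (by rw [← hval]; exact hil)]

/-- The scratch stacks used by the bodies are empty. -/
structure Emp (s : SQ E) : Prop where
  a : s Q.A = []
  p : s Q.P = []
  v : s Q.V = []
  f : s Q.F1 = []
  t1 : s Q.T1 = []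

theorem rst_eq (s : SQ E) (x o : List (SSym E)) (h : Emp s) :
    Function.update (Function.update s Q.X x) Q.O o =
      rst s ⟨x, o, [], [], [], [], [], s Q.T2, s Q.T3, s Q.HB, s Q.QQ, s Q.WW, s Q.DD,
        s Q.KP⟩ := by
  obtain ⟨h1, h2, h3, h4, h5⟩ := h
  funext r
  cases r <;> simp [rst, h1, h2, h3, h4, h5]

theorem rd_bits_append (l l' : List Bool) : (bits (l ++ l') : List (SSym E)) = bits l ++ bits l' := by
  simp [bits]

theorem rd_bits_reverse (l : List Bool) :
    (bits l : List (SSym E)).reverse = bits l.reverse := by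
  simp [bits]

theorem red_str {W z : ℕ} (hz : z < 2 ^ (2 * W)) (s : SQ E) (h : Emp s) (hw : s Q.WW = una W) :
    Str Q.X Q.O redB s (bits (bitsOf (2 * W) z)) (bits (bitsOf W (redW W z))) (20 * W + 5) := by
  intro rest out
  have h0 := h
  obtain ⟨h1, h2, h3, h4, h5⟩ := h
  rw [rst_eq s _ _ h0, rst_eq s _ _ h0]
  rw [Nat.two_mul, bitsOf_add, rd_bits_append, List.append_assoc]
  obtain ⟨e1, e2⟩ := redW_bits hz
  set lo := bitsOf W z with hlo
  set hi := bitsOf W (z / 2 ^ W) with hhi
  have hll : lo.length = hi.length := by simp [hlo, hhi]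
  have hlW : lo.length = W := by simp [hlo]
  -- the low half to `A`
  have r1 := Runs.movs (u := Q.WW) (t := Q.T1) (x := Q.X) (o := Q.A) (by decide) (by decide)
    (by decide) (by decide) (by decide) (by decide)
    (rst s ⟨bits lo ++ (bits hi ++ rest), out, [], [], [], [], [], s Q.T2, s Q.T3, s Q.HB,
      s Q.QQ, s Q.WW, s Q.DD, s Q.KP⟩) (bits lo) (bits hi ++ rest) W (by simp [hlo])
    (by simp [hw]) (by simp) (by simp)
  -- to `P`
  have r2 := Runs.rev (Γ := SSym E) (i := Q.A) (j := Q.P) (by decide)
    (rst s ⟨bits hi ++ rest, out, (bits lo).reverse, [], [], [], [], s Q.T2, s Q.T3, s Q.HB,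
      s Q.QQ, s Q.WW, s Q.DD, s Q.KP⟩)
  have r3 := Runs.scan2 (i := Q.P) (j := Q.X) (o := Q.A) (q := Q.F1) (by decide) (by decide)
    (by decide) (by decide) (by decide) (by decide) x3 mj lo hi hll false rest
    (rst s ⟨bits hi ++ rest, out, [], bits lo, [], [], [], s Q.T2, s Q.T3, s Q.HB,
      s Q.QQ, s Q.WW, s Q.DD, s Q.KP⟩) (by simp) (by simp) (by simp)
  have r4 := Runs.rev (Γ := SSym E) (i := Q.A) (j := Q.P) (by decide)
    (rst s ⟨rest, out, (bits (scO x3 mj false lo hi)).reverse, [], [],
      fl (scC mj false lo hi), [], s Q.T2, s Q.T3, s Q.HB,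
      s Q.QQ, s Q.WW, s Q.DD, s Q.KP⟩)
  have r5 := Runs.scan1 (i := Q.P) (o := Q.O) (q := Q.F1) (by decide) (by decide)
    (by decide) (fun a c => a ^^ c) (fun a c => a && c) (scO x3 mj false lo hi)
    (scC mj false lo hi)
    (rst s ⟨rest, out, [], bits (scO x3 mj false lo hi), [],
      fl (scC mj false lo hi), [], s Q.T2, s Q.T3, s Q.HB,
      s Q.QQ, s Q.WW, s Q.DD, s Q.KP⟩) (by simp) (by simp)
  have hl2 := length_scO x3 mj false lo hi hll
  simp only [rset_x, rset_o, rset_a, rset_p, rset_f, rst_o, rst_a, rst_p,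
    List.append_nil, List.reverse_reverse, List.length_reverse, length_bits, hl2, hlW, e1, e2,
    fl_false] at r1 r2 r3 r4 r5
  refine ((r1.seq (r2.seq (r3.seq (r4.seq r5)))).mono ?_)
  omega

/-- The reduction of all numbers. -/
def redP : PQ E := (Prog.forr Q.HB Q.T2 redB).seq (Prog.rev Q.O Q.X)

theorem Clean.emp {s : SQ E} (h : Clean s) : Emp s :=
  ⟨h _ (by decide), h _ (by decide), h _ (by decide), h _ (by decide), h _ (by decide)⟩

theorem arr_one (N W : ℕ) (z : ℕ → ℕ) : arr N 1 W (fun j _ => z j) = cat N fun j => bitsOf W (z j) := by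
  unfold arr
  exact cat_congr fun j _ => cat_one _

theorem bits_cat (n : ℕ) (f : ℕ → List Bool) :
    (bits (cat n f) : List (SSym E)) = cat n fun i => bits (f i) := map_cat _ _ _

theorem redSpec : RedSpec (redP : PQ E) 45 := by
  intro N W z s hc hW hz hN hw hX
  have he := hc.emp
  have hO : s Q.O = [] := hc _ (by decide)
  have hT2 : s Q.T2 = [] := hc _ (by decide)
  have h1 := Str.forr (u := Q.HB) (t := Q.T2) (x := Q.X) (o := Q.O) (by decide) (by decide)
    (by decide) (by decide) (by decide) (body := (redB : PQ E)) (s := s) N mk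
    (fun j => bits (bitsOf (2 * W) (z j))) (fun j => bits (bitsOf W (redW W (z j))))
    (20 * W + 5) hN hT2 (by
      intro k _ l l'
      refine red_str (hz k) _ ⟨?_, ?_, ?_, ?_, ?_⟩ ?_
      · simpa using he.a
      · simpa using he.p
      · simpa using he.v
      · simpa using he.f
      · simpa using he.t1
      · simpa using hw)
  have h2 := h1 [] []
  rw [List.append_nil, List.append_nil] at h2
  have e0 : Function.update (Function.update s Q.X (cat N fun j => bits (bitsOf (2 * W) (z j))))
      Q.O [] = s := by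
    rw [← bits_cat, ← arr_one, ← hX, Function.update_eq_self, ← hO, Function.update_eq_self]
  rw [e0] at h2
  have h3 := Runs.rev (Γ := SSym E) (i := Q.O) (j := Q.X) (by decide)
    (Function.update (Function.update s Q.X []) Q.O
      (cat N fun j => bits (bitsOf W (redW W (z j)))).reverse)
  refine ((h2.seq h3).mono ?_).of_eq ?_
  · rw [Function.update_self, List.length_reverse, length_cat_of (L := W) (by simp)]
    have : N * (20 * W + 5 + 7) + 1 + 1 + 3 * (N * W) = 23 * (N * W) + 12 * N + 2 := by ring
    have h5 : N ≤ N * W := Nat.le_mul_of_pos_right _ hW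
    omega
  · rw [arr_one, bits_cat]
    funext r
    simp only [Function.update_apply]
    split_ifs <;> simp_all

end Vale.Agent.P338.SS
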