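import Vale.Agent.P338.SSPass

/-!
# P338, third part: the stages (`FwdSpec`, `InvSpec`)
-/

namespace Vale.Agent.P338.SS

open S2

variable {E : Type}

/-- A stage: all blocks, then the result is moved back to `X`. -/
def stageP (ini sl : PQ E) : PQ E :=
  (Prog.forr Q.HB Q.F4 (blockP ini sl)).seq (Prog.rev Q.O Q.X)

/-- Programs that set the rotation counter. -/
def IniSpec (ini : PQ E) (W e₀ Ti : ℕ) : Prop :=
  ∀ s : SQ E, s Q.WW = una W → s Q.T1 = [] → s Q.EE = [] →
    Runs ini s (Function.update s Q.EE (una e₀)) Ti

theorem runs_stageP {ini sl : PQ E} {h q W st : ℕ} {f g₁ g₂ : ℕ → ℕ → ℕ} {e : ℕ → ℕ}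
    {T Ti : ℕ} (hsl : ∀ β < h, SlotSpec sl q W st (f β) (g₁ β) (g₂ β) e T)
    (hini : IniSpec ini W (e 0) Ti) (heB : e q ≤ W) (s : SQ E) (hc : Clean s)
    (hW : s Q.WW = una W) (hS : s Q.ST = una st) (hQ : s Q.QQ = una q)
    (hH : s Q.HB = una h)
    (hX : s Q.X = bits (cat h fun β => cat (2 * q) fun i => bitsOf W (f β i))) :
    Runs (stageP ini sl) s (Function.update s Q.X (bits (cat h fun β =>
      (cat q fun i => bitsOf W (g₁ β i)) ++ cat q fun i => bitsOf W (g₂ β i))))
      (h * (q * (T + 23 * W + 15) + Ti + 3 * W + 15) + 2) := by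
  have z : ∀ r ∈ sc, s r = [] := hc
  have h' := Runs.forr' (u := Q.HB) (t := Q.F4) (by decide) (body := blockP ini sl) h mk
    (fun k => Function.update (Function.update s
      Q.X (bits (cat (h - k) fun β => cat (2 * q) fun i => bitsOf W (f (k + β) i))))
      Q.O (bits (cat k fun β => (cat q fun i => bitsOf W (g₁ β i)) ++
        cat q fun i => bitsOf W (g₂ β i))).reverse)
    (fun _ => q * (T + 17 * W + 15) + Ti + 3 * W + 8)
    (fun k _ => by simp [hH, una]) (fun k _ => by simpa using z Q.F4 (by decide))
    (by
      intro k hk l l'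
      obtain ⟨m, hm⟩ : ∃ m, h - k = m + 1 := ⟨h - k - 1, by omega⟩
      have hm' : h - (k + 1) = m := by omega
      have e1 : (cat (h - k) fun β => cat (2 * q) fun i => bitsOf W (f (k + β) i)) =
          (cat (2 * q) fun i => bitsOf W (f k i)) ++
            cat (h - (k + 1)) fun β => cat (2 * q) fun i => bitsOf W (f (k + 1 + β) i) := by
        rw [hm, hm', cat_succ']
        simp only [Nat.add_zero]
        congr 1
        exact cat_congr fun β _ => cat_congr fun i _ => by
          rw [Nat.add_right_comm, Nat.add_assoc]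
      have r1 := runs_blockP (eB := W) (Ti := Ti) (ini := ini) (hsl k hk)
        (Function.update (Function.update (Function.update (Function.update s
      Q.X (bits (cat (h - k) fun β => cat (2 * q) fun i => bitsOf W (f (k + β) i))))
      Q.O (bits (cat k fun β => (cat q fun i => bitsOf W (g₁ β i)) ++
        cat q fun i => bitsOf W (g₂ β i))).reverse) Q.HB l) Q.F4 l')
        (bits (cat (h - (k + 1)) fun β => cat (2 * q) fun i => bitsOf W (f (k + 1 + β) i)))
        (hini _ (by simp [hW]) (by simpa using z Q.T1 (by decide))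
          (by simpa using z Q.EE (by decide))) heB
        (by
          refine ⟨by simp [hW], by simp [hS], ?_⟩
          intro r hr
          simp only [slSc, List.mem_cons, List.not_mem_nil, or_false] at hr
          rcases hr with rfl | rfl | rfl | rfl | rfl | rfl | rfl | rfl
          · simpa using z Q.T1 (by decide)
          · simpa using z Q.T2 (by decide)
          · simpa using z Q.T3 (by decide)
          · simpa using z Q.P (by decide)
          · simpa using z Q.V (by decide)
          · simpa using z Q.C1 (by decide)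
          · simpa using z Q.C2 (by decide)
          · simpa using z Q.F6 (by decide))
        (by simp [hQ]) (by simpa using z Q.F5 (by decide)) (by simpa using z Q.A (by decide))
        (by simpa using z Q.O2 (by decide)) (by simpa using z Q.EE (by decide))
        (by simp [e1, bits_append])
      refine r1.of_eq ?_
      funext r
      cases r <;> simp [cat_succ, bits_append])
  simp only [Finset.sum_const, Finset.card_range, smul_eq_mul] at h'
  have e0 : (Function.update (Function.update s
      Q.X (bits (cat (h - 0) fun β => cat (2 * q) fun i => bitsOf W (f (0 + β) i))))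
      Q.O (bits (cat 0 fun β => (cat q fun i => bitsOf W (g₁ β i)) ++
        cat q fun i => bitsOf W (g₂ β i))).reverse) = s := by
    funext r
    cases r <;> simp [hX, bits]
    exact z Q.O (by decide)
  rw [e0] at h'
  have r2 := Runs.rev (i := Q.O) (j := Q.X) (by decide)
    (Function.update (Function.update s Q.X []) Q.O (bits (cat h fun β =>
      (cat q fun i => bitsOf W (g₁ β i)) ++ cat q fun i => bitsOf W (g₂ β i))).reverse)
  refine (((h'.of_eq ?_).seq r2).mono ?_).of_eq ?_
  · funext r
    cases r <;> simp [bits]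
  · have hl : (cat h fun β => (cat q fun i => bitsOf W (g₁ β i)) ++
        cat q fun i => bitsOf W (g₂ β i)).length = h * (2 * q * W) :=
      length_cat_of fun β _ => by
        rw [List.length_append, length_cat_of (L := W) (fun i _ => by simp),
          length_cat_of (L := W) (fun i _ => by simp)]
        ring
    simp only [Function.update_self, List.length_reverse, length_bits, hl]
    have : h * (q * (T + 23 * W + 15) + Ti + 3 * W + 15) =
      h * (q * (T + 17 * W + 15) + Ti + 3 * W + 8 + 4) + 3 * h + 3 * (h * (2 * q * W)) := by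
      ring
    omega
  · have hO := z Q.O (by decide)
    funext r
    cases r <;> simp [bits, hO]

/-! ### The forward stage -/

/-- A forward stage. -/
def fwdP : PQ E := stageP (Prog.copyOnto Q.WW Q.EE Q.T1) fSlot

theorem fSlot_spec {q W st : ℕ} (f : ℕ → ℕ) (hf : ∀ i, f i < 2 ^ W) (hq : 1 ≤ q)
    (hst : q * st ≤ W) :
    SlotSpec (fSlot : PQ E) q W st f (fun k => addW W (f k) (f (k + q)))
      (fun k => rotN W (W - k * st) (subW W (f k) (f (k + q)))) (fun k => W - k * st)
      (65 * W + 26) := by
  intro k s ra rx hk hs hA hX hE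
  obtain ⟨hW, hS, z⟩ := hs
  have hst' : st ≤ W := le_trans (Nat.le_mul_of_pos_left _ hq) hst
  have h := runs_fSlot s (hf k) (hf (k + q)) (Nat.sub_le _ _) hst' hA hX hW hE hS
    (z _ (by decide)) (z _ (by decide)) (z _ (by decide)) (z _ (by decide))
    (z _ (by decide)) (z _ (by decide)) (z _ (by decide)) (z _ (by decide))
  refine h.of_eq ?_
  rw [Nat.sub_sub, ← Nat.succ_mul, bits_reverse, bits_reverse]

theorem fwd_spec : FwdSpec (fwdP : PQ E) 200 := by
  intro h q W st F s hc hq hW1 hst hF hH hQ hW hS hX
  have h1 := runs_stageP (e := fun k => W - k * st) (T := 65 * W + 26) (Ti := 6 * W + 1)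
    (ini := (Prog.copyOnto Q.WW Q.EE Q.T1 : PQ E)) (h := h) (f := F)
    (fun β _ => fSlot_spec (F β) (hF β) hq hst)
    (by
      intro s hW hT hE
      refine (Runs.copyOnto (a := Q.WW) (b := Q.EE) (t := Q.T1) (by decide) (by decide)
        (by decide) s hT).mono ?_ |>.of_eq ?_
      · simp [hW]
      · simp [hW, hE])
    (Nat.sub_le _ _) s hc hW hS hQ hH hX
  refine (h1.mono ?_).of_eq ?_
  · have e1 : h * 1 ≤ h * (q * W) := Nat.mul_le_mul_left _ (Nat.mul_pos hq hW1)
    have e2 : h * q * 1 ≤ h * q * W := Nat.mul_le_mul_left _ hW1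
    have e3 : h * W * 1 ≤ h * W * q := Nat.mul_le_mul_left _ hq
    have e4 : h * (q * (65 * W + 26 + 23 * W + 15) + (6 * W + 1) + 3 * W + 15) + 2 =
      88 * (h * q * W) + 41 * (h * q) + 9 * (h * W) + 16 * h + 2 := by ring
    have e5 : h * W * q = h * q * W := by ring
    have e6 : h * (q * W) = h * q * W := by ring
    rw [e4]
    omega
  · congr 2
    unfold arr
    rw [Nat.mul_comm 2 h, cat_mul]
    refine cat_congr fun β _ => ?_
    rw [cat_succ, cat_one]
    unfold fwdF
    have a1 : (β * 2 + 0) % 2 = 0 := by omega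
    have a2 : (β * 2 + 1) % 2 = 1 := by omega
    have a3 : (β * 2 + 0) / 2 = β := by omega
    have a4 : (β * 2 + 1) / 2 = β := by omega
    simp only [a1, a2, a3, a4, if_true]
    rfl

/-! ### The inverse stage -/

/-- An inverse stage. -/
def invP : PQ E := stageP Prog.skip iSlot

theorem iSlot_spec {q W st : ℕ} (f : ℕ → ℕ) (hf : ∀ i, f i < 2 ^ W) (hq : 1 ≤ q)
    (hst : q * st ≤ W) :
    SlotSpec (iSlot : PQ E) q W st f (fun k => addW W (f k) (rotN W (k * st) (f (k + q))))
      (fun k => subW W (f k) (rotN W (k * st) (f (k + q)))) (fun k => k * st)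
      (65 * W + 26) := by
  intro k s ra rx hk hs hA hX hE
  obtain ⟨hW, hS, z⟩ := hs
  have hst' : st ≤ W := le_trans (Nat.le_mul_of_pos_left _ hq) hst
  have h := runs_iSlot s (hf k) (hf (k + q)) (le_trans (Nat.mul_le_mul_right _ hk.le) hst)
    hst' hA hX hW hE hS
    (z _ (by decide)) (z _ (by decide)) (z _ (by decide))
    (z _ (by decide)) (z _ (by decide)) (z _ (by decide)) (z _ (by decide))
  refine h.of_eq ?_
  rw [← Nat.succ_mul, bits_reverse, bits_reverse]

theorem inv_spec : InvSpec (invP : PQ E) 200 := by
  intro h q W st G s hc hq hW1 hst hG hH hQ hW hS hX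
  have eX : arr (2 * h) q W G = cat h fun β => cat (2 * q) fun i => bitsOf W
      (if i < q then G (2 * β) i else G (2 * β + 1) (i - q)) := by
    unfold arr
    rw [Nat.mul_comm 2 h, cat_mul]
    refine cat_congr fun β _ => ?_
    rw [cat_succ, cat_one, Nat.mul_comm β 2, two_mul q, cat_add]
    congr 1
    · refine cat_congr fun i hi => ?_
      rw [if_pos hi, Nat.add_zero]
    · refine cat_congr fun i _ => ?_
      rw [if_neg (by omega), Nat.add_sub_cancel_left]
  rw [eX] at hX
  have h1 := runs_stageP (e := fun k => k * st) (T := 65 * W + 26) (Ti := 1)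
    (ini := (Prog.skip : PQ E)) (h := h)
    (f := fun β i => if i < q then G (2 * β) i else G (2 * β + 1) (i - q))
    (fun β _ => iSlot_spec _ (fun i => by split <;> exact hG _ _) hq hst)
    (by
      intro s hW hT hE
      refine (Runs.skip s).of_eq ?_
      simp only [Nat.zero_mul]
      rw [show (una 0 : List (SSym E)) = [] from rfl, ← hE, Function.update_eq_self])
    hst s hc hW hS hQ hH hX
  refine (h1.mono ?_).of_eq ?_
  · have e1 : h * 1 ≤ h * (q * W) := Nat.mul_le_mul_left _ (Nat.mul_pos hq hW1)
    have e2 : h * q * 1 ≤ h * q * W := Nat.mul_le_mul_left _ hW1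
    have e3 : h * W * 1 ≤ h * W * q := Nat.mul_le_mul_left _ hq
    have e4 : h * (q * (65 * W + 26 + 23 * W + 15) + 1 + 3 * W + 15) + 2 =
      88 * (h * q * W) + 41 * (h * q) + 3 * (h * W) + 16 * h + 2 := by ring
    have e5 : h * W * q = h * q * W := by ring
    have e6 : h * (q * W) = h * q * W := by ring
    rw [e4]
    omega
  · congr 2
    unfold arr
    refine cat_congr fun β _ => ?_
    rw [two_mul q, cat_add]
    congr 1
    · refine cat_congr fun i hi => ?_
      simp only [invF, if_pos hi]
      rw [if_neg (show ¬ i + q < q by omega), Nat.add_sub_cancel]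
    · refine cat_congr fun i hi => ?_
      simp only [invF]
      rw [if_neg (show ¬ q + i < q by omega), if_pos hi, if_neg (show ¬ i + q < q by omega),
        Nat.add_sub_cancel, Nat.add_sub_cancel_left]

end Vale.Agent.P338.SS
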