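import Vale.Agent.P338.SSUp

/-!
# P338, third part: one level of the multiplication, up: the complete program
-/

namespace Vale.Agent.P338.SS

variable {E : Type}

theorem up_leaf_lt (u : ℕ) (x : ℕ → ℕ) (j : ℕ) : leaf u x j < 2 ^ lpW u := by
  refine fwdIter_lt _ _ (fun β j => ?_) _ _ _
  refine (pcs_lt u x β j).trans_le (Nat.pow_le_pow_right (by norm_num) ?_)
  unfold lpP lpW; omega

/-- One level back. -/
noncomputable def upP (red inv norm asm : PQ E) : PQ E :=
  ((popF.seq parL).map le).seq <| red.seq <| (prepU.map le).seq <|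
  (Prog.loop (fun tp => nonempty L.uu fun i => tp (le i)) (stageU inv)).seq <|
  norm.seq <| asm.seq <| (endU.map le)

theorem up_spec {red inv norm asm : PQ E} {C₁ C₂ C₃ C₄ : ℕ} (hr : RedSpec red C₁)
    (hi : InvSpec inv C₂) (hn : NormSpec norm C₃) (ha : AsmSpec asm C₄) :
    UpSpec (upP red inv norm asm) (17 * C₁ + 9 * C₂ + 9 * C₃ + 3 * C₄ + 5000) := by
  intro u h x y fr s hs hpar hu hh hx hy h0 h1 h2 h3
  obtain ⟨v, hv⟩ : ∃ v, v = LV.of s := ⟨_, rfl⟩
  have hov : ovw le v.s s = s := by rw [hv]; exact ovw_of s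
  have ok : v.Ok := by
    rw [hv]
    exact ⟨hs Q.F1 (by decide), hs Q.F2 (by decide), hs Q.F3 (by decide),
      hs Q.F4 (by decide)⟩
  obtain ⟨g1, g2, g3, g4⟩ := ok
  have p1 : v.qq = [] := by rw [hv]; exact hpar Q.QQ (by simp [par])
  have p2 : v.ww = [] := by rw [hv]; exact hpar Q.WW (by simp [par])
  have p3 : v.st = [] := by rw [hv]; exact hpar Q.ST (by simp [par])
  have p4 : v.pp = [] := by rw [hv]; exact hpar Q.PP (by simp [par])
  have p5 : v.dd = [] := by rw [hv]; exact hpar Q.DD (by simp [par])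
  have p6 : v.kp = [] := by rw [hv]; exact hpar Q.KP (by simp [par])
  have q0 : v.uu = [] := by rw [hv]; exact h0
  have q1 : v.hb = una (h * lpK u) := by rw [hv]; exact h1
  have q2 : v.fr = frm u ++ fr := by rw [hv]; exact h2
  have q3 : v.x = bits (arr (h * lpK u) 1 (2 * (32 * 2 ^ (u / 2))) fun j _ =>
      leaf u x j * leaf u y j) := by rw [hv]; exact h3
  have hP2 := pow_halves u
  have hk4 : 4 ≤ lpk u := by unfold lpk; omega
  have hk5 : lpk u ≤ u + 4 := by unfold lpk; omega
  have h2u : 1 ≤ 2 ^ (u / 2) := Nat.one_le_two_pow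
  have h2u' : 1 ≤ 2 ^ (u - u / 2) := Nat.one_le_two_pow
  have hz : ∀ j, leaf u x j * leaf u y j < 2 ^ (2 * lpW u) := by
    intro j
    rw [two_mul, pow_add]
    exact Nat.mul_lt_mul'' (up_leaf_lt u x j) (up_leaf_lt u y j)
  obtain ⟨z, hzd⟩ : ∃ z : ℕ → ℕ, z = fun j => leaf u x j * leaf u y j := ⟨_, rfl⟩
  obtain ⟨G, hG⟩ : ∃ G : ℕ → ℕ → ℕ, G = fun j _ => redW (lpW u) (z j) := ⟨_, rfl⟩
  have hGlt : ∀ β i, G β i < 2 ^ lpW u := by
    intro β i; rw [hG]; exact redW_lt _ _
  have hcof : ∀ β i, nrm (lpD u) (lpk u) (invIter (lpW u) (lpD u) (lpk u) G β i) =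
      cof u (fun j => leaf u x j * leaf u y j) β i := by
    intro β i; rw [hG, hzd]; rfl
  have hpure := levelPure u x y hu hx hy
  -- the programs
  have r1 := RunsE.small le_inj s ((runs_popF (fr := fr) q0 q2).seq
    (runs_parL ({ v with uu := una u, fr := fr } : LV E) hu rfl p1 p2 p3 p4 p5 p6
      g1 g2 g3 g4))
  have r2 := runs_redE hr hs
    (v := ({ v with
      uu := una u
      fr := fr
      qq := una (lpH u)
      ww := una (lpW u)
      st := una (lpD u / lpH u)
      pp := una (lpP u)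
      dd := una (lpD u)
      kp := una (lpk u) } : LV E))
    (v' := ({ v with
      uu := una u
      fr := fr
      qq := una (lpH u)
      ww := una (lpW u)
      st := una (lpD u / lpH u)
      pp := una (lpP u)
      dd := una (lpD u)
      kp := una (lpk u)
      x := bits (arr (h * lpK u) 1 (lpW u) G) } : LV E))
    ⟨g1, g2, g3, g4⟩ (N := h * lpK u) (W := lpW u) (z := z)
    (by unfold lpW; omega) (by rw [hzd]; exact hz) q1 rfl
    (by show v.x = _; rw [q3, hzd]; rfl)
    (by rw [hG]; funext m; cases m <;> simp [LV.s])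
  have r3 := RunsE.small le_inj s (runs_prepU
    (v := ({ v with
      uu := una u
      fr := fr
      qq := una (lpH u)
      ww := una (lpW u)
      st := una (lpD u / lpH u)
      pp := una (lpP u)
      dd := una (lpD u)
      kp := una (lpk u)
      x := bits (arr (h * lpK u) 1 (lpW u) G) } : LV E)) ⟨g1, g2, g3, g4⟩
      (a := lpD u / lpH u) (b := lpH u) (c := lpk u) (d := lpD u) (u := u)
      rfl rfl rfl rfl rfl)
  obtain ⟨v1, hv1⟩ : ∃ v1 : LV E, v1 = { v with
      fr := fr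
      ww := una (lpW u)
      pp := una (lpP u)
      dd := una (lpD u)
      kp := una (lpk u) } := ⟨_, rfl⟩
  have k1 : v1.Ok := by rw [hv1]; exact ⟨g1, g2, g3, g4⟩
  have r3' : RunsE le s (prepU.map le) ({ v with
      uu := una u
      fr := fr
      qq := una (lpH u)
      ww := una (lpW u)
      st := una (lpD u / lpH u)
      pp := una (lpP u)
      dd := una (lpD u)
      kp := una (lpk u)
      x := bits (arr (h * lpK u) 1 (lpW u) G) } : LV E).s (ust v1 u h G 0).s
      (3 * (lpD u / lpH u + lpH u + u) + 6 * (lpk u + lpD u) + 10) := by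
    refine RunsE.of_eq r3 ?_
    have e1 : h * 2 ^ (lpk u - 0) = h * lpK u := by rw [Nat.sub_zero, lpK_eq]
    unfold ust
    rw [e1, hv1]
    funext m; cases m <;> simp [LV.s, invIter, q1]
  have r4 := RunsE.loop_le (S := s) le_inj (c := nonempty L.uu) (p := stageU inv) (lpk u)
    (fun i => (ust v1 u h G i).s)
    ((9 * C₂ + 38) * (h * (32 * 2 ^ u)))
    (by
      intro k hk
      rw [nonempty_tops]
      show (!(una (lpk u - k) : List (SSym E)).isEmpty) = true
      rw [u_isEmpty]; simp; omega)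
    (by
      rw [nonempty_tops]
      show (!(una (lpk u - lpk u) : List (SSym E)).isEmpty) = false
      rw [u_isEmpty]; simp)
    (fun k hk => runs_stageU hi hs k1 G hGlt hh (by rw [hv1]) hk)
  have e0 : h * 2 ^ (lpk u - lpk u) = h := by rw [Nat.sub_self, pow_zero, Nat.mul_one]
  have eK : 2 ^ lpk u = lpK u := (lpK_eq u).symm
  have eD : lpW u = 2 * lpD u := lpW_eq u
  have eP : lpD u = 4 * lpP u := lpD_eq' u
  have eKP : lpK u * lpP u = 2 * (32 * 2 ^ u) := by
    rw [lpK_eq', Nat.mul_assoc, Nat.mul_comm (lpH u), lpH_mul_lpP]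
  obtain ⟨v2, hv2⟩ : ∃ v2 : LV E, v2 = { v1 with
      uu := []
      hb := una h
      qq := una (lpK u)
      st := una (lpD u / 2 ^ lpk u) } := ⟨_, rfl⟩
  have k2 : v2.Ok := by rw [hv2]; exact ⟨k1.1, k1.2, k1.3, k1.4⟩
  have r5 := runs_normE hn hs
    (v := ust v1 u h G (lpk u))
    (v' := ({ v2 with
      x := bits (arr h (lpK u) (lpD u) (cof u fun j => leaf u x j * leaf u y j)) } : LV E))
    ⟨k1.1, k1.2, k1.3, k1.4⟩ (h := h) (K := lpK u) (D := lpD u) (κ := lpk u)
    (F := invIter (lpW u) (lpD u) (lpk u) G)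
    (by unfold lpK; omega) (by unfold lpD; omega)
    (by
      have : u / 2 < 2 ^ (u / 2) := Nat.lt_two_pow_self
      unfold lpk lpD
      omega)
    (by rw [← eD]; exact invIter_lt _ hGlt _)
    (fun β _ i hi => by rw [hcof]; exact (hpure β).1 i hi)
    (by show una (h * 2 ^ (lpk u - lpk u)) = _; rw [e0])
    (by show una (2 ^ lpk u) = _; rw [eK])
    (by show v1.ww = _; rw [hv1, ← eD])
    (by show v1.dd = _; rw [hv1])
    (by show v1.kp = _; rw [hv1])
    (by
      show bits (arr (h * 2 ^ (lpk u - lpk u)) (2 ^ lpk u) (lpW u) _) = _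
      rw [e0, eK, ← eD])
    (by
      have e6 : (fun β i => nrm (lpD u) (lpk u) (invIter (lpW u) (lpD u) (lpk u) G β i)) =
          cof u fun j => leaf u x j * leaf u y j := by
        funext β i; exact hcof β i
      rw [e6, hv2]
      unfold ust
      rw [e0, eK, Nat.sub_self]
      funext m; cases m <;> simp [LV.s, u_zero])
  have hsum : ∀ β, ∑ i ∈ Finset.range (lpK u),
      cof u (fun j => leaf u x j * leaf u y j) β i * 2 ^ (lpP u * i) = x β * y β :=
    fun β => (hpure β).2
  have r6 := runs_asmE ha hs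
    (v := ({ v2 with
      x := bits (arr h (lpK u) (lpD u) (cof u fun j => leaf u x j * leaf u y j)) } : LV E))
    (v' := ({ v2 with
      x := bits (arr h 1 (2 * (32 * 2 ^ u)) fun β _ => x β * y β) } : LV E))
    ⟨k2.1, k2.2, k2.3, k2.4⟩ (h := h) (K := lpK u) (P := lpP u)
    (c := cof u fun j => leaf u x j * leaf u y j)
    (by unfold lpK; omega) (by unfold lpP; omega)
    (fun β _ i hi => by rw [← eP]; exact (hpure β).1 i hi)
    (fun β _ => by
      rw [hsum, eKP, two_mul, pow_add]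
      exact Nat.mul_lt_mul'' (hx β) (hy β))
    (by show v2.hb = _; rw [hv2])
    (by show v2.qq = _; rw [hv2])
    (by show v2.dd = _; rw [hv2, hv1, ← eP])
    (by show v2.pp = _; rw [hv2, hv1])
    (by show bits (arr h (lpK u) (lpD u) _) = _; rw [← eP])
    (by
      have e6 : (fun β (_ : ℕ) => ∑ i ∈ Finset.range (lpK u),
          cof u (fun j => leaf u x j * leaf u y j) β i * 2 ^ (lpP u * i)) =
          fun β _ => x β * y β := by
        funext β _; exact hsum β
      rw [e6, eKP]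
      funext m; cases m <;> simp [LV.s])
  have r7 := RunsE.small le_inj s (runs_endU
    (v := ({ v2 with
      x := bits (arr h 1 (2 * (32 * 2 ^ u)) fun β _ => x β * y β) } : LV E))
    (a := lpK u) (b := lpW u) (c := lpD u / 2 ^ lpk u) (d := lpP u) (e := lpD u)
    (f := lpk u)
    (by show v2.qq = _; rw [hv2])
    (by show v2.ww = _; rw [hv2, hv1])
    (by show v2.st = _; rw [hv2])
    (by show v2.pp = _; rw [hv2, hv1])
    (by show v2.dd = _; rw [hv2, hv1])
    (by show v2.kp = _; rw [hv2, hv1]))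
  have r8 := r1.seq (r2.seq (r3'.seq (r4.seq (r5.seq (r6.seq r7)))))
  refine runs_conv r8 hov ?_ ?_
  · have e3 : ({ ({ v2 with
        x := bits (arr h 1 (2 * (32 * 2 ^ u)) fun β _ => x β * y β) } : LV E) with
          qq := []
          ww := []
          st := []
          pp := []
          dd := []
          kp := [] } : LV E).s =
        Function.update (Function.update (Function.update v.s
          L.hb (una h)) L.fr fr)
          L.x (bits (arr h 1 (2 * (32 * 2 ^ u)) fun β _ => x β * y β)) := by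
      rw [hv2, hv1]
      funext m; cases m <;> simp [LV.s, p1, p2, p3, p4, p5, p6, q0]
    show ovw le _ s = _
    rw [e3, ovw_update le_inj, ovw_update le_inj, ovw_update le_inj, hov]
    rfl
  · obtain ⟨N, hN⟩ : ∃ N, N = h * (32 * 2 ^ u) := ⟨_, rfl⟩
    have hpu : 1 ≤ 2 ^ u := Nat.one_le_two_pow
    have hN1 : 32 * 2 ^ u ≤ N := by
      rw [hN]
      exact Nat.le_mul_of_pos_left _ hh
    have t1 : u ≤ 2 ^ u := Nat.lt_two_pow_self.le
    have t2 : 2 ^ (u / 2) ≤ 2 ^ u := Nat.pow_le_pow_right (by norm_num) (by omega)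
    have t2' : 2 ^ (u - u / 2) ≤ 2 ^ u := Nat.pow_le_pow_right (by norm_num) (by omega)
    have t4 : lpW u ≤ 32 * 2 ^ u := by unfold lpW; omega
    have t5 : lpD u ≤ 16 * 2 ^ u := by unfold lpD; omega
    have t6 : lpP u ≤ 4 * 2 ^ u := by unfold lpP; omega
    have t6' : lpH u ≤ 8 * 2 ^ u := by unfold lpH; omega
    have t6'' : lpK u ≤ 16 * 2 ^ u := by unfold lpK; omega
    have t3 : lpD u / lpH u ≤ 16 * 2 ^ u := (Nat.div_le_self _ _).trans t5
    have t3' : lpD u / 2 ^ lpk u ≤ 16 * 2 ^ u := (Nat.div_le_self _ _).trans t5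
    have w1 : h * lpK u * lpW u = 16 * N := by
      rw [hN, ← hP2]; unfold lpK lpW; ring
    have w2 : h * lpK u * lpD u = 8 * N := by
      rw [hN, ← hP2]; unfold lpK lpD; ring
    have w3 : h * lpK u * lpP u = 2 * N := by
      rw [hN, ← hP2]; unfold lpK lpP; ring
    rw [← hN, w1, w2, w3]
    obtain ⟨B, hB⟩ : ∃ B, B = (9 * C₂ + 38) * N := ⟨_, rfl⟩
    obtain ⟨M, hM⟩ : ∃ M, M = N * lpk u := ⟨_, rfl⟩
    have t11 : N * 4 ≤ M := by rw [hM]; exact Nat.mul_le_mul_left _ hk4
    have t12 : lpk u ≤ M := by rw [hM]; exact Nat.le_mul_of_pos_left _ (by omega)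
    have t8 : (17 * C₁ + 9 * C₂ + 9 * C₃ + 3 * C₄ + 5000) * M =
        lpk u * B + 17 * (C₁ * M) + 9 * (C₃ * M) + 3 * (C₄ * M) + 4962 * M := by
      rw [hB, hM]; ring
    have t9 : lpk u * (B + 2) = lpk u * B + 2 * lpk u := by ring
    have t10 : C₁ * (16 * N + 1) ≤ 17 * (C₁ * M) := by
      calc C₁ * (16 * N + 1) ≤ C₁ * (17 * M) := Nat.mul_le_mul_left _ (by omega)
        _ = 17 * (C₁ * M) := by ring
    have t13 : C₃ * (8 * N + 1) ≤ 9 * (C₃ * M) := by
      calc C₃ * (8 * N + 1) ≤ C₃ * (9 * M) := Nat.mul_le_mul_left _ (by omega)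
        _ = 9 * (C₃ * M) := by ring
    have t14 : C₄ * (2 * N + 1) ≤ 3 * (C₄ * M) := by
      calc C₄ * (2 * N + 1) ≤ C₄ * (3 * M) := Nat.mul_le_mul_left _ (by omega)
        _ = 3 * (C₄ * M) := by ring
    rw [← hB, ← hM, t8, t9]
    omega

end Vale.Agent.P338.SS
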