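import Vale.Agent.P338.CallFull
import Vale.Agent.P338.Frame
import Vale.Agent.P338.Lib
import Vale.Agent.P338.Nums

/-!
# P338: two multiplying machines in one program

The stacks and the symbols of a multiplying program are renamed, so that several of them can be
used together.
-/

namespace Vale.Agent.P338

/-! ### Renaming symbols -/

section Sym

variable {ι Γ Γ' : Type}

/-- Rename the symbol of an operation. -/
def Op.sym (g : Γ → Γ') : Op Γ → Op Γ'
  | Op.keep => Op.keep
  | Op.push a => Op.push (g a)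
  | Op.pop => Op.pop

theorem Op.app_sym (g : Γ → Γ') (o : Op Γ) (l : List Γ) :
    (o.sym g).app (l.map g) = (o.app l).map g := by
  cases o with
  | keep => rfl
  | push a => rfl
  | pop => simp [Op.sym, Op.app]

/-- Rename the symbols of a program; `g'` is a left inverse of `g`. -/
def Prog.sym (g : Γ → Γ') (g' : Γ' → Γ) : Prog ι Γ → Prog ι Γ'
  | Prog.act f => Prog.act fun tp i => (f (fun i => (tp i).map g') i).sym g
  | Prog.seq p q => Prog.seq (p.sym g g') (q.sym g g')
  | Prog.ite c p q => Prog.ite (fun tp => c fun i => (tp i).map g') (p.sym g g') (q.sym g g')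
  | Prog.loop c p => Prog.loop (fun tp => c fun i => (tp i).map g') (p.sym g g')

theorem tops_sym {g : Γ → Γ'} {g' : Γ' → Γ} (hg : ∀ a, g' (g a) = a) (s : Store ι Γ) :
    (fun i => (tops (fun i => (s i).map g : Store ι Γ') i).map g') = tops s := by
  funext i
  simp only [tops_apply, List.head?_map, Option.map_map]
  have : g' ∘ g = id := funext hg
  rw [this, Option.map_id, id]

theorem Exec.sym {g : Γ → Γ'} {g' : Γ' → Γ} (hg : ∀ a, g' (g a) = a) {p : Prog ι Γ}
    {s s' : Store ι Γ} {t : ℕ} (h : Exec p s t s') :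
    Exec (p.sym g g') (fun i => (s i).map g) t (fun i => (s' i).map g) := by
  induction h with
  | act f s =>
    have key : (fun i => ((f (tops s) i).app (s i)).map g) =
        fun i => ((f (fun i => (tops (fun i => (s i).map g : Store ι Γ') i).map g') i).sym g).app
          ((s i).map g) := by
      funext i
      rw [tops_sym hg, Op.app_sym]
    rw [key]
    exact Exec.act _ _
  | seq _ _ ih₁ ih₂ => exact Exec.seq ih₁ ih₂
  | iteT hc _ ih => exact Exec.iteT (by rw [tops_sym hg, hc]) ih
  | iteF hc _ ih => exact Exec.iteF (by rw [tops_sym hg, hc]) ih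
  | loopF hc => exact Exec.loopF (by rw [tops_sym hg, hc])
  | loopT hc _ _ ih₁ ih₂ => exact Exec.loopT (by rw [tops_sym hg, hc]) ih₁ ih₂

theorem Runs.sym {g : Γ → Γ'} {g' : Γ' → Γ} (hg : ∀ a, g' (g a) = a) {p : Prog ι Γ}
    {s s' : Store ι Γ} {t : ℕ} (h : Runs p s s' t) :
    Runs (p.sym g g') (fun i => (s i).map g) (fun i => (s' i).map g) t := by
  obtain ⟨u, hu, hx⟩ := h
  exact ⟨u, hu, hx.sym hg⟩

end Sym

/-! ### Moving a stack -/

section Mv

variable {ι Γ : Type} [DecidableEq ι]

/-- Move the stack `i` to `j`, with the help of the stack `t`. -/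
def Prog.mv (i t j : ι) : Prog ι Γ := (Prog.rev i t).seq (Prog.rev t j)

theorem Runs.mv {i t j : ι} (hit : i ≠ t) (htj : t ≠ j) (hij : i ≠ j) (s : Store ι Γ)
    (ht : s t = []) (hj : s j = []) :
    Runs (Prog.mv i t j) s (Function.update (Function.update s i []) j (s i))
      (6 * (s i).length + 1) := by
  have h1 := Runs.rev (Γ := Γ) hit s
  have h2 := Runs.rev (Γ := Γ) htj (Function.update (Function.update s i []) t
    ((s i).reverse ++ s t))
  refine ((h1.seq h2).mono ?_).of_eq ?_
  · simp [ht]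
    omega
  · funext k
    by_cases hkj : k = j
    · subst hkj
      simp [ht, hj, htj.symm, hij.symm]
    by_cases hkt : k = t
    · subst hkt
      simp [ht, htj, hit.symm]
    simp [hkj, hkt]

end Mv

/-! ### Renaming the stacks and symbols of a multiplying program -/

section Embed

variable {J E J' E' : Type}

/-- The renaming of the symbols. -/
def symUp (g : E → E') : SSym E → SSym E' := Sum.map id g

open Classical in
/-- The inverse renaming of the symbols. -/
noncomputable def symDown (g : E → E') : SSym E' → SSym E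
  | Sum.inl b => Sum.inl b
  | Sum.inr y => if h : ∃ x, g x = y then Sum.inr (Classical.choose h) else Sum.inl Base.mark

theorem symDown_symUp {g : E → E'} (hg : Function.Injective g) (a : SSym E) :
    symDown g (symUp g a) = a := by
  rcases a with a | a
  · rfl
  · have h : ∃ x, g x = g a := ⟨a, rfl⟩
    simp only [symUp, Sum.map_inr, symDown]
    rw [dif_pos h, hg (Classical.choose_spec h)]

theorem map_symUp_bits (g : E → E') (l : List Bool) :
    (bits l : List (SSym E)).map (symUp g) = bits l := by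
  rw [bits, List.map_map]
  rfl

variable [DecidableEq J']

/-- The multiplying program with private stacks. -/
noncomputable def embedCall (e : Loc J → J') (g : E → E') (call : Pr J E) : Pr J' E' :=
  (Prog.mv (Sum.inl R.AX) (Sum.inl R.CNT) (Sum.inr (e (Sum.inl R.AX)))).seq
    ((Prog.mv (Sum.inl R.AY) (Sum.inl R.CNT) (Sum.inr (e (Sum.inl R.AY)))).seq
      (((call.sym (symUp g) (symDown g)).map fun i => Sum.inr (e i)).seq
        (Prog.mv (Sum.inr (e (Sum.inl R.AZ))) (Sum.inl R.CNT) (Sum.inl R.AZ))))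

theorem embedCall_spec [DecidableEq J] {e : Loc J → J'} (he : Function.Injective e) {g : E → E'}
    (hg : Function.Injective g) {call : Pr J E} {T : ℕ → ℕ} {C : ℕ}
    (hc : CallFullSpec call T C) : CallFullSpec (embedCall e g call) T (C + 30) := by
  intro m xs ys s hm hx hy hidle hemp hax hay
  have hcnt : s (Sum.inl R.CNT) = [] := hemp R.CNT (by simp)
  have haz : s (Sum.inl R.AZ) = [] := hemp R.AZ (by simp)
  have hxl : (bits xs : List (SSym E')).length = m := by simp [bits, hx]
  have hyl : (bits ys : List (SSym E')).length = m := by simp [bits, hy]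
  replace hax : s (Sum.inl R.AX) = bits xs := hax
  replace hay : s (Sum.inl R.AY) = bits ys := hay
  obtain ⟨Z, hZ⟩ : ∃ Z, Z = bitsOf (2 * m) (natOf xs * natOf ys) := ⟨_, rfl⟩
  have hZl : (bits Z : List (SSym E')).length = 2 * m := by simp [bits, hZ]
  have e1 : e (Sum.inl R.AX) ≠ e (Sum.inl R.AY) := fun h => by simpa using he h
  have e2 : e (Sum.inl R.AX) ≠ e (Sum.inl R.AZ) := fun h => by simpa using he h
  have e3 : e (Sum.inl R.AY) ≠ e (Sum.inl R.AZ) := fun h => by simpa using he h
  -- the first move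
  have r1 := Runs.mv (i := (Sum.inl R.AX : Loc J')) (t := Sum.inl R.CNT)
    (j := Sum.inr (e (Sum.inl R.AX))) (by simp) (by simp) (by simp) s hcnt (hidle _)
  rw [hax, hxl] at r1
  obtain ⟨s1, hs1⟩ : ∃ s1, s1 = Function.update (Function.update s (Sum.inl R.AX) [])
    (Sum.inr (e (Sum.inl R.AX))) (bits xs) := ⟨_, rfl⟩
  rw [← hs1] at r1
  -- the second move
  have r2 := Runs.mv (i := (Sum.inl R.AY : Loc J')) (t := Sum.inl R.CNT)
    (j := Sum.inr (e (Sum.inl R.AY))) (by simp) (by simp) (by simp) s1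
    (by rw [hs1]; simp [hcnt]) (by rw [hs1]; simpa [e1.symm] using hidle _)
  obtain ⟨s2, hs2⟩ : ∃ s2, s2 = Function.update (Function.update s1 (Sum.inl R.AY) [])
    (Sum.inr (e (Sum.inl R.AY))) (bits ys) := ⟨_, rfl⟩
  have hay1 : s1 (Sum.inl R.AY) = bits ys := by rw [hs1]; simp [hay]
  rw [hay1, ← hs2, hyl] at r2
  -- the call
  obtain ⟨s0, hs0⟩ : ∃ s0 : St J E, s0 = (St.set (St.set (fun _ => []) R.AX (bits xs)) R.AY
    (bits ys)) := ⟨_, rfl⟩
  have c1 := hc m xs ys s0 hm hx hy (fun j => by rw [hs0]; simp)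
    (fun r hr => by
      simp only [List.mem_cons, List.not_mem_nil, or_false] at hr
      rw [hs0]
      rcases hr with rfl | rfl | rfl <;> simp)
    (by rw [hs0]; simp) (by rw [hs0]; simp)
  rw [← hZ] at c1
  have c2 := c1.sym (g := symUp g) (g' := symDown g) (symDown_symUp hg)
  obtain ⟨s3, hs3⟩ : ∃ s3, s3 = Function.update (Function.update (Function.update s2
    (Sum.inr (e (Sum.inl R.AX))) []) (Sum.inr (e (Sum.inl R.AY))) [])
    (Sum.inr (e (Sum.inl R.AZ))) (bits Z) := ⟨_, rfl⟩
  have hes : ∀ i : Loc J, i ≠ Sum.inl R.AX → i ≠ Sum.inl R.AY → s2 (Sum.inr (e i)) = [] := by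
    intro i h1 h2
    rw [hs2, hs1]
    have h3 : e i ≠ e (Sum.inl R.AX) := fun h => h1 (he h)
    have h4 : e i ≠ e (Sum.inl R.AY) := fun h => h2 (he h)
    simpa [h3, h4] using hidle _
  have r3 : Runs ((call.sym (symUp g) (symDown g)).map fun i => (Sum.inr (e i) : Loc J'))
      s2 s3 (C * (m + T m)) := by
    refine Runs.map (e := fun i => (Sum.inr (e i) : Loc J'))
      (fun i j h => he (Sum.inr_injective h)) c2 ?_ ?_ ?_
    · intro i
      show s2 (Sum.inr (e i)) = (s0 i).map (symUp g)
      by_cases h1 : i = Sum.inl R.AX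
      · subst h1
        rw [hs0, hs2, hs1]
        simp [e1, map_symUp_bits]
      by_cases h2 : i = Sum.inl R.AY
      · subst h2
        rw [hs0, hs2]
        simp [map_symUp_bits]
      rw [hes i h1 h2, hs0]
      simp [h1, h2]
    · intro i
      show s3 (Sum.inr (e i)) = _
      rw [hs3]
      by_cases h3 : i = Sum.inl R.AZ
      · subst h3
        simp [map_symUp_bits]
      have h3' : e i ≠ e (Sum.inl R.AZ) := fun h => h3 (he h)
      by_cases h2 : i = Sum.inl R.AY
      · subst h2
        simp [h3']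
      have h2' : e i ≠ e (Sum.inl R.AY) := fun h => h2 (he h)
      by_cases h1 : i = Sum.inl R.AX
      · subst h1
        simp [h3', h2']
      have h1' : e i ≠ e (Sum.inl R.AX) := fun h => h1 (he h)
      simp only [ne_eq, Sum.inr.injEq, h3', h2', h1', h1, h2, h3, not_false_eq_true,
        Function.update_of_ne]
      rw [hes i h1 h2, hs0]
      simp [h1, h2]
    · intro k hk
      have h1 : k ≠ Sum.inr (e (Sum.inl R.AX)) := fun h => hk ⟨_, h.symm⟩
      have h2 : k ≠ Sum.inr (e (Sum.inl R.AY)) := fun h => hk ⟨_, h.symm⟩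
      have h3 : k ≠ Sum.inr (e (Sum.inl R.AZ)) := fun h => hk ⟨_, h.symm⟩
      rw [hs3]
      simp [h1, h2, h3]
  -- the last move
  have r4 := Runs.mv (i := (Sum.inr (e (Sum.inl R.AZ)) : Loc J')) (t := Sum.inl R.CNT)
    (j := Sum.inl R.AZ) (by simp) (by simp) (by simp) s3
    (by rw [hs3, hs2, hs1]; simp [hcnt]) (by rw [hs3, hs2, hs1]; simp [haz])
  have haz3 : s3 (Sum.inr (e (Sum.inl R.AZ))) = bits Z := by rw [hs3]; simp
  rw [haz3, hZl] at r4
  have hmul : (C + 30) * (m + T m) = C * (m + T m) + 30 * m + 30 * T m := by ring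
  refine ((r1.seq (r2.seq (r3.seq r4))).mono (by rw [hmul]; omega)).of_eq ?_
  rw [← hZ, hs3, hs2, hs1]
  funext k
  rcases k with r | j
  · by_cases h1 : r = R.AX
    · subst h1
      simp
    by_cases h2 : r = R.AY
    · subst h2
      simp
    by_cases h3 : r = R.AZ
    · subst h3
      simp
    simp [h1, h2, h3]
  · have hj := hidle j
    by_cases h3 : j = e (Sum.inl R.AZ)
    · subst h3
      simp [hj]
    by_cases h2 : j = e (Sum.inl R.AY)
    · subst h2
      simp [h3, hj]
    by_cases h1 : j = e (Sum.inl R.AX)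
    · subst h1
      simp [h3, h2, hj]
    simp [h1, h2, h3]

/-- Two multiplying programs side by side. -/
theorem callFull_two {J₁ E₁ J₂ E₂ : Type} [DecidableEq J₁] [DecidableEq J₂]
    {c₁ : Pr J₁ E₁} {c₂ : Pr J₂ E₂} {T₁ T₂ : ℕ → ℕ} {C₁ C₂ : ℕ}
    (h₁ : CallFullSpec c₁ T₁ C₁) (h₂ : CallFullSpec c₂ T₂ C₂) :
    CallFullSpec (embedCall (J' := Loc J₁ ⊕ Loc J₂) (E' := E₁ ⊕ E₂) Sum.inl Sum.inl c₁) T₁
        (C₁ + 30) ∧
      CallFullSpec (embedCall (J' := Loc J₁ ⊕ Loc J₂) (E' := E₁ ⊕ E₂) Sum.inr Sum.inr c₂) T₂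
        (C₂ + 30) :=
  ⟨embedCall_spec Sum.inl_injective Sum.inl_injective h₁,
    embedCall_spec Sum.inr_injective Sum.inr_injective h₂⟩

end Embed

end Vale.Agent.P338
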