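import Vale.Agent.P338.SSIface
import Vale.Agent.P338.Stream

/-!
# P338, third part: scanning bit lists with a flag
-/

namespace Vale.Agent.P338.SS

open Vale.Agent.P338.Lv (Str)

/-! ### Scans of bit lists -/

/-- The output of a scan of two bit lists, from the low end, with a flag. -/
def scO (f g : Bool → Bool → Bool → Bool) : Bool → List Bool → List Bool → List Bool
  | _, [], _ => []
  | _, _ :: _, [] => []
  | c, a :: as, b :: bs => f a b c :: scO f g (g a b c) as bs

/-- The flag at the end of a scan. -/
def scC (g : Bool → Bool → Bool → Bool) : Bool → List Bool → List Bool → Bool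
  | c, [], _ => c
  | c, _ :: _, [] => c
  | c, a :: as, b :: bs => scC g (g a b c) as bs

/-- The output of a scan of one bit list. -/
def siO (f g : Bool → Bool → Bool) : Bool → List Bool → List Bool
  | _, [] => []
  | c, a :: as => f a c :: siO f g (g a c) as

/-- The flag at the end of a scan. -/
def siC (g : Bool → Bool → Bool) : Bool → List Bool → Bool
  | c, [] => c
  | c, a :: as => siC g (g a c) as

theorem length_scO (f g : Bool → Bool → Bool → Bool) (c : Bool) (as bs : List Bool)
    (h : as.length = bs.length) : (scO f g c as bs).length = as.length := by
  induction as generalizing c bs with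
  | nil => rfl
  | cons a as ih =>
    cases bs with
    | nil => simp at h
    | cons b bs => simp [scO, ih _ bs (by simpa using h)]

theorem length_siO (f g : Bool → Bool → Bool) (c : Bool) (as : List Bool) :
    (siO f g c as).length = as.length := by
  induction as generalizing c with
  | nil => rfl
  | cons a as ih => simp [siO, ih]

/-- The sum bit. -/
def x3 (a b c : Bool) : Bool := (a ^^ b) ^^ c

/-- The carry. -/
def mj (a b c : Bool) : Bool := (a && b) || (a && c) || (b && c)

/-- The borrow, when `b` is subtracted from `a`. -/
def bw (a b c : Bool) : Bool := (!a && b) || (!a && c) || (b && c)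

theorem add_val (c : Bool) (as bs : List Bool) (h : as.length = bs.length) :
    natOf (scO x3 mj c as bs) + 2 ^ as.length * (scC mj c as bs).toNat =
      natOf as + natOf bs + c.toNat := by
  induction as generalizing c bs with
  | nil =>
    cases bs with
    | nil => simp [scO, scC]
    | cons b bs => simp at h
  | cons a as ih =>
    cases bs with
    | nil => simp at h
    | cons b bs =>
      have := ih (mj a b c) bs (by simpa using h)
      simp only [scO, scC, natOf_cons, List.length_cons, pow_succ]
      have e : (x3 a b c).toNat + 2 * (mj a b c).toNat = a.toNat + b.toNat + c.toNat := by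
        cases a <;> cases b <;> cases c <;> rfl
      have : 2 ^ as.length * 2 * (scC mj (mj a b c) as bs).toNat =
        2 * (2 ^ as.length * (scC mj (mj a b c) as bs).toNat) := by ring
      omega

theorem sub_val (c : Bool) (as bs : List Bool) (h : as.length = bs.length) :
    natOf (scO x3 bw c as bs) + natOf bs + c.toNat =
      natOf as + 2 ^ as.length * (scC bw c as bs).toNat := by
  induction as generalizing c bs with
  | nil =>
    cases bs with
    | nil => simp [scO, scC]
    | cons b bs => simp at h
  | cons a as ih =>
    cases bs with
    | nil => simp at h
    | cons b bs =>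
      have := ih (bw a b c) bs (by simpa using h)
      simp only [scO, scC, natOf_cons, List.length_cons, pow_succ]
      have e : (x3 a b c).toNat + b.toNat + c.toNat = a.toNat + 2 * (bw a b c).toNat := by
        cases a <;> cases b <;> cases c <;> rfl
      have : 2 ^ as.length * 2 * (scC bw (bw a b c) as bs).toNat =
        2 * (2 ^ as.length * (scC bw (bw a b c) as bs).toNat) := by ring
      omega

theorem inc_val (c : Bool) (as : List Bool) :
    natOf (siO (fun a c => a ^^ c) (fun a c => a && c) c as) +
      2 ^ as.length * (siC (fun a c => a && c) c as).toNat = natOf as + c.toNat := by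
  induction as generalizing c with
  | nil => simp [siO, siC]
  | cons a as ih =>
    have := ih (a && c)
    simp only [siO, siC, natOf_cons, List.length_cons, pow_succ]
    have e : (a ^^ c).toNat + 2 * (a && c).toNat = a.toNat + c.toNat := by
      cases a <;> cases c <;> rfl
    have : 2 ^ as.length * 2 * (siC (fun a c => a && c) (a && c) as).toNat =
      2 * (2 ^ as.length * (siC (fun a c => a && c) (a && c) as).toNat) := by ring
    omega

/-! ### The programs -/

variable {ι E : Type} [DecidableEq ι]

/-- A flag on a stack. -/
def fl {E : Type} (c : Bool) : List (SSym E) := if c then [mk] else []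

@[simp] theorem fl_false : (fl false : List (SSym E)) = [] := rfl
@[simp] theorem fl_true : (fl true : List (SSym E)) = [mk] := rfl

/-- The change of a flag. -/
def flOp (c c' : Bool) : Op (SSym E) :=
  if c' then (if c then Op.keep else Op.push mk) else (if c then Op.pop else Op.keep)

theorem flOp_app (c c' : Bool) : (flOp c c' : Op (SSym E)).app (fl c) = fl c' := by
  cases c <;> cases c' <;> rfl

/-- One step of a scan of the stacks `i` and `j`. -/
def st2 (i j o q : ι) (f g : Bool → Bool → Bool → Bool) : Prog ι (SSym E) :=
  Prog.act fun tp l =>
    match tp i, tp j with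
    | some (Sum.inl (Base.bit a)), some (Sum.inl (Base.bit b)) =>
      if l = i then Op.pop else if l = j then Op.pop else
      if l = o then Op.push (sb (f a b (tp q).isSome)) else
      if l = q then flOp (tp q).isSome (g a b (tp q).isSome) else Op.keep
    | _, _ => Op.keep

/-- One step of a scan of the stack `i`. -/
def st1 (i o q : ι) (f g : Bool → Bool → Bool) : Prog ι (SSym E) :=
  Prog.act fun tp l =>
    match tp i with
    | some (Sum.inl (Base.bit a)) =>
      if l = i then Op.pop else
      if l = o then Op.push (sb (f a (tp q).isSome)) else
      if l = q then flOp (tp q).isSome (g a (tp q).isSome) else Op.keep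
    | _ => Op.keep

theorem fl_isSome (c : Bool) : (fl c : List (SSym E)).head?.isSome = c := by
  cases c <;> rfl

theorem Runs.st2 {i j o q : ι} (hij : i ≠ j) (hio : i ≠ o) (hiq : i ≠ q) (hjo : j ≠ o)
    (hjq : j ≠ q) (hoq : o ≠ q) (f g : Bool → Bool → Bool → Bool) (s : Store ι (SSym E))
    (a b c : Bool) (li lj : List (SSym E)) (hi : s i = sb a :: li) (hj : s j = sb b :: lj)
    (hq : s q = fl c) :
    Runs (st2 i j o q f g) s
      (Function.update (Function.update (Function.update (Function.update s i li) j lj) o
        (sb (f a b c) :: s o)) q (fl (g a b c))) 1 := by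
  refine (Runs.act _ s).of_eq ?_
  funext m
  have h1 : tops s i = some (Sum.inl (Base.bit a)) := by simp [hi, sb]
  have h2 : tops s j = some (Sum.inl (Base.bit b)) := by simp [hj, sb]
  have h3 : (tops s q).isSome = c := by rw [tops_apply, hq, fl_isSome]
  simp only [h1, h2, h3]
  by_cases e1 : m = i
  · subst e1
    rw [Function.update_of_ne hiq, Function.update_of_ne hio, Function.update_of_ne hij,
      Function.update_self]
    simp [hi]
  by_cases e2 : m = j
  · subst e2
    rw [Function.update_of_ne hjq, Function.update_of_ne hjo, Function.update_self]
    simp [hj, e1]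
  by_cases e3 : m = o
  · subst e3
    rw [Function.update_of_ne hoq, Function.update_self]
    simp [e1, e2]
  by_cases e4 : m = q
  · subst e4
    rw [Function.update_self]
    simp only [e1, e2, e3, if_false, if_true, hq, flOp_app]
  · simp [e1, e2, e3, e4]

theorem Runs.st1 {i o q : ι} (hio : i ≠ o) (hiq : i ≠ q) (hoq : o ≠ q)
    (f g : Bool → Bool → Bool) (s : Store ι (SSym E))
    (a c : Bool) (li : List (SSym E)) (hi : s i = sb a :: li)
    (hq : s q = fl c) :
    Runs (st1 i o q f g) s
      (Function.update (Function.update (Function.update s i li) o
        (sb (f a c) :: s o)) q (fl (g a c))) 1 := by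
  refine (Runs.act _ s).of_eq ?_
  funext m
  have h1 : tops s i = some (Sum.inl (Base.bit a)) := by simp [hi, sb]
  have h3 : (tops s q).isSome = c := by rw [tops_apply, hq, fl_isSome]
  simp only [h1, h3]
  by_cases e1 : m = i
  · subst e1
    rw [Function.update_of_ne hiq, Function.update_of_ne hio, Function.update_self]
    simp [hi]
  by_cases e3 : m = o
  · subst e3
    rw [Function.update_of_ne hoq, Function.update_self]
    simp [e1]
  by_cases e4 : m = q
  · subst e4
    rw [Function.update_self]
    simp only [e1, e3, if_false, if_true, hq, flOp_app]
  · simp [e1, e3, e4]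

/-- The scan of two stacks, until `i` is empty. -/
def scan2 (i j o q : ι) (f g : Bool → Bool → Bool → Bool) : Prog ι (SSym E) :=
  Prog.loop (nonempty i) (st2 i j o q f g)

/-- The scan of one stack, until it is empty. -/
def scan1 (i o q : ι) (f g : Bool → Bool → Bool) : Prog ι (SSym E) :=
  Prog.loop (nonempty i) (st1 i o q f g)

theorem Runs.scan2 {i j o q : ι} (hij : i ≠ j) (hio : i ≠ o) (hiq : i ≠ q) (hjo : j ≠ o)
    (hjq : j ≠ q) (hoq : o ≠ q) (f g : Bool → Bool → Bool → Bool) (as bs : List Bool)
    (h : as.length = bs.length) (c : Bool) (rest : List (SSym E)) (s : Store ι (SSym E))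
    (hi : s i = bits as) (hj : s j = bits bs ++ rest) (hq : s q = fl c) :
    Runs (scan2 i j o q f g) s
      (Function.update (Function.update (Function.update (Function.update s i []) j rest) o
        ((bits (scO f g c as bs)).reverse ++ s o)) q (fl (scC g c as bs)))
      (3 * as.length) := by
  induction as generalizing bs c s with
  | nil =>
    cases bs with
    | cons b bs => simp at h
    | nil =>
      refine (Runs.loopF (by simp [hi, bits])).of_eq ?_
      funext m
      simp only [Function.update_apply, scO, scC]
      split_ifs <;> simp_all [bits]
  | cons a as ih =>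
    cases bs with
    | nil => simp at h
    | cons b bs =>
      have h1 := Runs.st2 hij hio hiq hjo hjq hoq f g s a b c (bits as) (bits bs ++ rest)
        (by rw [hi]; rfl) (by rw [hj]; rfl) hq
      have h2 := ih bs (by simpa using h) (g a b c)
        (Function.update (Function.update (Function.update (Function.update s i (bits as)) j
          (bits bs ++ rest)) o (sb (f a b c) :: s o)) q (fl (g a b c)))
        (by rw [Function.update_of_ne hiq, Function.update_of_ne hio,
          Function.update_of_ne hij, Function.update_self])
        (by rw [Function.update_of_ne hjq, Function.update_of_ne hjo, Function.update_self])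
        (by rw [Function.update_self])
      have h3 := Runs.loopT (c := nonempty i) (p := SS.st2 i j o q f g)
        (by simp [hi, bits]) h1 h2
      refine (h3.mono ?_).of_eq ?_
      · simp only [List.length_cons]; omega
      · funext m
        simp only [Function.update_apply, scO, scC]
        split_ifs <;> simp_all [bits]

theorem Runs.scan1 {i o q : ι} (hio : i ≠ o) (hiq : i ≠ q) (hoq : o ≠ q)
    (f g : Bool → Bool → Bool) (as : List Bool) (c : Bool) (s : Store ι (SSym E))
    (hi : s i = bits as) (hq : s q = fl c) :
    Runs (scan1 i o q f g) s
      (Function.update (Function.update (Function.update s i []) o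
        ((bits (siO f g c as)).reverse ++ s o)) q (fl (siC g c as)))
      (3 * as.length) := by
  induction as generalizing c s with
  | nil =>
    refine (Runs.loopF (by simp [hi, bits])).of_eq ?_
    funext m
    simp only [Function.update_apply, siO, siC]
    split_ifs <;> simp_all [bits]
  | cons a as ih =>
    have h1 := Runs.st1 hio hiq hoq f g s a c (bits as) (by rw [hi]; rfl) hq
    have h2 := ih (g a c)
      (Function.update (Function.update (Function.update s i (bits as)) o
        (sb (f a c) :: s o)) q (fl (g a c)))
      (by rw [Function.update_of_ne hiq, Function.update_of_ne hio, Function.update_self])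
      (by rw [Function.update_self])
    have h3 := Runs.loopT (c := nonempty i) (p := SS.st1 i o q f g)
      (by simp [hi, bits]) h1 h2
    refine (h3.mono ?_).of_eq ?_
    · simp only [List.length_cons]; omega
    · funext m
      simp only [Function.update_apply, siO, siC]
      split_ifs <;> simp_all [bits]

/-- Move as many symbols from `x` to `o` as there are symbols on `u`. -/
theorem Runs.movs {u t x o : ι} (hut : u ≠ t) (hux : u ≠ x) (huo : u ≠ o) (htx : t ≠ x)
    (hto : t ≠ o) (hxo : x ≠ o) (s : Store ι (SSym E)) (l rest : List (SSym E)) (n : ℕ)
    (hl : l.length = n) (hu : s u = una n) (ht : s t = []) (hx : s x = l ++ rest) :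
    Runs (Prog.forr u t (Prog.mov x o)) s
      (Function.update (Function.update s x rest) o (l.reverse ++ s o)) (8 * n + 1) := by
  subst hl
  have h := Runs.forr' hut (body := Prog.mov x o) l.length mk
    (fun k => Function.update (Function.update s x (l.drop k ++ rest)) o
      ((l.take k).reverse ++ s o)) (fun _ => 1)
    (fun k _ => by rw [Function.update_of_ne huo, Function.update_of_ne hux, hu]; rfl)
    (fun k _ => by rw [Function.update_of_ne hto, Function.update_of_ne htx, ht])
    (by
      intro k hk l₁ l₂
      have e1 : l.drop k = l[k] :: l.drop (k + 1) := (List.drop_eq_getElem_cons hk)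
      have e2 : (l.take (k + 1)).reverse = l[k] :: (l.take k).reverse := by
        rw [List.take_add_one, List.getElem?_eq_getElem hk]; simp
      have h1 := Runs.mov (Γ := SSym E) hxo (Function.update (Function.update (Function.update
        (Function.update s x (l.drop k ++ rest)) o ((l.take k).reverse ++ s o)) u l₁) t l₂)
        (a := l[k]) (l := l.drop (k + 1) ++ rest) (by
          rw [Function.update_of_ne htx.symm, Function.update_of_ne hux.symm,
            Function.update_of_ne hxo, Function.update_self, e1, List.cons_append])
      refine h1.of_eq ?_
      rw [e2]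
      funext m
      simp only [Function.update_apply]
      split_ifs <;> simp_all)
  simp only [Finset.sum_const, Finset.card_range, smul_eq_mul] at h
  have e : (Function.update (Function.update s x (l.drop 0 ++ rest)) o
      ((l.take 0).reverse ++ s o)) = s := by
    funext m
    simp only [Function.update_apply]
    split_ifs <;> simp_all
  rw [e] at h
  refine (h.mono (by omega)).of_eq ?_
  simp

end Vale.Agent.P338.SS
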