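import Vale.Agent.P338.Kron

/-!
# P338: convolutions with an arbitrary kernel and an arbitrary stride
-/

namespace Vale.Agent.P338

/-- The digits of the kernel. -/
def kerDigit2 (n : ℕ) (κ : ℕ → ℕ) (τ : ℕ) : ℕ := if τ < n then κ τ else 0

/-- The (partial) convolution of the columns of `v a` with the kernel. -/
def convPart2 (n r : ℕ) (κ : ℕ → ℕ) (v : ℕ → ℕ → ℕ → ℕ) (a t c : ℕ) : ℕ :=
  ∑ i ∈ Finset.range r, if i ≤ t then v a i c * kerDigit2 n κ (t - i) else 0

/-- The convolution of the columns of `v a` with the kernel. -/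
def conv2 (r : ℕ) (κ : ℕ → ℕ) (v : ℕ → ℕ → ℕ → ℕ) (a k c : ℕ) : ℕ :=
  ∑ i ∈ Finset.range r, v a i c * κ (r + k - i)

theorem convPart2_add {r : ℕ} (κ : ℕ → ℕ) (v : ℕ → ℕ → ℕ → ℕ) (a : ℕ) {k : ℕ} (hk : k < r)
    (c : ℕ) : convPart2 (2 * r) r κ v a (r + k) c = conv2 r κ v a k c := by
  unfold convPart2 conv2
  refine Finset.sum_congr rfl fun i hi => ?_
  rw [Finset.mem_range] at hi
  rw [if_pos (by omega), kerDigit2]
  by_cases h : r + k - i < 2 * r
  · rw [if_pos h]
  · omega

/-- The data operand: `h` blocks of `r` rows of `s` slots of `S` bits, each block followed by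
`2 * r` rows of zeros. -/
def xaList2 (h r s S : ℕ) (v : ℕ → ℕ → ℕ → ℕ) : List Bool :=
  cat h fun a => (cat r fun i => cat s fun c => bitsOf S (v a i c)) ++
    List.replicate (2 * (r * s * S)) false

/-- The kernel operand: `2 * r` rows of `s` slots of `S` bits, with the values of the kernel
in the first slots of the rows. -/
def kerList2 (r s S : ℕ) (κ : ℕ → ℕ) : List Bool :=
  cat (2 * r) fun τ => bitsOf S (κ τ) ++ List.replicate ((s - 1) * S) false

theorem length_row2 (s S : ℕ) (v : ℕ → ℕ) :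
    (cat s fun c => bitsOf S (v c)).length = s * S :=
  length_cat_of fun _ _ => length_bitsOf _ _

theorem length_block2 (r s S : ℕ) (v : ℕ → ℕ → ℕ) :
    (cat r fun i => cat s fun c => bitsOf S (v i c)).length = r * s * S := by
  rw [length_cat_of (L := s * S) fun i _ => length_row2 _ _ _]
  ring

theorem length_xaList2 (h r s S : ℕ) (v : ℕ → ℕ → ℕ → ℕ) :
    (xaList2 h r s S v).length = h * (3 * (r * s * S)) := by
  refine length_cat_of fun a _ => ?_
  rw [List.length_append, List.length_replicate, length_block2]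
  ring

theorem length_kerRow2 {s : ℕ} (hs : 1 ≤ s) (S z : ℕ) :
    (bitsOf S z ++ List.replicate ((s - 1) * S) false).length = s * S := by
  rw [List.length_append, List.length_replicate, length_bitsOf]
  obtain ⟨t, rfl⟩ := Nat.exists_eq_add_of_le hs
  rw [Nat.add_sub_cancel_left]
  ring

theorem length_kerList2 {s : ℕ} (hs : 1 ≤ s) (r S : ℕ) (κ : ℕ → ℕ) :
    (kerList2 r s S κ).length = 2 * (r * s * S) := by
  rw [kerList2, length_cat_of fun τ _ => length_kerRow2 hs S _]
  ring

section

variable {h r s S : ℕ} {κ : ℕ → ℕ} {v : ℕ → ℕ → ℕ → ℕ}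

/-- A bound for the convolutions. -/
theorem convPart2_le {a c V K : ℕ} (hv : ∀ i < r, v a i c ≤ V) (hκ : ∀ τ < 2 * r, κ τ ≤ K)
    (t : ℕ) : convPart2 (2 * r) r κ v a t c ≤ r * (V * K) := by
  unfold convPart2
  calc _ ≤ ∑ i ∈ Finset.range r, V * K := by
        refine Finset.sum_le_sum fun i hi => ?_
        split
        · refine Nat.mul_le_mul (hv i (Finset.mem_range.1 hi)) ?_
          unfold kerDigit2
          split
          · next h => exact hκ _ h
          · exact Nat.zero_le _
        · exact Nat.zero_le _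
    _ = r * (V * K) := by rw [Finset.sum_const, Finset.card_range, smul_eq_mul]

theorem conv2_le {a c V K k : ℕ} (hk : k < r) (hv : ∀ i < r, v a i c ≤ V)
    (hκ : ∀ τ < 2 * r, κ τ ≤ K) : conv2 r κ v a k c ≤ r * (V * K) := by
  rw [← convPart2_add κ v a hk c]
  exact convPart2_le hv hκ _

theorem natOf_xaList2 (hv : ∀ a < h, ∀ i < r, ∀ c < s, v a i c < 2 ^ S) :
    natOf (xaList2 h r s S v) = ∑ a ∈ Finset.range h,
      (∑ i ∈ Finset.range r, (∑ c ∈ Finset.range s, v a i c * 2 ^ (S * c)) *
        2 ^ (s * S * i)) * 2 ^ (3 * (r * s * S) * a) := by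
  unfold xaList2
  rw [natOf_cat (L := 3 * (r * s * S))]
  · refine Finset.sum_congr rfl fun a ha => ?_
    rw [Finset.mem_range] at ha
    rw [natOf_append_zeros, natOf_cat (L := s * S) (fun i _ => length_row2 _ _ _)]
    congr 1
    refine Finset.sum_congr rfl fun i hi => ?_
    rw [Finset.mem_range] at hi
    rw [natOf_cat_bitsOf (hv a ha i hi)]
  · intro a _
    rw [List.length_append, List.length_replicate, length_block2]
    ring

theorem natOf_kerList2 (hs : 1 ≤ s) (hκ : ∀ τ < 2 * r, κ τ < 2 ^ S) :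
    natOf (kerList2 r s S κ) =
      ∑ τ ∈ Finset.range (2 * r), kerDigit2 (2 * r) κ τ * 2 ^ (s * S * τ) := by
  unfold kerList2
  rw [natOf_cat (L := s * S) fun τ _ => length_kerRow2 hs S _]
  refine Finset.sum_congr rfl fun τ hτ => ?_
  rw [Finset.mem_range] at hτ
  rw [natOf_append_zeros, natOf_bitsOf_of_lt (hκ τ hτ), kerDigit2, if_pos hτ]

theorem natOf_mul2 (hs : 1 ≤ s) (hκ : ∀ τ < 2 * r, κ τ < 2 ^ S)
    (hv : ∀ a < h, ∀ i < r, ∀ c < s, v a i c < 2 ^ S) :
    natOf (xaList2 h r s S v) * natOf (kerList2 r s S κ) = ∑ a ∈ Finset.range h,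
      (∑ t ∈ Finset.range (r + 2 * r), (∑ c ∈ Finset.range s,
        convPart2 (2 * r) r κ v a t c * 2 ^ (S * c)) *
        2 ^ (s * S * t)) * 2 ^ (3 * (r * s * S) * a) := by
  rw [natOf_xaList2 hv, natOf_kerList2 hs hκ, Finset.sum_mul]
  refine Finset.sum_congr rfl fun a ha => ?_
  rw [mul_right_comm, conv_identity (s * S) r (2 * r)
    (fun i => ∑ c ∈ Finset.range s, v a i c * 2 ^ (S * c)) (kerDigit2 (2 * r) κ)
    (fun τ hτ => by rw [kerDigit2, if_neg (by omega)])]
  congr 1
  refine Finset.sum_congr rfl fun t _ => ?_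
  congr 1
  unfold convPart2
  simp_rw [Finset.sum_mul]
  rw [Finset.sum_comm]
  refine Finset.sum_congr rfl fun i _ => ?_
  split
  · refine Finset.sum_congr rfl fun j _ => ?_
    ring
  · simp

/-- **The multiplication by a kernel**: the product of the two operands, written with `K`
bits, consists of `h` blocks of `3 r` rows of `s` slots, followed by zeros, and the middle
thirds of the blocks contain the convolutions. -/
theorem mul_kernel2 {K : ℕ} (hs : 1 ≤ s) (hκ : ∀ τ < 2 * r, κ τ < 2 ^ S)
    (hK : h * (3 * (r * s * S)) ≤ K)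
    (hv : ∀ a < h, ∀ i < r, ∀ c < s, v a i c < 2 ^ S)
    (hC : ∀ a < h, ∀ t, ∀ c < s, convPart2 (2 * r) r κ v a t c < 2 ^ S) :
    ∃ A₁ A₃ : ℕ → List Bool, (∀ a, (A₁ a).length = r * s * S) ∧
      (∀ a, (A₃ a).length = r * s * S) ∧
      bitsOf K (natOf (xaList2 h r s S v) * natOf (kerList2 r s S κ)) =
        (cat h fun a => A₁ a ++ ((cat r fun k => cat s fun c => bitsOf S (conv2 r κ v a k c)) ++
          A₃ a)) ++ List.replicate (K - h * (3 * (r * s * S))) false := by
  have hrow : ∀ a < h, ∀ t, (∑ c ∈ Finset.range s, convPart2 (2 * r) r κ v a t c *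
      2 ^ (S * c)) < 2 ^ (s * S) := fun a ha t => sum_lt_pow (hC a ha t)
  have hblk : ∀ a < h, (∑ t ∈ Finset.range (r + 2 * r), (∑ c ∈ Finset.range s,
        convPart2 (2 * r) r κ v a t c * 2 ^ (S * c)) * 2 ^ (s * S * t)) <
      2 ^ (3 * (r * s * S)) := by
    intro a ha
    have := sum_lt_pow (n := r + 2 * r) (L := s * S) (fun t _ => hrow a ha t)
    rwa [show (r + 2 * r) * (s * S) = 3 * (r * s * S) by ring] at this
  refine ⟨fun a => if a < h then cat r fun t => cat s fun c =>
      bitsOf S (convPart2 (2 * r) r κ v a t c) else List.replicate (r * s * S) false,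
    fun a => if a < h then cat r fun t => cat s fun c =>
      bitsOf S (convPart2 (2 * r) r κ v a (r + r + t) c) else
      List.replicate (r * s * S) false,
    fun a => ?_, fun a => ?_, ?_⟩
  · beta_reduce
    split
    · exact length_block2 _ _ _ _
    · simp
  · beta_reduce
    split
    · exact length_block2 r s S fun t c => convPart2 (2 * r) r κ v a (r + r + t) c
    · simp
  · rw [natOf_mul2 hs hκ hv, bitsOf_sum_of_le hblk hK]
    congr 1
    refine cat_congr fun a ha => ?_
    rw [show 3 * (r * s * S) = (r + 2 * r) * (s * S) by ring,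
      bitsOf_sum (fun t _ => hrow a ha t), show r + 2 * r = r + (r + r) by ring, cat_add,
      cat_add]
    beta_reduce
    rw [if_pos ha, if_pos ha]
    congr 1
    · exact cat_congr fun t _ => bitsOf_sum (hC a ha t)
    · congr 1
      · refine cat_congr fun k hk => ?_
        rw [bitsOf_sum (hC a ha (r + k))]
        exact cat_congr fun c _ => by rw [convPart2_add κ v a hk c]
      · refine cat_congr fun k _ => ?_
        rw [← Nat.add_assoc]
        exact bitsOf_sum (hC a ha _)

end

end Vale.Agent.P338
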