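import Vale.Agent.P338.Lib

/-!
# P338: moving a list, padded to a given length
-/

namespace Vale.Agent.P338

variable {ι Γ : Type} [DecidableEq ι]

/-- Move `x` to `y` (which is empty), followed by symbols `z` so that the length becomes the
number on `u`; `u` is emptied, `t` is a scratch stack. -/
def Prog.padTo (x y t u : ι) (z : Γ) : Prog ι Γ :=
  (Prog.loop (nonempty x) ((Prog.mov x t).seq (Prog.pop u))).seq
    ((Prog.loop (nonempty u) ((Prog.pop u).seq (Prog.push y z))).seq (Prog.rev t y))

theorem Runs.padTo_aux1 {x t u : ι} (hxt : x ≠ t) (hxu : x ≠ u) (htu : t ≠ u) (a : Γ)
    (l : List Γ) : ∀ (s : Store ι Γ) (m : ℕ), s x = l →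
      s u = List.replicate (l.length + m) a →
      Runs (Prog.loop (nonempty x) ((Prog.mov x t).seq (Prog.pop u))) s
        (Function.update (Function.update (Function.update s x []) t (l.reverse ++ s t)) u
          (List.replicate m a)) (5 * l.length) := by
  induction l with
  | nil =>
    intro s m hx hu
    refine (Runs.loopF (by simp [hx])).of_eq ?_
    funext i
    simp only [Function.update_apply]
    split_ifs <;> simp_all
  | cons b l ih =>
    intro s m hx hu
    have h1 := Runs.mov hxt s hx
    have h2 := Runs.pop u (Function.update (Function.update s x l) t (b :: s t))
    have h3 := ih (Function.update (Function.update (Function.update s x l) t (b :: s t)) u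
      (Function.update (Function.update s x l) t (b :: s t) u).tail) m
      (by rw [Function.update_of_ne hxu, Function.update_of_ne hxt, Function.update_self])
      (by
        rw [Function.update_self, Function.update_of_ne htu.symm,
          Function.update_of_ne hxu.symm, hu, List.length_cons,
          show l.length + 1 + m = l.length + m + 1 by ring, List.replicate_succ,
          List.tail_cons])
    have h4 := Runs.loopT (c := nonempty x) (by simp [hx]) (h1.seq h2) h3
    refine (h4.mono ?_).of_eq ?_
    · simp only [List.length_cons]; omega
    · funext i
      simp only [Function.update_apply]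
      split_ifs <;> simp_all

theorem Runs.padTo_aux2 {y u : ι} (hyu : y ≠ u) (a z : Γ) (m : ℕ) : ∀ (s : Store ι Γ),
      s u = List.replicate m a →
      Runs (Prog.loop (nonempty u) ((Prog.pop u).seq (Prog.push y z))) s
        (Function.update (Function.update s u []) y (List.replicate m z ++ s y))
        (5 * m) := by
  induction m with
  | zero =>
    intro s hu
    refine (Runs.loopF (by simp [hu])).of_eq ?_
    funext i
    simp only [Function.update_apply]
    split_ifs <;> simp_all
  | succ m ih =>
    intro s hu
    have h1 := Runs.pop u s
    have h2 := Runs.push y z (Function.update s u (s u).tail)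
    have h3 := ih (Function.update (Function.update s u (s u).tail) y
      (z :: Function.update s u (s u).tail y))
      (by
        rw [Function.update_of_ne hyu.symm, Function.update_self, hu, List.replicate_succ,
          List.tail_cons])
    have h4 := Runs.loopT (c := nonempty u) (by simp [hu, List.replicate_succ])
      (h1.seq h2) h3
    refine (h4.mono ?_).of_eq ?_
    · omega
    · have e : List.replicate m z ++ z :: s y = List.replicate (m + 1) z ++ s y := by
        rw [List.replicate_succ', List.append_assoc]; rfl
      funext i
      simp only [Function.update_apply]
      split_ifs <;> simp_all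

theorem Runs.padTo {x y t u : ι} (hxy : x ≠ y) (hxt : x ≠ t) (hxu : x ≠ u) (hyt : y ≠ t)
    (hyu : y ≠ u) (htu : t ≠ u) (a z : Γ) (s : Store ι Γ) (l : List Γ) (m : ℕ)
    (hx : s x = l) (hy : s y = []) (ht : s t = []) (hu : s u = List.replicate m a)
    (hl : l.length ≤ m) :
    Runs (Prog.padTo x y t u z) s
      (Function.update (Function.update (Function.update s x []) u []) y
        (l ++ List.replicate (m - l.length) z)) (8 * m + 2) := by
  obtain ⟨d, rfl⟩ := Nat.exists_eq_add_of_le hl
  have h1 := Runs.padTo_aux1 hxt hxu htu a l s d hx hu
  have h2 := Runs.padTo_aux2 hyu a z d
    (Function.update (Function.update (Function.update s x []) t (l.reverse ++ s t)) u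
      (List.replicate d a)) (by rw [Function.update_self])
  have h3 := Runs.rev hyt.symm
    (Function.update (Function.update (Function.update (Function.update (Function.update s x [])
      t (l.reverse ++ s t)) u (List.replicate d a)) u []) y (List.replicate d z ++
        (Function.update (Function.update (Function.update s x []) t (l.reverse ++ s t)) u
      (List.replicate d a)) y))
  refine ((h1.seq (h2.seq h3)).mono ?_).of_eq ?_
  · have e : (Function.update (Function.update (Function.update (Function.update
      (Function.update s x []) t (l.reverse ++ s t)) u (List.replicate d a)) u []) y
      (List.replicate d z ++ (Function.update (Function.update (Function.update s x []) t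
        (l.reverse ++ s t)) u (List.replicate d a)) y)) t = l.reverse := by
      rw [Function.update_of_ne hyt.symm, Function.update_of_ne htu, Function.update_of_ne htu,
        Function.update_self, ht, List.append_nil]
    rw [e, List.length_reverse]
    omega
  · funext i
    simp only [Function.update_apply]
    split_ifs <;> simp_all

end Vale.Agent.P338
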