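import Vale.Agent.P338.Nums
import Vale.Agent.P338.Iface

/-!
# P338: the levels of the transposition algorithm, pure part
-/

namespace Vale.Agent.P338.Lv

/-! ### Ceiling of the square root -/

/-- The least `p` with `n ≤ p ^ 2` (for `n ≥ 1`). -/
def csqrt (n : ℕ) : ℕ := Nat.sqrt (n - 1) + 1

theorem csqrt_pos (n : ℕ) : 1 ≤ csqrt n := by unfold csqrt; omega

theorem le_csqrt_sq (n : ℕ) : n ≤ csqrt n * csqrt n := by
  unfold csqrt
  have := Nat.lt_succ_sqrt (n - 1)
  simp only [Nat.succ_eq_add_one] at this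
  omega

theorem csqrt_pred_sq {n : ℕ} : (csqrt n - 1) * (csqrt n - 1) ≤ n - 1 := by
  unfold csqrt
  simpa using Nat.sqrt_le (n - 1)

theorem lt_of_lt_csqrt {n k : ℕ} (hn : 1 ≤ n) (hk : k < csqrt n) : k * k < n := by
  have h1 : k ≤ csqrt n - 1 := by omega
  have h2 := Nat.mul_le_mul h1 h1
  have h3 := @csqrt_pred_sq n
  omega

theorem csqrt_le (n : ℕ) (hn : 1 ≤ n) : csqrt n ≤ n := by
  unfold csqrt
  have := Nat.sqrt_le_self (n - 1)
  omega

theorem five_le_csqrt {n : ℕ} (hn : 16 < n) : 5 ≤ csqrt n := by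
  by_contra h
  have h1 : csqrt n ≤ 4 := by omega
  have h2 := le_csqrt_sq n
  have h3 := Nat.mul_le_mul h1 h1
  omega

/-- The potential `h n (n - 4)` does not increase: `p ^ 3 (p - 4) ≤ n (n - 4)`. -/
theorem csqrt_potential {n : ℕ} (hn : 16 < n) :
    csqrt n ^ 3 * (csqrt n - 4) ≤ n * (n - 4) := by
  have h5 := five_le_csqrt hn
  have h1 := @csqrt_pred_sq n
  obtain ⟨q, hq⟩ : ∃ q, csqrt n = q + 5 := ⟨csqrt n - 5, by omega⟩
  rw [hq] at h1 ⊢
  obtain ⟨k, hk⟩ : ∃ k, n = (q + 4) * (q + 4) + 1 + k :=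
    ⟨n - ((q + 4) * (q + 4) + 1), by
      have : (q + 5 - 1) = q + 4 := rfl
      rw [this] at h1
      omega⟩
  have e1 : q + 5 - 4 = q + 1 := rfl
  have e2 : n - 4 = q * q + 8 * q + 13 + k := by
    rw [hk]
    have : (q + 4) * (q + 4) = q * q + 8 * q + 16 := by ring
    omega
  rw [e1, e2, hk]
  nlinarith [Nat.zero_le q, Nat.zero_le k, Nat.zero_le (q * k)]

/-! ### Bit matrices -/

/-- `h` blocks of `n × n` bits. -/
def bmat (h n : ℕ) (f : ℕ → ℕ → ℕ → Bool) : List Bool := data h n fun a i j => [f a i j]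

/-- Transposition of all blocks. -/
def trf (f : ℕ → ℕ → ℕ → Bool) : ℕ → ℕ → ℕ → Bool := fun a i j => f a j i

/-- Padding with zeros. -/
def padf (n : ℕ) (f : ℕ → ℕ → ℕ → Bool) : ℕ → ℕ → ℕ → Bool :=
  fun a i j => if i < n ∧ j < n then f a i j else false

theorem length_data {h p L : ℕ} {e : ℕ → ℕ → ℕ → List Bool}
    (he : ∀ a < h, ∀ i < p, ∀ j < p, (e a i j).length = L) :
    (data h p e).length = h * (p * (p * L)) := by
  unfold data
  refine length_cat_of fun a ha => length_cat_of fun i hi => length_cat_of fun j hj => he a ha i hi j hj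

@[simp] theorem length_bmat (h n : ℕ) (f : ℕ → ℕ → ℕ → Bool) :
    (bmat h n f).length = h * (n * n) := by
  unfold bmat
  rw [length_data (L := 1) (fun _ _ _ _ _ _ => rfl), mul_one]

theorem data_congr {h p : ℕ} {e e' : ℕ → ℕ → ℕ → List Bool}
    (he : ∀ a < h, ∀ i < p, ∀ j < p, e a i j = e' a i j) : data h p e = data h p e' := by
  unfold data
  exact cat_congr fun a ha => cat_congr fun i hi => cat_congr fun j hj => he a ha i hi j hj

theorem bmat_congr {h p : ℕ} {e e' : ℕ → ℕ → ℕ → Bool}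
    (he : ∀ a < h, ∀ i < p, ∀ j < p, e a i j = e' a i j) : bmat h p e = bmat h p e' :=
  data_congr fun a ha i hi j hj => by rw [he a ha i hi j hj]

theorem div_aux {p d : ℕ} (c : ℕ) (hd : d < p) : (c * p + d) / p = c := by
  rw [Nat.mul_comm, Nat.mul_add_div (by omega), Nat.div_eq_of_lt hd, add_zero]

theorem mod_aux {p d : ℕ} (c : ℕ) (hd : d < p) : (c * p + d) % p = d := by
  rw [Nat.mul_comm, Nat.mul_add_mod, Nat.mod_eq_of_lt hd]

theorem cat_mul' {α : Type} (m n : ℕ) (f : ℕ → ℕ → List α) :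
    cat (m * n) (fun b => f (b / n) (b % n)) = cat m fun i => cat n fun j => f i j := by
  rw [cat_mul]
  refine cat_congr fun i _ => cat_congr fun j hj => ?_
  rw [div_aux i hj, mod_aux i hj]

/-- Regrouping `(a, d1 d2, d3 d4)` as `(a d1, d2, d3, d4)`. -/
theorem regroup1 (h p : ℕ) (g : ℕ → ℕ → ℕ → Bool) :
    bmat h (p * p) g = data (h * p) p fun b i j =>
      cat p fun d => [g (b / p) (b % p * p + i) (j * p + d)] := by
  unfold bmat data
  rw [cat_mul' h p (fun a d1 => cat p fun i => cat p fun j => cat p fun d =>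
    [g a (d1 * p + i) (j * p + d)])]
  refine cat_congr fun a _ => ?_
  rw [cat_mul]
  refine cat_congr fun d1 _ => cat_congr fun i _ => ?_
  rw [cat_mul]

/-- Regrouping `(b, d3, d2, d4)` as `(b d3, d2, d4)`. -/
theorem regroup2 (h p : ℕ) (g : ℕ → ℕ → ℕ → ℕ → Bool) :
    (data h p fun b i j => cat p fun d => [g b i j d]) =
      bmat (h * p) p fun c i j => g (c / p) (c % p) i j := by
  unfold bmat data
  rw [cat_mul' h p (fun b i => cat p fun j => cat p fun d => [g b i j d])]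

/-- Regrouping `(c, i, j)` with `c = (a d) d'` as `(a, d, d', i, j)`. -/
theorem regroup3 (h p : ℕ) (g : ℕ → ℕ → ℕ → ℕ → ℕ → Bool) :
    (bmat (h * p * p) p fun c i j => g (c / p / p) (c / p % p) (c % p) i j) =
      data h p fun a d d' => cat p fun i => cat p fun j => [g a d d' i j] := by
  unfold bmat data
  rw [cat_mul' (h * p) p (fun b d' => cat p fun i => cat p fun j => [g (b / p) (b % p) d' i j]),
    cat_mul' h p (fun a d => cat p fun d' => cat p fun i => cat p fun j => [g a d d' i j])]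

/-- Regrouping `(a, d3, d1, d4, d2)` as `(a d3, d1, d4, d2)`. -/
theorem regroup4 (h p : ℕ) (g : ℕ → ℕ → ℕ → ℕ → ℕ → Bool) :
    (data h p fun a d d' => cat p fun i => cat p fun j => [g a d d' i j]) =
      data (h * p) p fun b d' i => cat p fun j => [g (b / p) (b % p) d' i j] := by
  unfold data
  rw [cat_mul' h p (fun a d => cat p fun d' => cat p fun i => cat p fun j => [g a d d' i j])]

/-! ### One level -/

/-- The blocks of the next level. -/
def nextf (n : ℕ) (f : ℕ → ℕ → ℕ → Bool) : ℕ → ℕ → ℕ → Bool :=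
  fun c i j => padf n f (c / csqrt n / csqrt n) (c / csqrt n % csqrt n * csqrt n + i)
    (c % csqrt n * csqrt n + j)

/-- Entries before the first swap. -/
def ent1 (n : ℕ) (f : ℕ → ℕ → ℕ → Bool) : ℕ → ℕ → ℕ → List Bool :=
  fun b i j => cat (csqrt n) fun d =>
    [padf n f (b / csqrt n) (b % csqrt n * csqrt n + i) (j * csqrt n + d)]

/-- Entries before the second swap. -/
def ent2 (n : ℕ) (f : ℕ → ℕ → ℕ → Bool) : ℕ → ℕ → ℕ → List Bool :=
  fun a d d' => cat (csqrt n) fun i => cat (csqrt n) fun j =>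
    [padf n f a (d * csqrt n + j) (d' * csqrt n + i)]

/-- Entries before the third swap. -/
def ent3 (n : ℕ) (f : ℕ → ℕ → ℕ → Bool) : ℕ → ℕ → ℕ → List Bool :=
  fun b d' i => cat (csqrt n) fun j =>
    [padf n f (b / csqrt n) (d' * csqrt n + j) (b % csqrt n * csqrt n + i)]

theorem length_ent1 (n : ℕ) (f : ℕ → ℕ → ℕ → Bool) (a i j : ℕ) :
    (ent1 n f a i j).length = csqrt n * 1 :=
  length_cat_of fun _ _ => rfl

theorem length_ent2 (n : ℕ) (f : ℕ → ℕ → ℕ → Bool) (a i j : ℕ) :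
    (ent2 n f a i j).length = csqrt n * csqrt n :=
  length_cat_of fun _ _ => (length_cat_of (L := 1) fun _ _ => rfl).trans (mul_one _)

theorem length_ent3 (n : ℕ) (f : ℕ → ℕ → ℕ → Bool) (a i j : ℕ) :
    (ent3 n f a i j).length = csqrt n * 1 :=
  length_cat_of fun _ _ => rfl

theorem level_a (h n : ℕ) (f : ℕ → ℕ → ℕ → Bool) :
    bmat h (csqrt n * csqrt n) (padf n f) = data (h * csqrt n) (csqrt n) (ent1 n f) :=
  regroup1 h (csqrt n) (padf n f)

theorem level_b (h n : ℕ) (f : ℕ → ℕ → ℕ → Bool) :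
    (data (h * csqrt n) (csqrt n) fun a i j => ent1 n f a j i) =
      bmat (h * csqrt n * csqrt n) (csqrt n) (nextf n f) := by
  exact regroup2 (h * csqrt n) (csqrt n) fun b i j d =>
    padf n f (b / csqrt n) (b % csqrt n * csqrt n + j) (i * csqrt n + d)

theorem level_c (h n : ℕ) (f : ℕ → ℕ → ℕ → Bool) :
    bmat (h * csqrt n * csqrt n) (csqrt n) (trf (nextf n f)) =
      data h (csqrt n) (ent2 n f) := by
  exact regroup3 h (csqrt n) fun a d d' i j => padf n f a (d * csqrt n + j) (d' * csqrt n + i)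

theorem level_d (h n : ℕ) (f : ℕ → ℕ → ℕ → Bool) :
    (data h (csqrt n) fun a i j => ent2 n f a j i) =
      data (h * csqrt n) (csqrt n) (ent3 n f) := by
  exact regroup4 h (csqrt n) fun a d d' i j => padf n f a (d' * csqrt n + j) (d * csqrt n + i)

theorem level_e (h n : ℕ) (f : ℕ → ℕ → ℕ → Bool) :
    (data (h * csqrt n) (csqrt n) fun a i j => ent3 n f a j i) =
      bmat h (csqrt n * csqrt n) (trf (padf n f)) := by
  rw [regroup1 h (csqrt n) (trf (padf n f))]
  rfl

theorem trf_padf (n : ℕ) (f : ℕ → ℕ → ℕ → Bool) : trf (padf n f) = padf n (trf f) := by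
  funext a i j
  simp only [trf, padf]
  by_cases h1 : i < n <;> by_cases h2 : j < n <;> simp [h1, h2]

/-! ### All levels -/

/-- The parameters `(h, n)` of a level and its matrices. -/
structure Lev : Type where
  h : ℕ
  n : ℕ
  f : ℕ → ℕ → ℕ → Bool

/-- The next level. -/
def Lev.next (l : Lev) : Lev := ⟨l.h * csqrt l.n * csqrt l.n, csqrt l.n, nextf l.n l.f⟩

/-- The contents of `X` at this level. -/
def Lev.x (l : Lev) : List Bool := bmat l.h l.n l.f

/-- The contents of `X` at this level after the transposition. -/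
def Lev.y (l : Lev) : List Bool := bmat l.h l.n (trf l.f)

/-- Level `k`. -/
def lev (l : Lev) (k : ℕ) : Lev := Lev.next^[k] l

@[simp] theorem lev_zero (l : Lev) : lev l 0 = l := rfl

theorem lev_succ (l : Lev) (k : ℕ) : lev l (k + 1) = (lev l k).next :=
  Function.iterate_succ_apply' _ _ _

theorem next_n_lt {l : Lev} (hl : 16 < l.n) : l.next.n < l.n := by
  have h1 := @csqrt_pred_sq l.n
  have h5 := five_le_csqrt hl
  change csqrt l.n < l.n
  obtain ⟨q, hq⟩ : ∃ q, csqrt l.n = q + 5 := ⟨csqrt l.n - 5, by omega⟩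
  rw [hq] at h1 ⊢
  have : (q + 5 - 1) = q + 4 := rfl
  rw [this] at h1
  have h2 : 4 * (q + 4) ≤ (q + 4) * (q + 4) := Nat.mul_le_mul (by omega) le_rfl
  omega

/-- There is a first level with matrices of size at most `16`. -/
theorem exists_depth (l : Lev) : ∃ L, (∀ k < L, 16 < (lev l k).n) ∧ (lev l L).n ≤ 16 := by
  induction hn : l.n using Nat.strong_induction_on generalizing l with
  | _ n ih =>
    by_cases h : 16 < n
    · obtain ⟨L, h1, h2⟩ := ih l.next.n (by rw [← hn]; exact next_n_lt (by omega)) l.next rfl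
      refine ⟨L + 1, ?_, ?_⟩
      · intro k hk
        rcases k with _ | k
        · simpa [hn] using h
        · have := h1 k (by omega)
          simpa [lev] using this
      · simpa [lev] using h2
    · exact ⟨0, by simp, by simp only [lev_zero]; omega⟩

theorem next_potential {l : Lev} (hl : 16 < l.n) :
    l.next.h * (l.next.n * (l.next.n - 4)) ≤ l.h * (l.n * (l.n - 4)) := by
  have h1 := csqrt_potential hl
  change l.h * csqrt l.n * csqrt l.n * (csqrt l.n * (csqrt l.n - 4)) ≤ _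
  calc _ = l.h * (csqrt l.n ^ 3 * (csqrt l.n - 4)) := by ring
    _ ≤ _ := Nat.mul_le_mul le_rfl h1

theorem lev_potential {l : Lev} {k : ℕ} (hk : ∀ i < k, 16 < (lev l i).n) :
    (lev l k).h * ((lev l k).n * ((lev l k).n - 4)) ≤ l.h * (l.n * (l.n - 4)) := by
  induction k with
  | zero => simp
  | succ k ih =>
    rw [lev_succ]
    exact (next_potential (hk k (by omega))).trans (ih fun i hi => hk i (by omega))

/-- The size of the data of a level is at most five times that of level `0`. -/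
theorem lev_size {l : Lev} {k : ℕ} (hk : ∀ i < k, 16 < (lev l i).n) :
    (lev l k).h * ((lev l k).n * (lev l k).n) ≤ 5 * (l.h * (l.n * l.n)) := by
  rcases k with _ | k
  · simp only [lev_zero]; omega
  · have h1 := lev_potential hk
    have h2 : 5 ≤ (lev l (k + 1)).n := by
      rw [lev_succ]
      exact five_le_csqrt (hk k (by omega))
    obtain ⟨q, hq⟩ : ∃ q, (lev l (k + 1)).n = q + 5 := ⟨(lev l (k + 1)).n - 5, by omega⟩
    rw [hq] at h1 ⊢
    have e1 : q + 5 - 4 = q + 1 := rfl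
    rw [e1] at h1
    have h3 : l.h * (l.n * (l.n - 4)) ≤ l.h * (l.n * l.n) :=
      Nat.mul_le_mul le_rfl (Nat.mul_le_mul le_rfl (Nat.sub_le _ _))
    calc (lev l (k + 1)).h * ((q + 5) * (q + 5))
        ≤ (lev l (k + 1)).h * (5 * ((q + 5) * (q + 1))) := by
          refine Nat.mul_le_mul le_rfl ?_
          nlinarith
      _ = 5 * ((lev l (k + 1)).h * ((q + 5) * (q + 1))) := by ring
      _ ≤ 5 * (l.h * (l.n * l.n)) := by omega

theorem rr_le {p : ℕ} (hp : 5 ≤ p) : rr p ≤ 2 * p := by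
  unfold rr rho
  have h1 : 1 ≤ (p - 1) / 4 := by omega
  have h2 : 2 ^ (Nat.size ((p - 1) / 4) - 1) ≤ (p - 1) / 4 := by
    rw [← Nat.lt_size]
    have : 0 < Nat.size ((p - 1) / 4) := Nat.size_pos.2 h1
    omega
  have h3 : 0 < Nat.size ((p - 1) / 4) := Nat.size_pos.2 h1
  obtain ⟨s, hs⟩ : ∃ s, Nat.size ((p - 1) / 4) = s + 1 := ⟨_, (Nat.sub_add_cancel h3).symm⟩
  rw [hs] at h2 ⊢
  have e1 : s + 1 - 1 = s := rfl
  rw [e1] at h2
  have h4 : 2 ^ (s + 1 + 2) = 8 * 2 ^ s := by ring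
  rw [h4]
  omega

/-- The multiplications at a level are not larger than `1920 h n ^ 2`. -/
theorem mulSize_le {l : Lev} {k : ℕ} (hk : ∀ i < k + 1, 16 < (lev l i).n) :
    mulSize ((lev l k).h * csqrt (lev l k).n) (csqrt (lev l k).n) 1 ≤
        1920 * (l.h * (l.n * l.n)) ∧
      mulSize (lev l k).h (csqrt (lev l k).n) (csqrt (lev l k).n) ≤
        1920 * (l.h * (l.n * l.n)) := by
  have h1 := lev_size hk
  rw [lev_succ] at h1
  have h5 := five_le_csqrt (hk k (by omega))
  set p := csqrt (lev l k).n with hp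
  have h2 := rr_le h5
  have h3 : rr p ^ 3 ≤ (2 * p) ^ 3 := Nat.pow_le_pow_left h2 3
  have h4 : (lev l k).next.h * ((lev l k).next.n * (lev l k).next.n) = (lev l k).h * p ^ 4 := by
    change (lev l k).h * p * p * (p * p) = _
    ring
  rw [h4] at h1
  unfold mulSize
  constructor
  · calc 48 * ((lev l k).h * p) * rr p ^ 3 * 1 ≤ 48 * ((lev l k).h * p) * (2 * p) ^ 3 * 1 := by
          gcongr
      _ = 384 * ((lev l k).h * p ^ 4) := by ring
      _ ≤ _ := by omega
  · calc 48 * (lev l k).h * rr p ^ 3 * p ≤ 48 * (lev l k).h * (2 * p) ^ 3 * p := by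
          gcongr
      _ = 384 * ((lev l k).h * p ^ 4) := by ring
      _ ≤ _ := by omega

/-! ### The number of levels and the sum of the times -/

theorem lev_pow_le {l : Lev} (k : ℕ) : ((lev l k).n - 1) ^ 2 ^ k ≤ l.n - 1 := by
  induction k with
  | zero => simp
  | succ k ih =>
    have h1 := @csqrt_pred_sq (lev l k).n
    rw [lev_succ]
    change (csqrt (lev l k).n - 1) ^ 2 ^ (k + 1) ≤ _
    calc (csqrt (lev l k).n - 1) ^ 2 ^ (k + 1)
        = ((csqrt (lev l k).n - 1) * (csqrt (lev l k).n - 1)) ^ 2 ^ k := by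
          rw [← pow_two, ← pow_mul, pow_succ, Nat.mul_comm]
      _ ≤ ((lev l k).n - 1) ^ 2 ^ k := Nat.pow_le_pow_left h1 _
      _ ≤ _ := ih

/-- The transforms of level `k` have length `2 ^ ρ` with `(ρ - 1) 2 ^ (k + 1) ≤ log n`. -/
theorem rho_le {l : Lev} {k : ℕ} (hk : 16 < (lev l k).n) :
    (rho (csqrt (lev l k).n) - 1) * 2 ^ (k + 1) ≤ Nat.log 2 l.n := by
  have h5 := five_le_csqrt hk
  have h0 := @lev_pow_le l (k + 1)
  rw [lev_succ] at h0
  change (csqrt (lev l k).n - 1) ^ 2 ^ (k + 1) ≤ _ at h0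
  set y := csqrt (lev l k).n - 1 with hy
  have hy4 : 4 ≤ y := by omega
  unfold rho
  rw [← hy]
  have h1 : 1 ≤ y / 4 := by omega
  have h3 : 0 < Nat.size (y / 4) := Nat.size_pos.2 h1
  have h2 : 2 ^ (Nat.size (y / 4) - 1) ≤ y / 4 := by
    rw [← Nat.lt_size]
    omega
  obtain ⟨s, hs⟩ : ∃ s, Nat.size (y / 4) = s + 1 := ⟨_, (Nat.sub_add_cancel h3).symm⟩
  rw [hs] at h2 ⊢
  have e1 : s + 1 - 1 = s := rfl
  rw [e1] at h2
  have e2 : s + 1 + 2 - 1 = s + 2 := rfl
  rw [e2]
  have h4 : 2 ^ (s + 2) ≤ y := by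
    have : 2 ^ (s + 2) = 4 * 2 ^ s := by ring
    omega
  refine Nat.le_log_of_pow_le (by norm_num) ?_
  rw [pow_mul]
  exact (Nat.pow_le_pow_left h4 _).trans (h0.trans (Nat.sub_le _ _))

theorem depth_le {l : Lev} {L : ℕ} (hL : ∀ k < L + 1, 16 < (lev l k).n) :
    2 ^ (L + 2) ≤ Nat.log 2 l.n := by
  have h0 := @lev_pow_le l L
  have h1 : 2 ^ 4 ≤ (lev l L).n - 1 := by
    have := hL L (by omega)
    norm_num
    omega
  refine Nat.le_log_of_pow_le (by norm_num) ?_
  have e : 2 ^ (L + 2) = 4 * 2 ^ L := by ring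
  rw [e, pow_mul]
  exact (Nat.pow_le_pow_left h1 _).trans (h0.trans (Nat.sub_le _ _))

/-- Sum of the times of the swaps. -/
theorem sum_min_le {L : ℕ} {T m Λ : ℝ} {a : ℕ → ℝ} (hT : 0 ≤ T) (hm : 0 ≤ m)
    (hΛ : 0 ≤ Λ) (h1 : ∀ k < L, a k ≤ T) (h2 : ∀ k < L, a k ≤ m * (1 + Λ / 2 ^ (k + 1)))
    (J : ℕ) : ∑ k ∈ Finset.range L, a k ≤ J * T + m * (L + Λ / 2 ^ J) := by
  have h3 : ∀ M ≤ L, M ≤ J → ∑ k ∈ Finset.range M, a k ≤ M * T := by
    intro M hM _
    calc ∑ k ∈ Finset.range M, a k ≤ ∑ k ∈ Finset.range M, T :=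
          Finset.sum_le_sum fun k hk => h1 k (by rw [Finset.mem_range] at hk; omega)
      _ = M * T := by simp
  rcases le_total L J with hLJ | hLJ
  · have h4 := h3 L le_rfl hLJ
    have h5 : (L : ℝ) * T ≤ J * T := by
      apply mul_le_mul_of_nonneg_right _ hT
      exact_mod_cast hLJ
    have h6 : 0 ≤ m * (L + Λ / 2 ^ J) := by positivity
    linarith
  · have h4 : ∀ d, J + d ≤ L → ∑ k ∈ Finset.range (J + d), a k + m * (Λ / 2 ^ (J + d)) ≤
        J * T + m * ((J + d : ℕ) + Λ / 2 ^ J) := by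
      intro d
      induction d with
      | zero =>
        intro hd
        have h5 := h3 J (by omega) le_rfl
        have h6 : 0 ≤ m * (J : ℝ) := by positivity
        simp only [Nat.add_zero]
        nlinarith
      | succ d ih =>
        intro hd
        have h5 := ih (by omega)
        have h6 := h2 (J + d) (by omega)
        rw [← Nat.add_assoc, Finset.sum_range_succ]
        have e : m * (Λ / 2 ^ (J + d)) = 2 * (m * (Λ / 2 ^ (J + d + 1))) := by
          rw [pow_succ]
          field_simp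
        rw [e] at h5
        push_cast at h5 ⊢
        nlinarith
    obtain ⟨d, rfl⟩ := Nat.exists_eq_add_of_le hLJ
    have h5 := h4 d le_rfl
    have h6 : 0 ≤ m * (Λ / 2 ^ (J + d)) := by positivity
    linarith

end Vale.Agent.P338.Lv
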