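import Vale.Agent.P338.Stream
import Vale.Agent.P338.LevelsPure

/-!
# P338: the stores of the program for the levels
-/

namespace Vale.Agent.P338.Lv

variable {J E : Type}

/-- The contents of the stacks used by the program for the levels (all other stacks are
empty). -/
structure GS (E : Type) : Type where
  x : List (SSym E)
  out : List (SSym E)
  t : List (SSym E)
  s : List (SSym E)
  v0 : List (SSym E)
  mu : List (SSym E)
  hh : List (SSym E)
  nn : List (SSym E)
  pp : List (SSym E)
  mp : List (SSym E)
  mm : List (SSym E)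
  p1 : List (SSym E)
  p2 : List (SSym E)
  p3 : List (SSym E)
  p4 : List (SSym E)
  p5 : List (SSym E)
  pst : List (SSym E)
  go : List (SSym E)
  inp : List (SSym E)
  in2 : List (SSym E)

/-- The store. -/
def gst (g : GS E) : St J E
  | .inl .X => g.x
  | .inl .OUT => g.out
  | .inl .T => g.t
  | .inl .S => g.s
  | .inl .V0 => g.v0
  | .inl .MU => g.mu
  | .inl .HH => g.hh
  | .inl .NN => g.nn
  | .inl .PP => g.pp
  | .inl .MP => g.mp
  | .inl .MM => g.mm
  | .inl .P1 => g.p1
  | .inl .P2 => g.p2
  | .inl .P3 => g.p3
  | .inl .P4 => g.p4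
  | .inl .P5 => g.p5
  | .inl .PST => g.pst
  | .inl .GO => g.go
  | .inl .INP => g.inp
  | .inl .IN2 => g.in2
  | _ => []

/-- The empty store. -/
def GS.nil : GS E := ⟨[], [], [], [], [], [], [], [], [], [], [], [], [], [], [], [], [], [], [], []⟩

theorem gst_nil : (gst GS.nil : St J E) = fun _ => [] := by
  funext l
  rcases l with r | j
  · cases r <;> rfl
  · rfl

@[simp] theorem gst_x (g : GS E) : (gst g : St J E) (Sum.inl R.X) = g.x := rfl
@[simp] theorem gst_out (g : GS E) : (gst g : St J E) (Sum.inl R.OUT) = g.out := rfl
@[simp] theorem gst_t (g : GS E) : (gst g : St J E) (Sum.inl R.T) = g.t := rfl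
@[simp] theorem gst_s (g : GS E) : (gst g : St J E) (Sum.inl R.S) = g.s := rfl
@[simp] theorem gst_v0 (g : GS E) : (gst g : St J E) (Sum.inl R.V0) = g.v0 := rfl
@[simp] theorem gst_mu (g : GS E) : (gst g : St J E) (Sum.inl R.MU) = g.mu := rfl
@[simp] theorem gst_hh (g : GS E) : (gst g : St J E) (Sum.inl R.HH) = g.hh := rfl
@[simp] theorem gst_nn (g : GS E) : (gst g : St J E) (Sum.inl R.NN) = g.nn := rfl
@[simp] theorem gst_pp (g : GS E) : (gst g : St J E) (Sum.inl R.PP) = g.pp := rfl
@[simp] theorem gst_mp (g : GS E) : (gst g : St J E) (Sum.inl R.MP) = g.mp := rfl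
@[simp] theorem gst_mm (g : GS E) : (gst g : St J E) (Sum.inl R.MM) = g.mm := rfl
@[simp] theorem gst_p1 (g : GS E) : (gst g : St J E) (Sum.inl R.P1) = g.p1 := rfl
@[simp] theorem gst_p2 (g : GS E) : (gst g : St J E) (Sum.inl R.P2) = g.p2 := rfl
@[simp] theorem gst_p3 (g : GS E) : (gst g : St J E) (Sum.inl R.P3) = g.p3 := rfl
@[simp] theorem gst_p4 (g : GS E) : (gst g : St J E) (Sum.inl R.P4) = g.p4 := rfl
@[simp] theorem gst_p5 (g : GS E) : (gst g : St J E) (Sum.inl R.P5) = g.p5 := rfl
@[simp] theorem gst_pst (g : GS E) : (gst g : St J E) (Sum.inl R.PST) = g.pst := rfl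
@[simp] theorem gst_go (g : GS E) : (gst g : St J E) (Sum.inl R.GO) = g.go := rfl
@[simp] theorem gst_inp (g : GS E) : (gst g : St J E) (Sum.inl R.INP) = g.inp := rfl
@[simp] theorem gst_in2 (g : GS E) : (gst g : St J E) (Sum.inl R.IN2) = g.in2 := rfl

variable [DecidableEq J]

@[simp] theorem gset_x (g : GS E) (v : List (SSym E)) :
    Function.update (gst g : St J E) (Sum.inl R.X) v = gst { g with x := v } := by
  funext l
  rcases l with r | j
  · cases r <;> rfl
  · rfl

@[simp] theorem gset_out (g : GS E) (v : List (SSym E)) :
    Function.update (gst g : St J E) (Sum.inl R.OUT) v = gst { g with out := v } := by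
  funext l
  rcases l with r | j
  · cases r <;> rfl
  · rfl

@[simp] theorem gset_t (g : GS E) (v : List (SSym E)) :
    Function.update (gst g : St J E) (Sum.inl R.T) v = gst { g with t := v } := by
  funext l
  rcases l with r | j
  · cases r <;> rfl
  · rfl

@[simp] theorem gset_s (g : GS E) (v : List (SSym E)) :
    Function.update (gst g : St J E) (Sum.inl R.S) v = gst { g with s := v } := by
  funext l
  rcases l with r | j
  · cases r <;> rfl
  · rfl

@[simp] theorem gset_v0 (g : GS E) (v : List (SSym E)) :
    Function.update (gst g : St J E) (Sum.inl R.V0) v = gst { g with v0 := v } := by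
  funext l
  rcases l with r | j
  · cases r <;> rfl
  · rfl

@[simp] theorem gset_mu (g : GS E) (v : List (SSym E)) :
    Function.update (gst g : St J E) (Sum.inl R.MU) v = gst { g with mu := v } := by
  funext l
  rcases l with r | j
  · cases r <;> rfl
  · rfl

@[simp] theorem gset_hh (g : GS E) (v : List (SSym E)) :
    Function.update (gst g : St J E) (Sum.inl R.HH) v = gst { g with hh := v } := by
  funext l
  rcases l with r | j
  · cases r <;> rfl
  · rfl

@[simp] theorem gset_nn (g : GS E) (v : List (SSym E)) :
    Function.update (gst g : St J E) (Sum.inl R.NN) v = gst { g with nn := v } := by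
  funext l
  rcases l with r | j
  · cases r <;> rfl
  · rfl

@[simp] theorem gset_pp (g : GS E) (v : List (SSym E)) :
    Function.update (gst g : St J E) (Sum.inl R.PP) v = gst { g with pp := v } := by
  funext l
  rcases l with r | j
  · cases r <;> rfl
  · rfl

@[simp] theorem gset_mp (g : GS E) (v : List (SSym E)) :
    Function.update (gst g : St J E) (Sum.inl R.MP) v = gst { g with mp := v } := by
  funext l
  rcases l with r | j
  · cases r <;> rfl
  · rfl

@[simp] theorem gset_mm (g : GS E) (v : List (SSym E)) :
    Function.update (gst g : St J E) (Sum.inl R.MM) v = gst { g with mm := v } := by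
  funext l
  rcases l with r | j
  · cases r <;> rfl
  · rfl

@[simp] theorem gset_p1 (g : GS E) (v : List (SSym E)) :
    Function.update (gst g : St J E) (Sum.inl R.P1) v = gst { g with p1 := v } := by
  funext l
  rcases l with r | j
  · cases r <;> rfl
  · rfl

@[simp] theorem gset_p2 (g : GS E) (v : List (SSym E)) :
    Function.update (gst g : St J E) (Sum.inl R.P2) v = gst { g with p2 := v } := by
  funext l
  rcases l with r | j
  · cases r <;> rfl
  · rfl

@[simp] theorem gset_p3 (g : GS E) (v : List (SSym E)) :
    Function.update (gst g : St J E) (Sum.inl R.P3) v = gst { g with p3 := v } := by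
  funext l
  rcases l with r | j
  · cases r <;> rfl
  · rfl

@[simp] theorem gset_p4 (g : GS E) (v : List (SSym E)) :
    Function.update (gst g : St J E) (Sum.inl R.P4) v = gst { g with p4 := v } := by
  funext l
  rcases l with r | j
  · cases r <;> rfl
  · rfl

@[simp] theorem gset_p5 (g : GS E) (v : List (SSym E)) :
    Function.update (gst g : St J E) (Sum.inl R.P5) v = gst { g with p5 := v } := by
  funext l
  rcases l with r | j
  · cases r <;> rfl
  · rfl

@[simp] theorem gset_pst (g : GS E) (v : List (SSym E)) :
    Function.update (gst g : St J E) (Sum.inl R.PST) v = gst { g with pst := v } := by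
  funext l
  rcases l with r | j
  · cases r <;> rfl
  · rfl

@[simp] theorem gset_go (g : GS E) (v : List (SSym E)) :
    Function.update (gst g : St J E) (Sum.inl R.GO) v = gst { g with go := v } := by
  funext l
  rcases l with r | j
  · cases r <;> rfl
  · rfl

@[simp] theorem gset_inp (g : GS E) (v : List (SSym E)) :
    Function.update (gst g : St J E) (Sum.inl R.INP) v = gst { g with inp := v } := by
  funext l
  rcases l with r | j
  · cases r <;> rfl
  · rfl

@[simp] theorem gset_in2 (g : GS E) (v : List (SSym E)) :
    Function.update (gst g : St J E) (Sum.inl R.IN2) v = gst { g with in2 := v } := by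
  funext l
  rcases l with r | j
  · cases r <;> rfl
  · rfl

end Vale.Agent.P338.Lv
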