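import Vale.Agent.P338.Lib
import Vale.Agent.P338.Nums
import Vale.Agent.P338.Iface

/-!
# P338: the generator of schedules and kernels
-/

namespace Vale.Agent.P338

variable {J E : Type} [DecidableEq J]

/-- The stack number `r` of the main program. -/
abbrev rg (r : R) : Loc J := Sum.inl r

/-! ### A counter modulo `Q` -/

/-- Add one to the counter `(U1, U2)`. -/
def incP : Pr J E :=
  (Prog.mov (rg R.U2) (rg R.U1)).seq
    (Prog.ite (nonempty (rg R.U2)) Prog.skip (Prog.rev (rg R.U1) (rg R.U2)))

theorem incP_spec (s : St J E) (Q u : ℕ) (hu : u < Q)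
    (h1 : s.at R.U1 = una u) (h2 : s.at R.U2 = una (Q - u)) :
    Runs incP s ((s.set R.U1 (una ((u + 1) % Q))).set R.U2 (una (Q - (u + 1) % Q)))
      (4 + if Q ∣ (u + 1) then 3 * Q else 0) := by
  obtain ⟨m, hm⟩ : ∃ m, Q - u = m + 1 := ⟨Q - u - 1, by omega⟩
  have e1 := Runs.mov (i := (rg R.U2 : Loc J)) (j := rg R.U1) (by simp) s (a := mk)
    (l := una m) (by simp only [St.at] at h2; rw [rg, h2, hm]; rfl)
  by_cases hm0 : m = 0
  · have hQ : Q = u + 1 := by omega
    subst hm0
    have e2 := Runs.rev (i := (rg R.U1 : Loc J)) (j := rg R.U2) (by simp)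
      (Function.update (Function.update s (rg R.U2) (una 0)) (rg R.U1) (mk :: s (rg R.U1)))
    have e3 := e1.seq (Runs.iteF (c := nonempty (rg R.U2)) (p := Prog.skip)
      (by rw [nonempty_tops]; simp [una]) e2)
    refine (e3.mono ?_).of_eq ?_
    · simp only [St.at] at h1
      rw [Function.update_self, h1]
      have : Q ∣ u + 1 := by rw [hQ]
      simp [this, hQ]; omega
    · have : (u + 1) % Q = 0 := by rw [hQ]; simp
      rw [this]
      funext i
      simp only [Function.update_apply]
      split_ifs <;> simp_all [una, List.replicate_succ]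
      rw [← List.replicate_succ', List.replicate_succ]
  · have e2 := Runs.skip (Function.update (Function.update s (rg R.U2) (una m)) (rg R.U1)
      (mk :: s (rg R.U1)))
    have e3 := e1.seq (Runs.iteT (c := nonempty (rg R.U2)) (q := Prog.rev (rg R.U1) (rg R.U2))
      (by rw [nonempty_tops]; simp [una, hm0]) e2)
    refine (e3.mono ?_).of_eq ?_
    · omega
    · have : (u + 1) % Q = u + 1 := Nat.mod_eq_of_lt (by omega)
      rw [this]
      have h3 : m = Q - (u + 1) := by omega
      funext i
      simp only [Function.update_apply]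
      split_ifs <;> simp_all [una, List.replicate_succ]

theorem sum_wrap (Q u n : ℕ) (hu : u < Q) :
    ∑ k ∈ Finset.range n, ((4 + if Q ∣ (u + k + 1) then 3 * Q else 0) + 4) =
      8 * n + 3 * Q * ((u + n) / Q) := by
  induction n with
  | zero => simp [Nat.div_eq_of_lt hu]
  | succ n ih =>
    rw [Finset.sum_range_succ, ih, show u + (n + 1) = (u + n) + 1 by ring, Nat.succ_div]
    by_cases h : Q ∣ u + n + 1
    · simp [h]; ring
    · simp [h]; ring

/-- Add the number on the stack `v` to the counter `(U1, U2)`. -/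
def addP (v t : R) : Pr J E := Prog.forr (rg v) (rg t) incP

theorem addP_spec (v t : R) (hv1 : v ≠ R.U1) (hv2 : v ≠ R.U2) (ht1 : t ≠ R.U1) (ht2 : t ≠ R.U2)
    (hvt : v ≠ t) (s : St J E) (Q u n : ℕ) (hu : u < Q)
    (h1 : s.at R.U1 = una u) (h2 : s.at R.U2 = una (Q - u)) (hv : s.at v = una n)
    (ht : s.at t = []) :
    Runs (addP v t) s
      ((s.set R.U1 (una ((u + n) % Q))).set R.U2 (una (Q - (u + n) % Q)))
      (11 * n + 3 * Q * ((u + n) / Q) + 1) := by
  have hQ : 0 < Q := by omega
  have h := Runs.forr' (u := (rg v : Loc J)) (t := rg t) (by simp [hvt]) (body := incP) n mk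
    (fun k => (s.set R.U1 (una ((u + k) % Q))).set R.U2 (una (Q - (u + k) % Q)))
    (fun k => 4 + if Q ∣ (u + k + 1) then 3 * Q else 0)
    (by
      intro k hk
      simp only [St.at] at hv
      simp [Function.update_apply, hv1, hv2, hv, una])
    (by
      intro k hk
      simp only [St.at] at ht
      simp [Function.update_apply, ht1, ht2, ht])
    (by
      intro k hk l l'
      have h3 := incP_spec (J := J) (E := E) (Function.update (Function.update
        ((s.set R.U1 (una ((u + k) % Q))).set R.U2 (una (Q - (u + k) % Q)))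
          (rg v) l) (rg t) l') Q ((u + k) % Q) (Nat.mod_lt _ hQ)
        (by simp [Function.update_apply, hv1.symm, ht1.symm])
        (by simp [Function.update_apply, hv2.symm, ht2.symm])
      have e4 : ((u + k) % Q + 1) % Q = (u + (k + 1)) % Q := by
        rw [Nat.mod_add_mod]; ring_nf
      have e5 : Q ∣ ((u + k) % Q + 1) ↔ Q ∣ (u + k + 1) := by
        rw [Nat.dvd_iff_mod_eq_zero, Nat.dvd_iff_mod_eq_zero, Nat.mod_add_mod]
      refine (h3.mono ?_).of_eq ?_
      · simp only [e5]; exact le_rfl
      · rw [e4]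
        funext i
        simp only [Function.update_apply]
        split_ifs <;> simp_all)
  rw [sum_wrap Q u n hu] at h
  have e0 : ((s.set R.U1 (una ((u + 0) % Q))).set R.U2 (una (Q - (u + 0) % Q))) = s := by
    rw [Nat.add_zero, Nat.mod_eq_of_lt hu]
    funext i
    simp only [Function.update_apply]
    split_ifs <;> simp_all
  rw [e0] at h
  exact h.mono (by omega)

/-! ### Lists -/

theorem cat_const {α : Type} (n : ℕ) (l : List α) : cat n (fun _ => l) = rep n l := by
  induction n with
  | zero => rfl
  | succ n ih =>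
    rw [cat_succ, ih, rep, rep, List.replicate_succ', List.flatten_append]
    simp

/-! ### Emitting a slot -/

/-- One slot of a generated string. -/
def genSlot {α : Type} (g Q u : ℕ) (a b : α) (mid tail : List α) : List α :=
  List.replicate (g * (Q - u)) a ++ mid ++ List.replicate (g * u) b ++ tail

theorem length_genSlot {α : Type} (g Q u : ℕ) (a b : α) (mid tail : List α) (hu : u ≤ Q) :
    (genSlot g Q u a b mid tail).length = g * Q + mid.length + tail.length := by
  simp only [genSlot, List.length_append, List.length_replicate]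
  have : g * (Q - u) + g * u = g * Q := by rw [← Nat.mul_add]; congr 1; omega
  omega

/-- Push the symbol `a` on `BB` as many times as the product of the numbers on `u` and `GG`
says. -/
def emitRun (u : R) (a : SSym E) : Pr J E :=
  Prog.forr (rg u) (rg R.S1) (Prog.fill (rg R.GG) a (rg R.BB) (rg R.S2))

theorem emitRun_spec (u : R) (a : SSym E) (hu1 : u ≠ R.S1) (hu2 : u ≠ R.S2) (hu3 : u ≠ R.BB)
    (hu4 : u ≠ R.GG) (s : St J E) (n g : ℕ) (hu : s.at u = una n) (hg : s.at R.GG = una g)
    (h1 : s.at R.S1 = []) (h2 : s.at R.S2 = []) :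
    Runs (emitRun u a) s (s.set R.BB (List.replicate (g * n) a ++ s.at R.BB))
      (n * (8 * g + 8) + 1) := by
  have h := Runs.forr' (u := (rg u : Loc J)) (t := rg R.S1) (by simp [hu1])
    (body := Prog.fill (rg R.GG) a (rg R.BB) (rg R.S2)) n mk
    (fun k => s.set R.BB (List.replicate (g * k) a ++ s.at R.BB)) (fun _ => 8 * g + 1)
    (by
      intro k hk
      simp only [St.at] at hu
      simp [hu3, hu, una])
    (by
      intro k hk
      simp only [St.at] at h1
      simp [h1])
    (by
      intro k hk l l'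
      have h3 := Runs.fill (u := (rg R.GG : Loc J)) (b := rg R.BB) (t := rg R.S2) (by simp)
        (by simp) (by simp) a mk
        (Function.update (Function.update
          (s.set R.BB (List.replicate (g * k) a ++ s.at R.BB)) (rg u) l) (rg R.S1) l')
        g (by
          simp only [St.at] at hg
          simp [hu4.symm, hg, una])
        (by
          simp only [St.at] at h2
          simp [hu2.symm, h2])
      refine h3.of_eq ?_
      have e : List.replicate g a ++ (List.replicate (g * k) a ++ s.at R.BB) =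
          List.replicate (g * (k + 1)) a ++ s.at R.BB := by
        rw [← List.append_assoc, List.replicate_append_replicate,
          show g + g * k = g * (k + 1) by ring]
      rw [← e]
      clear e
      funext i
      simp only [Function.update_apply]
      split_ifs <;> simp_all)
  simp only [Finset.sum_const, Finset.card_range, smul_eq_mul] at h
  have e0 : s.set R.BB (List.replicate (g * 0) a ++ s.at R.BB) = s := by
    simp
  rw [e0] at h
  refine h.mono ?_
  ring_nf
  omega

/-- Emit a slot. -/
def slotP (a b : SSym E) (pm : Pr J E) : Pr J E :=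
  (emitRun R.U2 a).seq (pm.seq ((emitRun R.U1 b).seq
    (Prog.revOnto (rg R.TL) (rg R.BB) (rg R.S1))))

theorem slotP_spec (a b : SSym E) (pm : Pr J E) (mid tail : List (SSym E))
    (hpm : ∀ s : St J E, Runs pm s (s.set R.BB (mid.reverse ++ s.at R.BB)) 3)
    (s : St J E) (g Q u : ℕ) (h1 : s.at R.U1 = una u) (h2 : s.at R.U2 = una (Q - u))
    (hu : u ≤ Q) (hg : s.at R.GG = una g) (ht : s.at R.TL = tail) (hs1 : s.at R.S1 = [])
    (hs2 : s.at R.S2 = []) :
    Runs (slotP a b pm) s
      (s.set R.BB ((genSlot g Q u a b mid tail).reverse ++ s.at R.BB))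
      (Q * (8 * g + 8) + 6 * tail.length + 9) := by
  simp only [St.at] at h1 h2 hg ht hs1 hs2
  have r1 := emitRun_spec (J := J) R.U2 a (by simp) (by simp) (by simp) (by simp) s (Q - u) g
    h2 hg hs1 hs2
  have r2 := hpm (s.set R.BB (List.replicate (g * (Q - u)) a ++ s.at R.BB))
  have r3 := emitRun_spec (J := J) R.U1 b (by simp) (by simp) (by simp) (by simp)
    ((s.set R.BB (List.replicate (g * (Q - u)) a ++ s.at R.BB)).set R.BB
      (mid.reverse ++ (s.set R.BB (List.replicate (g * (Q - u)) a ++ s.at R.BB)).at R.BB)) u g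
    (by simp [h1]) (by simp [hg]) (by simp [hs1]) (by simp [hs2])
  have r4 := Runs.revOnto (a := (rg R.TL : Loc J)) (b := rg R.BB) (t := rg R.S1) (by simp)
    (by simp) (by simp)
    (((s.set R.BB (List.replicate (g * (Q - u)) a ++ s.at R.BB)).set R.BB
      (mid.reverse ++ (s.set R.BB (List.replicate (g * (Q - u)) a ++ s.at R.BB)).at R.BB)).set
      R.BB (List.replicate (g * u) b ++ ((s.set R.BB
        (List.replicate (g * (Q - u)) a ++ s.at R.BB)).set R.BB
      (mid.reverse ++ (s.set R.BB (List.replicate (g * (Q - u)) a ++ s.at R.BB)).at R.BB)).at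
        R.BB))
    (by simp [hs1])
  refine ((r1.seq (r2.seq (r3.seq r4))).mono ?_).of_eq ?_
  · have e : (Q - u) * (8 * g + 8) + u * (8 * g + 8) = Q * (8 * g + 8) := by
      rw [← Nat.add_mul]; congr 1; omega
    simp [ht]
    omega
  · funext i
    simp only [Function.update_apply]
    split_ifs <;> simp_all [genSlot]

/-! ### The generator -/

/-- Emit a slot, then increase the counter by `AL`. -/
def innerP (a b : SSym E) (pm : Pr J E) : Pr J E := (slotP a b pm).seq (addP R.AL R.S1)

theorem innerP_spec (a b : SSym E) (pm : Pr J E) (mid tail : List (SSym E))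
    (hpm : ∀ s : St J E, Runs pm s (s.set R.BB (mid.reverse ++ s.at R.BB)) 3)
    (s : St J E) (g Q u α : ℕ) (h1 : s.at R.U1 = una u) (h2 : s.at R.U2 = una (Q - u))
    (hu : u < Q) (hα : α ≤ Q) (hg : s.at R.GG = una g) (hAL : s.at R.AL = una α)
    (ht : s.at R.TL = tail) (hs1 : s.at R.S1 = []) (hs2 : s.at R.S2 = []) :
    Runs (innerP a b pm) s
      (((s.set R.BB ((genSlot g Q u a b mid tail).reverse ++ s.at R.BB)).set R.U1
        (una ((u + α) % Q))).set R.U2 (una (Q - (u + α) % Q)))
      (Q * (8 * g + 22) + 6 * tail.length + 11) := by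
  simp only [St.at] at h1 h2 hg hAL ht hs1 hs2
  have r1 := slotP_spec a b pm mid tail hpm s g Q u h1 h2 hu.le hg ht hs1 hs2
  have r2 := addP_spec (J := J) R.AL R.S1 (by simp) (by simp) (by simp) (by simp) (by simp)
    (s.set R.BB ((genSlot g Q u a b mid tail).reverse ++ s.at R.BB)) Q u α hu
    (by simp [h1]) (by simp [h2]) (by simp [hAL]) (by simp [hs1])
  refine ((r1.seq r2).mono ?_).of_eq rfl
  have e : (u + α) / Q ≤ 1 := by
    have : (u + α) / Q < 2 := by
      rw [Nat.div_lt_iff_lt_mul (by omega)]
      omega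
    omega
  have e2 : 3 * Q * ((u + α) / Q) ≤ 3 * Q := by
    calc 3 * Q * ((u + α) / Q) ≤ 3 * Q * 1 := Nat.mul_le_mul_left _ e
      _ = 3 * Q := by ring
  have e3 : Q * (8 * g + 22) = Q * (8 * g + 8) + 14 * Q := by ring
  omega

/-- One row: `IN` slots, then the counter is increased by `BE`, and `AL` and `BE` are updated
by the program `upd`. -/
def rowP (a b : SSym E) (pm upd : Pr J E) : Pr J E :=
  (Prog.forr (rg R.IN) (rg R.S3) (innerP a b pm)).seq ((addP R.BE R.S1).seq upd)

theorem rowP_spec (a b : SSym E) (pm upd : Pr J E) (mid tail : List (SSym E))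
    (hpm : ∀ s : St J E, Runs pm s (s.set R.BB (mid.reverse ++ s.at R.BB)) 3)
    (s : St J E) (g Q inn α β α' β' : ℕ) (v : ℕ → ℕ)
    (hupd : ∀ s : St J E, s.at R.AL = una α → s.at R.BE = una β →
      Runs upd s ((s.set R.AL (una α')).set R.BE (una β')) 16)
    (hv : ∀ j < inn, v (j + 1) = (v j + α) % Q)
    (h1 : s.at R.U1 = una (v 0)) (h2 : s.at R.U2 = una (Q - v 0))
    (hu : v 0 < Q) (hα : α ≤ Q) (hβ : β ≤ 3 * Q) (hg : s.at R.GG = una g)
    (hAL : s.at R.AL = una α) (hBE : s.at R.BE = una β) (hIN : s.at R.IN = una inn)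
    (ht : s.at R.TL = tail) (hs1 : s.at R.S1 = []) (hs2 : s.at R.S2 = [])
    (hs3 : s.at R.S3 = []) :
    Runs (rowP a b pm upd) s
      (((((s.set R.BB ((cat inn fun j => genSlot g Q (v j) a b mid tail).reverse ++
        s.at R.BB)).set R.U1 (una ((v inn + β) % Q))).set R.U2
          (una (Q - (v inn + β) % Q))).set R.AL (una α')).set R.BE (una β'))
      (inn * (Q * (8 * g + 22) + 6 * tail.length + 18) + 45 * Q + 20) := by
  simp only [St.at] at h1 h2 hg hAL hBE hIN ht hs1 hs2 hs3
  have hQ : 0 < Q := by omega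
  have hvQ : ∀ j ≤ inn, v j < Q := by
    intro j hj
    rcases Nat.eq_zero_or_pos j with rfl | hj'
    · exact hu
    · obtain ⟨i, rfl⟩ : ∃ i, j = i + 1 := ⟨j - 1, by omega⟩
      rw [hv i (by omega)]
      exact Nat.mod_lt _ hQ
  have r1 := Runs.forr' (u := (rg R.IN : Loc J)) (t := rg R.S3) (by simp)
    (body := innerP a b pm) inn mk
    (fun k => ((s.set R.BB ((cat k fun j => genSlot g Q (v j) a b mid tail).reverse ++
        s.at R.BB)).set R.U1 (una (v k))).set R.U2 (una (Q - v k)))
    (fun _ => Q * (8 * g + 22) + 6 * tail.length + 11)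
    (by intro k hk; simp [hIN, una])
    (by intro k hk; simp [hs3])
    (by
      intro k hk l l'
      have h3 := innerP_spec a b pm mid tail hpm
        (Function.update (Function.update
          (((s.set R.BB ((cat k fun j => genSlot g Q (v j) a b mid tail).reverse ++
            s.at R.BB)).set R.U1 (una (v k))).set R.U2 (una (Q - v k)))
          (rg R.IN) l) (rg R.S3) l') g Q (v k) α (by simp) (by simp) (hvQ k hk.le) hα
          (by simp [hg]) (by simp [hAL]) (by simp [ht]) (by simp [hs1]) (by simp [hs2])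
      refine h3.of_eq ?_
      rw [← hv k hk]
      have e : (genSlot g Q (v k) a b mid tail).reverse ++
          ((cat k fun j => genSlot g Q (v j) a b mid tail).reverse ++ s.at R.BB) =
          (cat (k + 1) fun j => genSlot g Q (v j) a b mid tail).reverse ++ s.at R.BB := by
        rw [cat_succ, List.reverse_append, List.append_assoc]
      rw [← e]
      clear e
      funext i
      simp only [Function.update_apply]
      split_ifs <;> simp_all)
  simp only [Finset.sum_const, Finset.card_range, smul_eq_mul] at r1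
  have e0 : ((s.set R.BB ((cat 0 fun j => genSlot g Q (v j) a b mid tail).reverse ++
        s.at R.BB)).set R.U1 (una (v 0))).set R.U2 (una (Q - v 0)) = s := by
    funext i
    simp only [Function.update_apply]
    split_ifs <;> simp_all
  rw [e0] at r1
  have r2 := addP_spec (J := J) R.BE R.S1 (by simp) (by simp) (by simp) (by simp) (by simp)
    (((s.set R.BB ((cat inn fun j => genSlot g Q (v j) a b mid tail).reverse ++
        s.at R.BB)).set R.U1 (una (v inn))).set R.U2 (una (Q - v inn))) Q (v inn) β
    (hvQ inn le_rfl) (by simp) (by simp) (by simp [hBE]) (by simp [hs1])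
  have r3 := hupd (((((s.set R.BB ((cat inn fun j => genSlot g Q (v j) a b mid tail).reverse ++
        s.at R.BB)).set R.U1 (una (v inn))).set R.U2 (una (Q - v inn))).set R.U1
        (una ((v inn + β) % Q))).set R.U2 (una (Q - (v inn + β) % Q)))
        (by simp [hAL]) (by simp [hBE])
  refine ((r1.seq (r2.seq r3)).mono ?_).of_eq ?_
  · have e : (v inn + β) / Q ≤ 3 := by
      have : (v inn + β) / Q < 4 := by
        rw [Nat.div_lt_iff_lt_mul hQ]
        have := hvQ inn le_rfl
        omega
      omega
    have e2 : 3 * Q * ((v inn + β) / Q) ≤ 9 * Q := by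
      calc 3 * Q * ((v inn + β) / Q) ≤ 3 * Q * 3 := Nat.mul_le_mul_left _ e
        _ = 9 * Q := by ring
    have e3 : inn * (Q * (8 * g + 22) + 6 * tail.length + 18) =
      inn * (Q * (8 * g + 22) + 6 * tail.length + 11 + 4) + 3 * inn := by ring
    omega
  · funext i
    simp only [Function.update_apply]
    split_ifs <;> simp_all

theorem set5 (s : St J E) (x y z w v x' y' z' w' v' l l' : List (SSym E)) :
    ((((((((((((s.set R.BB x).set R.U1 y).set R.U2 z).set R.AL w).set R.BE v).set R.CN
      l).set R.S4 l').set R.BB x').set R.U1 y').set R.U2 z').set R.AL w').set R.BE v') =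
    ((((((s.set R.BB x').set R.U1 y').set R.U2 z').set R.AL w').set R.BE v').set R.CN
      l).set R.S4 l' := by
  funext i
  simp only [Function.update_apply]
  split_ifs <;> simp_all

/-- The generator. -/
def genP (a b : SSym E) (pm upd : Pr J E) : Pr J E :=
  Prog.forr (rg R.CN) (rg R.S4) (rowP a b pm upd)

theorem genP_spec (a b : SSym E) (pm upd : Pr J E) (mid tail : List (SSym E))
    (hpm : ∀ s : St J E, Runs pm s (s.set R.BB (mid.reverse ++ s.at R.BB)) 3)
    (s : St J E) (g Q cnt inn : ℕ) (α β : ℕ → ℕ) (u : ℕ → ℕ → ℕ)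
    (hupd : ∀ k < cnt, ∀ s : St J E, s.at R.AL = una (α k) → s.at R.BE = una (β k) →
      Runs upd s ((s.set R.AL (una (α (k + 1)))).set R.BE (una (β (k + 1)))) 16)
    (hu0 : u 0 0 < Q)
    (hu1 : ∀ k < cnt, ∀ j < inn, u k (j + 1) = (u k j + α k) % Q)
    (hu2 : ∀ k < cnt, u (k + 1) 0 = (u k inn + β k) % Q)
    (hα : ∀ k < cnt, α k ≤ Q) (hβ : ∀ k < cnt, β k ≤ 3 * Q)
    (h1 : s.at R.U1 = una (u 0 0)) (h2 : s.at R.U2 = una (Q - u 0 0))
    (hg : s.at R.GG = una g)
    (hAL : s.at R.AL = una (α 0)) (hBE : s.at R.BE = una (β 0)) (hIN : s.at R.IN = una inn)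
    (hCN : s.at R.CN = una cnt)
    (ht : s.at R.TL = tail) (hs1 : s.at R.S1 = []) (hs2 : s.at R.S2 = [])
    (hs3 : s.at R.S3 = []) (hs4 : s.at R.S4 = []) :
    Runs (genP a b pm upd) s
      (((((s.set R.BB ((cat cnt fun k => cat inn fun j =>
        genSlot g Q (u k j) a b mid tail).reverse ++
        s.at R.BB)).set R.U1 (una (u cnt 0))).set R.U2
          (una (Q - u cnt 0))).set R.AL (una (α cnt))).set R.BE (una (β cnt)))
      (cnt * (inn * (Q * (8 * g + 22) + 6 * tail.length + 18) + 45 * Q + 27) + 1) := by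
  simp only [St.at] at h1 h2 hg hAL hBE hIN hCN ht hs1 hs2 hs3 hs4
  have hQ : 0 < Q := by omega
  have huQ : ∀ k ≤ cnt, u k 0 < Q := by
    intro j hj
    rcases Nat.eq_zero_or_pos j with rfl | hj'
    · exact hu0
    · obtain ⟨i, rfl⟩ : ∃ i, j = i + 1 := ⟨j - 1, by omega⟩
      rw [hu2 i (by omega)]
      exact Nat.mod_lt _ hQ
  have r1 := Runs.forr' (u := (rg R.CN : Loc J)) (t := rg R.S4) (by simp)
    (body := rowP a b pm upd) cnt mk
    (fun k => (((((s.set R.BB ((cat k fun k => cat inn fun j =>
        genSlot g Q (u k j) a b mid tail).reverse ++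
        s.at R.BB)).set R.U1 (una (u k 0))).set R.U2
          (una (Q - u k 0))).set R.AL (una (α k))).set R.BE (una (β k))))
    (fun _ => inn * (Q * (8 * g + 22) + 6 * tail.length + 18) + 45 * Q + 20)
    (by intro k hk; simp [hCN, una])
    (by intro k hk; simp [hs4])
    (by
      intro k hk l l'
      have h3 := rowP_spec a b pm upd mid tail hpm
        (Function.update (Function.update
          (((((s.set R.BB ((cat k fun k => cat inn fun j =>
        genSlot g Q (u k j) a b mid tail).reverse ++
        s.at R.BB)).set R.U1 (una (u k 0))).set R.U2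
          (una (Q - u k 0))).set R.AL (una (α k))).set R.BE (una (β k)))
          (rg R.CN) l) (rg R.S4) l') g Q inn (α k) (β k) (α (k + 1)) (β (k + 1)) (u k)
          (hupd k hk) (hu1 k hk) (by simp) (by simp) (huQ k hk.le) (hα k hk) (hβ k hk)
          (by simp [hg]) (by simp) (by simp) (by simp [hIN]) (by simp [ht]) (by simp [hs1])
          (by simp [hs2]) (by simp [hs3])
      refine h3.of_eq ?_
      rw [← hu2 k hk]
      have e : (cat inn fun j => genSlot g Q (u k j) a b mid tail).reverse ++
          ((cat k fun k => cat inn fun j =>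
            genSlot g Q (u k j) a b mid tail).reverse ++ s.at R.BB) =
          (cat (k + 1) fun k => cat inn fun j =>
            genSlot g Q (u k j) a b mid tail).reverse ++ s.at R.BB := by
        rw [cat_succ, List.reverse_append, List.append_assoc]
      rw [← e, set5]
      congr 1)
  simp only [Finset.sum_const, Finset.card_range, smul_eq_mul] at r1
  have e0 : ((((s.set R.BB ((cat 0 fun k => cat inn fun j =>
        genSlot g Q (u k j) a b mid tail).reverse ++
        s.at R.BB)).set R.U1 (una (u 0 0))).set R.U2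
          (una (Q - u 0 0))).set R.AL (una (α 0))).set R.BE (una (β 0)) = s := by
    rw [← h1, ← h2, ← hAL, ← hBE]
    simp
  rw [e0] at r1
  refine r1.mono ?_
  have : cnt * (inn * (Q * (8 * g + 22) + 6 * tail.length + 18) + 45 * Q + 27) =
    cnt * (inn * (Q * (8 * g + 22) + 6 * tail.length + 18) + 45 * Q + 20 + 4) + 3 * cnt := by
    ring
  omega

end Vale.Agent.P338
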