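import Vale.Agent.P338.Lib
import Vale.Agent.P338.Defs
import Vale.Agent.P338.Nums

/-!
# P338: generating index-independent schedules

A schedule expression is built from single instructions, concatenation and repetition
`rep n e`, where `n` names a stack that holds a number in unary. `SE.gen` is the program that
pushes the value of an expression on a stack.
-/

namespace Vale.Agent.P338

variable {E ι ν : Type}

/-- Schedule expressions; `ν` is the type of names of the numbers. -/
inductive SE (ν : Type) : Type
  | ins : Instr → SE ν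
  | rep : ν → SE ν → SE ν
  | app : SE ν → SE ν → SE ν

/-- The value of an expression. -/
def SE.eval (f : ν → ℕ) : SE ν → List Instr
  | .ins i => [i]
  | .rep n e => Vale.Agent.P338.rep (f n) (e.eval f)
  | .app e₁ e₂ => e₁.eval f ++ e₂.eval f

/-- The nesting depth of the repetitions. -/
def SE.depth : SE ν → ℕ
  | .ins _ => 0
  | .rep _ e => e.depth + 1
  | .app e₁ e₂ => max e₁.depth e₂.depth

/-- A bound for the time needed. -/
def SE.cost (f : ν → ℕ) : SE ν → ℕ
  | .ins _ => 1
  | .rep n e => e.cost f + (f n * (6 * (e.eval f).length + 8) + 3 * (e.eval f).length) + 3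
  | .app e₁ e₂ => e₁.cost f + e₂.cost f + 1

/-- The stacks used by the generator: `reg n` holds the number `n`, the stacks `sc k` for
`k < D` and `t`, `t'` are scratch. -/
structure GEnv (ν ι : Type) where
  reg : ν → ι
  sc : ℕ → ι
  D : ℕ
  t : ι
  t' : ι
  reg_sc : ∀ n, ∀ k < D, reg n ≠ sc k
  reg_t : ∀ n, reg n ≠ t
  reg_t' : ∀ n, reg n ≠ t'
  sc_t : ∀ k < D, sc k ≠ t
  sc_t' : ∀ k < D, sc k ≠ t'
  t_t' : t ≠ t'
  sc_inj : ∀ k < D, ∀ l < D, sc k = sc l → k = l

variable [DecidableEq ι]

/-- The program that pushes the value of an expression on the stack `g`. -/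
def SE.gen (V : GEnv ν ι) : SE ν → ℕ → ι → Prog ι (SSym E)
  | .ins i, _, g => Prog.push g (si i)
  | .rep n e, d, g => (e.gen V (d + 1) (V.sc d)).seq
      ((Prog.repOnto (V.reg n) (V.sc d) g V.t V.t').seq (Prog.clear (V.sc d)))
  | .app e₁ e₂, d, g => (e₂.gen V d g).seq (e₁.gen V d g)

theorem ge_sch_append (L L' : List Instr) :
    (sch (L ++ L') : List (SSym E)) = sch L ++ sch L' := by simp [sch]

theorem sch_rep (n : ℕ) (L : List Instr) :
    (sch (rep n L) : List (SSym E)) = rep n (sch L) := by
  simp [sch, rep, List.map_flatten, List.map_replicate]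

theorem SE.gen_runs (V : GEnv ν ι) (f : ν → ℕ) (e : SE ν) : ∀ (d : ℕ) (g : ι)
    (s : Store ι (SSym E)), d + e.depth ≤ V.D → g ≠ V.t → g ≠ V.t' →
    (∀ n, g ≠ V.reg n) → (∀ k, d ≤ k → k < V.D → g ≠ V.sc k) →
    (∀ n, s (V.reg n) = una (f n)) → (∀ k, d ≤ k → k < V.D → s (V.sc k) = []) →
    s V.t = [] → s V.t' = [] →
    Runs (e.gen V d g) s (Function.update s g (sch (e.eval f) ++ s g)) (e.cost f) := by
  induction e with
  | ins i =>
    intro d g s _ _ _ _ _ _ _ _ _
    exact Runs.push g (si i) s
  | app e₁ e₂ ih₁ ih₂ =>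
    intro d g s hd hgt hgt' hgr hgs hr hsc ht ht'
    simp only [SE.depth] at hd
    have h2 := ih₂ d g s (by omega) hgt hgt' hgr hgs hr hsc ht ht'
    have h1 := ih₁ d g (Function.update s g (sch (e₂.eval f) ++ s g)) (by omega) hgt hgt' hgr hgs
      (fun n => by rw [Function.update_of_ne (hgr n).symm, hr])
      (fun k h h' => by rw [Function.update_of_ne (hgs k h h').symm, hsc k h h'])
      (by rw [Function.update_of_ne hgt.symm, ht])
      (by rw [Function.update_of_ne hgt'.symm, ht'])
    refine ((h2.seq h1).mono ?_).of_eq ?_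
    · simp only [SE.cost]; omega
    · rw [Function.update_self, Function.update_idem, SE.eval, ge_sch_append, List.append_assoc]
  | rep n e ih =>
    intro d g s hd hgt hgt' hgr hgs hr hsc ht ht'
    simp only [SE.depth] at hd
    have hdD : d < V.D := by omega
    have hsg : V.sc d ≠ g := (hgs d le_rfl hdD).symm
    have h1 := ih (d + 1) (V.sc d) s (by omega) (V.sc_t d hdD) (V.sc_t' d hdD)
      (fun n => (V.reg_sc n d hdD).symm)
      (fun k h h' he => by have := V.sc_inj d hdD k h' he; omega) hr
      (fun k h h' => hsc k (by omega) h') ht ht'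
    rw [hsc d le_rfl hdD, List.append_nil] at h1
    have h2 := Runs.repOnto (u := V.reg n) (a := V.sc d) (b := g) (t := V.t) (t' := V.t')
      (V.reg_sc n d hdD) (hgr n).symm (V.reg_t n) (V.reg_t' n) hsg (V.sc_t d hdD)
      (V.sc_t' d hdD) hgt hgt' V.t_t' mk (Function.update s (V.sc d) (sch (e.eval f))) (f n)
      (by rw [Function.update_of_ne (V.reg_sc n d hdD), hr]; rfl)
      (by rw [Function.update_of_ne (V.sc_t d hdD).symm, ht])
      (by rw [Function.update_of_ne (V.sc_t' d hdD).symm, ht'])
    rw [Function.update_self, Function.update_of_ne hsg.symm] at h2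
    have h3 := Runs.clear (V.sc d) (Function.update (Function.update s (V.sc d)
      (sch (e.eval f))) g (Vale.Agent.P338.rep (f n) (sch (e.eval f)) ++ s g))
    refine ((h1.seq (h2.seq h3)).mono ?_).of_eq ?_
    · rw [Function.update_of_ne hsg, Function.update_self]
      simp only [SE.cost, length_sch]
      ring_nf
      omega
    · rw [SE.eval, sch_rep]
      funext k
      by_cases h1 : k = V.sc d
      · subst h1
        rw [Function.update_self, Function.update_of_ne hsg, hsc d le_rfl hdD]
      · rw [Function.update_of_ne h1]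
        by_cases h2 : k = g
        · subst h2; simp
        · rw [Function.update_of_ne h2, Function.update_of_ne h2, Function.update_of_ne h1]

end Vale.Agent.P338
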