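import Vale.Agent.P338.Gen
import Vale.Agent.P338.Sched
import Vale.Agent.P338.Kron

/-!
# P338: the schedules and the kernel produced by the generator
-/

namespace Vale.Agent.P338

variable {J E : Type} [DecidableEq J]

omit [DecidableEq J] in
theorem St.ext' {s s' : St J E} (h : ∀ r : R, s (Sum.inl r) = s' (Sum.inl r))
    (h' : ∀ j : J, s (Sum.inr j) = s' (Sum.inr j)) : s = s' := by
  funext i
  rcases i with r | j
  · exact h r
  · exact h' j

/-- Empty all stacks in the list `L`. -/
def clearL : List R → Pr J E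
  | [] => Prog.skip
  | r :: L => (Prog.clear (rg r)).seq (clearL L)

/-- The store with all stacks in the list `L` emptied. -/
def St.wipe (s : St J E) (L : List R) : St J E := fun i =>
  match i with
  | Sum.inl r => if r ∈ L then [] else s (Sum.inl r)
  | Sum.inr j => s (Sum.inr j)

omit [DecidableEq J] in
@[simp] theorem St.wipe_inl (s : St J E) (L : List R) (r : R) :
    s.wipe L (Sum.inl r) = if r ∈ L then [] else s (Sum.inl r) := rfl

omit [DecidableEq J] in
@[simp] theorem St.wipe_inr (s : St J E) (L : List R) (j : J) :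
    s.wipe L (Sum.inr j) = s (Sum.inr j) := rfl

theorem clearL_spec (L : List R) (s : St J E) :
    Runs (clearL L) s (s.wipe L) (3 * (L.map fun r => (s (Sum.inl r)).length).sum +
      L.length + 1) := by
  induction L generalizing s with
  | nil =>
    refine (Runs.skip s).of_eq ?_ |>.mono (by simp)
    exact St.ext' (fun r => by simp) (fun j => rfl)
  | cons r L ih =>
    have h1 := Runs.clear (rg r) s
    have h2 := ih (Function.update s (rg r) [])
    refine ((h1.seq h2).mono ?_).of_eq ?_
    · have : (L.map fun r' => ((Function.update s (rg r : Loc J) []) (Sum.inl r')).length).sum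
          ≤ (L.map fun r => (s (Sum.inl r)).length).sum := by
        apply List.sum_le_sum
        intro r' _
        by_cases h : r' = r
        · subst h; simp
        · simp [h]
      have e2 : (s (rg r)).length = (s (Sum.inl r)).length := rfl
      simp only [List.map_cons, List.sum_cons, List.length_cons]
      omega
    · refine St.ext' (fun r' => ?_) (fun j => ?_)
      · by_cases h : r' = r
        · subst h; simp
        · simp [h]
      · simp

/-- The stacks used by the generator for its input. -/
def genRegs : List R := [R.GG, R.U1, R.U2, R.AL, R.BE, R.IN, R.CN, R.TL]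

/-- Run the generator, put the result on the stack `P` and clean up. -/
def genTo (P : R) (a b : SSym E) (pm upd : Pr J E) : Pr J E :=
  (genP a b pm upd).seq ((Prog.rev (rg R.BB) (rg P)).seq (clearL genRegs))

theorem genTo_spec (P : R) (hP : P ∉ genRegs) (hP' : P ≠ R.BB)
    (a b : SSym E) (pm upd : Pr J E) (mid tail : List (SSym E))
    (hpm : ∀ s : St J E, Runs pm s (s.set R.BB (mid.reverse ++ s.at R.BB)) 3)
    (s : St J E) (g Q cnt inn : ℕ) (α β : ℕ → ℕ) (u : ℕ → ℕ → ℕ)
    (hupd : ∀ k < cnt, ∀ s : St J E, s.at R.AL = una (α k) → s.at R.BE = una (β k) →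
      Runs upd s ((s.set R.AL (una (α (k + 1)))).set R.BE (una (β (k + 1)))) 16)
    (hu0 : u 0 0 < Q)
    (hu1 : ∀ k < cnt, ∀ j < inn, u k (j + 1) = (u k j + α k) % Q)
    (hu2 : ∀ k < cnt, u (k + 1) 0 = (u k inn + β k) % Q)
    (hα : ∀ k < cnt, α k ≤ Q) (hβ : ∀ k < cnt, β k ≤ 3 * Q)
    (h1 : s.at R.U1 = una (u 0 0)) (h2 : s.at R.U2 = una (Q - u 0 0))
    (hg : s.at R.GG = una g)
    (hAL : s.at R.AL = una (α 0)) (hBE : s.at R.BE = una (β 0)) (hIN : s.at R.IN = una inn)
    (hCN : s.at R.CN = una cnt)
    (ht : s.at R.TL = tail) (hs1 : s.at R.S1 = []) (hs2 : s.at R.S2 = [])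
    (hs3 : s.at R.S3 = []) (hs4 : s.at R.S4 = []) (hBB : s.at R.BB = []) (hPs : s.at P = []) :
    Runs (genTo P a b pm upd) s
      ((s.wipe genRegs).set P (cat cnt fun k => cat inn fun j =>
        genSlot g Q (u k j) a b mid tail))
      ((cnt * (inn * (Q * (8 * g + 22) + 6 * tail.length + 18) + 45 * Q + 27) + 1) +
        3 * (cnt * (inn * (g * Q + mid.length + tail.length))) +
        3 * (g + Q + α cnt + β cnt + inn + cnt + tail.length) + 13) := by
  have hQ : 0 < Q := by omega
  have huQ : ∀ k ≤ cnt, u k 0 < Q := by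
    intro j hj
    rcases Nat.eq_zero_or_pos j with rfl | hj'
    · exact hu0
    · obtain ⟨i, rfl⟩ : ∃ i, j = i + 1 := ⟨j - 1, by omega⟩
      rw [hu2 i (by omega)]
      exact Nat.mod_lt _ hQ
  have huQ' : ∀ k < cnt, ∀ j ≤ inn, u k j < Q := by
    intro k hk j hj
    rcases Nat.eq_zero_or_pos j with rfl | hj'
    · exact huQ k hk.le
    · obtain ⟨i, rfl⟩ : ∃ i, j = i + 1 := ⟨j - 1, by omega⟩
      rw [hu1 k hk i (by omega)]
      exact Nat.mod_lt _ hQ
  have r1 := genP_spec a b pm upd mid tail hpm s g Q cnt inn α β u hupd hu0 hu1 hu2 hα hβ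
    h1 h2 hg hAL hBE hIN hCN ht hs1 hs2 hs3 hs4
  simp only [genRegs, List.mem_cons, List.not_mem_nil, or_false, not_or] at hP
  obtain ⟨hP1, hP2, hP3, hP4, hP5, hP6, hP7, hP8⟩ := hP
  have q1 : R.GG ≠ P := fun h => hP1 h.symm
  have q2 : R.U1 ≠ P := fun h => hP2 h.symm
  have q3 : R.U2 ≠ P := fun h => hP3 h.symm
  have q4 : R.AL ≠ P := fun h => hP4 h.symm
  have q5 : R.BE ≠ P := fun h => hP5 h.symm
  have q6 : R.IN ≠ P := fun h => hP6 h.symm
  have q7 : R.CN ≠ P := fun h => hP7 h.symm
  have q8 : R.TL ≠ P := fun h => hP8 h.symm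
  have r2 := Runs.rev (i := (rg R.BB : Loc J)) (j := rg P) (by simp [hP'.symm])
    (((((s.set R.BB ((cat cnt fun k => cat inn fun j =>
        genSlot g Q (u k j) a b mid tail).reverse ++
        s.at R.BB)).set R.U1 (una (u cnt 0))).set R.U2
          (una (Q - u cnt 0))).set R.AL (una (α cnt))).set R.BE (una (β cnt)))
  have r3 := clearL_spec (J := J) (E := E) genRegs (Function.update
    (Function.update (((((s.set R.BB ((cat cnt fun k => cat inn fun j =>
        genSlot g Q (u k j) a b mid tail).reverse ++
        s.at R.BB)).set R.U1 (una (u cnt 0))).set R.U2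
          (una (Q - u cnt 0))).set R.AL (una (α cnt))).set R.BE (una (β cnt))) (rg R.BB) [])
          (rg P) (cat cnt fun k => cat inn fun j =>
        genSlot g Q (u k j) a b mid tail))
  have hlen : (cat cnt fun k => cat inn fun j =>
      genSlot g Q (u k j) a b mid tail).length =
      cnt * (inn * (g * Q + mid.length + tail.length)) := by
    refine length_cat_of fun k hk => length_cat_of fun j hj => ?_
    exact length_genSlot g Q (u k j) a b mid tail (huQ' k hk j hj.le).le
  simp only [St.at] at hg hIN hCN ht hBB hPs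
  have r2' := r2.of_eq (s'' := Function.update
    (Function.update (((((s.set R.BB ((cat cnt fun k => cat inn fun j =>
        genSlot g Q (u k j) a b mid tail).reverse ++
        s.at R.BB)).set R.U1 (una (u cnt 0))).set R.U2
          (una (Q - u cnt 0))).set R.AL (una (α cnt))).set R.BE (una (β cnt))) (rg R.BB) [])
          (rg P) (cat cnt fun k => cat inn fun j =>
        genSlot g Q (u k j) a b mid tail)) (by
      congr 1
      simp [hBB, hPs, hP1, hP2, hP3, hP4, hP5, hP'])
  refine ((r1.seq (r2'.seq r3)).mono ?_).of_eq ?_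
  · simp only [genRegs, List.map_cons, List.map_nil, List.sum_cons, List.sum_nil,
      List.length_cons, List.length_nil]
    have hb : (s (Sum.inl R.BB)).length = 0 := by rw [hBB]; rfl
    simp [hP1, hP2, hP3, hP4, hP5, hP6, hP7, hP8, q1, q2, q3, q4, q5, q6, q7, q8,
      Function.update_apply, hg, hIN, hCN, ht, hlen, hb]
    have := huQ cnt le_rfl
    omega
  · refine St.ext' (fun r => ?_) (fun j => ?_)
    · by_cases hr : r = P
      · subst hr
        simp [genRegs, hP1, hP2, hP3, hP4, hP5, hP6, hP7, hP8]
      · by_cases hr2 : r = R.BB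
        · subst hr2
          simp [genRegs, hr, hBB]
        · by_cases hr3 : r ∈ genRegs
          · simp [hr3, hr]
          · have hr4 := hr3
            simp only [genRegs, List.mem_cons, List.not_mem_nil, or_false, not_or] at hr4
            obtain ⟨t1, t2, t3, t4, t5, t6, t7, t8⟩ := hr4
            simp [hr3, hr, hr2, t1, t2, t3, t4, t5, t6, t7, t8]
    · simp

end Vale.Agent.P338
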