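import Vale.Agent.P338.Lib
import Vale.Agent.P338.Iface
import Vale.Agent.P338.Frame
import Vale.Agent.P338.Nums

/-!
# P338: computing the parameters `r = rr p` and `rho p` from `p`, in unary
-/

namespace Vale.Agent.P338

variable {E J : Type}

theorem rho_le_iff {p k : ℕ} (hk : 2 ≤ k) : rho p ≤ k ↔ p ≤ 2 ^ k := by
  obtain ⟨j, rfl⟩ := Nat.exists_eq_add_of_le hk
  have h1 : rho p ≤ 2 + j ↔ Nat.size ((p - 1) / 4) ≤ j := by unfold rho; omega
  rw [h1, Nat.size_le, Nat.div_lt_iff_lt_mul (by norm_num), pow_add]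
  have : 0 < 2 ^ j := by positivity
  omega

theorem two_le_rho' (p : ℕ) : 2 ≤ rho p := by unfold rho; omega

theorem le_rr' (p : ℕ) : p ≤ rr p := (rho_le_iff (two_le_rho' p)).1 le_rfl

theorem four_le_rr' (p : ℕ) : 4 ≤ rr p := by
  have := Nat.pow_le_pow_right (show 0 < 2 by norm_num) (two_le_rho' p)
  simpa [rr] using this

theorem ge_rr_le (p : ℕ) (hp : 1 ≤ p) : rr p ≤ 4 * p := by
  unfold rr
  by_contra h
  rw [not_le] at h
  by_cases h2 : rho p = 2
  · rw [h2] at h; omega
  · have h3 := two_le_rho' p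
    have h4 : ¬ (rho p ≤ rho p - 1) := by omega
    rw [rho_le_iff (by omega)] at h4
    have h5 : 2 ^ rho p = 2 * 2 ^ (rho p - 1) := by
      rw [← pow_succ']; exact congrArg _ (by omega)
    omega

/-- The stacks used for computing the parameters. -/
inductive PR : Type
  | pp | rr | rho | c | a | t | rp | rh
deriving DecidableEq

/-- A store for these stacks: `p`, `|rr|`, `|rho|`, `|c|`, `|a|`, `|rp|`, `|rh|`. -/
def prs (p r ρ c a rp rh : ℕ) : Store PR (SSym E) := fun x =>
  match x with
  | .pp => una p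
  | .rr => una r
  | .rho => una ρ
  | .c => una c
  | .a => una a
  | .t => []
  | .rp => una rp
  | .rh => una rh

/-- Doubling: `rr := 2 * rr`, `c := c - rr`, `rho := rho + 1`. -/
def pDouble : Prog PR (SSym E) :=
  (Prog.forr PR.rr PR.t ((Prog.push PR.a mk).seq (Prog.pop PR.c))).seq
    ((Prog.rev PR.a PR.rr).seq (Prog.push PR.rho mk))

theorem una_succ (n : ℕ) : (una (n + 1) : List (SSym E)) = mk :: una n := by
  simp [una, List.replicate_succ]

theorem ge_una_zero : (una 0 : List (SSym E)) = [] := rfl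

theorem una_add (m n : ℕ) : (una (m + n) : List (SSym E)) = una m ++ una n := by
  simp [una]

theorem tail_una (n : ℕ) : (una n : List (SSym E)).tail = una (n - 1) := by
  cases n <;> simp [una_succ, ge_una_zero]

theorem reverse_una (n : ℕ) : (una n : List (SSym E)).reverse = una n := by simp [una]

theorem pDouble_runs (p r ρ c : ℕ) :
    Runs pDouble (prs p r ρ c 0 0 0 : Store PR (SSym E)) (prs p (2 * r) (ρ + 1) (c - r) 0 0 0)
      (13 * r + 4) := by
  have h1 := Runs.forr' (u := PR.rr) (t := PR.t) (by decide)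
    (body := (Prog.push PR.a mk).seq (Prog.pop PR.c)) r (mk : SSym E)
    (fun k => prs p r ρ (c - k) k 0 0) (fun _ => 3) (fun k _ => rfl) (fun k _ => rfl)
    (by
      intro k hk l l'
      refine ((Runs.push _ _ _).seq (Runs.pop _ _)).of_eq ?_
      funext x
      have e1 : c - k - 1 = c - (k + 1) := by omega
      cases x <;> simp [Function.update_of_ne, prs, tail_una, una_succ, e1])
  have h2 := Runs.rev (i := PR.a) (j := PR.rr) (by decide)
    (prs p r ρ (c - r) r 0 0 : Store PR (SSym E))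
  have h3 := Runs.push PR.rho (mk : SSym E) (prs p (2 * r) ρ (c - r) 0 0 0)
  have e2 : (Function.update (Function.update (prs p r ρ (c - r) r 0 0 : Store PR (SSym E))
      PR.a []) PR.rr ((prs p r ρ (c - r) r 0 0 PR.a).reverse ++ prs p r ρ (c - r) r 0 0 PR.rr)) =
      prs p (2 * r) ρ (c - r) 0 0 0 := by
    funext x
    cases x <;> simp [Function.update_of_ne, prs, reverse_una, two_mul, una_add, ge_una_zero]
  rw [e2] at h2
  refine ((h1.of_eq rfl).seq (h2.seq h3)).mono ?_ |>.of_eq ?_
  · simp only [Finset.sum_const, Finset.card_range, smul_eq_mul, prs, length_una]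
    omega
  · funext x
    cases x <;> simp [Function.update_of_ne, prs, una_succ]

/-- The loop of the doublings. -/
def pLoop : Prog PR (SSym E) := Prog.loop (nonempty PR.c) pDouble

theorem pLoop_runs (p : ℕ) : ∀ (n k : ℕ), 2 ≤ k → k + n = rho p →
    Runs pLoop (prs p (2 ^ k) k (p - 2 ^ k) 0 0 0 : Store PR (SSym E))
      (prs p (rr p) (rho p) 0 0 0 0) (19 * (rr p - 2 ^ k)) := by
  intro n
  induction n with
  | zero =>
    intro k hk h
    rw [add_zero] at h
    subst h
    have h1 : p - 2 ^ rho p = 0 := by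
      have := le_rr' p
      unfold rr at this
      omega
    refine ((Runs.loopF ?_).mono (Nat.zero_le _)).of_eq ?_
    · simp [prs, h1, ge_una_zero]
    · rw [h1]; rfl
  | succ n ih =>
    intro k hk h
    have hlt : 2 ^ k < p := by
      by_contra hc
      rw [not_lt, ← rho_le_iff hk] at hc
      omega
    have h1 := pDouble_runs (E := E) p (2 ^ k) k (p - 2 ^ k)
    have h2 := ih (k + 1) (by omega) (by omega)
    have e1 : 2 * 2 ^ k = 2 ^ (k + 1) := by rw [pow_succ']
    have e2 : p - 2 ^ k - 2 ^ k = p - 2 ^ (k + 1) := by omega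
    rw [e1, e2] at h1
    have h3 := Runs.loopT (c := nonempty PR.c) (p := pDouble) (by
      obtain ⟨m, hm⟩ : ∃ m, p - 2 ^ k = m + 1 := ⟨p - 2 ^ k - 1, by omega⟩
      simp [prs, hm, una_succ]) h1 h2
    refine h3.mono ?_
    have h4 : 2 ^ (k + 1) ≤ rr p := by
      unfold rr; exact Nat.pow_le_pow_right (by norm_num) (by omega)
    have h5 : 4 ≤ 2 ^ k := by
      calc 4 = 2 ^ 2 := by norm_num
        _ ≤ 2 ^ k := Nat.pow_le_pow_right (by norm_num) hk
    omega

/-- Initialisation: `rr := 4`, `rho := 2`, `c := p - 4`. -/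
def pInit : Prog PR (SSym E) :=
  (Prog.act fun _ x => match x with
    | .rr => Op.push mk | .rho => Op.push mk | _ => Op.keep).seq
  ((Prog.act fun _ x => match x with
    | .rr => Op.push mk | .rho => Op.push mk | _ => Op.keep).seq
  ((Prog.push PR.rr mk).seq ((Prog.push PR.rr mk).seq
  ((Prog.copyOnto PR.pp PR.c PR.t).seq
  ((Prog.pop PR.c).seq ((Prog.pop PR.c).seq ((Prog.pop PR.c).seq (Prog.pop PR.c))))))))

theorem pInit_runs (p : ℕ) :
    Runs pInit (prs p 0 0 0 0 0 0 : Store PR (SSym E)) (prs p 4 2 (p - 4) 0 0 0)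
      (6 * p + 20) := by
  have h1 : Runs (Prog.act fun _ x => match x with
    | PR.rr => Op.push mk | .rho => Op.push mk | _ => Op.keep)
      (prs p 0 0 0 0 0 0 : Store PR (SSym E)) (prs p 1 1 0 0 0 0) 1 :=
    (Runs.act _ _).of_eq (by funext x; cases x <;> rfl)
  have h2 : Runs (Prog.act fun _ x => match x with
    | PR.rr => Op.push mk | .rho => Op.push mk | _ => Op.keep)
      (prs p 1 1 0 0 0 0 : Store PR (SSym E)) (prs p 2 2 0 0 0 0) 1 :=
    (Runs.act _ _).of_eq (by funext x; cases x <;> rfl)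
  have h3 : Runs (Prog.push PR.rr mk)
      (prs p 2 2 0 0 0 0 : Store PR (SSym E)) (prs p 3 2 0 0 0 0) 1 :=
    (Runs.push _ _ _).of_eq (by funext x; cases x <;> simp [Function.update_of_ne, prs, una_succ])
  have h4 : Runs (Prog.push PR.rr mk)
      (prs p 3 2 0 0 0 0 : Store PR (SSym E)) (prs p 4 2 0 0 0 0) 1 :=
    (Runs.push _ _ _).of_eq (by funext x; cases x <;> simp [Function.update_of_ne, prs, una_succ])
  have h5 : Runs (Prog.copyOnto PR.pp PR.c PR.t)
      (prs p 4 2 0 0 0 0 : Store PR (SSym E)) (prs p 4 2 p 0 0 0) (6 * p + 1) := by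
    refine ((Runs.copyOnto (by decide) (by decide) (by decide) _ rfl).mono ?_).of_eq ?_
    · simp [prs]
    · funext x; cases x <;> simp [Function.update_of_ne, prs, ge_una_zero]
  have h6 : ∀ c, Runs (Prog.pop PR.c)
      (prs p 4 2 c 0 0 0 : Store PR (SSym E)) (prs p 4 2 (c - 1) 0 0 0) 1 := fun c =>
    (Runs.pop _ _).of_eq (by funext x; cases x <;> simp [Function.update_of_ne, prs, tail_una])
  have h := h1.seq (h2.seq (h3.seq (h4.seq (h5.seq ((h6 p).seq ((h6 _).seq ((h6 _).seq
    (h6 _))))))))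
  refine (h.mono (by omega)).of_eq ?_
  congr 1

/-- `rp := rr - pp`. -/
def pDiff : Prog PR (SSym E) :=
  (Prog.copyOnto PR.rr PR.rp PR.t).seq (Prog.forr PR.pp PR.t (Prog.pop PR.rp))

theorem pDiff_runs (p r ρ : ℕ) :
    Runs pDiff (prs p r ρ 0 0 0 0 : Store PR (SSym E)) (prs p r ρ 0 0 (r - p) 0)
      (6 * r + 8 * p + 3) := by
  have h1 : Runs (Prog.copyOnto PR.rr PR.rp PR.t)
      (prs p r ρ 0 0 0 0 : Store PR (SSym E)) (prs p r ρ 0 0 r 0) (6 * r + 1) := by
    refine ((Runs.copyOnto (by decide) (by decide) (by decide) _ rfl).mono ?_).of_eq ?_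
    · simp [prs]
    · funext x; cases x <;> simp [Function.update_of_ne, prs, ge_una_zero]
  have h2 := Runs.forr' (u := PR.pp) (t := PR.t) (by decide)
    (body := Prog.pop PR.rp) p (mk : SSym E)
    (fun k => prs p r ρ 0 0 (r - k) 0) (fun _ => 1) (fun k _ => rfl) (fun k _ => rfl)
    (by
      intro k hk l l'
      refine (Runs.pop _ _).of_eq ?_
      funext x
      have e1 : r - k - 1 = r - (k + 1) := by omega
      cases x <;> simp [Function.update_of_ne, prs, tail_una, e1])
  refine (h1.seq h2).mono ?_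
  simp only [Finset.sum_const, Finset.card_range, smul_eq_mul]
  omega

/-- `rh := rr / 2`. -/
def pHalf : Prog PR (SSym E) :=
  (Prog.copyOnto PR.rr PR.a PR.t).seq (Prog.loop (nonempty PR.a)
    ((Prog.pop PR.a).seq ((Prog.pop PR.a).seq (Prog.push PR.rh mk))))

theorem pHalf_runs (p k ρ rp : ℕ) :
    Runs pHalf (prs p (2 * k) ρ 0 0 rp 0 : Store PR (SSym E)) (prs p (2 * k) ρ 0 0 rp k)
      (19 * k + 2) := by
  have h1 : Runs (Prog.copyOnto PR.rr PR.a PR.t)
      (prs p (2 * k) ρ 0 0 rp 0 : Store PR (SSym E)) (prs p (2 * k) ρ 0 (2 * k) rp 0)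
      (6 * (2 * k) + 1) := by
    refine ((Runs.copyOnto (by decide) (by decide) (by decide) _ rfl).mono ?_).of_eq ?_
    · simp [prs]
    · funext x; cases x <;> simp [Function.update_of_ne, prs, ge_una_zero]
  have h2 := Runs.loop_iter_le (c := nonempty PR.a)
    (p := (Prog.pop PR.a).seq ((Prog.pop PR.a).seq (Prog.push PR.rh (mk : SSym E)))) k
    (fun i => prs p (2 * k) ρ 0 (2 * k - 2 * i) rp i) 5
    (by
      intro i hi
      obtain ⟨m, hm⟩ : ∃ m, 2 * k - 2 * i = m + 1 := ⟨2 * k - 2 * i - 1, by omega⟩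
      simp [prs, hm, una_succ])
    (by simp [prs, ge_una_zero])
    (by
      intro i hi
      refine ((Runs.pop _ _).seq ((Runs.pop _ _).seq (Runs.push _ _ _))).of_eq ?_
      funext x
      have e1 : 2 * k - 2 * i - 1 - 1 = 2 * k - 2 * (i + 1) := by omega
      cases x <;> simp [Function.update_of_ne, prs, tail_una, e1, una_succ])
  refine ((h1.seq h2).mono (by omega)).of_eq ?_
  simp

/-- All parameters. -/
def params0 : Prog PR (SSym E) := pInit.seq (pLoop.seq (pDiff.seq pHalf))

theorem params0_runs (p : ℕ) :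
    Runs params0 (prs p 0 0 0 0 0 0 : Store PR (SSym E))
      (prs p (rr p) (rho p) 0 0 (rr p - p) (rr p / 2)) (60 * rr p) := by
  have h1 := pInit_runs (E := E) p
  have h2 := pLoop_runs (E := E) p (rho p - 2) 2 le_rfl (by have := two_le_rho' p; omega)
  have h3 := pDiff_runs (E := E) p (rr p) (rho p)
  have e : rr p = 2 * (rr p / 2) := by
    have : 2 ∣ rr p := by
      unfold rr
      exact dvd_pow_self 2 (by have := two_le_rho' p; omega)
    omega
  have h4 := pHalf_runs (E := E) p (rr p / 2) (rho p) (rr p - p)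
  rw [← e] at h4
  have h := h1.seq (h2.seq (h3.seq h4))
  refine h.mono ?_
  have h5 := four_le_rr' p
  have h6 := le_rr' p
  omega

/-- The names of these stacks in the main program. -/
def PR.toR : PR → R
  | .pp => R.PP
  | .rr => R.RR
  | .rho => R.RHO
  | .c => R.S3
  | .a => R.S4
  | .t => R.S5
  | .rp => R.S1
  | .rh => R.S2

/-- The names of these stacks in the main program. -/
def PR.loc (x : PR) : Loc J := Sum.inl x.toR

theorem PR.loc_injective : Function.Injective (PR.loc : PR → Loc J) := by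
  intro a b h
  have h' : a.toR = b.toR := Sum.inl_injective h
  cases a <;> cases b <;> first | rfl | (exfalso; revert h'; simp [PR.toR])

/-- Compute `RR := rr p`, `RHO := rho p`, `S1 := rr p - p`, `S2 := rr p / 2`. -/
noncomputable def params : Pr J E := params0.map PR.loc

theorem params_runs [DecidableEq J] (p : ℕ) (s : St J E)
    (hs : s.Empty [R.RR, R.RHO, R.S1, R.S2, R.S3, R.S4, R.S5]) (hP : s.at R.PP = una p) :
    Runs params s ((((s.set R.RR (una (rr p))).set R.RHO (una (rho p))).set R.S1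
      (una (rr p - p))).set R.S2 (una (rr p / 2))) (60 * rr p) := by
  have hs' : ∀ r ∈ [R.RR, R.RHO, R.S1, R.S2, R.S3, R.S4, R.S5], s (Sum.inl r) = [] := hs
  simp only [List.mem_cons, List.not_mem_nil, or_false, forall_eq_or_imp, forall_eq] at hs'
  obtain ⟨h1, h2, h3, h4, h5, h6, h7⟩ := hs'
  refine Runs.map PR.loc_injective (params0_runs p) ?_ ?_ ?_
  · intro x
    cases x <;> simp_all [PR.loc, PR.toR, prs, ge_una_zero]
  · intro x
    cases x <;> simp_all [PR.loc, PR.toR, prs, ge_una_zero, Function.update_of_ne]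
  · intro k hk
    have h : ∀ x : PR, k ≠ Sum.inl x.toR := fun x h => hk ⟨x, h.symm⟩
    have hrr := h PR.rr
    have hrho := h PR.rho
    have hrp := h PR.rp
    have hrh := h PR.rh
    simp only [PR.toR] at hrr hrho hrp hrh
    simp [hrr, hrho, hrp, hrh]

end Vale.Agent.P338
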