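import Vale.Agent.P338.Sched

/-!
# P338: repeated separation of even and odd entries swaps two digits
-/

namespace Vale.Agent.P338

/-- The index (before) of the entry which is at place `k` after `s` steps, among `2 ^ l`
entries. -/
def nidx (l s k : ℕ) : ℕ := k % 2 ^ (l - s) * 2 ^ s + k / 2 ^ (l - s)

theorem nidx_zero {l k : ℕ} (hk : k < 2 ^ l) : nidx l 0 k = k := by
  simp [nidx, Nat.mod_eq_of_lt hk, Nat.div_eq_of_lt hk]

theorem nidx_lt {l s k : ℕ} (hs : s ≤ l) (hk : k < 2 ^ l) : nidx l s k < 2 ^ l := by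
  obtain ⟨d, rfl⟩ := Nat.exists_eq_add_of_le hs
  rw [nidx, Nat.add_sub_cancel_left]
  have h1 : k / 2 ^ d < 2 ^ s := by
    rw [Nat.div_lt_iff_lt_mul (by positivity), ← pow_add]
    exact hk
  have h2 : k % 2 ^ d < 2 ^ d := Nat.mod_lt _ (by positivity)
  calc k % 2 ^ d * 2 ^ s + k / 2 ^ d < k % 2 ^ d * 2 ^ s + 2 ^ s := by omega
    _ = (k % 2 ^ d + 1) * 2 ^ s := by ring
    _ ≤ 2 ^ d * 2 ^ s := Nat.mul_le_mul_right _ h2
    _ = 2 ^ (s + d) := by rw [pow_add]; ring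

/-- The first half of the places: even entries. -/
theorem nidx_even {l s k : ℕ} (hs : s < l) (hk : k < 2 ^ (l - 1)) :
    nidx l (s + 1) k = nidx l s (2 * k) := by
  obtain ⟨d, rfl⟩ := Nat.exists_eq_add_of_lt hs
  have e1 : s + d + 1 - s = d + 1 := by omega
  have e2 : s + d + 1 - (s + 1) = d := by omega
  rw [nidx, nidx, e1, e2, pow_succ', pow_succ' 2 d, Nat.mul_mod_mul_left,
    Nat.mul_div_mul_left _ _ (by norm_num)]
  ring

/-- The second half of the places: odd entries. -/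
theorem nidx_odd {l s k : ℕ} (hs : s < l) (hk : k < 2 ^ (l - 1)) :
    nidx l (s + 1) (2 ^ (l - 1) + k) = nidx l s (2 * k + 1) := by
  obtain ⟨d, rfl⟩ := Nat.exists_eq_add_of_lt hs
  have e1 : s + d + 1 - s = d + 1 := by omega
  have e2 : s + d + 1 - (s + 1) = d := by omega
  have e3 : s + d + 1 - 1 = s + d := by omega
  rw [nidx, nidx, e1, e2, e3]
  have hp : 0 < 2 ^ d := by positivity
  have h1 : (2 ^ (s + d) + k) % 2 ^ d = k % 2 ^ d := by
    rw [pow_add, Nat.mul_add_mod_self_right]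
  have h2 : (2 ^ (s + d) + k) / 2 ^ d = 2 ^ s + k / 2 ^ d := by
    rw [pow_add, Nat.add_comm, Nat.add_mul_div_right _ _ hp, Nat.add_comm]
  have h3 : (2 * k + 1) % 2 ^ (d + 1) = 2 * (k % 2 ^ d) + 1 := by
    rw [pow_succ', Nat.mod_mul]
    have : (2 * k + 1) / 2 = k := by omega
    rw [this]
    omega
  have h4 : (2 * k + 1) / 2 ^ (d + 1) = k / 2 ^ d := by
    rw [pow_succ', ← Nat.div_div_eq_div_mul]
    congr 1
    omega
  rw [h1, h2, h3, h4, pow_succ]
  ring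

/-- The data after `s` steps: `h` blocks of `2 ^ ρ × 2 ^ ρ` entries. -/
def nswap (h ρ : ℕ) (e : ℕ → ℕ → ℕ → List Bool) (s : ℕ) : List Bool :=
  cat h fun a => cat (2 ^ (2 * ρ)) fun k =>
    e a (nidx (2 * ρ) s k / 2 ^ ρ) (nidx (2 * ρ) s k % 2 ^ ρ)

theorem nswap_zero (h ρ : ℕ) (e : ℕ → ℕ → ℕ → List Bool) :
    nswap h ρ e 0 = data h (2 ^ ρ) e := by
  refine cat_congr fun a _ => ?_
  rw [two_mul, pow_add, cat_mul]
  refine cat_congr fun i hi => cat_congr fun j hj => ?_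
  have hp : 0 < 2 ^ ρ := by positivity
  rw [← two_mul, nidx_zero, Nat.add_comm, Nat.add_mul_div_right _ _ hp,
    Nat.div_eq_of_lt hj, Nat.add_mul_mod_self_right, Nat.mod_eq_of_lt hj, Nat.zero_add]
  calc i * 2 ^ ρ + j < i * 2 ^ ρ + 2 ^ ρ := by omega
    _ = (i + 1) * 2 ^ ρ := by ring
    _ ≤ 2 ^ ρ * 2 ^ ρ := Nat.mul_le_mul_right _ hi
    _ = 2 ^ (2 * ρ) := by rw [two_mul, pow_add]

theorem nswap_rho (h ρ : ℕ) (e : ℕ → ℕ → ℕ → List Bool) :
    nswap h ρ e ρ = data h (2 ^ ρ) fun a i j => e a j i := by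
  refine cat_congr fun a _ => ?_
  have hp : 0 < 2 ^ ρ := by positivity
  have e0 : (cat (2 ^ (2 * ρ)) fun k =>
      e a (nidx (2 * ρ) ρ k / 2 ^ ρ) (nidx (2 * ρ) ρ k % 2 ^ ρ)) =
      cat (2 ^ ρ * 2 ^ ρ) fun k =>
        e a (nidx (2 * ρ) ρ k / 2 ^ ρ) (nidx (2 * ρ) ρ k % 2 ^ ρ) := by
    rw [two_mul, pow_add]
  rw [e0, cat_mul]
  refine cat_congr fun i hi => cat_congr fun j hj => ?_
  have e1 : 2 * ρ - ρ = ρ := by omega
  have e2 : nidx (2 * ρ) ρ (i * 2 ^ ρ + j) = j * 2 ^ ρ + i := by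
    rw [nidx, e1, Nat.add_comm (i * 2 ^ ρ), Nat.add_mul_div_right _ _ hp,
      Nat.div_eq_of_lt hj, Nat.add_mul_mod_self_right, Nat.mod_eq_of_lt hj, Nat.zero_add]
  rw [e2, Nat.add_comm, Nat.add_mul_div_right _ _ hp,
    Nat.div_eq_of_lt hi, Nat.add_mul_mod_self_right, Nat.mod_eq_of_lt hi, Nat.zero_add]

/-- The schedule of one step. -/
def nswSch (h ρ M : ℕ) : List Instr := cat h fun _ => unshSch (2 ^ (2 * ρ - 1)) M

theorem length_nswSch (h ρ M : ℕ) :
    (nswSch h ρ M).length = h * (2 ^ (2 * ρ - 1) * (M + M) + 1) :=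
  length_cat_of fun _ _ => length_unshSch _ _

theorem Tr.nswap {h ρ M s : ℕ} {e : ℕ → ℕ → ℕ → List Bool} (hρ : 1 ≤ ρ) (hs : s < ρ)
    (he : ∀ a < h, ∀ i < 2 ^ ρ, ∀ j < 2 ^ ρ, (e a i j).length = M) :
    Tr (nswSch h ρ M) (Vale.Agent.P338.nswap h ρ e s)
      (Vale.Agent.P338.nswap h ρ e (s + 1)) := by
  refine Tr.cat fun a ha => ?_
  have h2 : 2 ^ (2 * ρ) = 2 * 2 ^ (2 * ρ - 1) := by
    rw [← pow_succ']
    congr 1
    omega
  have hp : 0 < 2 ^ ρ := by positivity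
  have hd : ∀ {z}, z < 2 ^ (2 * ρ) → z / 2 ^ ρ < 2 ^ ρ := fun {z} hz => by
    rw [Nat.div_lt_iff_lt_mul hp, ← pow_add, ← two_mul]
    exact hz
  have key := Tr.unshuffle (M := M) (n := 2 ^ (2 * ρ - 1))
    (x := fun k => e a (nidx (2 * ρ) s k / 2 ^ ρ) (nidx (2 * ρ) s k % 2 ^ ρ)) fun k hk =>
      he a ha _ (hd (nidx_lt (by omega) (by rw [h2]; exact hk))) _ (Nat.mod_lt _ hp)
  refine key.congr ?_ ?_
  · rw [← h2]
  · rw [h2, two_mul (2 ^ (2 * ρ - 1)), cat_add]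
    congr 1
    · refine cat_congr fun k hk => ?_
      rw [nidx_even (by omega) hk]
    · refine cat_congr fun k hk => ?_
      rw [nidx_odd (by omega) hk]

/-- Undoing the padding. -/
theorem unpad_padded {h p M : ℕ} {e : ℕ → ℕ → ℕ → List Bool}
    (he : ∀ a < h, ∀ i < p, ∀ j < p, (e a i j).length = M) :
    (data h p fun a i j => ((padded p M M e a j i).drop 0).take M) =
      data h p fun a i j => e a j i := by
  refine cat_congr fun a ha => cat_congr fun i hi => cat_congr fun j hj => ?_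
  have h1 : padded p M M e a j i = e a j i ++ List.replicate (M - M) false :=
    if_pos ⟨hj, hi⟩
  change ((padded p M M e a j i).drop 0).take M = e a j i
  rw [h1, List.drop_zero, Nat.sub_self, List.replicate_zero,
    List.append_nil, List.take_of_length_le (he a ha j hj i hi).le]

theorem length_padded {h p M W : ℕ} {e : ℕ → ℕ → ℕ → List Bool} (hM : M ≤ W)
    (he : ∀ a < h, ∀ i < p, ∀ j < p, (e a i j).length = M) (a : ℕ) (ha : a < h) (i j : ℕ) :
    (padded p M W e a i j).length = W := by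
  unfold padded
  split_ifs with hc
  · rw [List.length_append, he a ha i hc.1 j hc.2, List.length_replicate]
    omega
  · simp

end Vale.Agent.P338
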