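import Vale.Agent.P338.GenE
import Vale.Agent.P338.Drive
import Vale.Agent.P338.Params
import Vale.Agent.P338.Unsh

/-!
# P338: index-independent schedules in the main program
-/

namespace Vale.Agent.P338

variable {E J ν : Type}

/-! ### Values of expressions -/

theorem rep_eq_cat {α : Type} (n : ℕ) (l : List α) : rep n l = cat n fun _ => l := by
  induction n with
  | zero => rfl
  | succ n ih => rw [rep_succ, ih, cat_succ']

theorem ge_rep_replicate {α : Type} (n m : ℕ) (a : α) :
    rep n (List.replicate m a) = List.replicate (n * m) a := by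
  rw [rep_eq_cat, cat_replicate]

theorem rep_singleton {α : Type} (n : ℕ) (a : α) : rep n [a] = List.replicate n a := by
  have := ge_rep_replicate n 1 a
  simpa using this

/-- A bound for the length and the cost of an expression. -/
def SE.big (f : ν → ℕ) : SE ν → ℕ
  | .ins _ => 1
  | .rep n e => (f n + 2) * e.big f
  | .app e₁ e₂ => e₁.big f + e₂.big f + 1

theorem SE.one_le_big (f : ν → ℕ) (e : SE ν) : 1 ≤ e.big f := by
  induction e with
  | ins i => exact le_rfl
  | rep n e ih => exact Nat.mul_pos (by omega) ih
  | app e₁ e₂ _ _ => simp only [SE.big]; omega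

theorem SE.length_le_big (f : ν → ℕ) (e : SE ν) : (e.eval f).length ≤ e.big f := by
  induction e with
  | ins i => exact le_rfl
  | rep n e ih =>
    simp only [SE.eval, SE.big, length_rep]
    exact Nat.mul_le_mul (by omega) ih
  | app e₁ e₂ ih₁ ih₂ =>
    simp only [SE.eval, SE.big, List.length_append]
    omega

theorem SE.cost_le_big (f : ν → ℕ) (e : SE ν) : e.cost f ≤ 15 * e.big f := by
  induction e with
  | ins i => simp [SE.cost, SE.big]
  | rep n e ih =>
    simp only [SE.cost, SE.big]
    have h1 := SE.one_le_big f e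
    have h2 := SE.length_le_big f e
    have h3 : f n * (6 * (e.eval f).length + 8) ≤ f n * (14 * e.big f) :=
      Nat.mul_le_mul_left _ (by omega)
    have h4 : f n * (14 * e.big f) ≤ f n * (15 * e.big f) :=
      Nat.mul_le_mul_left _ (by omega)
    have h5 : 15 * ((f n + 2) * e.big f) = f n * (15 * e.big f) + 30 * e.big f := by ring
    omega
  | app e₁ e₂ ih₁ ih₂ =>
    simp only [SE.cost, SE.big]
    omega

/-! ### The generator in the main program -/

/-- The scratch stacks of the generator. -/
def geScratch : List R := [R.S6, R.S7, R.S8, R.S9, R.S10, R.S11, R.S12]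

/-- The scratch stack for the depth `k`. -/
def scR : ℕ → R
  | 0 => R.S6
  | 1 => R.S7
  | 2 => R.S8
  | 3 => R.S9
  | _ => R.S10

theorem scR_mem (k : ℕ) : scR k ∈ geScratch := by
  rcases k with _ | _ | _ | _ | k <;> simp [scR, geScratch]

/-- The environment: the number named `n` is on the stack `reg n`. -/
def genv (reg : ν → R) (h : ∀ n, reg n ∉ geScratch) : GEnv ν (Loc J) where
  reg n := Sum.inl (reg n)
  sc k := Sum.inl (scR k)
  D := 5
  t := Sum.inl R.S11
  t' := Sum.inl R.S12
  reg_sc n k _ he := h n (by rw [Sum.inl_injective he]; exact scR_mem k)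
  reg_t n he := h n (by rw [Sum.inl_injective he]; simp [geScratch])
  reg_t' n he := h n (by rw [Sum.inl_injective he]; simp [geScratch])
  sc_t k _ he := by
    rcases k with _ | _ | _ | _ | k <;> simp [scR] at he
  sc_t' k _ he := by
    rcases k with _ | _ | _ | _ | k <;> simp [scR] at he
  t_t' := by simp
  sc_inj k hk l hl he := by
    have he' := Sum.inl_injective he
    rcases k with _ | _ | _ | _ | _ | k <;> rcases l with _ | _ | _ | _ | _ | l <;>
      first | rfl | (exfalso; revert he'; simp [scR]; done) | omega

variable [DecidableEq J]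

/-- The program that pushes the value of `e` on the stack `g`. -/
def genAt (reg : ν → R) (h : ∀ n, reg n ∉ geScratch) (e : SE ν) (g : R) : Pr J E :=
  e.gen (genv reg h) 0 (Sum.inl g)

theorem genAt_runs (reg : ν → R) (h : ∀ n, reg n ∉ geScratch) (e : SE ν) (g : R)
    (hd : e.depth ≤ 5) (hg : g ∉ geScratch) (hgr : ∀ n, g ≠ reg n) (f : ν → ℕ)
    (s : St J E) (hs : s.Empty geScratch) (hr : ∀ n, s.at (reg n) = una (f n)) :
    Runs (genAt reg h e g) s (s.set g (sch (e.eval f) ++ s.at g)) (15 * e.big f) := by
  have hs' : ∀ r ∈ geScratch, s (Sum.inl r) = [] := hs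
  refine (SE.gen_runs (genv reg h) f e 0 (Sum.inl g) s (by simpa [genv] using hd) ?_ ?_ ?_ ?_
    hr ?_ (hs' _ (by simp [geScratch])) (hs' _ (by simp [geScratch]))).mono
    (SE.cost_le_big f e)
  · intro he; exact hg (by rw [Sum.inl_injective he]; simp [geScratch])
  · intro he; exact hg (by rw [Sum.inl_injective he]; simp [geScratch])
  · intro n he; exact hgr n (Sum.inl_injective he)
  · intro k _ _ he; exact hg (by rw [Sum.inl_injective he]; exact scR_mem k)
  · intro k _ _; exact hs' _ (scR_mem k)

/-- Generate a schedule on `SCH` and run it on the data on `X`. -/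
noncomputable def genPass (reg : ν → R) (h : ∀ n, reg n ∉ geScratch) (e : SE ν) : Pr J E :=
  (genAt reg h e R.SCH).seq pass

theorem genPass_runs (reg : ν → R) (h : ∀ n, reg n ∉ geScratch) (e : SE ν)
    (hd : e.depth ≤ 5) (hgr : ∀ n, R.SCH ≠ reg n) (f : ν → ℕ)
    {x y : List Bool} (hT : Tr (e.eval f) x y) (rest : List Bool)
    (s : St J E) (hs : s.Empty geScratch) (hs2 : s.Empty driveScratch)
    (hsch : s.at R.SCH = []) (hX : s.at R.X = bits (x ++ rest))
    (hr : ∀ n, s.at (reg n) = una (f n)) :
    Runs (genPass reg h e) s (s.set R.X (bits y))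
      (36 * e.big f + 20 * (rest.length + y.length + 1)) := by
  have h1 := genAt_runs reg h e R.SCH hd (by simp [geScratch]) hgr f s hs hr
  rw [hsch, List.append_nil] at h1
  have hs' : ∀ r ∈ driveScratch, s (Sum.inl r) = [] := hs2
  have h2 := pass_runs hT rest (s.set R.SCH (sch (e.eval f)))
    (by
      intro r hr
      rw [St.set_of_ne _ _ _ (by
        intro he
        rw [Sum.inl_injective he] at hr
        simp [driveScratch] at hr)]
      exact hs' r hr)
    (by
      show (s.set R.SCH (sch (e.eval f))) (Sum.inl R.X) = _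
      rw [St.set_of_ne _ _ _ (by simp)]; exact hX)
    (by exact St.set_self _ _ _)
  refine ((h1.seq h2).mono ?_).of_eq ?_
  · have h3 := SE.length_le_big f e
    have h4 := SE.one_le_big f e
    omega
  · funext k
    by_cases hk : k = Sum.inl R.SCH
    · subst hk
      rw [St.set_self, St.set_of_ne _ _ _ (by simp)]
      exact hsch.symm
    · rw [St.set_of_ne _ _ _ hk]
      by_cases hx : k = Sum.inl R.X
      · subst hx
        rw [St.set_self, St.set_self]
      · rw [St.set_of_ne _ _ _ hx, St.set_of_ne _ _ _ hk, St.set_of_ne _ _ _ hx]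

end Vale.Agent.P338
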