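import Vale.Agent.P338.Cmd

/-!
# P338: the concrete generated schedules
-/

namespace Vale.Agent.P338

variable {J E : Type} [DecidableEq J]

/-! ### Lists -/

theorem sch_app (L M : List Instr) :
    (sch (L ++ M) : List (SSym E)) = sch L ++ sch M := by simp [sch]

theorem bits_append' (L M : List Bool) :
    (bits (L ++ M) : List (SSym E)) = bits L ++ bits M := by simp [bits]

theorem sch_replicate (n : ℕ) (i : Instr) :
    (sch (List.replicate n i) : List (SSym E)) = List.replicate n (si i) := by simp [sch]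

theorem bits_replicate (n : ℕ) (b : Bool) :
    (bits (List.replicate n b) : List (SSym E)) = List.replicate n (sb b) := by simp [bits]

theorem sch_cat (n : ℕ) (f : ℕ → List Instr) :
    (sch (cat n f) : List (SSym E)) = cat n fun i => sch (f i) := map_cat _ _ _

theorem bits_cat (n : ℕ) (f : ℕ → List Bool) :
    (bits (cat n f) : List (SSym E)) = cat n fun i => bits (f i) := map_cat _ _ _

theorem sch_rotSch (B e : ℕ) : (sch (rotSch B e) : List (SSym E)) =
    List.replicate e (si Instr.toT) ++ (List.replicate (B - e) (si Instr.toOut) ++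
      [si Instr.flush]) := by
  simp [rotSch, sch]

theorem genSlot_rot (g r u : ℕ) (hu : u ≤ 2 * r) :
    genSlot g (2 * r) u (si Instr.toT : SSym E) (si Instr.toOut) []
      (List.replicate (g * r + g * r) (si Instr.toOut) ++ [si Instr.flush]) =
    sch (rotSch (4 * (g * r)) (g * (2 * r - u))) := by
  rw [sch_rotSch, genSlot]
  have e1 : 4 * (g * r) - g * (2 * r - u) = g * u + (g * r + g * r) := by
    have : g * (2 * r - u) + g * u = 2 * (g * r) := by
      rw [← Nat.mul_add, Nat.sub_add_cancel hu]; ring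
    omega
  rw [e1, List.replicate_add (g * u) (g * r + g * r)]
  simp only [List.append_nil, List.append_assoc]

theorem genSlot_row (W r u : ℕ) (hu : u ≤ r) :
    genSlot W r u (si Instr.toT : SSym E) (si Instr.toOut) [] [si Instr.flush] =
    sch (rotSch (r * W) ((r - u) * W)) := by
  rw [sch_rotSch, genSlot]
  have e1 : r * W - (r - u) * W = W * u := by
    rw [← Nat.sub_mul, Nat.sub_sub_self hu, Nat.mul_comm]
  rw [e1, Nat.mul_comm W (r - u)]
  simp

theorem bitsOf_two_pow {W e : ℕ} (he : e < W) :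
    bitsOf W (2 ^ e) =
      List.replicate e false ++ (true :: List.replicate (W - 1 - e) false) := by
  obtain ⟨d, rfl⟩ : ∃ d, W = e + (1 + d) := ⟨W - 1 - e, by omega⟩
  rw [bitsOf_add, bitsOf_add]
  have h1 : bitsOf e (2 ^ e) = List.replicate e false := by
    have : bitsOf e (2 ^ e) = bitsOf e 0 := by
      rw [bitsOf_eq_iff]; simp
    rw [this, bitsOf_zero]
  have h2 : e + (1 + d) - 1 - e = d := by omega
  rw [h1, h2, Nat.div_self (by positivity)]
  congr 1
  have h3 : bitsOf 1 1 = [true] := by decide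
  rw [h3]
  simp [bitsOf_zero]

theorem genSlot_ker (g r u : ℕ) (hg : 1 ≤ g) (hr : 1 ≤ r) (hu : u ≤ 2 * r) :
    genSlot g (2 * r) u (sb false : SSym E) (sb false) [sb true]
      (List.replicate (2 * (g * r) - 1 + (r - 1) * (4 * (g * r))) (sb false)) =
    bits (bitsOf (4 * (g * r)) (2 ^ (g * (2 * r - u))) ++
      List.replicate ((r - 1) * (4 * (g * r))) false) := by
  have hgr : 1 ≤ g * r := Nat.mul_pos hg hr
  have e0 : g * (2 * r - u) + g * u = 2 * (g * r) := by
    rw [← Nat.mul_add, Nat.sub_add_cancel hu]; ring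
  rw [bitsOf_two_pow (by omega), genSlot]
  have e1 : 4 * (g * r) - 1 - g * (2 * r - u) = g * u + (2 * (g * r) - 1) := by omega
  rw [e1]
  simp only [bits, List.map_cons, List.map_append,
    List.map_replicate, List.append_assoc, List.cons_append, List.nil_append,
    List.replicate_append_replicate, Nat.add_assoc]

/-! ### A bound for monomials -/

theorem mono_bounds {g r : ℕ} (hg : 1 ≤ g) (hr : 1 ≤ r) :
    1 ≤ g * r ^ 3 ∧ g ≤ g * r ^ 3 ∧ r ≤ g * r ^ 3 ∧ g * r ≤ g * r ^ 3 ∧
      r ^ 2 ≤ g * r ^ 3 ∧ g * r ^ 2 ≤ g * r ^ 3 ∧ r ^ 3 ≤ g * r ^ 3 := by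
  have h1 : 1 ≤ r ^ 3 := Nat.one_le_pow _ _ hr
  have h2 : r ≤ r ^ 3 := Nat.le_self_pow (by norm_num) r
  have h3 : r ^ 2 ≤ r ^ 3 := Nat.pow_le_pow_right hr (by norm_num)
  have h4 : r ^ 3 ≤ g * r ^ 3 := Nat.le_mul_of_pos_left _ hg
  refine ⟨by omega, Nat.le_mul_of_pos_right _ h1, by omega, Nat.mul_le_mul_left _ h2, by omega,
    Nat.mul_le_mul_left _ h3, h4⟩

omit [DecidableEq J] in
theorem St.wipe_eq {s s' : St J E} {L : List R} (h1 : ∀ r ∈ L, s (Sum.inl r) = [])
    (h2 : ∀ r, r ∉ L → s' (Sum.inl r) = s (Sum.inl r))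
    (h3 : ∀ j, s' (Sum.inr j) = s (Sum.inr j)) : s'.wipe L = s := by
  refine St.ext' (fun r => ?_) (fun j => ?_)
  · by_cases h : r ∈ L
    · simp [h, h1 r h]
    · simp [h, h2 r h]
  · simp [h3]

/-! ### The twiddle schedule with exponents `i ^ 2` -/

/-- Set-up for the twiddle schedule with exponents `i ^ 2`. -/
def setTwSq : List (Cmd E) :=
  [.cp R.K3 R.GG, .cp R.RR R.U2, .cp R.RR R.U2, .push R.BE mk, .cp R.RR R.IN, .cp R.RR R.CN,
    .push R.TL (si Instr.flush), .fill R.DD (si Instr.toOut) R.TL,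
    .fill R.DD (si Instr.toOut) R.TL]

/-- The stacks that must be empty before the generator is set up. -/
def gnScratch : List R :=
  [R.GG, R.U1, R.U2, R.AL, R.BE, R.IN, R.CN, R.TL, R.BB, R.S1, R.S2, R.S3, R.S4]

theorem setTwSq_spec (s : St J E) (g r D : ℕ) (hs : s.Empty gnScratch)
    (hg : s.at R.K3 = una g) (hr : s.at R.RR = una r) (hD : s.at R.DD = una D) :
    Runs (cmds setTwSq) s
      ((((((s.set R.GG (una g)).set R.U2 (una (r + r))).set R.BE (una 1)).set R.IN
        (una r)).set R.CN (una r)).set R.TL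
          (List.replicate (D + D) (si Instr.toOut) ++ [si Instr.flush]))
      (6 * g + 24 * r + 16 * D + 30) := by
  simp only [St.Empty, gnScratch, List.mem_cons, List.not_mem_nil, or_false, forall_eq_or_imp,
    forall_eq] at hs
  obtain ⟨h1, h2, h3, h4, h5, h6, h7, h8, h9, h10, h11, h12, h13⟩ := hs
  simp only [St.at] at hg hr hD
  refine (cmds_spec setTwSq s ?_).of_eq ?_ |>.mono ?_
  · simp [setTwSq, oks, Cmd.ok, Cmd.eff, hg, hr, hD, h1, h3, h6, h7, h8, h10]
  · refine St.ext' (fun r => ?_) (fun j => ?_)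
    · simp only [setTwSq, effs, Cmd.eff]
      simp only [Function.update_apply, Sum.inl.injEq]
      split_ifs <;> simp_all [una_one]
      rw [← List.append_assoc, List.replicate_append_replicate]
    · simp [setTwSq, effs, Cmd.eff]
  · simp [setTwSq, costs, Cmd.cost, Cmd.eff, hg, hr, hD, h3, h8]
    omega

/-- The update of the increment: two more marks on `BE`. -/
def updSq : Pr J E := (Prog.push (rg R.BE) mk).seq (Prog.push (rg R.BE) mk)

theorem updSq_spec (s : St J E) (k : ℕ) (h : s.at R.AL = una 0)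
    (h' : s.at R.BE = una (2 * k + 1)) :
    Runs updSq s ((s.set R.AL (una 0)).set R.BE (una (2 * (k + 1) + 1))) 16 := by
  have r1 := Runs.push (rg R.BE) mk s
  have r2 := Runs.push (rg R.BE) mk (Function.update s (rg R.BE) (mk :: s (rg R.BE)))
  refine ((r1.seq r2).mono (by norm_num)).of_eq ?_
  simp only [St.at] at h h'
  have e : (una (2 * (k + 1) + 1) : List (SSym E)) = mk :: mk :: una (2 * k + 1) := rfl
  rw [e]
  funext i
  simp only [Function.update_apply]
  split_ifs <;> simp_all

/-- The schedule for one block, on the stack `P`. -/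
def twSqTo (P : R) : Pr J E :=
  (cmds setTwSq).seq (genTo P (si Instr.toT) (si Instr.toOut) Prog.skip updSq)

theorem skip_mid (s : St J E) : Runs Prog.skip s (s.set R.BB (([] : List (SSym E)).reverse ++
    s.at R.BB)) 3 :=
  ((Runs.skip s).mono (by norm_num)).of_eq (by simp)

theorem twSqTo_spec (P : R) (hP : P ∉ gnScratch) (s : St J E) (g r : ℕ)
    (hs : s.Empty gnScratch) (hPs : s.at P = []) (hg1 : 1 ≤ g) (hr1 : 1 ≤ r)
    (hg : s.at R.K3 = una g) (hr : s.at R.RR = una r) (hD : s.at R.DD = una (g * r)) :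
    Runs (twSqTo P) s
      (s.set P (sch (cat r fun i => cat r fun _ =>
        rotSch (4 * (g * r)) (g * (2 * r - i ^ 2 % (2 * r))))))
      (1000 * (g * r ^ 3)) := by
  have h0 := setTwSq_spec s g r (g * r) hs hg hr hD
  simp only [St.Empty, gnScratch, List.mem_cons, List.not_mem_nil, or_false, forall_eq_or_imp,
    forall_eq] at hs
  obtain ⟨h1, h2, h3, h4, h5, h6, h7, h8, h9, h10, h11, h12, h13⟩ := hs
  simp only [gnScratch, List.mem_cons, List.not_mem_nil, or_false, not_or] at hP
  obtain ⟨p1, p2, p3, p4, p5, p6, p7, p8, p9, p10, p11, p12, p13⟩ := hP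
  simp only [St.at] at hg hr hD hPs
  have h := genTo_spec (J := J) P (by simp [genRegs, p1, p2, p3, p4, p5, p6, p7, p8]) p9
    (si Instr.toT : SSym E) (si Instr.toOut) Prog.skip updSq []
    (List.replicate (g * r + g * r) (si Instr.toOut) ++ [si Instr.flush]) skip_mid
    ((((((s.set R.GG (una g)).set R.U2 (una (r + r))).set R.BE (una 1)).set R.IN
        (una r)).set R.CN (una r)).set R.TL
          (List.replicate (g * r + g * r) (si Instr.toOut) ++ [si Instr.flush])) g (2 * r) r r
    (fun _ => 0) (fun k => 2 * k + 1) (fun k _ => k ^ 2 % (2 * r))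
    (fun k _ s h h' => updSq_spec s k h h') (by simp; omega)
    (fun k _ j _ => by simp)
    (fun k _ => by rw [Nat.mod_add_mod]; congr 1; ring) (fun k _ => by omega)
    (fun k _ => by omega) (by simp [h2, una]) (by simp [two_mul]) (by simp) (by simp [h4, una])
    (by simp) (by simp) (by simp) (by simp) (by simp [h10]) (by simp [h11]) (by simp [h12])
    (by simp [h13]) (by simp [h9])
    (by simp [p1, p3, p5, p6, p7, p8, hPs])
  refine ((h0.seq h).mono ?_).of_eq ?_
  · obtain ⟨m1, m2, m3, m4, m5, m6, m7⟩ := mono_bounds hg1 hr1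
    simp only [List.length_append, List.length_replicate, List.length_singleton, List.length_nil]
    nlinarith [m1, m2, m3, m4, m5, m6, m7]
  · have e : (cat r fun k => cat r fun _ => genSlot g (2 * r) (k ^ 2 % (2 * r))
        (si Instr.toT : SSym E) (si Instr.toOut) []
        (List.replicate (g * r + g * r) (si Instr.toOut) ++ [si Instr.flush])) =
        sch (cat r fun i => cat r fun _ =>
          rotSch (4 * (g * r)) (g * (2 * r - i ^ 2 % (2 * r)))) := by
      rw [sch_cat]
      refine cat_congr fun k _ => ?_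
      rw [sch_cat]
      refine cat_congr fun j _ => ?_
      exact genSlot_rot g r _ (Nat.mod_lt _ (by omega)).le
    rw [e, St.wipe_eq (s := s)]
    · simp [genRegs, h1, h2, h3, h4, h5, h6, h7, h8]
    · intro r hr
      simp only [genRegs, List.mem_cons, List.not_mem_nil, or_false, not_or] at hr
      obtain ⟨t1, t2, t3, t4, t5, t6, t7, t8⟩ := hr
      simp [t1, t3, t5, t6, t7, t8]
    · intro j; simp

/-! ### The twiddle schedule with exponents `2 k ^ 2 + 2 (r - k) j` -/

/-- Set-up for the mixed twiddle schedule. -/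
def setTwMix : List (Cmd E) :=
  [.cp R.K3 R.GG, .cp R.RR R.U2, .cp R.RR R.U2, .cp R.RR R.AL, .cp R.RR R.AL, .push R.BE mk,
    .push R.BE mk, .cp R.RR R.IN, .cp R.RR R.CN,
    .push R.TL (si Instr.flush), .fill R.DD (si Instr.toOut) R.TL,
    .fill R.DD (si Instr.toOut) R.TL]

theorem setTwMix_spec (s : St J E) (g r D : ℕ) (hs : s.Empty gnScratch)
    (hg : s.at R.K3 = una g) (hr : s.at R.RR = una r) (hD : s.at R.DD = una D) :
    Runs (cmds setTwMix) s
      (((((((s.set R.GG (una g)).set R.U2 (una (r + r))).set R.AL (una (r + r))).set R.BE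
        (una 2)).set R.IN (una r)).set R.CN (una r)).set R.TL
          (List.replicate (D + D) (si Instr.toOut) ++ [si Instr.flush]))
      (6 * g + 36 * r + 16 * D + 40) := by
  simp only [St.Empty, gnScratch, List.mem_cons, List.not_mem_nil, or_false, forall_eq_or_imp,
    forall_eq] at hs
  obtain ⟨h1, h2, h3, h4, h5, h6, h7, h8, h9, h10, h11, h12, h13⟩ := hs
  simp only [St.at] at hg hr hD
  refine (cmds_spec setTwMix s ?_).of_eq ?_ |>.mono ?_
  · simp [setTwMix, oks, Cmd.ok, Cmd.eff, hg, hr, hD, h1, h3, h4, h6, h7, h8, h10]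
  · have e2 : (una 2 : List (SSym E)) = [mk, mk] := rfl
    have e3 : (List.replicate D (si Instr.toOut) ++ (List.replicate D (si Instr.toOut) ++
        [si Instr.flush]) : List (SSym E)) =
        List.replicate (D + D) (si Instr.toOut) ++ [si Instr.flush] := by
      rw [← List.append_assoc, List.replicate_append_replicate]
    simp [setTwMix, effs, Cmd.eff, hg, hr, hD, h1, h3, h4, h5, h6, h7, h8, e2, e3]
  · simp [setTwMix, costs, Cmd.cost, Cmd.eff, hg, hr, hD, h3, h4, h8]
    omega

/-- The update of the increments: two marks less on `AL`, four more on `BE`. -/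
def updMix : Pr J E := cmds [.pop R.AL, .pop R.AL, .push R.BE mk, .push R.BE mk,
  .push R.BE mk, .push R.BE mk]

theorem updMix_spec (s : St J E) (r k : ℕ) (hk : k < r) (h : s.at R.AL = una (2 * (r - k)))
    (h' : s.at R.BE = una (4 * k + 2)) :
    Runs updMix s ((s.set R.AL (una (2 * (r - (k + 1))))).set R.BE (una (4 * (k + 1) + 2)))
      16 := by
  have r1 := cmds_spec (J := J) (E := E) [.pop R.AL, .pop R.AL, .push R.BE mk, .push R.BE mk,
    .push R.BE mk, .push R.BE mk] s (by simp [oks, Cmd.ok])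
  refine (r1.mono (by simp [costs, Cmd.cost])).of_eq ?_
  simp only [St.at] at h h'
  have e : (una (4 * (k + 1) + 2) : List (SSym E)) = mk :: mk :: mk :: mk :: una (4 * k + 2) :=
    rfl
  have e2 : (una (2 * (r - k)) : List (SSym E)).tail.tail = una (2 * (r - (k + 1))) := by
    obtain ⟨d, hd⟩ : ∃ d, r - k = d + 1 := ⟨r - k - 1, by omega⟩
    have : r - (k + 1) = d := by omega
    rw [hd, this]
    rfl
  rw [e, ← e2]
  simp only [effs, Cmd.eff]
  funext i
  simp only [Function.update_apply]
  split_ifs <;> simp_all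

/-- The schedule for one block, on the stack `P`. -/
def twMixTo (P : R) : Pr J E :=
  (cmds setTwMix).seq (genTo P (si Instr.toT) (si Instr.toOut) Prog.skip updMix)

theorem twMixTo_spec (P : R) (hP : P ∉ gnScratch) (s : St J E) (g r : ℕ)
    (hs : s.Empty gnScratch) (hPs : s.at P = []) (hg1 : 1 ≤ g) (hr1 : 1 ≤ r)
    (hg : s.at R.K3 = una g) (hr : s.at R.RR = una r) (hD : s.at R.DD = una (g * r)) :
    Runs (twMixTo P) s
      (s.set P (sch (cat r fun k => cat r fun j =>
        rotSch (4 * (g * r)) (g * (2 * r - (2 * k ^ 2 + 2 * (r - k) * j) % (2 * r))))))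
      (1000 * (g * r ^ 3)) := by
  have h0 := setTwMix_spec s g r (g * r) hs hg hr hD
  simp only [St.Empty, gnScratch, List.mem_cons, List.not_mem_nil, or_false, forall_eq_or_imp,
    forall_eq] at hs
  obtain ⟨h1, h2, h3, h4, h5, h6, h7, h8, h9, h10, h11, h12, h13⟩ := hs
  simp only [gnScratch, List.mem_cons, List.not_mem_nil, or_false, not_or] at hP
  obtain ⟨p1, p2, p3, p4, p5, p6, p7, p8, p9, p10, p11, p12, p13⟩ := hP
  simp only [St.at] at hg hr hD hPs
  have h := genTo_spec (J := J) P (by simp [genRegs, p1, p2, p3, p4, p5, p6, p7, p8]) p9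
    (si Instr.toT : SSym E) (si Instr.toOut) Prog.skip updMix []
    (List.replicate (g * r + g * r) (si Instr.toOut) ++ [si Instr.flush]) skip_mid
    (((((((s.set R.GG (una g)).set R.U2 (una (r + r))).set R.AL (una (r + r))).set R.BE
        (una 2)).set R.IN (una r)).set R.CN (una r)).set R.TL
          (List.replicate (g * r + g * r) (si Instr.toOut) ++ [si Instr.flush])) g (2 * r) r r
    (fun k => 2 * (r - k)) (fun k => 4 * k + 2)
    (fun k j => (2 * k ^ 2 + 2 * (r - k) * j) % (2 * r))
    (fun k hk s h h' => updMix_spec s r k hk h h') (by simp; omega)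
    (fun k _ j _ => by rw [Nat.mod_add_mod]; congr 1; ring)
    (fun k hk => by
      rw [Nat.mod_add_mod]
      obtain ⟨d, rfl⟩ : ∃ d, r = k + d := ⟨r - k, by omega⟩
      have e1 : 2 * (k + 1) ^ 2 + 2 * (k + d - (k + 1)) * 0 = 2 * k ^ 2 + (4 * k + 2) := by ring
      have e2 : 2 * k ^ 2 + 2 * (k + d - k) * (k + d) + (4 * k + 2) =
          2 * k ^ 2 + (4 * k + 2) + 2 * (k + d) * d := by
        rw [Nat.add_sub_cancel_left]; ring
      rw [e1, e2, Nat.add_mul_mod_self_left]) (fun k _ => by omega)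
    (fun k _ => by omega) (by simp [h2, una]) (by simp [two_mul]) (by simp)
    (by simp [two_mul])
    (by simp) (by simp) (by simp) (by simp) (by simp [h10]) (by simp [h11]) (by simp [h12])
    (by simp [h13]) (by simp [h9])
    (by simp [p1, p3, p4, p5, p6, p7, p8, hPs])
  refine ((h0.seq h).mono ?_).of_eq ?_
  · obtain ⟨m1, m2, m3, m4, m5, m6, m7⟩ := mono_bounds hg1 hr1
    simp only [List.length_append, List.length_replicate, List.length_singleton, List.length_nil,
      Nat.sub_self]
    nlinarith [m1, m2, m3, m4, m5, m6, m7]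
  · have e : (cat r fun k => cat r fun j =>
        genSlot g (2 * r) ((2 * k ^ 2 + 2 * (r - k) * j) % (2 * r))
        (si Instr.toT : SSym E) (si Instr.toOut) []
        (List.replicate (g * r + g * r) (si Instr.toOut) ++ [si Instr.flush])) =
        sch (cat r fun k => cat r fun j =>
        rotSch (4 * (g * r)) (g * (2 * r - (2 * k ^ 2 + 2 * (r - k) * j) % (2 * r)))) := by
      rw [sch_cat]
      refine cat_congr fun k _ => ?_
      rw [sch_cat]
      refine cat_congr fun j _ => ?_
      exact genSlot_rot g r _ (Nat.mod_lt _ (by omega)).le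
    rw [e, St.wipe_eq (s := s)]
    · simp [genRegs, h1, h2, h3, h4, h5, h6, h7, h8]
    · intro r hr
      simp only [genRegs, List.mem_cons, List.not_mem_nil, or_false, not_or] at hr
      obtain ⟨t1, t2, t3, t4, t5, t6, t7, t8⟩ := hr
      simp [t1, t3, t4, t5, t6, t7, t8]
    · intro j; simp

/-! ### The schedules that rotate the rows -/

/-- Set-up for the schedule that rotates row `k` by `r - k` slots (`bk = []`) or by `k`
slots (`bk` sets `BE` to `r - 1`). -/
def setRows (bk : List (Cmd E)) : List (Cmd E) :=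
  [.cp R.WW R.GG, .cp R.RR R.U2, .push R.IN mk, .cp R.RR R.CN,
    .push R.TL (si Instr.flush)] ++ bk

/-- `BE := 1`. -/
def beOne : List (Cmd E) := [.push R.BE mk]

/-- `BE := r - 1`. -/
def beBack : List (Cmd E) := [.cp R.RR R.BE, .pop R.BE]

theorem setRows_spec (s : St J E) (W r b : ℕ) (bk : List (Cmd E))
    (hbk : (bk = beOne ∧ b = 1) ∨ (bk = beBack ∧ b = r - 1))
    (hs : s.Empty gnScratch)
    (hW : s.at R.WW = una W) (hr : s.at R.RR = una r) :
    Runs (cmds (setRows bk)) s
      ((((((s.set R.GG (una W)).set R.U2 (una r)).set R.IN (una 1)).set R.CN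
        (una r)).set R.TL [si Instr.flush]).set R.BE (una b))
      (6 * W + 18 * r + 30) := by
  simp only [St.Empty, gnScratch, List.mem_cons, List.not_mem_nil, or_false, forall_eq_or_imp,
    forall_eq] at hs
  obtain ⟨h1, h2, h3, h4, h5, h6, h7, h8, h9, h10, h11, h12, h13⟩ := hs
  simp only [St.at] at hW hr
  rcases hbk with ⟨rfl, rfl⟩ | ⟨rfl, rfl⟩
  · refine (cmds_spec (setRows beOne) s ?_).of_eq ?_ |>.mono ?_
    · simp [setRows, beOne, oks, Cmd.ok, Cmd.eff, h10]
    · simp [setRows, beOne, effs, Cmd.eff, hW, hr, h1, h3, h5, h6, h7, h8, una_one]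
    · simp [setRows, beOne, costs, Cmd.cost, Cmd.eff, hW, hr]
      omega
  · have e1 : (una r : List (SSym E)).tail = una (r - 1) := by simp [una]
    refine (cmds_spec (setRows beBack) s ?_).of_eq ?_ |>.mono ?_
    · simp [setRows, beBack, oks, Cmd.ok, Cmd.eff, h10]
    · simp [setRows, beBack, effs, Cmd.eff, hW, hr, h1, h3, h5, h6, h7, h8, una_one, e1]
    · simp [setRows, beBack, costs, Cmd.cost, Cmd.eff, hW, hr]
      omega

/-- The schedule for one block, on the stack `P`. -/
def rowsTo (P : R) (bk : List (Cmd E)) : Pr J E :=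
  (cmds (setRows bk)).seq (genTo P (si Instr.toT) (si Instr.toOut) Prog.skip Prog.skip)

theorem rowsTo_spec (P : R) (hP : P ∉ gnScratch) (s : St J E) (W r b : ℕ) (bk : List (Cmd E))
    (hbk : (bk = beOne ∧ b = 1) ∨ (bk = beBack ∧ b = r - 1))
    (hs : s.Empty gnScratch) (hPs : s.at P = []) (hW1 : 1 ≤ W) (hr1 : 2 ≤ r)
    (hW : s.at R.WW = una W) (hr : s.at R.RR = una r) :
    Runs (rowsTo P bk) s
      (s.set P (sch (cat r fun k => rotSch (r * W) ((r - (k * b) % r) * W))))
      (1000 * (W * r ^ 2)) := by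
  have hb : b ≤ r := by rcases hbk with ⟨_, rfl⟩ | ⟨_, rfl⟩ <;> omega
  have h0 := setRows_spec s W r b bk hbk hs hW hr
  simp only [St.Empty, gnScratch, List.mem_cons, List.not_mem_nil, or_false, forall_eq_or_imp,
    forall_eq] at hs
  obtain ⟨h1, h2, h3, h4, h5, h6, h7, h8, h9, h10, h11, h12, h13⟩ := hs
  simp only [gnScratch, List.mem_cons, List.not_mem_nil, or_false, not_or] at hP
  obtain ⟨p1, p2, p3, p4, p5, p6, p7, p8, p9, p10, p11, p12, p13⟩ := hP
  simp only [St.at] at hW hr hPs
  have h := genTo_spec (J := J) P (by simp [genRegs, p1, p2, p3, p4, p5, p6, p7, p8]) p9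
    (si Instr.toT : SSym E) (si Instr.toOut) Prog.skip Prog.skip []
    [si Instr.flush] skip_mid
    ((((((s.set R.GG (una W)).set R.U2 (una r)).set R.IN (una 1)).set R.CN
        (una r)).set R.TL [si Instr.flush]).set R.BE (una b)) W r r 1
    (fun _ => 0) (fun _ => b) (fun k _ => (k * b) % r)
    (fun k _ s h h' => ((Runs.skip s).mono (by norm_num)).of_eq (by
      simp only [St.at] at h h'
      rw [← h, ← h']; simp)) (by simp; omega)
    (fun k _ j _ => by simp)
    (fun k _ => by rw [Nat.mod_add_mod]; congr 1; ring) (fun k _ => by omega)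
    (fun k _ => by omega) (by simp [h2, una]) (by simp) (by simp) (by simp [h4, una])
    (by simp) (by simp) (by simp) (by simp) (by simp [h10]) (by simp [h11]) (by simp [h12])
    (by simp [h13]) (by simp [h9])
    (by simp [p1, p3, p5, p6, p7, p8, hPs])
  refine ((h0.seq h).mono ?_).of_eq ?_
  · have m1 : 1 ≤ W * r ^ 2 := Nat.mul_pos hW1 (by positivity)
    have m2 : r ≤ W * r ^ 2 := by nlinarith
    have m3 : W ≤ W * r ^ 2 := Nat.le_mul_of_pos_right _ (by positivity)
    have m4 : W * r ≤ W * r ^ 2 := Nat.mul_le_mul_left _ (by nlinarith)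
    have m5 : r ^ 2 ≤ W * r ^ 2 := Nat.le_mul_of_pos_left _ hW1
    simp only [List.length_singleton, List.length_nil]
    nlinarith [m1, m2, m3, m4, m5, hb]
  · have e : (cat r fun k => cat 1 fun _ =>
        genSlot W r ((k * b) % r)
        (si Instr.toT : SSym E) (si Instr.toOut) [] [si Instr.flush]) =
        sch (cat r fun k => rotSch (r * W) ((r - (k * b) % r) * W)) := by
      rw [sch_cat]
      refine cat_congr fun k _ => ?_
      rw [cat_one]
      exact genSlot_row W r _ (Nat.mod_lt _ (by omega)).le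
    rw [e, St.wipe_eq (s := s)]
    · simp [genRegs, h1, h2, h3, h4, h5, h6, h7, h8]
    · intro r hr
      simp only [genRegs, List.mem_cons, List.not_mem_nil, or_false, not_or] at hr
      obtain ⟨t1, t2, t3, t4, t5, t6, t7, t8⟩ := hr
      simp [t1, t3, t5, t6, t7, t8]
    · intro j; simp

/-! ### The kernel -/

/-- Set-up for the kernel. -/
def setKer : List (Cmd E) :=
  [.cp R.K3 R.GG, .cp R.RR R.U2, .cp R.RR R.U2, .push R.BE mk, .push R.IN mk, .cp R.RR R.CN,
    .cp R.RR R.CN, .fill R.WW (sb false) R.Q2, .cp R.RR R.Q3, .pop R.Q3, .rep R.Q3 R.Q2 R.TL,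
    .clr R.Q2, .clr R.Q3, .fill R.DD (sb false) R.TL, .fill R.DD (sb false) R.TL, .pop R.TL]

theorem rep_replicate_sym (m n : ℕ) (a : SSym E) :
    rep m (List.replicate n a) = List.replicate (m * n) a := by simp [rep]

theorem setKer_spec (s : St J E) (g r W D : ℕ) (hs : s.Empty gnScratch)
    (hP2 : s.at R.Q2 = []) (hP3 : s.at R.Q3 = []) (hD1 : 1 ≤ D)
    (hg : s.at R.K3 = una g) (hr : s.at R.RR = una r) (hD : s.at R.DD = una D)
    (hW : s.at R.WW = una W) :
    Runs (cmds setKer) s
      ((((((s.set R.GG (una g)).set R.U2 (una (r + r))).set R.BE (una 1)).set R.IN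
        (una 1)).set R.CN (una (r + r))).set R.TL
          (List.replicate (2 * D - 1 + (r - 1) * W) (sb false)))
      (6 * g + 60 * r + 16 * D + 11 * W + 6 * (r * W) + 60) := by
  simp only [St.Empty, gnScratch, List.mem_cons, List.not_mem_nil, or_false, forall_eq_or_imp,
    forall_eq] at hs
  obtain ⟨h1, h2, h3, h4, h5, h6, h7, h8, h9, h10, h11, h12, h13⟩ := hs
  simp only [St.at] at hg hr hD hW hP2 hP3
  have e1 : (una r : List (SSym E)).tail = una (r - 1) := by simp [una]
  refine (cmds_spec setKer s ?_).of_eq ?_ |>.mono ?_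
  · simp [setKer, oks, Cmd.ok, Cmd.eff, hg, hr, hD, hW, h1, h3, h5, h6, h7, h8, h10, h11, hP2,
      hP3, e1]
  · simp only [setKer, effs, Cmd.eff]
    simp [hg, hr, hD, hW, h1, h3, h5, h6, h7, h8, hP2, hP3, e1, una_one, rep_replicate_sym]
    refine St.ext' (fun r' => ?_) (fun j => ?_)
    · by_cases q1 : r' = R.TL
      · subst q1; simp; omega
      · by_cases q2 : r' = R.Q2
        · subst q2; simp [hP2]
        · by_cases q3 : r' = R.Q3
          · subst q3; simp [hP3]
          · simp [q1, q2, q3]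
    · simp
  · simp [setKer, costs, Cmd.cost, Cmd.eff, hg, hr, hD, hW, h3, h7, h8, hP2, hP3, e1]
    have : (r - 1) * (6 * W + 8) ≤ 6 * (r * W) + 8 * r := by
      calc (r - 1) * (6 * W + 8) ≤ r * (6 * W + 8) := Nat.mul_le_mul_right _ (by omega)
        _ = 6 * (r * W) + 8 * r := by ring
    omega

/-- The program `push 1 on BB`. -/
def oneMid : Pr J E := Prog.push (rg R.BB) (sb true)

theorem one_mid (s : St J E) : Runs oneMid s (s.set R.BB (([sb true] : List (SSym E)).reverse ++
    s.at R.BB)) 3 :=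
  ((Runs.push (rg R.BB) (sb true) s).mono (by norm_num)).of_eq (by simp)

/-- The kernel, on the stack `P`. -/
def kerTo (P : R) : Pr J E :=
  (cmds setKer).seq (genTo P (sb false) (sb false) oneMid updSq)

theorem kerTo_spec (P : R) (hP : P ∉ gnScratch) (s : St J E) (g r : ℕ)
    (hs : s.Empty gnScratch) (hPs : s.at P = []) (hg1 : 1 ≤ g) (hr1 : 1 ≤ r)
    (hP2 : s.at R.Q2 = []) (hP3 : s.at R.Q3 = [])
    (hg : s.at R.K3 = una g) (hr : s.at R.RR = una r) (hD : s.at R.DD = una (g * r))
    (hW : s.at R.WW = una (4 * (g * r))) :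
    Runs (kerTo P) s
      (s.set P (bits (kerList r g (4 * (g * r)))))
      (1000 * (g * r ^ 3)) := by
  have h0 := setKer_spec s g r (4 * (g * r)) (g * r) hs hP2 hP3 (Nat.mul_pos hg1 hr1) hg hr hD
    hW
  simp only [St.Empty, gnScratch, List.mem_cons, List.not_mem_nil, or_false, forall_eq_or_imp,
    forall_eq] at hs
  obtain ⟨h1, h2, h3, h4, h5, h6, h7, h8, h9, h10, h11, h12, h13⟩ := hs
  simp only [gnScratch, List.mem_cons, List.not_mem_nil, or_false, not_or] at hP
  obtain ⟨p1, p2, p3, p4, p5, p6, p7, p8, p9, p10, p11, p12, p13⟩ := hP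
  simp only [St.at] at hg hr hD hPs
  have h := genTo_spec (J := J) P (by simp [genRegs, p1, p2, p3, p4, p5, p6, p7, p8]) p9
    (sb false : SSym E) (sb false) oneMid updSq [sb true]
    (List.replicate (2 * (g * r) - 1 + (r - 1) * (4 * (g * r))) (sb false)) one_mid
    ((((((s.set R.GG (una g)).set R.U2 (una (r + r))).set R.BE (una 1)).set R.IN
        (una 1)).set R.CN (una (r + r))).set R.TL
          (List.replicate (2 * (g * r) - 1 + (r - 1) * (4 * (g * r))) (sb false)))
    g (2 * r) (2 * r) 1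
    (fun _ => 0) (fun k => 2 * k + 1) (fun k _ => k ^ 2 % (2 * r))
    (fun k _ s h h' => updSq_spec s k h h') (by simp; omega)
    (fun k _ j _ => by simp)
    (fun k _ => by rw [Nat.mod_add_mod]; congr 1; ring) (fun k _ => by omega)
    (fun k _ => by omega) (by simp [h2, una]) (by simp [two_mul]) (by simp) (by simp [h4, una])
    (by simp) (by simp) (by simp [two_mul]) (by simp) (by simp [h10]) (by simp [h11])
    (by simp [h12]) (by simp [h13]) (by simp [h9])
    (by simp [p1, p3, p5, p6, p7, p8, hPs])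
  refine ((h0.seq h).mono ?_).of_eq ?_
  · obtain ⟨m1, m2, m3, m4, m5, m6, m7⟩ := mono_bounds hg1 hr1
    simp only [List.length_replicate, List.length_singleton]
    have hl : 2 * (g * r) - 1 + (r - 1) * (4 * (g * r)) ≤ 4 * (g * r ^ 2) := by
      obtain ⟨d, rfl⟩ : ∃ d, r = d + 1 := ⟨r - 1, by omega⟩
      have e1 : 4 * (g * (d + 1) ^ 2) = 4 * (g * (d + 1)) + d * (4 * (g * (d + 1))) := by ring
      rw [e1, Nat.add_sub_cancel]
      omega
    set L := 2 * (g * r) - 1 + (r - 1) * (4 * (g * r)) with hL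
    have m8 : r * L ≤ 4 * (g * r ^ 3) := by
      calc r * L ≤ r * (4 * (g * r ^ 2)) := Nat.mul_le_mul_left _ hl
        _ = 4 * (g * r ^ 3) := by ring
    nlinarith [m1, m2, m3, m4, m5, m6, m7, m8, hl]
  · have e : (cat (2 * r) fun k => cat 1 fun _ => genSlot g (2 * r) (k ^ 2 % (2 * r))
        (sb false : SSym E) (sb false) [sb true]
        (List.replicate (2 * (g * r) - 1 + (r - 1) * (4 * (g * r))) (sb false))) =
        bits (kerList r g (4 * (g * r))) := by
      rw [kerList, bits_cat]
      refine cat_congr fun k _ => ?_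
      rw [cat_one]
      exact genSlot_ker g r _ hg1 hr1 (Nat.mod_lt _ (by omega)).le
    rw [e, St.wipe_eq (s := s)]
    · simp [genRegs, h1, h2, h3, h4, h5, h6, h7, h8]
    · intro r hr
      simp only [genRegs, List.mem_cons, List.not_mem_nil, or_false, not_or] at hr
      obtain ⟨t1, t2, t3, t4, t5, t6, t7, t8⟩ := hr
      simp [t1, t3, t5, t6, t7, t8]
    · intro j; simp

end Vale.Agent.P338
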