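import Vale.Agent.P338.LevelsMain

/-!
# P338: the time of the levels
-/

namespace Vale.Agent.P338.Lv

/-- The number of levels is at most `log log n`. -/
theorem depth_le_loglog (n : ℕ) : depth n ≤ Nat.log 2 (Nat.log 2 n) := by
  rcases Nat.eq_zero_or_pos (depth n) with h | h
  · omega
  · obtain ⟨L, hL⟩ : ∃ L, depth n = L + 1 := ⟨_, (Nat.sub_add_cancel h).symm⟩
    have h1 : ∀ k < L + 1, 16 < (lev ⟨1, n, fun _ _ _ => false⟩ k).n := by
      intro k hk
      rw [lev_n]
      exact (depth_spec n).1 k (by omega)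
    have h2 := depth_le h1
    dsimp only at h2
    have h3 := Nat.le_log_of_pow_le (b := 2) (by norm_num) h2
    omega

/-- The transforms of level `k` have length `2 ^ ρ` with `ρ ≤ 1 + (log n) / 2 ^ (k + 1)`. -/
theorem rho_level_le (n k : ℕ) (hk : k < depth n) :
    (rho (csqrt (csqrt^[k] n)) : ℝ) ≤ 1 + Nat.log 2 n / 2 ^ (k + 1) := by
  have h1 : 16 < (lev ⟨1, n, fun _ _ _ => false⟩ k).n := by
    rw [lev_n]
    exact (depth_spec n).1 k hk
  have h2 := rho_le h1
  rw [lev_n] at h2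
  dsimp only at h2
  have h3 : 2 ≤ rho (csqrt (csqrt^[k] n)) := by unfold rho; omega
  obtain ⟨u, hu⟩ : ∃ u, rho (csqrt (csqrt^[k] n)) = u + 1 := ⟨_, (Nat.sub_add_cancel (by omega)).symm⟩
  rw [hu] at h2 ⊢
  have h4 : u * 2 ^ (k + 1) ≤ Nat.log 2 n := h2
  have h5 : (u : ℝ) * 2 ^ (k + 1) ≤ Nat.log 2 n := by exact_mod_cast h4
  have h6 : (u : ℝ) ≤ Nat.log 2 n / 2 ^ (k + 1) := by
    rw [le_div_iff₀ (by positivity)]
    exact h5
  push_cast
  linarith

/-- The bound for the time of the levels, for every `J`. -/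
theorem levTime_le (T : ℕ → ℕ) (n m J : ℕ) :
    (levTime T n m : ℝ) ≤
      J * T m + m * (2 * Nat.log 2 (Nat.log 2 n) + 1 + Nat.log 2 n / 2 ^ J) := by
  have h1 := sum_min_le (L := depth n) (T := (T m : ℝ)) (m := (m : ℝ)) (Λ := (Nat.log 2 n : ℝ))
    (a := fun k => ((min (T m) (m * rho (csqrt (csqrt^[k] n))) : ℕ) : ℝ))
    (by positivity) (by positivity) (by positivity)
    (fun k _ => by exact_mod_cast min_le_left _ _)
    (fun k hk => by
      have h2 : ((min (T m) (m * rho (csqrt (csqrt^[k] n))) : ℕ) : ℝ) ≤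
          ((m * rho (csqrt (csqrt^[k] n)) : ℕ) : ℝ) := by exact_mod_cast min_le_right _ _
      refine h2.trans ?_
      push_cast
      exact mul_le_mul_of_nonneg_left (rho_level_le n k hk) (by positivity)) J
  have h3 : (depth n : ℝ) ≤ Nat.log 2 (Nat.log 2 n) := by exact_mod_cast depth_le_loglog n
  unfold levTime
  push_cast at h1 ⊢
  rw [Finset.sum_add_distrib]
  simp only [Finset.sum_const, Finset.card_range, nsmul_eq_mul]
  have h4 : (m : ℝ) * depth n ≤ m * Nat.log 2 (Nat.log 2 n) :=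
    mul_le_mul_of_nonneg_left h3 (by positivity)
  nlinarith

end Vale.Agent.P338.Lv
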