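import Vale.Agent.P338.LevTime
import Vale.Agent.P338.Top

/-!
# P338: the core program
-/

namespace Vale.Agent.P338.Lv

variable {J E : Type} [DecidableEq J]

/-- The core program satisfies the interface `CoreSpec` of the top level. -/
theorem core_spec {swap naive : Pr J E} {T : ℕ → ℕ} {C₁ C₂ : ℕ} (hswap : SwapSpec swap T C₁)
    (hnaive : NaiveHyp naive C₂) :
    CoreSpec (coreP swap naive) fun n m => (3 * C₁ + 1024 * C₂ + 1000) * levTime T n m := by
  intro n m x s hn hm hidle hempty hhh hnn hmm hx
  have h := coreP_spec hswap hnaive n m (fun _ i j => x i j) (s (Sum.inl R.INP))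
    (s (Sum.inl R.IN2)) hn hm
  have key : ∀ (y : ℕ → ℕ → Bool) (s' : St J E), s'.Idle →
      (∀ r : R, r ≠ R.X → r ≠ R.NN → r ≠ R.MM → r ≠ R.HH → r ≠ R.INP → r ≠ R.IN2 →
        s'.at r = []) → s'.at R.HH = una 1 → s'.at R.NN = una n → s'.at R.MM = una m →
      s'.at R.X = bits (cat n fun i => cat n fun j => [y i j]) →
      gst (ust m (s' (Sum.inl R.INP)) (s' (Sum.inl R.IN2)) 1 n (bmat 1 n fun _ i j => y i j) [])
        = s' := by
    intro y s' h1 h2 h3 h4 h5 h6
    funext l
    rcases l with r | j
    · cases r
      case X =>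
        simp only [St.at] at h6
        rw [h6]
        simp only [ust, gst_x, bmat, data, cat_one]
      case HH => exact h3.symm
      case NN => exact h4.symm
      case MM => exact h5.symm
      case INP => rfl
      case IN2 => rfl
      all_goals
        exact (h2 _ (by simp) (by simp) (by simp) (by simp) (by simp) (by simp)).symm
    · exact (h1 j).symm
  have e1 := key x s hidle hempty hhh hnn hmm hx
  have e2 := key (fun i j => x j i) (s.set R.X (bits (cat n fun i => cat n fun j => [x j i])))
    (by intro j; simp [St.set, hidle j])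
    (by
      intro r h1 h2 h3 h4 h5 h6
      have := hempty r h1 h2 h3 h4 h5 h6
      simp only [St.at] at this
      simp [St.set, h1, this])
    (by simpa [St.set] using hhh) (by simpa [St.set] using hnn) (by simpa [St.set] using hmm)
    (by simp [St.set])
  have e3 : (s.set R.X (bits (cat n fun i => cat n fun j => [x j i]))) (Sum.inl R.INP) =
      s (Sum.inl R.INP) := by simp [St.set]
  have e4 : (s.set R.X (bits (cat n fun i => cat n fun j => [x j i]))) (Sum.inl R.IN2) =
      s (Sum.inl R.IN2) := by simp [St.set]
  rw [e3, e4] at e2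
  rw [e1] at h
  have e5 : trf (fun _ i j => x i j) = fun _ i j => x j i := rfl
  rw [e5, e2] at h
  exact h

end Vale.Agent.P338.Lv
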