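import Vale.Agent.P338.LevelsProg

/-!
# P338: the program for the levels, main loops
-/

namespace Vale.Agent.P338.Lv

variable {J E : Type} [DecidableEq J]

/-! ### Small routines -/

/-- `HH := HH * PP`. -/
def mulHP : Pr J E :=
  (Prog.repOnto (.inl .HH) (.inl .PP) (.inl .P4) (.inl .T) (.inl .S)).seq
    ((Prog.clear (.inl .HH)).seq (Prog.rev (.inl .P4) (.inl .HH)))

theorem mulHP_spec (g : GS E) (h p : ℕ) (hh : 1 ≤ h) (hp : 1 ≤ p) (ht : g.t = [])
    (hs : g.s = []) (h4 : g.p4 = []) (hhh : g.hh = una h) (hpp : g.pp = una p) :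
    Runs (mulHP : Pr J E) (gst g) (gst { g with hh := una (h * p) }) (23 * (h * p)) := by
  obtain ⟨x, out, t, s, v0, mu, gh, nn, pp, mp, mm, p1, p2, p3, p4, p5, pst, go, inp, in2⟩ := g
  dsimp only at ht hs h4 hhh hpp
  subst ht hs h4 hhh hpp
  have e1 := Runs.repOnto (u := (.inl .HH : Loc J)) (a := .inl .PP) (b := .inl .P4)
    (t := .inl .T) (t' := .inl .S) (by simp) (by simp) (by simp) (by simp) (by simp) (by simp)
    (by simp) (by simp) (by simp) (by simp) mk
    (gst ⟨x, out, [], [], v0, mu, una h, nn, una p, mp, mm, p1, p2, p3, [], p5, pst, go, inp,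
      in2⟩) h rfl rfl rfl
  have e2 := Runs.clear (.inl .HH : Loc J)
    (gst ⟨x, out, [], [], v0, mu, una h, nn, una p, mp, mm, p1, p2, p3, una (h * p), p5, pst, go,
      inp, in2⟩)
  have e3 := Runs.rev (i := (.inl .P4 : Loc J)) (j := .inl .HH) (by simp)
    (gst ⟨x, out, [], [], v0, mu, [], nn, una p, mp, mm, p1, p2, p3, una (h * p), p5, pst, go,
      inp, in2⟩)
  simp only [gst_pp, gst_p4, gset_p4, rep_una, List.append_nil, gst_hh, gset_hh, length_una,
    reverse_una] at e1 e2 e3
  refine (e1.seq (e2.seq e3)).mono ?_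
  have h1 : h ≤ h * p := Nat.le_mul_of_pos_right _ hp
  have h2 : h * (6 * p + 8) = 6 * (h * p) + 8 * h := by ring
  omega

/-- The separator on the parameter stack. -/
def sepS : SSym E := Sum.inl (Base.num 0)

/-- `h` and `n` on the parameter stack. -/
def saveS (h n : ℕ) (ps : List (SSym E)) : List (SSym E) :=
  una h ++ (sepS :: (una n ++ (sepS :: ps)))

/-- Move `NN` to the parameter stack and copy `HH` to it. -/
def saveP : Pr J E :=
  (Prog.push (.inl .PST) sepS).seq ((Prog.rev (.inl .NN) (.inl .PST)).seq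
    ((Prog.push (.inl .PST) sepS).seq (Prog.copyOnto (.inl .HH) (.inl .PST) (.inl .T))))

theorem saveP_spec (g : GS E) (h n : ℕ) (ht : g.t = []) (hhh : g.hh = una h)
    (hnn : g.nn = una n) :
    Runs (saveP : Pr J E) (gst g) (gst { g with nn := [], pst := saveS h n g.pst })
      (3 * n + 6 * h + 6) := by
  obtain ⟨x, out, t, s, v0, mu, gh, nn, pp, mp, mm, p1, p2, p3, p4, p5, pst, go, inp, in2⟩ := g
  dsimp only at ht hhh hnn
  subst ht hhh hnn
  have e1 := Runs.push (.inl .PST : Loc J) sepS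
    (gst ⟨x, out, [], s, v0, mu, una h, una n, pp, mp, mm, p1, p2, p3, p4, p5, pst, go, inp, in2⟩)
  have e2 := Runs.rev (i := (.inl .NN : Loc J)) (j := .inl .PST) (by simp)
    (gst ⟨x, out, [], s, v0, mu, una h, una n, pp, mp, mm, p1, p2, p3, p4, p5, sepS :: pst, go,
      inp, in2⟩)
  have e3 := Runs.push (.inl .PST : Loc J) sepS
    (gst ⟨x, out, [], s, v0, mu, una h, [], pp, mp, mm, p1, p2, p3, p4, p5,
      una n ++ (sepS :: pst), go, inp, in2⟩)
  have e4 := Runs.copyOnto (a := (.inl .HH : Loc J)) (b := .inl .PST) (t := .inl .T) (by simp)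
    (by simp) (by simp)
    (gst ⟨x, out, [], s, v0, mu, una h, [], pp, mp, mm, p1, p2, p3, p4, p5,
      sepS :: (una n ++ (sepS :: pst)), go, inp, in2⟩) rfl
  simp only [gst_pst, gset_pst, gst_nn, gset_nn, gst_hh, reverse_una, length_una] at e1 e2 e3 e4
  exact (e1.seq (e2.seq (e3.seq e4))).mono (by omega)

/-- Pop `GO` several times. -/
def popGo : ℕ → Pr J E
  | 0 => Prog.skip
  | k + 1 => (Prog.pop (.inl .GO)).seq (popGo k)

theorem popGo_spec (k : ℕ) (g : GS E) :
    Runs (popGo k : Pr J E) (gst g) (gst { g with go := g.go.drop k }) (2 * k + 1) := by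
  induction k generalizing g with
  | zero => exact Runs.skip _
  | succ k ih =>
    have e1 := Runs.pop (.inl .GO : Loc J) (gst g)
    simp only [gst_go, gset_go] at e1
    have e2 := ih { g with go := g.go.tail }
    refine ((e1.seq e2).mono (by omega)).of_eq ?_
    simp

/-- `GO := NN - 16`. -/
def goP : Pr J E :=
  (Prog.clear (.inl .GO)).seq ((Prog.copyOnto (.inl .NN) (.inl .GO) (.inl .T)).seq (popGo 16))

theorem goP_spec (g : GS E) (n k : ℕ) (ht : g.t = []) (hnn : g.nn = una n)
    (hgo : g.go = una k) :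
    Runs (goP : Pr J E) (gst g) (gst { g with go := una (n - 16) }) (3 * k + 6 * n + 36) := by
  obtain ⟨x, out, t, s, v0, mu, gh, nn, pp, mp, mm, p1, p2, p3, p4, p5, pst, go, inp, in2⟩ := g
  dsimp only at ht hnn hgo
  subst ht hnn hgo
  have e1 := Runs.clear (.inl .GO : Loc J)
    (gst ⟨x, out, [], s, v0, mu, gh, una n, pp, mp, mm, p1, p2, p3, p4, p5, pst, una k, inp, in2⟩)
  have e2 := Runs.copyOnto (a := (.inl .NN : Loc J)) (b := .inl .GO) (t := .inl .T) (by simp)
    (by simp) (by simp)
    (gst ⟨x, out, [], s, v0, mu, gh, una n, pp, mp, mm, p1, p2, p3, p4, p5, pst, [], inp, in2⟩)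
    rfl
  have e3 := popGo_spec (J := J) 16
    (⟨x, out, [], s, v0, mu, gh, una n, pp, mp, mm, p1, p2, p3, p4, p5, pst, una n, inp, in2⟩ :
      GS E)
  have e4 : (una n : List (SSym E)).drop 16 = una (n - 16) := by simp [una]
  simp only [gst_go, gset_go, gst_nn, length_una, List.append_nil, e4] at e1 e2 e3
  exact (e1.seq (e2.seq e3)).mono (by omega)

/-- The top symbol of the parameter stack is a mark. -/
def isMk : (Loc J → Option (SSym E)) → Bool := fun tp =>
  match tp (.inl .PST) with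
  | some (Sum.inl Base.mark) => true
  | _ => false

/-- Move the number on top of the parameter stack to `j`, remove the separator. -/
def takeP (j : R) : Pr J E :=
  (Prog.loop isMk (Prog.mov (.inl .PST) (.inl j))).seq (Prog.pop (.inl .PST))

theorem takeP_hh (g : GS E) (n k : ℕ) (ps : List (SSym E)) (hhh : g.hh = una k)
    (hps : g.pst = una n ++ (sepS :: ps)) :
    Runs (takeP R.HH : Pr J E) (gst g) (gst { g with hh := una (n + k), pst := ps })
      (3 * n + 2) := by
  have e1 := Runs.loop_iter_le (c := (isMk : (Loc J → Option (SSym E)) → Bool))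
    (p := Prog.mov (.inl .PST) (.inl .HH)) n
    (fun i => gst { g with hh := una (i + k), pst := una (n - i) ++ (sepS :: ps) }) 1
    (by
      intro i hi
      obtain ⟨m, hm⟩ : ∃ m, n - i = m + 1 := ⟨n - i - 1, by omega⟩
      simp [isMk, hm, una_succ, mk])
    (by simp [isMk, sepS])
    (by
      intro i hi
      obtain ⟨m, hm⟩ : ∃ m, n - i = m + 1 := ⟨n - i - 1, by omega⟩
      have e2 := Runs.mov (i := (.inl .PST : Loc J)) (j := .inl .HH) (by simp)
        (gst { g with hh := una (i + k), pst := una (n - i) ++ (sepS :: ps) })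
        (a := mk) (l := una m ++ (sepS :: ps)) (by simp [hm, una_succ])
      refine e2.of_eq ?_
      have h1 : n - (i + 1) = m := by omega
      have h2 : i + 1 + k = (i + k) + 1 := by ring
      simp [h1, h2, una_succ])
  have e3 := Runs.pop (.inl .PST : Loc J)
    (gst { g with hh := una (n + k), pst := una (n - n) ++ (sepS :: ps) })
  have e0 : (gst { g with hh := una (0 + k), pst := una (n - 0) ++ (sepS :: ps) } : St J E) =
      gst g := by
    rw [Nat.zero_add, Nat.sub_zero, ← hhh, ← hps]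
  rw [e0] at e1
  refine ((e1.seq e3).mono (by omega)).of_eq ?_
  simp

theorem takeP_nn (g : GS E) (n k : ℕ) (ps : List (SSym E)) (hnn : g.nn = una k)
    (hps : g.pst = una n ++ (sepS :: ps)) :
    Runs (takeP R.NN : Pr J E) (gst g) (gst { g with nn := una (n + k), pst := ps })
      (3 * n + 2) := by
  have e1 := Runs.loop_iter_le (c := (isMk : (Loc J → Option (SSym E)) → Bool))
    (p := Prog.mov (.inl .PST) (.inl .NN)) n
    (fun i => gst { g with nn := una (i + k), pst := una (n - i) ++ (sepS :: ps) }) 1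
    (by
      intro i hi
      obtain ⟨m, hm⟩ : ∃ m, n - i = m + 1 := ⟨n - i - 1, by omega⟩
      simp [isMk, hm, una_succ, mk])
    (by simp [isMk, sepS])
    (by
      intro i hi
      obtain ⟨m, hm⟩ : ∃ m, n - i = m + 1 := ⟨n - i - 1, by omega⟩
      have e2 := Runs.mov (i := (.inl .PST : Loc J)) (j := .inl .NN) (by simp)
        (gst { g with nn := una (i + k), pst := una (n - i) ++ (sepS :: ps) })
        (a := mk) (l := una m ++ (sepS :: ps)) (by simp [hm, una_succ])
      refine e2.of_eq ?_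
      have h1 : n - (i + 1) = m := by omega
      have h2 : i + 1 + k = (i + k) + 1 := by ring
      simp [h1, h2, una_succ])
  have e3 := Runs.pop (.inl .PST : Loc J)
    (gst { g with nn := una (n + k), pst := una (n - n) ++ (sepS :: ps) })
  have e0 : (gst { g with nn := una (0 + k), pst := una (n - 0) ++ (sepS :: ps) } : St J E) =
      gst g := by
    rw [Nat.zero_add, Nat.sub_zero, ← hnn, ← hps]
  rw [e0] at e1
  refine ((e1.seq e3).mono (by omega)).of_eq ?_
  simp

/-- Restore `HH` and `NN` from the parameter stack. -/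
def restP : Pr J E :=
  (Prog.clear (.inl .HH)).seq ((Prog.clear (.inl .NN)).seq
    ((takeP R.HH).seq (takeP R.NN)))

theorem restP_spec (g : GS E) (h n h' n' : ℕ) (ps : List (SSym E)) (hhh : g.hh = una h')
    (hnn : g.nn = una n') (hps : g.pst = saveS h n ps) :
    Runs (restP : Pr J E) (gst g) (gst { g with hh := una h, nn := una n, pst := ps })
      (3 * h' + 3 * n' + 3 * h + 3 * n + 7) := by
  obtain ⟨x, out, t, s, v0, mu, gh, nn, pp, mp, mm, p1, p2, p3, p4, p5, pst, go, inp, in2⟩ := g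
  dsimp only at hhh hnn hps
  subst hhh hnn hps
  have e1 := Runs.clear (.inl .HH : Loc J)
    (gst ⟨x, out, t, s, v0, mu, una h', una n', pp, mp, mm, p1, p2, p3, p4, p5, saveS h n ps, go,
      inp, in2⟩)
  have e2 := Runs.clear (.inl .NN : Loc J)
    (gst ⟨x, out, t, s, v0, mu, [], una n', pp, mp, mm, p1, p2, p3, p4, p5, saveS h n ps, go,
      inp, in2⟩)
  have e3 := takeP_hh (J := J)
    (⟨x, out, t, s, v0, mu, [], [], pp, mp, mm, p1, p2, p3, p4, p5, saveS h n ps, go,
      inp, in2⟩ : GS E) h 0 (una n ++ (sepS :: ps)) rfl rfl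
  have e4 := takeP_nn (J := J)
    (⟨x, out, t, s, v0, mu, una h, [], pp, mp, mm, p1, p2, p3, p4, p5, una n ++ (sepS :: ps), go,
      inp, in2⟩ : GS E) n 0 ps rfl rfl
  simp only [gst_hh, gset_hh, gst_nn, gset_nn, length_una, Nat.add_zero] at e1 e2 e3 e4
  exact (e1.seq (e2.seq (e3.seq e4))).mono (by omega)

/-! ### One level -/

/-- What is needed of the program for the small matrices. -/
def NaiveHyp (naive : Pr J E) (C : ℕ) : Prop :=
  ∀ (h p M : ℕ) (e : ℕ → ℕ → ℕ → List Bool) (s : St J E), 1 ≤ h → 1 ≤ p → 1 ≤ M →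
    (∀ a < h, ∀ i < p, ∀ j < p, (e a i j).length = M) →
    s.Idle → (∀ r ∈ swapScratch, r ≠ R.MU → s.at r = []) →
    s.at R.HH = una h → s.at R.PP = una p → s.at R.MU = una M →
    s.at R.X = bits (data h p e) →
    Runs naive s (s.set R.X (bits (data h p fun a i j => e a j i)))
      (C * (h * rr p ^ 2 * M * rho p))

theorem swap_use {swap : Pr J E} {T : ℕ → ℕ} {C : ℕ} (hswap : SwapSpec swap T C)
    (mu hh nn pp mp mm p1 p2 p3 p4 p5 pst go inp in2 : List (SSym E)) (hmu : mu = [])
    (h p q m : ℕ) (e : ℕ → ℕ → ℕ → List Bool)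
    (h1 : 1 ≤ h) (h2 : 1 ≤ p) (h3 : 1 ≤ q) (hm : mulSize h p q ≤ m)
    (he : ∀ a < h, ∀ i < p, ∀ j < p, (e a i j).length = p * q)
    (hhh : hh = una h) (hpp : pp = una p) (hmp : mp = una q) (hmm : mm = una m) :
    Runs swap
      (gst ⟨bits (data h p e), [], [], [], [], mu, hh, nn, pp, mp, mm, p1, p2, p3, p4, p5, pst,
        go, inp, in2⟩)
      (gst ⟨bits (data h p fun a i j => e a j i), [], [], [], [], mu, hh, nn, pp, mp, mm, p1, p2,
        p3, p4, p5, pst, go, inp, in2⟩)
      (C * (m + min (T m) (m * rho p))) := by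
  subst hmu hhh hpp hmp hmm
  have e1 := hswap h p q m e (gst ⟨bits (data h p e), [], [], [], [], [], una h, nn, una p,
    una q, una m, p1, p2, p3, p4, p5, pst, go, inp, in2⟩) h1 h2 h3 hm he
    (fun _ => rfl)
    (by
      intro r hr
      cases r <;> first | rfl | (exfalso; revert hr; decide))
    rfl rfl rfl rfl rfl
  simpa only [St.set, gset_x] using e1

/-- The down step: pad, exchange the digits `2` and `3`. -/
def downP (swap : Pr J E) : Pr J E :=
  csq.seq (padAll.seq (saveP.seq (mulHP.seq ((Prog.push (.inl .MP) mk).seq (swap.seq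
    ((Prog.pop (.inl .MP)).seq (mulHP.seq ((Prog.rev (.inl .PP) (.inl .NN)).seq
      ((Prog.clear (.inl .P1)).seq ((Prog.clear (.inl .P2)).seq goP))))))))))

/-- The store between the steps. -/
def lst (m : ℕ) (inp in2 : List (SSym E)) (h n : ℕ) (w : List Bool) (ps : List (SSym E)) :
    GS E :=
  ⟨bits w, [], [], [], [], [], una h, una n, [], [], una m, [], [], [], [], [], ps,
    una (n - 16), inp, in2⟩

theorem downP_spec {swap : Pr J E} {T : ℕ → ℕ} {C : ℕ} (hswap : SwapSpec swap T C)
    (m : ℕ) (inp in2 : List (SSym E)) (l : Lev) (ps : List (SSym E)) (hl : 16 < l.n)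
    (hh : 1 ≤ l.h) (hm : l.h * (csqrt l.n * csqrt l.n * (csqrt l.n * csqrt l.n)) ≤ m)
    (hm1 : mulSize (l.h * csqrt l.n) (csqrt l.n) 1 ≤ m) :
    Runs (downP swap) (gst (lst m inp in2 l.h l.n l.x ps))
      (gst (lst m inp in2 l.next.h l.next.n l.next.x (saveS l.h l.n ps)))
      ((C + 300) * (m + min (T m) (m * rho (csqrt l.n)))) := by
  obtain ⟨h, n, f⟩ := l
  dsimp only at hl hh hm hm1 ⊢
  unfold lst Lev.x Lev.next
  dsimp only
  obtain ⟨d, hd⟩ : ∃ d, csqrt n * csqrt n = n + d := ⟨_, (Nat.add_sub_cancel' (le_csqrt_sq n)).symm⟩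
  have hd' : csqrt n * csqrt n - n = d := by omega
  have hp := csqrt_pos n
  have e1 := csq_spec (J := J) (⟨bits (bmat h n f), [], [], [], [], [], una h, una n, [], [],
    una m, [], [], [], [], [], ps, una (n - 16), inp, in2⟩ : GS E)
    ⟨rfl, rfl, rfl, rfl, rfl, rfl, rfl, rfl, rfl, rfl, rfl, rfl⟩ (n := n) (by omega) rfl
  have e2 := padAll_spec (J := J) (⟨bits (bmat h n f), [], [], [], [], [], una h, una n,
    una (csqrt n), [], una m, una (csqrt n * csqrt n), una d, [], [], [], ps,
    una (n - 16), inp, in2⟩ : GS E)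
    rfl rfl rfl rfl rfl h n d f (by omega) hh rfl rfl rfl rfl (by rw [← hd])
  rw [hd'] at e1
  rw [← hd] at e2
  have e3 := saveP_spec (J := J) (⟨bits (bmat h (csqrt n * csqrt n) (padf n f)), [], [], [], [],
    [], una h, una n, una (csqrt n), [], una m, una (csqrt n * csqrt n), una d, [], [], [], ps,
    una (n - 16), inp, in2⟩ : GS E) h n rfl rfl rfl
  have e4 := mulHP_spec (J := J) (⟨bits (bmat h (csqrt n * csqrt n) (padf n f)), [], [], [], [],
    [], una h, [], una (csqrt n), [], una m, una (csqrt n * csqrt n), una d, [], [], [],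
    saveS h n ps, una (n - 16), inp, in2⟩ : GS E) h (csqrt n) hh hp rfl rfl rfl rfl rfl
  have e5 := Runs.push (.inl .MP : Loc J) mk
    (gst (⟨bits (bmat h (csqrt n * csqrt n) (padf n f)), [], [], [], [],
    [], una (h * csqrt n), [], una (csqrt n), [], una m, una (csqrt n * csqrt n), una d, [], [],
    [], saveS h n ps, una (n - 16), inp, in2⟩ : GS E))
  have e6 := swap_use hswap [] (una (h * csqrt n)) [] (una (csqrt n)) (una 1) (una m)
    (una (csqrt n * csqrt n)) (una d) [] [] [] (saveS h n ps) (una (n - 16)) inp in2 rfl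
    (h * csqrt n) (csqrt n) 1 m (ent1 n f) (Nat.mul_pos hh hp) hp le_rfl hm1
    (fun a _ i _ j _ => length_ent1 n f a i j) rfl rfl rfl rfl
  rw [level_b h n f, ← level_a h n f] at e6
  have e7 := Runs.pop (.inl .MP : Loc J)
    (gst (⟨bits (bmat (h * csqrt n * csqrt n) (csqrt n) (nextf n f)), [], [], [], [],
    [], una (h * csqrt n), [], una (csqrt n), una 1, una m, una (csqrt n * csqrt n), una d, [],
    [], [], saveS h n ps, una (n - 16), inp, in2⟩ : GS E))
  have e8 := mulHP_spec (J := J) (⟨bits (bmat (h * csqrt n * csqrt n) (csqrt n) (nextf n f)), [],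
    [], [], [], [], una (h * csqrt n), [], una (csqrt n), [], una m, una (csqrt n * csqrt n),
    una d, [], [], [], saveS h n ps, una (n - 16), inp, in2⟩ : GS E) (h * csqrt n) (csqrt n)
    (Nat.mul_pos hh hp) hp rfl rfl rfl rfl rfl
  have e9 := Runs.rev (i := (.inl .PP : Loc J)) (j := .inl .NN) (by simp)
    (gst (⟨bits (bmat (h * csqrt n * csqrt n) (csqrt n) (nextf n f)), [],
    [], [], [], [], una (h * csqrt n * csqrt n), [], una (csqrt n), [], una m,
    una (csqrt n * csqrt n),
    una d, [], [], [], saveS h n ps, una (n - 16), inp, in2⟩ : GS E))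
  have e10 := Runs.clear (.inl .P1 : Loc J)
    (gst (⟨bits (bmat (h * csqrt n * csqrt n) (csqrt n) (nextf n f)), [],
    [], [], [], [], una (h * csqrt n * csqrt n), una (csqrt n), [], [], una m,
    una (csqrt n * csqrt n),
    una d, [], [], [], saveS h n ps, una (n - 16), inp, in2⟩ : GS E))
  have e11 := Runs.clear (.inl .P2 : Loc J)
    (gst (⟨bits (bmat (h * csqrt n * csqrt n) (csqrt n) (nextf n f)), [],
    [], [], [], [], una (h * csqrt n * csqrt n), una (csqrt n), [], [], una m,
    [],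
    una d, [], [], [], saveS h n ps, una (n - 16), inp, in2⟩ : GS E))
  have e12 := goP_spec (J := J)
    (⟨bits (bmat (h * csqrt n * csqrt n) (csqrt n) (nextf n f)), [],
    [], [], [], [], una (h * csqrt n * csqrt n), una (csqrt n), [], [], una m,
    [],
    [], [], [], [], saveS h n ps, una (n - 16), inp, in2⟩ : GS E) (csqrt n) (n - 16) rfl rfl rfl
  simp only [gst_mp, gset_mp, gst_pp, gset_pp, gst_nn, gset_nn, gst_p1, gset_p1, gst_p2, gset_p2,
    reverse_una, length_una, List.append_nil] at e5 e7 e9 e10 e11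
  refine (e1.seq (e2.seq (e3.seq (e4.seq (e5.seq (e6.seq (e7.seq (e8.seq (e9.seq (e10.seq
    (e11.seq e12))))))))))).mono ?_
  have h1 : 1 ≤ csqrt n * csqrt n := Nat.mul_pos hp hp
  have a1 : csqrt n * csqrt n ≤ h * (csqrt n * csqrt n * (csqrt n * csqrt n)) := by
    calc csqrt n * csqrt n = 1 * (csqrt n * csqrt n * 1) := by ring
      _ ≤ _ := by gcongr
  have a2 : h ≤ h * (csqrt n * csqrt n * (csqrt n * csqrt n)) :=
    Nat.le_mul_of_pos_right _ (Nat.mul_pos h1 h1)
  have a3 : csqrt n ≤ csqrt n * csqrt n := Nat.le_mul_of_pos_right _ hp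
  have a4 : h * csqrt n ≤ h * csqrt n * csqrt n := Nat.le_mul_of_pos_right _ hp
  have a5 : h * csqrt n * csqrt n ≤ h * (csqrt n * csqrt n * (csqrt n * csqrt n)) := by
    calc h * csqrt n * csqrt n = h * (csqrt n * csqrt n * 1) := by ring
      _ ≤ _ := by gcongr
  have a6 : (C + 300) * (m + min (T m) (m * rho (csqrt n))) =
    C * (m + min (T m) (m * rho (csqrt n))) + 300 * m + 300 * min (T m) (m * rho (csqrt n)) := by
      ring
  rw [a6]
  generalize C * (m + min (T m) (m * rho (csqrt n))) = z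
  generalize min (T m) (m * rho (csqrt n)) = z'
  omega

/-- First half of the up step: exchange the digits `1` and `2`. -/
def upP1 (swap : Pr J E) : Pr J E :=
  restP.seq (csq.seq ((Prog.copyOnto (.inl .PP) (.inl .MP) (.inl .T)).seq (swap.seq
    ((Prog.clear (.inl .MP)).seq ((Prog.push (.inl .MP) mk).seq
      ((Prog.copyOnto (.inl .HH) (.inl .P5) (.inl .T)).seq mulHP))))))

/-- Second half of the up step: exchange the digits `2` and `3`, unpad. -/
def upP2 (swap : Pr J E) : Pr J E :=
  swap.seq ((Prog.clear (.inl .HH)).seq ((Prog.rev (.inl .P5) (.inl .HH)).seq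
    ((Prog.pop (.inl .MP)).seq (unpAll.seq ((Prog.clear (.inl .PP)).seq
      ((Prog.clear (.inl .P1)).seq (Prog.clear (.inl .P2))))))))

/-- The up step: exchange the digits `1` and `2`, then `2` and `3`, unpad. -/
def upP (swap : Pr J E) : Pr J E := (upP1 swap).seq (upP2 swap)

/-- The store between the up steps. -/
def ust (m : ℕ) (inp in2 : List (SSym E)) (h n : ℕ) (w : List Bool) (ps : List (SSym E)) :
    GS E :=
  ⟨bits w, [], [], [], [], [], una h, una n, [], [], una m, [], [], [], [], [], ps,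
    [], inp, in2⟩

theorem upP1_spec {swap : Pr J E} {T : ℕ → ℕ} {C : ℕ} (hswap : SwapSpec swap T C)
    (m : ℕ) (inp in2 : List (SSym E)) (h n : ℕ) (f : ℕ → ℕ → ℕ → Bool) (ps : List (SSym E))
    (hl : 16 < n) (hh : 1 ≤ h) (hm2 : mulSize h (csqrt n) (csqrt n) ≤ m) :
    Runs (upP1 swap)
      (gst ⟨bits (data h (csqrt n) (ent2 n f)), [], [], [], [], [],
        una (h * csqrt n * csqrt n), una (csqrt n), [], [],
        una m, [], [], [], [], [], saveS h n ps, [], inp, in2⟩)
      (gst ⟨bits (data (h * csqrt n) (csqrt n) (ent3 n f)), [], [], [], [], [],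
        una (h * csqrt n), una n, una (csqrt n), una 1,
        una m, una (csqrt n * csqrt n), una (csqrt n * csqrt n - n), [], [], una h, ps, [], inp,
        in2⟩)
      (C * (m + min (T m) (m * rho (csqrt n))) +
        200 * (h * (csqrt n * csqrt n * (csqrt n * csqrt n)))) := by
  obtain ⟨d, hd⟩ : ∃ d, csqrt n * csqrt n = n + d := ⟨_, (Nat.add_sub_cancel' (le_csqrt_sq n)).symm⟩
  have hd' : csqrt n * csqrt n - n = d := by omega
  have hp := csqrt_pos n
  rw [hd']
  have e1 := restP_spec (J := J) (⟨bits (data h (csqrt n) (ent2 n f)), [], [], [], [], [],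
    una (h * csqrt n * csqrt n), una (csqrt n), [], [],
    una m, [], [], [], [], [], saveS h n ps, [], inp, in2⟩ : GS E) h n (h * csqrt n * csqrt n)
    (csqrt n) ps rfl rfl rfl
  have e2 := csq_spec (J := J) (⟨bits (data h (csqrt n) (ent2 n f)), [], [], [], [], [],
    una h, una n, [], [],
    una m, [], [], [], [], [], ps, [], inp, in2⟩ : GS E)
    ⟨rfl, rfl, rfl, rfl, rfl, rfl, rfl, rfl, rfl, rfl, rfl, rfl⟩ (n := n) (by omega) rfl
  rw [hd'] at e2
  have e3 := Runs.copyOnto (a := (.inl .PP : Loc J)) (b := .inl .MP) (t := .inl .T) (by simp)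
    (by simp) (by simp)
    (gst (⟨bits (data h (csqrt n) (ent2 n f)), [], [], [], [], [],
      una h, una n, una (csqrt n), [],
      una m, una (csqrt n * csqrt n), una d, [], [], [], ps, [], inp, in2⟩ : GS E)) rfl
  have e4 := swap_use hswap [] (una h) (una n) (una (csqrt n)) (una (csqrt n)) (una m)
    (una (csqrt n * csqrt n)) (una d) [] [] [] ps [] inp in2 rfl
    h (csqrt n) (csqrt n) m (ent2 n f) hh hp hp hm2
    (fun a _ i _ j _ => length_ent2 n f a i j) rfl rfl rfl rfl
  rw [level_d h n f] at e4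
  have e5 := Runs.clear (.inl .MP : Loc J)
    (gst (⟨bits (data (h * csqrt n) (csqrt n) (ent3 n f)), [], [], [], [], [],
      una h, una n, una (csqrt n), una (csqrt n),
      una m, una (csqrt n * csqrt n), una d, [], [], [], ps, [], inp, in2⟩ : GS E))
  have e6 := Runs.push (.inl .MP : Loc J) mk
    (gst (⟨bits (data (h * csqrt n) (csqrt n) (ent3 n f)), [], [], [], [], [],
      una h, una n, una (csqrt n), [],
      una m, una (csqrt n * csqrt n), una d, [], [], [], ps, [], inp, in2⟩ : GS E))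
  have e7 := Runs.copyOnto (a := (.inl .HH : Loc J)) (b := .inl .P5) (t := .inl .T) (by simp)
    (by simp) (by simp)
    (gst (⟨bits (data (h * csqrt n) (csqrt n) (ent3 n f)), [], [], [], [], [],
      una h, una n, una (csqrt n), una 1,
      una m, una (csqrt n * csqrt n), una d, [], [], [], ps, [], inp, in2⟩ : GS E)) rfl
  have e8 := mulHP_spec (J := J) (⟨bits (data (h * csqrt n) (csqrt n) (ent3 n f)), [], [], [],
    [], [], una h, una n, una (csqrt n), una 1,
      una m, una (csqrt n * csqrt n), una d, [], [], una h, ps, [], inp, in2⟩ : GS E) h (csqrt n)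
      hh hp rfl rfl rfl rfl rfl
  simp only [gst_mp, gset_mp, gst_pp, gst_hh, gst_p5, gset_p5,
    length_una, List.append_nil] at e3 e5 e6 e7
  refine (e1.seq (e2.seq (e3.seq (e4.seq (e5.seq (e6.seq (e7.seq e8))))))).mono ?_
  have h1 : 1 ≤ csqrt n * csqrt n := Nat.mul_pos hp hp
  have a1 : csqrt n * csqrt n ≤ h * (csqrt n * csqrt n * (csqrt n * csqrt n)) := by
    calc csqrt n * csqrt n = 1 * (csqrt n * csqrt n * 1) := by ring
      _ ≤ _ := by gcongr
  have a2 : h ≤ h * (csqrt n * csqrt n * (csqrt n * csqrt n)) :=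
    Nat.le_mul_of_pos_right _ (Nat.mul_pos h1 h1)
  have a3 : csqrt n ≤ csqrt n * csqrt n := Nat.le_mul_of_pos_right _ hp
  have a4 : h * csqrt n ≤ h * csqrt n * csqrt n := Nat.le_mul_of_pos_right _ hp
  have a5 : h * csqrt n * csqrt n ≤ h * (csqrt n * csqrt n * (csqrt n * csqrt n)) := by
    calc h * csqrt n * csqrt n = h * (csqrt n * csqrt n * 1) := by ring
      _ ≤ _ := by gcongr
  generalize C * (m + min (T m) (m * rho (csqrt n))) = z
  generalize h * (csqrt n * csqrt n * (csqrt n * csqrt n)) = w at *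
  omega

theorem upP2_spec {swap : Pr J E} {T : ℕ → ℕ} {C : ℕ} (hswap : SwapSpec swap T C)
    (m : ℕ) (inp in2 : List (SSym E)) (h n : ℕ) (f : ℕ → ℕ → ℕ → Bool) (ps : List (SSym E))
    (hl : 16 < n) (hh : 1 ≤ h) (hm1 : mulSize (h * csqrt n) (csqrt n) 1 ≤ m) :
    Runs (upP2 swap)
      (gst ⟨bits (data (h * csqrt n) (csqrt n) (ent3 n f)), [], [], [], [], [],
        una (h * csqrt n), una n, una (csqrt n), una 1,
        una m, una (csqrt n * csqrt n), una (csqrt n * csqrt n - n), [], [], una h, ps, [], inp,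
        in2⟩)
      (gst ⟨bits (bmat h n (trf f)), [], [], [], [], [], una h, una n, [], [],
        una m, [], [], [], [], [], ps, [], inp, in2⟩)
      (C * (m + min (T m) (m * rho (csqrt n))) +
        200 * (h * (csqrt n * csqrt n * (csqrt n * csqrt n)))) := by
  obtain ⟨d, hd⟩ : ∃ d, csqrt n * csqrt n = n + d := ⟨_, (Nat.add_sub_cancel' (le_csqrt_sq n)).symm⟩
  have hd' : csqrt n * csqrt n - n = d := by omega
  have hp := csqrt_pos n
  rw [hd']
  have e9 := swap_use hswap [] (una (h * csqrt n)) (una n) (una (csqrt n)) (una 1) (una m)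
    (una (csqrt n * csqrt n)) (una d) [] [] (una h) ps [] inp in2 rfl
    (h * csqrt n) (csqrt n) 1 m (ent3 n f) (Nat.mul_pos hh hp) hp le_rfl hm1
    (fun a _ i _ j _ => length_ent3 n f a i j) rfl rfl rfl rfl
  rw [level_e h n f] at e9
  have e10 := Runs.clear (.inl .HH : Loc J)
    (gst (⟨bits (bmat h (csqrt n * csqrt n) (trf (padf n f))), [], [], [], [], [],
      una (h * csqrt n), una n, una (csqrt n), una 1,
      una m, una (csqrt n * csqrt n), una d, [], [], una h, ps, [], inp, in2⟩ : GS E))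
  have e11 := Runs.rev (i := (.inl .P5 : Loc J)) (j := .inl .HH) (by simp)
    (gst (⟨bits (bmat h (csqrt n * csqrt n) (trf (padf n f))), [], [], [], [], [],
      [], una n, una (csqrt n), una 1,
      una m, una (csqrt n * csqrt n), una d, [], [], una h, ps, [], inp, in2⟩ : GS E))
  have e12 := Runs.pop (.inl .MP : Loc J)
    (gst (⟨bits (bmat h (csqrt n * csqrt n) (trf (padf n f))), [], [], [], [], [],
      una h, una n, una (csqrt n), una 1,
      una m, una (csqrt n * csqrt n), una d, [], [], [], ps, [], inp, in2⟩ : GS E))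
  have e13 := unpAll_spec (J := J) (⟨bits (bmat h (csqrt n * csqrt n) (trf (padf n f))), [], [],
    [], [], [], una h, una n, una (csqrt n), [],
      una m, una (csqrt n * csqrt n), una d, [], [], [], ps, [], inp, in2⟩ : GS E)
    rfl rfl rfl rfl rfl h n d (trf (padf n f)) (by omega) hh (by rw [← hd]) rfl rfl rfl
    (by rw [← hd])
  have e0 : bmat h n (trf (padf n f)) = bmat h n (trf f) :=
    bmat_congr fun a _ i hi j hj => by simp [trf, padf, hi, hj]
  rw [← hd, e0] at e13
  have e14 := Runs.clear (.inl .PP : Loc J)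
    (gst (⟨bits (bmat h n (trf f)), [], [], [], [], [],
      una h, una n, una (csqrt n), [],
      una m, una (csqrt n * csqrt n), una d, [], [], [], ps, [], inp, in2⟩ : GS E))
  have e15 := Runs.clear (.inl .P1 : Loc J)
    (gst (⟨bits (bmat h n (trf f)), [], [], [], [], [],
      una h, una n, [], [],
      una m, una (csqrt n * csqrt n), una d, [], [], [], ps, [], inp, in2⟩ : GS E))
  have e16 := Runs.clear (.inl .P2 : Loc J)
    (gst (⟨bits (bmat h n (trf f)), [], [], [], [], [],
      una h, una n, [], [],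
      una m, [], una d, [], [], [], ps, [], inp, in2⟩ : GS E))
  simp only [gst_mp, gset_mp, gst_pp, gset_pp, gst_hh, gset_hh, gst_p5, gset_p5, gst_p1, gset_p1,
    gst_p2, gset_p2, reverse_una, length_una, List.append_nil] at e10 e11 e12 e14 e15 e16
  refine (e9.seq (e10.seq (e11.seq (e12.seq (e13.seq (e14.seq (e15.seq e16))))))).mono ?_
  have h1 : 1 ≤ csqrt n * csqrt n := Nat.mul_pos hp hp
  have a1 : csqrt n * csqrt n ≤ h * (csqrt n * csqrt n * (csqrt n * csqrt n)) := by
    calc csqrt n * csqrt n = 1 * (csqrt n * csqrt n * 1) := by ring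
      _ ≤ _ := by gcongr
  have a2 : h ≤ h * (csqrt n * csqrt n * (csqrt n * csqrt n)) :=
    Nat.le_mul_of_pos_right _ (Nat.mul_pos h1 h1)
  have a3 : csqrt n ≤ csqrt n * csqrt n := Nat.le_mul_of_pos_right _ hp
  have a4 : h * csqrt n ≤ h * csqrt n * csqrt n := Nat.le_mul_of_pos_right _ hp
  have a5 : h * csqrt n * csqrt n ≤ h * (csqrt n * csqrt n * (csqrt n * csqrt n)) := by
    calc h * csqrt n * csqrt n = h * (csqrt n * csqrt n * 1) := by ring
      _ ≤ _ := by gcongr
  generalize C * (m + min (T m) (m * rho (csqrt n))) = z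
  generalize h * (csqrt n * csqrt n * (csqrt n * csqrt n)) = w at *
  omega

theorem upP_spec {swap : Pr J E} {T : ℕ → ℕ} {C : ℕ} (hswap : SwapSpec swap T C)
    (m : ℕ) (inp in2 : List (SSym E)) (l : Lev) (ps : List (SSym E)) (hl : 16 < l.n)
    (hh : 1 ≤ l.h) (hm : l.h * (csqrt l.n * csqrt l.n * (csqrt l.n * csqrt l.n)) ≤ m)
    (hm1 : mulSize (l.h * csqrt l.n) (csqrt l.n) 1 ≤ m)
    (hm2 : mulSize l.h (csqrt l.n) (csqrt l.n) ≤ m) :
    Runs (upP swap) (gst (ust m inp in2 l.next.h l.next.n l.next.y (saveS l.h l.n ps)))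
      (gst (ust m inp in2 l.h l.n l.y ps))
      ((2 * C + 401) * (m + min (T m) (m * rho (csqrt l.n)))) := by
  obtain ⟨h, n, f⟩ := l
  dsimp only at hl hh hm hm1 hm2 ⊢
  unfold ust Lev.y Lev.next
  dsimp only
  rw [level_c h n f]
  have e1 := upP1_spec hswap m inp in2 h n f ps hl hh hm2
  have e2 := upP2_spec hswap m inp in2 h n f ps hl hh hm1
  refine (e1.seq e2).mono ?_
  have hp := csqrt_pos n
  have h1 : 1 ≤ csqrt n * csqrt n := Nat.mul_pos hp hp
  have a2 : 1 ≤ h * (csqrt n * csqrt n * (csqrt n * csqrt n)) :=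
    Nat.mul_pos hh (Nat.mul_pos h1 h1)
  have a6 : (2 * C + 401) * (m + min (T m) (m * rho (csqrt n))) =
    C * (m + min (T m) (m * rho (csqrt n))) + C * (m + min (T m) (m * rho (csqrt n))) +
      401 * m + 401 * min (T m) (m * rho (csqrt n)) := by
      ring
  rw [a6]
  generalize C * (m + min (T m) (m * rho (csqrt n))) = z
  generalize min (T m) (m * rho (csqrt n)) = z'
  generalize h * (csqrt n * csqrt n * (csqrt n * csqrt n)) = w at *
  omega

/-- The base: small matrices. -/
def baseP (naive : Pr J E) : Pr J E :=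
  (Prog.copyOnto (.inl .NN) (.inl .PP) (.inl .T)).seq ((Prog.push (.inl .MU) mk).seq
    (naive.seq ((Prog.clear (.inl .PP)).seq (Prog.pop (.inl .MU)))))

theorem rho_small {n : ℕ} (hn : n ≤ 16) : rho n ≤ 4 := by
  unfold rho
  have h1 : (n - 1) / 4 < 2 ^ 2 := by omega
  have := Nat.size_le.2 h1
  omega

theorem baseP_spec {naive : Pr J E} {C : ℕ} (hnaive : NaiveHyp naive C)
    (m : ℕ) (inp in2 : List (SSym E)) (l : Lev) (ps : List (SSym E)) (hl : l.n ≤ 16)
    (hn : 1 ≤ l.n) (hh : 1 ≤ l.h) (hm : l.h ≤ m) :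
    Runs (baseP naive) (gst (lst m inp in2 l.h l.n l.x ps))
      (gst (ust m inp in2 l.h l.n l.y ps)) ((1024 * C + 200) * m) := by
  obtain ⟨h, n, f⟩ := l
  dsimp only at hl hh hn hm ⊢
  unfold lst ust Lev.x Lev.y
  dsimp only
  have h0 : n - 16 = 0 := by omega
  rw [h0, una_zero]
  have e1 := Runs.copyOnto (a := (.inl .NN : Loc J)) (b := .inl .PP) (t := .inl .T) (by simp)
    (by simp) (by simp)
    (gst (⟨bits (bmat h n f), [], [], [], [], [], una h, una n, [], [], una m, [], [], [], [], [],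
      ps, [], inp, in2⟩ : GS E)) rfl
  have e2 := Runs.push (.inl .MU : Loc J) mk
    (gst (⟨bits (bmat h n f), [], [], [], [], [], una h, una n, una n, [], una m, [], [], [], [],
      [], ps, [], inp, in2⟩ : GS E))
  have e3 := hnaive h n 1 (fun a i j => [f a i j])
    (gst (⟨bits (bmat h n f), [], [], [], [], una 1, una h, una n, una n, [], una m, [], [], [],
      [], [], ps, [], inp, in2⟩ : GS E)) hh hn le_rfl (fun _ _ _ _ _ _ => rfl) (fun _ => rfl)
    (by
      intro r hr hr'
      cases r <;> first | rfl | (exfalso; revert hr hr'; decide))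
    rfl rfl rfl rfl
  have e4 := Runs.clear (.inl .PP : Loc J)
    (gst (⟨bits (bmat h n (trf f)), [], [], [], [], una 1, una h, una n, una n, [], una m, [], [],
      [], [], [], ps, [], inp, in2⟩ : GS E))
  have e5 := Runs.pop (.inl .MU : Loc J)
    (gst (⟨bits (bmat h n (trf f)), [], [], [], [], una 1, una h, una n, [], [], una m, [], [],
      [], [], [], ps, [], inp, in2⟩ : GS E))
  simp only [St.set, gst_pp, gset_pp, gst_mu, gset_mu, gst_nn, gset_x, length_una,
    List.append_nil] at e1 e2 e3 e4 e5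
  refine (e1.seq (e2.seq (e3.seq (e4.seq e5)))).mono ?_
  have h1 := rho_small hl
  have h2 : rr n ≤ 16 := by
    unfold rr
    calc 2 ^ rho n ≤ 2 ^ 4 := Nat.pow_le_pow_right (by norm_num) h1
      _ = 16 := by norm_num
  have h3 : C * (h * rr n ^ 2 * 1 * rho n) ≤ 1024 * C * m := by
    calc C * (h * rr n ^ 2 * 1 * rho n) ≤ C * (m * 16 ^ 2 * 1 * 4) := by gcongr
      _ = 1024 * C * m := by ring
  have h4 : (1024 * C + 200) * m = 1024 * C * m + 200 * m := by ring
  omega

/-! ### The whole program -/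

/-- The program for the levels. -/
def coreP (swap naive : Pr J E) : Pr J E :=
  goP.seq ((Prog.loop (nonempty (.inl .GO)) (downP swap)).seq ((baseP naive).seq
    (Prog.loop (nonempty (.inl .PST)) (upP swap))))

/-- The parameter stack at level `k`. -/
def psk (l : Lev) (k : ℕ) : List (SSym E) :=
  Nat.rec [] (fun i ps => saveS (lev l i).h (lev l i).n ps) k

theorem psk_zero (l : Lev) : (psk l 0 : List (SSym E)) = [] := rfl

theorem psk_succ (l : Lev) (k : ℕ) :
    (psk l (k + 1) : List (SSym E)) = saveS (lev l k).h (lev l k).n (psk l k) := rfl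

theorem psk_ne (l : Lev) (k : ℕ) : (psk l (k + 1) : List (SSym E)) ≠ [] := by
  rw [psk_succ]
  unfold saveS
  simp

theorem lev_h_pos {l : Lev} (hh : 1 ≤ l.h) (k : ℕ) : 1 ≤ (lev l k).h := by
  induction k with
  | zero => exact hh
  | succ k ih =>
    rw [lev_succ]
    exact Nat.mul_pos (Nat.mul_pos ih (csqrt_pos _)) (csqrt_pos _)

theorem lev_n_pos {l : Lev} (hn : 1 ≤ l.n) (k : ℕ) : 1 ≤ (lev l k).n := by
  rcases k with _ | k
  · exact hn
  · rw [lev_succ]
    exact csqrt_pos _

theorem lev_n (l : Lev) (k : ℕ) : (lev l k).n = csqrt^[k] l.n := by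
  induction k with
  | zero => rfl
  | succ k ih =>
    rw [lev_succ, Function.iterate_succ_apply', ← ih]
    rfl

theorem exists_depth' (n : ℕ) : ∃ L, (∀ k < L, 16 < csqrt^[k] n) ∧ csqrt^[L] n ≤ 16 := by
  obtain ⟨L, h1, h2⟩ := exists_depth ⟨1, n, fun _ _ _ => false⟩
  refine ⟨L, fun k hk => ?_, ?_⟩
  · have := h1 k hk
    rwa [lev_n] at this
  · rwa [lev_n] at h2

/-- The number of levels for `n × n` matrices. -/
noncomputable def depth (n : ℕ) : ℕ := (exists_depth' n).choose

theorem depth_spec (n : ℕ) : (∀ k < depth n, 16 < csqrt^[k] n) ∧ csqrt^[depth n] n ≤ 16 :=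
  (exists_depth' n).choose_spec

/-- The time for the levels, up to a constant: `T` is the time for multiplications, `m` their
size. -/
noncomputable def levTime (T : ℕ → ℕ) (n m : ℕ) : ℕ :=
  m + ∑ k ∈ Finset.range (depth n), (m + min (T m) (m * rho (csqrt (csqrt^[k] n))))

theorem coreP_spec {swap naive : Pr J E} {T : ℕ → ℕ} {C₁ C₂ : ℕ} (hswap : SwapSpec swap T C₁)
    (hnaive : NaiveHyp naive C₂) (n m : ℕ) (f : ℕ → ℕ → ℕ → Bool) (inp in2 : List (SSym E))
    (hn : 1 ≤ n) (hm : 1920 * n ^ 2 ≤ m) :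
    Runs (coreP swap naive) (gst (ust m inp in2 1 n (bmat 1 n f) []))
      (gst (ust m inp in2 1 n (bmat 1 n (trf f)) []))
      ((3 * C₁ + 1024 * C₂ + 1000) * levTime T n m) := by
  set l : Lev := ⟨1, n, f⟩ with hl
  have hL := depth_spec n
  set L := depth n with hLdef
  have hnk : ∀ k, (lev l k).n = csqrt^[k] n := fun k => lev_n l k
  have hLk : ∀ k < L, 16 < (lev l k).n := fun k hk => by rw [hnk]; exact hL.1 k hk
  have hm' : 1920 * (l.h * (l.n * l.n)) ≤ m := by
    rw [hl]
    dsimp only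
    calc 1920 * (1 * (n * n)) = 1920 * n ^ 2 := by ring
      _ ≤ m := hm
  have hn2 : n ≤ m := by
    have : n ≤ n ^ 2 := Nat.le_self_pow (by norm_num) n
    omega
  have hhp : ∀ k, 1 ≤ (lev l k).h := fun k => lev_h_pos (by rw [hl]) k
  have hnp : ∀ k, 1 ≤ (lev l k).n := fun k => lev_n_pos (by rw [hl]; exact hn) k
  have hsz : ∀ k < L, (lev l k).h *
      (csqrt (lev l k).n * csqrt (lev l k).n * (csqrt (lev l k).n * csqrt (lev l k).n)) ≤ m := by
    intro k hk
    have h1 := @lev_size l (k + 1) (fun i hi => hLk i (by omega))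
    rw [lev_succ] at h1
    have h2 : (lev l k).next.h * ((lev l k).next.n * (lev l k).next.n) = (lev l k).h *
      (csqrt (lev l k).n * csqrt (lev l k).n * (csqrt (lev l k).n * csqrt (lev l k).n)) := by
      change (lev l k).h * csqrt (lev l k).n * csqrt (lev l k).n *
        (csqrt (lev l k).n * csqrt (lev l k).n) = _
      ring
    omega
  have hms : ∀ k < L, mulSize ((lev l k).h * csqrt (lev l k).n) (csqrt (lev l k).n) 1 ≤ m ∧
      mulSize (lev l k).h (csqrt (lev l k).n) (csqrt (lev l k).n) ≤ m := by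
    intro k hk
    have h1 := @mulSize_le l k (fun i hi => hLk i (by omega))
    exact ⟨h1.1.trans hm', h1.2.trans hm'⟩
  have hhL : (lev l L).h ≤ m := by
    have h1 := @lev_size l L hLk
    have h2 : (lev l L).h ≤ (lev l L).h * ((lev l L).n * (lev l L).n) :=
      Nat.le_mul_of_pos_right _ (Nat.mul_pos (hnp L) (hnp L))
    omega
  have e1 := goP_spec (J := J) (ust m inp in2 1 n (bmat 1 n f) []) n 0 rfl rfl rfl
  have e2 := Runs.loop_iter (c := nonempty (.inl .GO : Loc J)) (p := downP swap) L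
    (fun k => gst (lst m inp in2 (lev l k).h (lev l k).n (lev l k).x (psk l k)))
    (fun k => (C₁ + 300) * (m + min (T m) (m * rho (csqrt (lev l k).n))))
    (by
      intro k hk
      have h1 := hLk k hk
      obtain ⟨i, hi⟩ : ∃ i, (lev l k).n - 16 = i + 1 := ⟨(lev l k).n - 17, by omega⟩
      simp [lst, hi, una_succ])
    (by
      have h1 := hL.2
      rw [← hnk] at h1
      have h2 : (lev l L).n - 16 = 0 := by omega
      simp [lst, h2])
    (by
      intro k hk
      have h1 := downP_spec hswap m inp in2 (lev l k) (psk l k) (hLk k hk) (hhp k) (hsz k hk)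
        (hms k hk).1
      rw [← lev_succ] at h1
      exact h1)
  have e3 := baseP_spec hnaive m inp in2 (lev l L) (psk l L) (by rw [hnk]; exact hL.2) (hnp L)
    (hhp L) hhL
  have e4 := Runs.loop_iter (c := nonempty (.inl .PST : Loc J)) (p := upP swap) L
    (fun k => gst (ust m inp in2 (lev l (L - k)).h (lev l (L - k)).n (lev l (L - k)).y
      (psk l (L - k))))
    (fun k => (2 * C₁ + 401) * (m + min (T m) (m * rho (csqrt (lev l (L - (k + 1))).n))))
    (by
      intro k hk
      obtain ⟨i, hi⟩ : ∃ i, L - k = i + 1 := ⟨L - k - 1, by omega⟩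
      have h1 := psk_ne (E := E) l i
      rw [nonempty_tops]
      simp only [ust, gst_pst, hi]
      cases h2 : (psk l (i + 1) : List (SSym E)) with
      | nil => exact absurd h2 h1
      | cons a b => rfl)
    (by simp [ust, psk_zero])
    (by
      intro k hk
      obtain ⟨i, hi⟩ : ∃ i, L - k = i + 1 := ⟨L - k - 1, by omega⟩
      have hi' : L - (k + 1) = i := by omega
      have hiL : i < L := by omega
      have h1 := upP_spec hswap m inp in2 (lev l i) (psk l i) (hLk i hiL) (hhp i) (hsz i hiL)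
        (hms i hiL).1 (hms i hiL).2
      rw [← lev_succ, ← psk_succ] at h1
      rw [hi, hi']
      exact h1)
  rw [Nat.sub_zero, Nat.sub_self] at e4
  have e0 : ({ ust m inp in2 1 n (bmat 1 n f) [] with go := una (n - 16) } : GS E) =
      lst m inp in2 (lev l 0).h (lev l 0).n (lev l 0).x (psk l 0) := rfl
  rw [e0] at e1
  refine (e1.seq (e2.seq (e3.seq e4))).mono ?_
  have s1 : ∑ k ∈ Finset.range L,
      ((2 * C₁ + 401) * (m + min (T m) (m * rho (csqrt (lev l (L - (k + 1))).n))) + 2) =
      ∑ k ∈ Finset.range L,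
        ((2 * C₁ + 401) * (m + min (T m) (m * rho (csqrt (lev l k).n))) + 2) := by
    rw [← Finset.sum_range_reflect]
    refine Finset.sum_congr rfl fun k hk => ?_
    rw [Finset.mem_range] at hk
    have : L - (L - 1 - k + 1) = k := by omega
    rw [this]
  rw [s1]
  have s2 : levTime T n m = m + ∑ k ∈ Finset.range L,
      (m + min (T m) (m * rho (csqrt (lev l k).n))) := by
    unfold levTime
    rw [← hLdef]
    simp only [hnk]
  rw [s2]
  set S := ∑ k ∈ Finset.range L, (m + min (T m) (m * rho (csqrt (lev l k).n))) with hS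
  have s3 : ∑ k ∈ Finset.range L,
      ((C₁ + 300) * (m + min (T m) (m * rho (csqrt (lev l k).n))) + 2) = (C₁ + 300) * S + L * 2 := by
    rw [Finset.sum_add_distrib, ← Finset.mul_sum, ← hS]
    simp
  have s4 : ∑ k ∈ Finset.range L,
      ((2 * C₁ + 401) * (m + min (T m) (m * rho (csqrt (lev l k).n))) + 2) =
      (2 * C₁ + 401) * S + L * 2 := by
    rw [Finset.sum_add_distrib, ← Finset.mul_sum, ← hS]
    simp
  rw [s3, s4]
  have hm1 : 1 ≤ m := by omega
  have s5 : L ≤ S := by
    rw [hS]
    calc L = ∑ k ∈ Finset.range L, 1 := by simp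
      _ ≤ _ := Finset.sum_le_sum fun k _ => by omega
  have s6 : (3 * C₁ + 1024 * C₂ + 1000) * (m + S) = (C₁ + 300) * S + (2 * C₁ + 401) * S +
      (1024 * C₂ + 200) * m + (3 * C₁ + 800) * m + (1024 * C₂ + 299) * S := by ring
  rw [s6]
  have s7 : (3 * C₁ + 800) * m = 3 * C₁ * m + 800 * m := by ring
  have s8 : (1024 * C₂ + 299) * S = 1024 * C₂ * S + 299 * S := by ring
  rw [s7, s8]
  generalize (C₁ + 300) * S = z1
  generalize (2 * C₁ + 401) * S = z2
  generalize (1024 * C₂ + 200) * m = z3
  generalize 3 * C₁ * m = z4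
  generalize 1024 * C₂ * S = z5
  omega

end Vale.Agent.P338.Lv
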