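import Vale.Agent.P338.GStore

/-!
# P338: the program for the levels
-/

namespace Vale.Agent.P338.Lv

variable {J E : Type} [DecidableEq J]

/-- All scratch stacks are empty. -/
structure GS.Ok (g : GS E) : Prop where
  out : g.out = []
  t : g.t = []
  s : g.s = []
  v0 : g.v0 = []
  mu : g.mu = []
  pp : g.pp = []
  mp : g.mp = []
  p1 : g.p1 = []
  p2 : g.p2 = []
  p3 : g.p3 = []
  p4 : g.p4 = []
  p5 : g.p5 = []

theorem una_succ (n : ℕ) : (una (n + 1) : List (SSym E)) = mk :: una n := rfl

@[simp] theorem una_zero : (una 0 : List (SSym E)) = [] := rfl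

@[simp] theorem una_append (m n : ℕ) : (una m ++ una n : List (SSym E)) = una (m + n) := by
  simp [una]

@[simp] theorem reverse_una (n : ℕ) : (una n : List (SSym E)).reverse = una n := by
  simp [una]

theorem rep_una (m n : ℕ) : rep m (una n : List (SSym E)) = una (m * n) := by
  induction m with
  | zero => simp
  | succ m ih => rw [rep_succ, ih, una_append]; congr 1; ring

/-! ### The ceiling of the square root -/

/-- Count one unit. -/
def csqUnit : Pr J E :=
  (Prog.push (.inl .P1) mk).seq
    (Prog.ite (nonempty (.inl .P3)) (Prog.pop (.inl .P3)) (Prog.push (.inl .P2) mk))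

theorem csqUnit_spec (g : GS E) (n i : ℕ) :
    Runs (csqUnit : Pr J E) (gst { g with p1 := una i, p2 := una (i - n), p3 := una (n - i) })
      (gst { g with p1 := una (i + 1), p2 := una (i + 1 - n), p3 := una (n - (i + 1)) }) 4 := by
  have e1 := Runs.push (.inl .P1 : Loc J) mk
    (gst { g with p1 := una i, p2 := una (i - n), p3 := una (n - i) })
  simp only [gst_p1, gset_p1] at e1
  by_cases h : i < n
  · obtain ⟨k, hk⟩ : ∃ k, n - i = k + 1 := ⟨n - i - 1, by omega⟩
    have e2 := Runs.pop (.inl .P3 : Loc J)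
      (gst { g with p1 := mk :: una i, p2 := una (i - n), p3 := una (n - i) })
    have e3 := e1.seq (Runs.iteT (c := nonempty (.inl .P3)) (q := Prog.push (.inl .P2) mk)
      (by simp [hk, una_succ]) e2)
    refine (e3.mono (by norm_num)).of_eq ?_
    have h1 : i - n = 0 := by omega
    have h2 : i + 1 - n = 0 := by omega
    have h3 : n - (i + 1) = k := by omega
    simp [hk, una_succ, h1, h2, h3]
  · have e2 := Runs.push (.inl .P2 : Loc J) mk
      (gst { g with p1 := mk :: una i, p2 := una (i - n), p3 := una (n - i) })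
    have h0 : n - i = 0 := by omega
    have e3 := e1.seq (Runs.iteF (c := nonempty (.inl .P3)) (p := Prog.pop (.inl .P3))
      (by simp [h0]) e2)
    refine (e3.mono (by norm_num)).of_eq ?_
    have h1 : i + 1 - n = (i - n) + 1 := by omega
    have h2 : n - (i + 1) = 0 := by omega
    simp [h0, una_succ, h1, h2]

/-- One round: from `k ^ 2` to `(k + 1) ^ 2`. -/
def csqBody : Pr J E :=
  csqUnit.seq ((Prog.forr (.inl .PP) (.inl .T) (csqUnit.seq csqUnit)).seq
    (Prog.push (.inl .PP) mk))

theorem csqBody_spec (g : GS E) (n k : ℕ) (ht : g.t = []) :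
    Runs (csqBody : Pr J E)
      (gst { g with pp := una k, p1 := una (k * k), p2 := una (k * k - n), p3 := una (n - k * k) })
      (gst { g with
        pp := una (k + 1)
        p1 := una ((k + 1) * (k + 1))
        p2 := una ((k + 1) * (k + 1) - n)
        p3 := una (n - (k + 1) * (k + 1)) }) (16 * k + 8) := by
  have e1 := csqUnit_spec (J := J) { g with pp := una k } n (k * k)
  have e2 := Runs.forr' (u := (.inl .PP : Loc J)) (t := .inl .T) (by simp)
    (body := csqUnit.seq csqUnit) k mk
    (fun i => gst { g with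
      pp := una k
      p1 := una (k * k + 1 + 2 * i)
      p2 := una (k * k + 1 + 2 * i - n)
      p3 := una (n - (k * k + 1 + 2 * i)) }) (fun _ => 9)
    (by intro i _; rfl) (by intro i _; exact ht)
    (by
      intro i _ l l'
      have e3 := csqUnit_spec (J := J) { g with pp := l, t := l' } n (k * k + 1 + 2 * i)
      have e4 := csqUnit_spec (J := J) { g with pp := l, t := l' } n (k * k + 1 + 2 * i + 1)
      have e5 := e3.seq e4
      have h1 : k * k + 1 + 2 * (i + 1) = k * k + 1 + 2 * i + 1 + 1 := by ring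
      simp only [gset_pp, gset_t, h1]
      exact e5)
  have e3 := Runs.push (.inl .PP : Loc J) mk (gst { g with
      pp := una k
      p1 := una (k * k + 1 + 2 * k)
      p2 := una (k * k + 1 + 2 * k - n)
      p3 := una (n - (k * k + 1 + 2 * k)) })
  simp only [gst_pp, gset_pp] at e3
  have h1 : k * k + 1 + 2 * k = (k + 1) * (k + 1) := by ring
  have e4 := e1.seq (e2.seq e3)
  rw [h1] at e4
  refine e4.mono ?_
  simp only [Finset.sum_const, Finset.card_range, smul_eq_mul]
  omega

/-- Compute `p = csqrt n` on `PP`, `p ^ 2` on `P1`, `p ^ 2 - n` on `P2`. -/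
def csq : Pr J E :=
  (Prog.copyOnto (.inl .NN) (.inl .P3) (.inl .T)).seq (Prog.loop (nonempty (.inl .P3)) csqBody)

theorem csq_spec (g : GS E) (h : g.Ok) {n : ℕ} (hn : 1 ≤ n) (hg : g.nn = una n) :
    Runs (csq : Pr J E) (gst g)
      (gst { g with
        pp := una (csqrt n)
        p1 := una (csqrt n * csqrt n)
        p2 := una (csqrt n * csqrt n - n) }) (34 * (csqrt n * csqrt n)) := by
  have e1 := Runs.copyOnto (a := (.inl .NN : Loc J)) (b := .inl .P3) (t := .inl .T) (by simp)
    (by simp) (by simp) (gst g) (by simp [h.t])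
  have e2 := Runs.loop_iter (c := nonempty (.inl .P3 : Loc J)) (p := csqBody) (csqrt n)
    (fun k => gst { g with
      pp := una k, p1 := una (k * k), p2 := una (k * k - n), p3 := una (n - k * k) })
    (fun k => 16 * k + 8)
    (by
      intro k hk
      have h1 := lt_of_lt_csqrt hn hk
      obtain ⟨i, hi⟩ : ∃ i, n - k * k = i + 1 := ⟨n - k * k - 1, by omega⟩
      simp [hi, una_succ])
    (by
      have h1 := le_csqrt_sq n
      have h2 : n - csqrt n * csqrt n = 0 := by omega
      simp [h2])
    (by
      intro k _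
      exact csqBody_spec g n k h.t)
  have e0 : (Function.update (gst g : St J E) (Sum.inl R.P3)
      ((gst g : St J E) (Sum.inl R.NN) ++ (gst g : St J E) (Sum.inl R.P3))) =
      gst { g with
        pp := una 0, p1 := una (0 * 0), p2 := una (0 * 0 - n), p3 := una (n - 0 * 0) } := by
    have h1 := h.pp
    have h2 := h.p1
    have h3 := h.p2
    have h4 := h.p3
    cases g
    simp_all
  have e3 := (e1.of_eq e0).seq e2
  refine (e3.mono ?_).of_eq ?_
  · have h1 : ∑ k ∈ Finset.range (csqrt n), (16 * k + 8 + 2) ≤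
        ∑ k ∈ Finset.range (csqrt n), 26 * csqrt n := by
      refine Finset.sum_le_sum fun k hk => ?_
      rw [Finset.mem_range] at hk
      omega
    simp only [Finset.sum_const, Finset.card_range, smul_eq_mul] at h1
    have h2 := le_csqrt_sq n
    have h3 : csqrt n * (26 * csqrt n) = 26 * (csqrt n * csqrt n) := by ring
    simp only [gst_nn, hg, length_una]
    omega
  · have h1 := le_csqrt_sq n
    have h2 : n - csqrt n * csqrt n = 0 := by omega
    rw [h2, una_zero, ← h.p3]

/-! ### Padding and unpadding matrices of single bits -/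

theorem bits_append' (l l' : List Bool) :
    (bits (l ++ l') : List (SSym E)) = bits l ++ bits l' := by simp [bits]

theorem bits_cat (n : ℕ) (f : ℕ → List Bool) :
    (bits (cat n f) : List (SSym E)) = cat n fun i => bits (f i) := by
  unfold bits
  exact map_cat _ _ _

theorem bits_reverse' (l : List Bool) :
    (bits l.reverse : List (SSym E)) = (bits l).reverse := by simp [bits]

theorem bits_bmat (h n : ℕ) (f : ℕ → ℕ → ℕ → Bool) :
    (bits (bmat h n f) : List (SSym E)) =
      cat h fun a => cat n fun i => cat n fun j => [sb (f a i j)] := by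
  unfold bmat data
  simp only [bits_cat]
  rfl

/-- One row: `n` bits, `d` zeros. -/
def padRow : Pr J E :=
  (Prog.forr (.inl .P3) (.inl .T) (Prog.mov (.inl .X) (.inl .OUT))).seq
    (Prog.forr (.inl .P2) (.inl .T) (Prog.push (.inl .OUT) (sb false)))

/-- `n` rows and `d` rows of zeros. -/
def padBlock : Pr J E :=
  (Prog.forr (.inl .NN) (.inl .S) padRow).seq
    (Prog.forr (.inl .P2) (.inl .S)
      (Prog.forr (.inl .P1) (.inl .T) (Prog.push (.inl .OUT) (sb false))))

/-- Padding from `n × n` to `(n + d) × (n + d)`. -/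
def padAll : Pr J E :=
  (Prog.copyOnto (.inl .NN) (.inl .P3) (.inl .T)).seq
    ((Prog.forr (.inl .HH) (.inl .V0) padBlock).seq
      ((Prog.clear (.inl .P3)).seq (Prog.rev (.inl .OUT) (.inl .X))))

theorem padRow_str (s : St J E) (n d : ℕ) (w : ℕ → SSym E) (h3 : s (.inl .P3) = una n)
    (h2 : s (.inl .P2) = una d) (ht : s (.inl .T) = []) :
    Str (.inl .X) (.inl .OUT) padRow s (cat n fun j => [w j])
      ((cat n fun j => [w j]) ++ cat d fun _ => [sb false]) (8 * (n + d) + 3) := by
  have e1 := Str.forr (u := (.inl .P3 : Loc J)) (t := .inl .T) (x := .inl .X) (o := .inl .OUT)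
    (by simp) (by simp) (by simp) (by simp) (by simp)
    (body := Prog.mov (.inl .X) (.inl .OUT)) (s := s) n mk
    (fun j => [w j]) (fun j => [w j]) 1 h3 ht (fun k _ l l' => Str.mov (by simp) _ _)
  have e2 := Str.forr (u := (.inl .P2 : Loc J)) (t := .inl .T) (x := .inl .X) (o := .inl .OUT)
    (by simp) (by simp) (by simp) (by simp) (by simp)
    (body := Prog.push (.inl .OUT) (sb false)) (s := s) d mk
    (fun _ => []) (fun _ => [sb false]) 1 h2 ht (fun k _ l l' => Str.push _ _ _ _)
  refine ((e1.seq e2).of_eq ?_ rfl).mono ?_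
  · rw [cat_nil, List.append_nil]
  · omega

theorem padBlock_str (s : St J E) (n d : ℕ) (w : ℕ → ℕ → SSym E) (h3 : s (.inl .P3) = una n)
    (h2 : s (.inl .P2) = una d) (h1 : s (.inl .P1) = una (n + d)) (hn : s (.inl .NN) = una n)
    (ht : s (.inl .T) = []) (hs : s (.inl .S) = []) :
    Str (.inl .X) (.inl .OUT) padBlock s (cat n fun i => cat n fun j => [w i j])
      ((cat n fun i => (cat n fun j => [w i j]) ++ cat d fun _ => [sb false]) ++
        cat d fun _ => cat (n + d) fun _ => [sb false])
      ((n + d) * (8 * (n + d) + 10) + 3) := by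
  have e1 := Str.forr (u := (.inl .NN : Loc J)) (t := .inl .S) (x := .inl .X) (o := .inl .OUT)
    (by simp) (by simp) (by simp) (by simp) (by simp)
    (body := padRow) (s := s) n mk
    (fun i => cat n fun j => [w i j])
    (fun i => (cat n fun j => [w i j]) ++ cat d fun _ => [sb false]) (8 * (n + d) + 3) hn hs
    (fun k _ l l' => padRow_str _ n d _ (by simp [h3]) (by simp [h2]) (by simp [ht]))
  have e2 := Str.forr (u := (.inl .P2 : Loc J)) (t := .inl .S) (x := .inl .X) (o := .inl .OUT)
    (by simp) (by simp) (by simp) (by simp) (by simp)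
    (body := Prog.forr (.inl .P1) (.inl .T) (Prog.push (.inl .OUT) (sb false))) (s := s) d mk
    (fun _ => cat (n + d) fun _ => []) (fun _ => cat (n + d) fun _ => [sb false])
    ((n + d) * (1 + 7) + 1) h2 hs
    (fun k _ l l' => Str.forr (u := (.inl .P1 : Loc J)) (t := .inl .T) (x := .inl .X)
      (o := .inl .OUT) (by simp) (by simp) (by simp) (by simp) (by simp)
      (body := Prog.push (.inl .OUT) (sb false)) (n + d) mk
      (fun _ => []) (fun _ => [sb false]) 1 (by simp [h1]; rfl)
      (by simp [ht]) (fun k _ l l' => Str.push _ _ _ _))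
  refine ((e1.seq e2).of_eq ?_ rfl).mono ?_
  · simp only [cat_nil, List.append_nil]
  · have : (n + d) * (8 * (n + d) + 10) = n * (8 * (n + d) + 3 + 7) +
      d * ((n + d) * (1 + 7) + 1 + 7) + 2 * d := by ring
    omega

theorem bits_padf (h n d : ℕ) (f : ℕ → ℕ → ℕ → Bool) :
    (bits (bmat h (n + d) (padf n f)) : List (SSym E)) =
      cat h fun a => (cat n fun i => (cat n fun j => [sb (f a i j)]) ++ cat d fun _ => [sb false])
        ++ cat d fun _ => cat (n + d) fun _ => [sb false] := by
  rw [bits_bmat]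
  refine cat_congr fun a _ => ?_
  rw [cat_add]
  congr 1
  · refine cat_congr fun i hi => ?_
    rw [cat_add]
    congr 1
    · exact cat_congr fun j hj => by simp [padf, hi, hj]
    · exact cat_congr fun j hj => by simp [padf]
  · exact cat_congr fun i _ => cat_congr fun j _ => by simp [padf]

theorem padAll_spec (g : GS E) (ho : g.out = []) (ht : g.t = []) (hs : g.s = [])
    (hv : g.v0 = []) (h3 : g.p3 = []) (h n d : ℕ) (f : ℕ → ℕ → ℕ → Bool) (hn : 1 ≤ n)
    (hh : 1 ≤ h) (hx : g.x = bits (bmat h n f))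
    (hhh : g.hh = una h) (hnn : g.nn = una n) (hp2 : g.p2 = una d) (hp1 : g.p1 = una (n + d)) :
    Runs (padAll : Pr J E) (gst g)
      (gst { g with x := bits (bmat h (n + d) (padf n f)) })
      (60 * (h * ((n + d) * (n + d)))) := by
  obtain ⟨x, out, t, s, v0, mu, gh, nn, pp, mp, mm, p1, p2, p3, p4, p5, pst, go, inp, in2⟩ := g
  dsimp only at ho ht hs hv h3 hx hhh hnn hp2 hp1
  subst ho ht hs hv h3 hx hhh hnn hp2 hp1
  have e1 := Runs.copyOnto (a := (.inl .NN : Loc J)) (b := .inl .P3) (t := .inl .T) (by simp)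
    (by simp) (by simp) (gst ⟨bits (bmat h n f), [], [], [], [], mu, una h, una n, pp, mp, mm,
      una (n + d), una d, [], p4, p5, pst, go, inp, in2⟩ : St J E) rfl
  have e2 := Str.forr (u := (.inl .HH : Loc J)) (t := .inl .V0) (x := .inl .X) (o := .inl .OUT)
    (by simp) (by simp) (by simp) (by simp) (by simp)
    (body := padBlock) (s := (gst ⟨bits (bmat h n f), [], [], [], [], mu, una h, una n, pp, mp, mm,
      una (n + d), una d, una n, p4, p5, pst, go, inp, in2⟩ : St J E)) h mk
    (fun a => cat n fun i => cat n fun j => [sb (f a i j)])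
    (fun a => (cat n fun i => (cat n fun j => [sb (f a i j)]) ++ cat d fun _ => [sb false])
        ++ cat d fun _ => cat (n + d) fun _ => [sb false])
    ((n + d) * (8 * (n + d) + 10) + 3) rfl rfl
    (fun k _ l l' => padBlock_str _ n d _ (by simp) (by simp) (by simp)
      (by simp) (by simp) (by simp)) [] []
  rw [← bits_padf, ← bits_bmat] at e2
  have e3 := Runs.clear (.inl .P3 : Loc J) (gst ⟨[],
    (bits (bmat h (n + d) (padf n f)) : List (SSym E)).reverse, [], [], [], mu, una h, una n, pp,
    mp, mm, una (n + d), una d, una n, p4, p5, pst, go, inp, in2⟩)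
  have e4 := Runs.rev (i := (.inl .OUT : Loc J)) (j := .inl .X) (by simp) (gst ⟨[],
    (bits (bmat h (n + d) (padf n f)) : List (SSym E)).reverse, [], [], [], mu, una h, una n, pp,
    mp, mm, una (n + d), una d, [], p4, p5, pst, go, inp, in2⟩)
  simp only [gst_nn, gst_p3, gset_p3, length_una, List.append_nil] at e1 e3
  simp only [gset_x, gset_out, List.append_nil] at e2
  simp only [gst_out, gst_x, gset_out, gset_x, List.reverse_reverse, List.append_nil,
    List.length_reverse, length_bits, length_bmat] at e4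
  refine (e1.seq (e2.seq (e3.seq e4))).mono ?_
  have h1 : 1 ≤ h * ((n + d) * (n + d)) := Nat.one_le_iff_ne_zero.2 (by positivity)
  have h4 : n + d ≤ (n + d) * (n + d) := by nlinarith
  have h2 : n ≤ h * ((n + d) * (n + d)) :=
    (Nat.le_add_right n d).trans (h4.trans (Nat.le_mul_of_pos_left _ hh))
  have h5 : h * ((n + d) * (8 * (n + d) + 10) + 3 + 7) ≤ 28 * (h * ((n + d) * (n + d))) := by
    calc h * ((n + d) * (8 * (n + d) + 10) + 3 + 7)
        ≤ h * (28 * ((n + d) * (n + d))) := by
          refine Nat.mul_le_mul le_rfl ?_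
          nlinarith
      _ = _ := by ring
  omega

/-! ### Unpadding -/

/-- One row: keep `n` bits, drop `d` bits. -/
def unpRow : Pr J E :=
  (Prog.forr (.inl .P3) (.inl .T) (Prog.mov (.inl .X) (.inl .OUT))).seq
    (Prog.forr (.inl .P2) (.inl .T) (Prog.pop (.inl .X)))

/-- Keep `n` rows and drop `d` rows. -/
def unpBlock : Pr J E :=
  (Prog.forr (.inl .NN) (.inl .S) unpRow).seq
    (Prog.forr (.inl .P2) (.inl .S)
      (Prog.forr (.inl .P1) (.inl .T) (Prog.pop (.inl .X))))

/-- Unpadding from `(n + d) × (n + d)` to `n × n`. -/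
def unpAll : Pr J E :=
  (Prog.copyOnto (.inl .NN) (.inl .P3) (.inl .T)).seq
    ((Prog.forr (.inl .HH) (.inl .V0) unpBlock).seq
      ((Prog.clear (.inl .P3)).seq (Prog.rev (.inl .OUT) (.inl .X))))

theorem unpRow_str (s : St J E) (n d : ℕ) (w : ℕ → SSym E) (h3 : s (.inl .P3) = una n)
    (h2 : s (.inl .P2) = una d) (ht : s (.inl .T) = []) :
    Str (.inl .X) (.inl .OUT) unpRow s (cat (n + d) fun j => [w j])
      (cat n fun j => [w j]) (8 * (n + d) + 3) := by
  have e1 := Str.forr (u := (.inl .P3 : Loc J)) (t := .inl .T) (x := .inl .X) (o := .inl .OUT)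
    (by simp) (by simp) (by simp) (by simp) (by simp)
    (body := Prog.mov (.inl .X) (.inl .OUT)) (s := s) n mk
    (fun j => [w j]) (fun j => [w j]) 1 h3 ht (fun k _ l l' => Str.mov (by simp) _ _)
  have e2 := Str.forr (u := (.inl .P2 : Loc J)) (t := .inl .T) (x := .inl .X) (o := .inl .OUT)
    (by simp) (by simp) (by simp) (by simp) (by simp)
    (body := Prog.pop (.inl .X)) (s := s) d mk
    (fun j => [w (n + j)]) (fun _ => []) 1 h2 ht (fun k _ l l' => Str.pop (by simp) _ _)
  refine ((e1.seq e2).of_eq ?_ ?_).mono ?_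
  · rw [cat_add]
  · rw [cat_nil, List.append_nil]
  · omega

theorem unpBlock_str (s : St J E) (n d : ℕ) (w : ℕ → ℕ → SSym E) (h3 : s (.inl .P3) = una n)
    (h2 : s (.inl .P2) = una d) (h1 : s (.inl .P1) = una (n + d)) (hn : s (.inl .NN) = una n)
    (ht : s (.inl .T) = []) (hs : s (.inl .S) = []) :
    Str (.inl .X) (.inl .OUT) unpBlock s (cat (n + d) fun i => cat (n + d) fun j => [w i j])
      (cat n fun i => cat n fun j => [w i j])
      ((n + d) * (8 * (n + d) + 10) + 3) := by
  have e1 := Str.forr (u := (.inl .NN : Loc J)) (t := .inl .S) (x := .inl .X) (o := .inl .OUT)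
    (by simp) (by simp) (by simp) (by simp) (by simp)
    (body := unpRow) (s := s) n mk
    (fun i => cat (n + d) fun j => [w i j])
    (fun i => cat n fun j => [w i j]) (8 * (n + d) + 3) hn hs
    (fun k _ l l' => unpRow_str _ n d _ (by simp [h3]) (by simp [h2]) (by simp [ht]))
  have e2 := Str.forr (u := (.inl .P2 : Loc J)) (t := .inl .S) (x := .inl .X) (o := .inl .OUT)
    (by simp) (by simp) (by simp) (by simp) (by simp)
    (body := Prog.forr (.inl .P1) (.inl .T) (Prog.pop (.inl .X))) (s := s) d mk
    (fun i => cat (n + d) fun j => [w (n + i) j]) (fun _ => cat (n + d) fun _ => [])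
    ((n + d) * (1 + 7) + 1) h2 hs
    (fun k _ l l' => Str.forr (u := (.inl .P1 : Loc J)) (t := .inl .T) (x := .inl .X)
      (o := .inl .OUT) (by simp) (by simp) (by simp) (by simp) (by simp)
      (body := Prog.pop (.inl .X)) (n + d) mk
      (fun j => [w (n + k) j]) (fun _ => []) 1 (by simp [h1]; rfl)
      (by simp [ht]) (fun k _ l l' => Str.pop (by simp) _ _))
  refine ((e1.seq e2).of_eq ?_ ?_).mono ?_
  · rw [cat_add n d]
  · simp only [cat_nil, List.append_nil]
  · have : (n + d) * (8 * (n + d) + 10) = n * (8 * (n + d) + 3 + 7) +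
      d * ((n + d) * (1 + 7) + 1 + 7) + 2 * d := by ring
    omega

theorem unpAll_spec (g : GS E) (ho : g.out = []) (ht : g.t = []) (hs : g.s = [])
    (hv : g.v0 = []) (h3 : g.p3 = []) (h n d : ℕ) (f : ℕ → ℕ → ℕ → Bool) (hn : 1 ≤ n)
    (hh : 1 ≤ h) (hx : g.x = bits (bmat h (n + d) f))
    (hhh : g.hh = una h) (hnn : g.nn = una n) (hp2 : g.p2 = una d) (hp1 : g.p1 = una (n + d)) :
    Runs (unpAll : Pr J E) (gst g)
      (gst { g with x := bits (bmat h n f) })
      (60 * (h * ((n + d) * (n + d)))) := by
  obtain ⟨x, out, t, s, v0, mu, gh, nn, pp, mp, mm, p1, p2, p3, p4, p5, pst, go, inp, in2⟩ := g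
  dsimp only at ho ht hs hv h3 hx hhh hnn hp2 hp1
  subst ho ht hs hv h3 hx hhh hnn hp2 hp1
  have e1 := Runs.copyOnto (a := (.inl .NN : Loc J)) (b := .inl .P3) (t := .inl .T) (by simp)
    (by simp) (by simp) (gst ⟨bits (bmat h (n + d) f), [], [], [], [], mu, una h, una n, pp, mp,
      mm, una (n + d), una d, [], p4, p5, pst, go, inp, in2⟩ : St J E) rfl
  have e2 := Str.forr (u := (.inl .HH : Loc J)) (t := .inl .V0) (x := .inl .X) (o := .inl .OUT)
    (by simp) (by simp) (by simp) (by simp) (by simp)
    (body := unpBlock) (s := (gst ⟨bits (bmat h (n + d) f), [], [], [], [], mu, una h, una n, pp,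
      mp, mm, una (n + d), una d, una n, p4, p5, pst, go, inp, in2⟩ : St J E)) h mk
    (fun a => cat (n + d) fun i => cat (n + d) fun j => [sb (f a i j)])
    (fun a => cat n fun i => cat n fun j => [sb (f a i j)])
    ((n + d) * (8 * (n + d) + 10) + 3) rfl rfl
    (fun k _ l l' => unpBlock_str _ n d _ (by simp) (by simp) (by simp)
      (by simp) (by simp) (by simp)) [] []
  rw [← bits_bmat, ← bits_bmat] at e2
  have e3 := Runs.clear (.inl .P3 : Loc J) (gst ⟨[],
    (bits (bmat h n f) : List (SSym E)).reverse, [], [], [], mu, una h, una n, pp,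
    mp, mm, una (n + d), una d, una n, p4, p5, pst, go, inp, in2⟩)
  have e4 := Runs.rev (i := (.inl .OUT : Loc J)) (j := .inl .X) (by simp) (gst ⟨[],
    (bits (bmat h n f) : List (SSym E)).reverse, [], [], [], mu, una h, una n, pp,
    mp, mm, una (n + d), una d, [], p4, p5, pst, go, inp, in2⟩)
  simp only [gst_nn, gst_p3, gset_p3, length_una, List.append_nil] at e1 e3
  simp only [gset_x, gset_out, List.append_nil] at e2
  simp only [gst_out, gst_x, gset_out, gset_x, List.reverse_reverse, List.append_nil,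
    List.length_reverse, length_bits, length_bmat] at e4
  refine (e1.seq (e2.seq (e3.seq e4))).mono ?_
  have h1 : 1 ≤ h * ((n + d) * (n + d)) := Nat.one_le_iff_ne_zero.2 (by positivity)
  have h4 : n + d ≤ (n + d) * (n + d) := by nlinarith
  have h2 : n ≤ h * ((n + d) * (n + d)) :=
    (Nat.le_add_right n d).trans (h4.trans (Nat.le_mul_of_pos_left _ hh))
  have h5 : h * ((n + d) * (8 * (n + d) + 10) + 3 + 7) ≤ 28 * (h * ((n + d) * (n + d))) := by
    calc h * ((n + d) * (8 * (n + d) + 10) + 3 + 7)
        ≤ h * (28 * ((n + d) * (n + d))) := by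
          refine Nat.mul_le_mul le_rfl ?_
          nlinarith
      _ = _ := by ring
  have h6 : h * (n * n) ≤ h * ((n + d) * (n + d)) := by gcongr <;> omega
  omega

end Vale.Agent.P338.Lv
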