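import Vale.Agent.P338.SSScan
import Vale.Agent.P338.SSCall
import Vale.Agent.P338.Emb
import Vale.Agent.P338.TopLib

/-!
# P338: long products from products of a fixed fraction of the length

A product of two numbers of `M` bits is computed with `K ^ 2` products of numbers of
`⌈M / K⌉` bits, where `K` is fixed.
-/

namespace Vale.Agent.P338.Limb

open S2 SS

/-- The stacks. -/
inductive Lr : Type
  | AX | AY | AZ | XR | YR | YC | XL | TA | MM | PZ | LL | LZ | KK | KO | Z | WA | P | V | T | T2
  | C1 | C2 | F4 | F5 | F6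
deriving DecidableEq

variable {E : Type}

/-- Small stores. -/
abbrev SL (E : Type) : Type := Store Lr (SSym E)

/-- Small programs. -/
abbrev PL (E : Type) : Type := Prog Lr (SSym E)

theorem bits_append (l l' : List Bool) : (bits (l ++ l') : List (SSym E)) = bits l ++ bits l' :=
  by simp [bits]

/-! ### Shift and add -/

theorem scn_sum_mod (L p v : ℕ) (d : Bool) :
    (scn fSum (bitsOf L p) (bitsOf L v) false d).1 = bitsOf L (p + v) := by
  have h := scn_fSum_add (bitsOf L p) (bitsOf L v) false d (by simp)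
  have hl := (length_scn fSum (bitsOf L p) (bitsOf L v) false d (by simp)).1
  have h1 := natOf_lt (scn fSum (bitsOf L p) (bitsOf L v) false d).1
  rw [hl] at h1
  rw [natOf_bitsOf, natOf_bitsOf] at h
  simp only [length_bitsOf, Bool.toNat_false, Nat.add_zero] at h h1 hl
  apply natOf_inj (by rw [hl, length_bitsOf])
  rw [natOf_bitsOf, Nat.add_mod p v, ← h, Nat.add_mul_mod_self_left, Nat.mod_eq_of_lt h1]

theorem shift_bits {m L : ℕ} (h : m ≤ L) (z : ℕ) :
    List.replicate m false ++ (bitsOf L z).take (L - m) = bitsOf L (z * 2 ^ m) := by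
  obtain ⟨d, rfl⟩ : ∃ d, L = m + d := ⟨L - m, by omega⟩
  rw [Nat.add_sub_cancel_left, take_bitsOf (by omega), bitsOf_add]
  congr 1
  · symm
    rw [← bitsOf_zero, bitsOf_eq_iff]
    simp
  · rw [Nat.mul_div_cancel _ (by positivity)]

/-- `WA := WA * 2 ^ m + P`. -/
def shAdd (W : Lr) : PL E :=
  (Prog.rev W Lr.T).seq ((dropN Lr.MM Lr.T Lr.F6).seq ((Prog.rev Lr.T Lr.V).seq
    ((Prog.fill Lr.MM (sb false) Lr.V Lr.F6).seq ((scan fSum Lr.P Lr.V Lr.T Lr.T2 Lr.C1
      Lr.C2).seq ((Prog.rev Lr.T W).seq ((Prog.clear Lr.T2).seq ((Prog.clear Lr.C1).seq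
        (Prog.clear Lr.C2))))))))

theorem runs_shAdd {W : Lr} (hW : W = Lr.WA ∨ W = Lr.Z) (s : SL E) {L m z p : ℕ}
    (hm : m ≤ L) (hMM : s Lr.MM = una m) (hZ : s W = bits (bitsOf L z))
    (hP : s Lr.P = bits (bitsOf L p))
    (h0 : ∀ r ∈ [Lr.T, Lr.V, Lr.T2, Lr.C1, Lr.C2, Lr.F6], s r = []) :
    Runs (shAdd W) s (Function.update (Function.update s Lr.P []) W
      (bits (bitsOf L (z * 2 ^ m + p)))) (40 * L + 40) := by
  have hT := h0 Lr.T (by simp)
  have hV := h0 Lr.V (by simp)
  have hT2 := h0 Lr.T2 (by simp)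
  have hC1 := h0 Lr.C1 (by simp)
  have hC2 := h0 Lr.C2 (by simp)
  have hF := h0 Lr.F6 (by simp)
  have w1 : W ≠ Lr.T := by rcases hW with rfl | rfl <;> decide
  have w2 : W ≠ Lr.MM := by rcases hW with rfl | rfl <;> decide
  have w3 : W ≠ Lr.F6 := by rcases hW with rfl | rfl <;> decide
  have w4 : W ≠ Lr.V := by rcases hW with rfl | rfl <;> decide
  have w5 : W ≠ Lr.P := by rcases hW with rfl | rfl <;> decide
  have w6 : W ≠ Lr.T2 := by rcases hW with rfl | rfl <;> decide
  have w7 : W ≠ Lr.C1 := by rcases hW with rfl | rfl <;> decide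
  have w8 : W ≠ Lr.C2 := by rcases hW with rfl | rfl <;> decide
  have e0 : (bits (bitsOf L z) : List (SSym E)).reverse.drop m =
      (bits ((bitsOf L z).take (L - m))).reverse := by
    rw [List.drop_reverse]
    simp [bits, List.map_take]
  have r1 := Runs.rev (i := W) (j := Lr.T) w1 s
  rw [hZ, hT, List.append_nil] at r1
  have r2 := runs_dropN (u := Lr.MM) (a := Lr.T) (t := Lr.F6) (by decide) (by decide)
    (by decide) mk m (Function.update (Function.update s W []) Lr.T
      (bits (bitsOf L z)).reverse) (by simp [w2.symm, hMM, una]) (by simp [w3.symm, hF])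
  rw [Function.update_self, e0] at r2
  have r3 := Runs.rev (i := Lr.T) (j := Lr.V) (by decide)
    (Function.update (Function.update s W []) Lr.T
      (bits ((bitsOf L z).take (L - m))).reverse)
  have r4 := Runs.fill (u := Lr.MM) (b := Lr.V) (t := Lr.F6) (by decide) (by decide)
    (by decide) (sb false : SSym E) mk
    (Function.update (Function.update s W []) Lr.V (bits ((bitsOf L z).take (L - m)))) m
    (by simp [w2.symm, hMM, una]) (by simp [w3.symm, hF])
  have e4 : (List.replicate m (sb false) ++ (Function.update (Function.update s W []) Lr.V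
      (bits ((bitsOf L z).take (L - m)))) Lr.V : List (SSym E)) =
      bits (bitsOf L (z * 2 ^ m)) := by
    rw [Function.update_self, ← shift_bits hm]
    simp [bits]
  rw [e4] at r4
  have r5 := runs_scan fSum (A := Lr.P) (B := Lr.V) (O₁ := Lr.T) (O₂ := Lr.T2) (C := Lr.C1)
    (D := Lr.C2) (by decide) (bitsOf L p) (bitsOf L (z * 2 ^ m)) false false
    (Function.update (Function.update s W []) Lr.V (bits (bitsOf L (z * 2 ^ m))))
    (by simp) (by simp [w5.symm, hP]) (by simp) (by simp [w7.symm, hC1])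
    (by simp [w8.symm, hC2])
  rw [scn_sum_mod] at r5
  obtain ⟨o, ho⟩ : ∃ o, o = (scn fSum (bitsOf L p) (bitsOf L (z * 2 ^ m)) false false).2.1 :=
    ⟨_, rfl⟩
  have hol : o.length = L := by
    rw [ho, (length_scn _ _ _ _ _ (by simp)).2, length_bitsOf]
  obtain ⟨c, hc⟩ : ∃ c, c = (scn fSum (bitsOf L p) (bitsOf L (z * 2 ^ m)) false false).2.2.1 :=
    ⟨_, rfl⟩
  obtain ⟨d, hd⟩ : ∃ d, d = (scn fSum (bitsOf L p) (bitsOf L (z * 2 ^ m)) false false).2.2.2 :=
    ⟨_, rfl⟩
  rw [← ho, ← hc, ← hd] at r5
  have r6 := Runs.rev (i := Lr.T) (j := W) w1.symm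
    (Function.update (Function.update (Function.update (Function.update (Function.update
      (Function.update s W []) Lr.P []) Lr.T (bits (bitsOf L (p + z * 2 ^ m)).reverse))
      Lr.T2 (bits o.reverse)) Lr.C1 (flg c)) Lr.C2 (flg d))
  have r7 := Runs.clear Lr.T2
    (Function.update (Function.update (Function.update (Function.update
      (Function.update s W (bits (bitsOf L (p + z * 2 ^ m)))) Lr.P [])
      Lr.T2 (bits o.reverse)) Lr.C1 (flg c)) Lr.C2 (flg d))
  have r8 := Runs.clear Lr.C1
    (Function.update (Function.update (Function.update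
      (Function.update s W (bits (bitsOf L (p + z * 2 ^ m)))) Lr.P [])
      Lr.C1 (flg c)) Lr.C2 (flg d))
  have r9 := Runs.clear Lr.C2
    (Function.update (Function.update
      (Function.update s W (bits (bitsOf L (p + z * 2 ^ m)))) Lr.P [])
      Lr.C2 (flg d))
  refine ((r1.seq ((r2.of_eq ?_).seq ((r3.of_eq ?_).seq ((r4.of_eq ?_).seq ((r5.of_eq ?_).seq
    ((r6.of_eq ?_).seq ((r7.of_eq ?_).seq ((r8.of_eq ?_).seq r9)))))))).mono ?_).of_eq ?_
  · rw [Function.update_idem]
  · rcases hW with rfl | rfl <;> (funext r; cases r <;> simp [hT, hV])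
  · rw [Function.update_idem]
  · rcases hW with rfl | rfl <;> (funext r; cases r <;> simp [hT, hT2, hV])
  · rcases hW with rfl | rfl <;> (funext r; cases r <;> simp [hT, bits])
  · rcases hW with rfl | rfl <;> (funext r; cases r <;> simp [hT2])
  · rcases hW with rfl | rfl <;> (funext r; cases r <;> simp [hC1])
  · have l1 : ∀ b : Bool, (flg b : List (SSym E)).length ≤ 1 := by
      intro b; cases b <;> simp
    have l2 := l1 c
    have l3 := l1 d
    simp [hol]
    omega
  · rcases hW with rfl | rfl <;>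
      (funext r; cases r <;> simp [hC2, Nat.add_comm])

end Vale.Agent.P338.Limb
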