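import Vale.Agent.P338.LimbStep

/-!
# P338: long products: the loops over the limbs
-/

namespace Vale.Agent.P338.Limb

open S2 SS

variable {J E : Type} [DecidableEq J]

/-- The inner step. -/
noncomputable def inStep (call : Pr J E) : Pr (J ⊕ Lr) E :=
  (inA.map emb).seq ((cl call).seq (inB.map emb))

/-- The environment of the inner loop. -/
structure Env (s : SL E) (m L : ℕ) : Prop where
  mm : s Lr.MM = una m
  ll : s Lr.LL = una L
  lz : s Lr.LZ = una (L - 2 * m)
  z : ∀ r ∈ sc0, s r = []

theorem sc0_cases {P : Lr → Prop} (h1 : P Lr.AX) (h2 : P Lr.AY) (h3 : P Lr.AZ) (h4 : P Lr.P)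
    (h5 : P Lr.V) (h6 : P Lr.T) (h7 : P Lr.T2) (h8 : P Lr.C1) (h9 : P Lr.C2) (h10 : P Lr.F6) :
    ∀ r ∈ sc0, P r := by
  intro r hr
  simp only [sc0, List.mem_cons, List.not_mem_nil, or_false] at hr
  rcases hr with rfl | rfl | rfl | rfl | rfl | rfl | rfl | rfl | rfl | rfl <;> assumption

theorem runs_inStep {call : Pr J E} {T : ℕ → ℕ} {C : ℕ} (hcall : CallFullSpec call T C)
    {S : St (J ⊕ Lr) E} (hS : Fr S) (s : SL E) {m L j a y w : ℕ} (hm : 1 ≤ m)
    (hL : 2 * m ≤ L) (ha : a < 2 ^ m) (H : Env s m L)
    (hY : s Lr.YC = (bits (bitsOf (m * (j + 1)) y)).reverse)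
    (hX : s Lr.XL = bits (bitsOf m a)) (hW : s Lr.WA = bits (bitsOf L w)) :
    RunsE emb S (inStep call) s (Function.update (Function.update s
      Lr.YC (bits (bitsOf (m * j) y)).reverse)
      Lr.WA (bits (bitsOf L (w * 2 ^ m + a * (y / 2 ^ (m * j) % 2 ^ m)))))
      (C * (m + T m) + 14 * m + 60 * L + 65) := by
  have hi := emb_injective (J := J)
  have z := H.z
  have r1 := RunsE.small hi S (runs_inA s H.mm hY hX z)
  have r2 := runs_cl hcall hS (Function.update (Function.update (Function.update s
      Lr.YC (bits (bitsOf (m * j) y)).reverse) Lr.AY (bits (bitsOf m (y / 2 ^ (m * j)))))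
      Lr.AX (bits (bitsOf m a))) (m := m) (xs := bitsOf m a)
      (ys := bitsOf m (y / 2 ^ (m * j))) hm (by simp) (by simp) (by simp) (by simp)
      (by simpa using z Lr.AZ (by decide))
  rw [natOf_bitsOf_of_lt ha, natOf_bitsOf] at r2
  have ht : a * (y / 2 ^ (m * j) % 2 ^ m) < 2 ^ (2 * m) := by
    rw [two_mul, pow_add]
    exact Nat.mul_lt_mul'' ha (Nat.mod_lt _ (by positivity))
  have r3 := RunsE.small hi S (runs_inB (Function.update (Function.update s
      Lr.YC (bits (bitsOf (m * j) y)).reverse) Lr.AZ
      (bits (bitsOf (2 * m) (a * (y / 2 ^ (m * j) % 2 ^ m))))) (m := m) (L := L) (w := w)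
      (t := a * (y / 2 ^ (m * j) % 2 ^ m)) hL (by simp [H.mm]) (by simp [H.lz]) ht (by simp)
      (by simp [hW])
      (by
        intro r hr
        simp only [List.mem_cons, List.not_mem_nil, or_false] at hr
        rcases hr with rfl | rfl | rfl | rfl | rfl | rfl | rfl
        · simpa using z Lr.P (by decide)
        · simpa using z Lr.V (by decide)
        · simpa using z Lr.T (by decide)
        · simpa using z Lr.T2 (by decide)
        · simpa using z Lr.C1 (by decide)
        · simpa using z Lr.C2 (by decide)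
        · simpa using z Lr.F6 (by decide)))
  refine ((r1.seq ((r2.of_eq ?_).seq r3)).mono ?_).of_eq ?_
  · have h1 := z Lr.AX (by decide)
    have h2 := z Lr.AY (by decide)
    funext r
    cases r <;> simp [h1, h2]
  · omega
  · have h1 := z Lr.AZ (by decide)
    funext r
    cases r <;> simp [h1]

theorem horner (m j y : ℕ) :
    y / 2 ^ (m * (j + 1)) * 2 ^ m + y / 2 ^ (m * j) % 2 ^ m = y / 2 ^ (m * j) := by
  have h : y / 2 ^ (m * (j + 1)) = y / 2 ^ (m * j) / 2 ^ m := by
    rw [Nat.div_div_eq_div_mul, ← pow_add, Nat.mul_succ]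
  rw [h]
  exact Nat.div_add_mod' _ _

/-- The inner loop. -/
noncomputable def inLoop (call : Pr J E) : Pr (J ⊕ Lr) E :=
  Prog.forr (emb Lr.KK) (emb Lr.F4) (inStep call)

theorem runs_inLoop {call : Pr J E} {T : ℕ → ℕ} {C : ℕ} (hcall : CallFullSpec call T C)
    {S : St (J ⊕ Lr) E} (hS : Fr S) (s : SL E) {m L K a y : ℕ} (hm : 1 ≤ m)
    (hL : 2 * m ≤ L) (ha : a < 2 ^ m) (hy : y < 2 ^ (m * K)) (H : Env s m L)
    (hK : s Lr.KK = una K) (h4 : s Lr.F4 = [])
    (hY : s Lr.YC = (bits (bitsOf (m * K) y)).reverse)
    (hX : s Lr.XL = bits (bitsOf m a)) (hW : s Lr.WA = bits (bitsOf L 0)) :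
    RunsE emb S (inLoop call) s (Function.update (Function.update s Lr.YC [])
      Lr.WA (bits (bitsOf L (a * y))))
      (K * (C * (m + T m) + 14 * m + 60 * L + 72) + 1) := by
  have hi := emb_injective (J := J)
  have z := H.z
  have h := RunsE.forr' hi (S := S) (u := Lr.KK) (t := Lr.F4) (by decide)
    (body := inStep call) K mk
    (fun k => Function.update (Function.update s
      Lr.YC (bits (bitsOf (m * (K - k)) y)).reverse)
      Lr.WA (bits (bitsOf L (a * (y / 2 ^ (m * (K - k)))))))
    (fun _ => C * (m + T m) + 14 * m + 60 * L + 65)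
    (fun k _ => by simp [hK, una]) (fun k _ => by simp [h4])
    (by
      intro k hk l l'
      obtain ⟨j, hj⟩ : ∃ j, K - k = j + 1 := ⟨K - k - 1, by omega⟩
      have hj' : K - (k + 1) = j := by omega
      have r1 := runs_inStep hcall hS
        (Function.update (Function.update (Function.update (Function.update s
          Lr.YC (bits (bitsOf (m * (K - k)) y)).reverse)
          Lr.WA (bits (bitsOf L (a * (y / 2 ^ (m * (K - k))))))) Lr.KK l) Lr.F4 l')
        (m := m) (L := L) (j := j) (a := a) (y := y)
        (w := a * (y / 2 ^ (m * (K - k)))) hm hL ha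
        ⟨by simp [H.mm], by simp [H.ll], by simp [H.lz], sc0_cases
          (by simpa using z Lr.AX (by decide)) (by simpa using z Lr.AY (by decide))
          (by simpa using z Lr.AZ (by decide)) (by simpa using z Lr.P (by decide))
          (by simpa using z Lr.V (by decide)) (by simpa using z Lr.T (by decide))
          (by simpa using z Lr.T2 (by decide)) (by simpa using z Lr.C1 (by decide))
          (by simpa using z Lr.C2 (by decide)) (by simpa using z Lr.F6 (by decide))⟩
        (by simp [hj]) (by simp [hX]) (by simp)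
      refine r1.of_eq ?_
      rw [hj', hj, Nat.mul_assoc, ← Nat.mul_add, horner]
      funext r
      cases r <;> simp)
  simp only [Finset.sum_const, Finset.card_range, smul_eq_mul] at h
  have e0 : Function.update (Function.update s
      Lr.YC (bits (bitsOf (m * (K - 0)) y)).reverse)
      Lr.WA (bits (bitsOf L (a * (y / 2 ^ (m * (K - 0)))))) = s := by
    rw [Nat.sub_zero, Nat.div_eq_of_lt hy, Nat.mul_zero, ← hY, ← hW]
    simp
  rw [e0] at h
  refine (h.mono ?_).of_eq ?_
  · have : K * (C * (m + T m) + 14 * m + 60 * L + 72) =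
      K * (C * (m + T m) + 14 * m + 60 * L + 65 + 4) + 3 * K := by ring
    omega
  · simp [bits]

/-! ### The outer loop -/

/-- The small part of the outer step before the inner loop. -/
def outA : PL E :=
  (takeN Lr.MM Lr.XR Lr.XL Lr.F6).seq ((Prog.copyOnto Lr.YR Lr.YC Lr.T).seq
    (Prog.fill Lr.LL (sb false) Lr.WA Lr.F6))

/-- The small part of the outer step after the inner loop. -/
def outB : PL E :=
  (Prog.clear Lr.XL).seq ((mvOnto Lr.WA Lr.P Lr.T).seq (shAdd Lr.Z))

theorem runs_outA (s : SL E) {m L K j x y : ℕ} (H : Env s m L)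
    (hXR : s Lr.XR = (bits (bitsOf (m * (j + 1)) x)).reverse)
    (hYR : s Lr.YR = (bits (bitsOf (m * K) y)).reverse)
    (hXL : s Lr.XL = []) (hYC : s Lr.YC = []) (hWA : s Lr.WA = []) :
    Runs outA s (Function.update (Function.update (Function.update (Function.update s
      Lr.XR (bits (bitsOf (m * j) x)).reverse)
      Lr.XL (bits (bitsOf m (x / 2 ^ (m * j)))))
      Lr.YC (bits (bitsOf (m * K) y)).reverse)
      Lr.WA (bits (bitsOf L 0))) (8 * m + 6 * (m * K) + 8 * L + 5) := by
  have z := H.z
  have r1 := runs_takeN (u := Lr.MM) (a := Lr.XR) (b := Lr.XL) (t := Lr.F6) (by decide)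
    (by decide) (by decide) (by decide) (by decide) (by decide) mk
    (bits (bitsOf m (x / 2 ^ (m * j)))).reverse (bits (bitsOf (m * j) x)).reverse s
    (by rw [H.mm]; simp [una]) (z _ (by decide))
    (by rw [hXR, split_low, bits_append, List.reverse_append])
  rw [List.reverse_reverse, hXL, List.append_nil] at r1
  have r2 := Runs.copyOnto (a := Lr.YR) (b := Lr.YC) (t := Lr.T) (by decide) (by decide)
    (by decide) (Function.update (Function.update s Lr.XR (bits (bitsOf (m * j) x)).reverse)
      Lr.XL (bits (bitsOf m (x / 2 ^ (m * j))))) (by simpa using z Lr.T (by decide))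
  have r3 := Runs.fill (u := Lr.LL) (b := Lr.WA) (t := Lr.F6) (by decide) (by decide)
    (by decide) (sb false : SSym E) mk
    (Function.update (Function.update (Function.update s
      Lr.XR (bits (bitsOf (m * j) x)).reverse)
      Lr.XL (bits (bitsOf m (x / 2 ^ (m * j)))))
      Lr.YC (bits (bitsOf (m * K) y)).reverse) L (by simp [H.ll, una])
      (by simpa using z Lr.F6 (by decide))
  refine ((r1.seq ((r2.of_eq ?_).seq r3)).mono ?_).of_eq ?_
  · funext r
    cases r <;> simp [hYR, hYC]
  · simp [hYR]
    omega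
  · rw [bitsOf_zero]
    funext r
    cases r <;> simp [hWA, bits]

theorem runs_outB (s : SL E) {m L a z₀ w : ℕ} (hm : m ≤ L) (H : Env s m L)
    (hXL : s Lr.XL = bits (bitsOf m a)) (hWA : s Lr.WA = bits (bitsOf L w))
    (hZ : s Lr.Z = bits (bitsOf L z₀)) :
    Runs outB s (Function.update (Function.update (Function.update s
      Lr.XL []) Lr.WA []) Lr.Z (bits (bitsOf L (z₀ * 2 ^ m + w)))) (60 * L + 60) := by
  have z := H.z
  have r1 := Runs.clear Lr.XL s
  have r2 := runs_mvOnto (a := Lr.WA) (b := Lr.P) (t := Lr.T) (by decide) (by decide)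
    (by decide) (Function.update s Lr.XL []) (by simpa using z Lr.T (by decide))
  have r3 := runs_shAdd (W := Lr.Z) (Or.inr rfl)
    (Function.update (Function.update (Function.update s Lr.XL []) Lr.WA []) Lr.P
      (bits (bitsOf L w))) (L := L) (m := m) (z := z₀) (p := w) hm (by simp [H.mm])
    (by simp [hZ]) (by simp)
    (by
      intro r hr
      simp only [List.mem_cons, List.not_mem_nil, or_false] at hr
      rcases hr with rfl | rfl | rfl | rfl | rfl | rfl
      · simpa using z Lr.T (by decide)
      · simpa using z Lr.V (by decide)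
      · simpa using z Lr.T2 (by decide)
      · simpa using z Lr.C1 (by decide)
      · simpa using z Lr.C2 (by decide)
      · simpa using z Lr.F6 (by decide))
  have zP := z Lr.P (by decide)
  refine ((r1.seq ((r2.of_eq ?_).seq r3)).mono ?_).of_eq ?_
  · funext r
    cases r <;> simp [hWA, zP]
  · simp [hXL, hWA]
    omega
  · funext r
    cases r <;> simp [zP]

/-- The outer step. -/
noncomputable def outStep (call : Pr J E) : Pr (J ⊕ Lr) E :=
  (outA.map emb).seq ((inLoop call).seq (outB.map emb))

theorem runs_outStep {call : Pr J E} {T : ℕ → ℕ} {C : ℕ} (hcall : CallFullSpec call T C)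
    {S : St (J ⊕ Lr) E} (hS : Fr S) (s : SL E) {m L K j x y z₀ : ℕ} (hm : 1 ≤ m)
    (hL : 2 * m ≤ L) (hy : y < 2 ^ (m * K)) (H : Env s m L)
    (hK : s Lr.KK = una K) (h4 : s Lr.F4 = [])
    (hXR : s Lr.XR = (bits (bitsOf (m * (j + 1)) x)).reverse)
    (hYR : s Lr.YR = (bits (bitsOf (m * K) y)).reverse)
    (hXL : s Lr.XL = []) (hYC : s Lr.YC = []) (hWA : s Lr.WA = [])
    (hZ : s Lr.Z = bits (bitsOf L z₀)) :
    RunsE emb S (outStep call) s (Function.update (Function.update s
      Lr.XR (bits (bitsOf (m * j) x)).reverse)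
      Lr.Z (bits (bitsOf L (z₀ * 2 ^ m + x / 2 ^ (m * j) % 2 ^ m * y))))
      (K * (C * (m + T m) + 14 * m + 60 * L + 72) + 8 * m + 6 * (m * K) + 68 * L + 70) := by
  have hi := emb_injective (J := J)
  have z := H.z
  have r1 := RunsE.small hi S (runs_outA s H hXR hYR hXL hYC hWA)
  have e1 : bitsOf m (x / 2 ^ (m * j)) = bitsOf m (x / 2 ^ (m * j) % 2 ^ m) := by
    rw [bitsOf_mod]
  rw [e1] at r1
  have H1 : Env (Function.update (Function.update (Function.update (Function.update s
      Lr.XR (bits (bitsOf (m * j) x)).reverse)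
      Lr.XL (bits (bitsOf m (x / 2 ^ (m * j) % 2 ^ m))))
      Lr.YC (bits (bitsOf (m * K) y)).reverse)
      Lr.WA (bits (bitsOf L 0))) m L :=
    ⟨by simp [H.mm], by simp [H.ll], by simp [H.lz], sc0_cases
      (by simpa using z Lr.AX (by decide)) (by simpa using z Lr.AY (by decide))
      (by simpa using z Lr.AZ (by decide)) (by simpa using z Lr.P (by decide))
      (by simpa using z Lr.V (by decide)) (by simpa using z Lr.T (by decide))
      (by simpa using z Lr.T2 (by decide)) (by simpa using z Lr.C1 (by decide))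
      (by simpa using z Lr.C2 (by decide)) (by simpa using z Lr.F6 (by decide))⟩
  have r2 := runs_inLoop hcall hS _ (a := x / 2 ^ (m * j) % 2 ^ m) (y := y) (K := K) hm hL
    (Nat.mod_lt _ (by positivity)) hy H1 (by simp [hK]) (by simp [h4]) (by simp) (by simp)
    (by simp)
  have H2 : Env (Function.update (Function.update (Function.update s
      Lr.XR (bits (bitsOf (m * j) x)).reverse)
      Lr.XL (bits (bitsOf m (x / 2 ^ (m * j) % 2 ^ m))))
      Lr.WA (bits (bitsOf L (x / 2 ^ (m * j) % 2 ^ m * y)))) m L :=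
    ⟨by simp [H.mm], by simp [H.ll], by simp [H.lz], sc0_cases
      (by simpa using z Lr.AX (by decide)) (by simpa using z Lr.AY (by decide))
      (by simpa using z Lr.AZ (by decide)) (by simpa using z Lr.P (by decide))
      (by simpa using z Lr.V (by decide)) (by simpa using z Lr.T (by decide))
      (by simpa using z Lr.T2 (by decide)) (by simpa using z Lr.C1 (by decide))
      (by simpa using z Lr.C2 (by decide)) (by simpa using z Lr.F6 (by decide))⟩
  have r3 := RunsE.small hi S (runs_outB _ (a := x / 2 ^ (m * j) % 2 ^ m) (z₀ := z₀)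
    (w := x / 2 ^ (m * j) % 2 ^ m * y) (by omega) H2 (by simp) (by simp) (by simp [hZ]))
  refine ((r1.seq ((r2.of_eq ?_).seq r3)).mono ?_).of_eq ?_
  · funext r
    cases r <;> simp [hYC]
  · omega
  · funext r
    cases r <;> simp [hXL, hWA]

/-- The outer loop. -/
noncomputable def outLoop (call : Pr J E) : Pr (J ⊕ Lr) E :=
  Prog.forr (emb Lr.KO) (emb Lr.F5) (outStep call)

theorem runs_outLoop {call : Pr J E} {T : ℕ → ℕ} {C : ℕ} (hcall : CallFullSpec call T C)
    {S : St (J ⊕ Lr) E} (hS : Fr S) (s : SL E) {m L K x y : ℕ} (hm : 1 ≤ m)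
    (hL : 2 * m ≤ L) (hx : x < 2 ^ (m * K)) (hy : y < 2 ^ (m * K)) (H : Env s m L)
    (hK : s Lr.KK = una K) (hKO : s Lr.KO = una K) (h4 : s Lr.F4 = []) (h5 : s Lr.F5 = [])
    (hXR : s Lr.XR = (bits (bitsOf (m * K) x)).reverse)
    (hYR : s Lr.YR = (bits (bitsOf (m * K) y)).reverse)
    (hXL : s Lr.XL = []) (hYC : s Lr.YC = []) (hWA : s Lr.WA = [])
    (hZ : s Lr.Z = bits (bitsOf L 0)) :
    RunsE emb S (outLoop call) s (Function.update (Function.update s
      Lr.XR []) Lr.Z (bits (bitsOf L (x * y))))
      (K * (K * (C * (m + T m) + 14 * m + 60 * L + 72) + 8 * m + 6 * (m * K) + 68 * L + 77) +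
        1) := by
  have hi := emb_injective (J := J)
  have z := H.z
  have h := RunsE.forr' hi (S := S) (u := Lr.KO) (t := Lr.F5) (by decide)
    (body := outStep call) K mk
    (fun k => Function.update (Function.update s
      Lr.XR (bits (bitsOf (m * (K - k)) x)).reverse)
      Lr.Z (bits (bitsOf L (x / 2 ^ (m * (K - k)) * y))))
    (fun _ => K * (C * (m + T m) + 14 * m + 60 * L + 72) + 8 * m + 6 * (m * K) + 68 * L + 70)
    (fun k _ => by simp [hKO, una]) (fun k _ => by simp [h5])
    (by
      intro k hk l l'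
      obtain ⟨j, hj⟩ : ∃ j, K - k = j + 1 := ⟨K - k - 1, by omega⟩
      have hj' : K - (k + 1) = j := by omega
      have r1 := runs_outStep hcall hS
        (Function.update (Function.update (Function.update (Function.update s
          Lr.XR (bits (bitsOf (m * (K - k)) x)).reverse)
          Lr.Z (bits (bitsOf L (x / 2 ^ (m * (K - k)) * y)))) Lr.KO l) Lr.F5 l')
        (m := m) (L := L) (K := K) (j := j) (x := x) (y := y)
        (z₀ := x / 2 ^ (m * (K - k)) * y) hm hL hy
        ⟨by simp [H.mm], by simp [H.ll], by simp [H.lz], sc0_cases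
          (by simpa using z Lr.AX (by decide)) (by simpa using z Lr.AY (by decide))
          (by simpa using z Lr.AZ (by decide)) (by simpa using z Lr.P (by decide))
          (by simpa using z Lr.V (by decide)) (by simpa using z Lr.T (by decide))
          (by simpa using z Lr.T2 (by decide)) (by simpa using z Lr.C1 (by decide))
          (by simpa using z Lr.C2 (by decide)) (by simpa using z Lr.F6 (by decide))⟩
        (by simp [hK]) (by simp [h4]) (by simp [hj]) (by simp [hYR]) (by simp [hXL])
        (by simp [hYC]) (by simp [hWA]) (by simp)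
      refine r1.of_eq ?_
      have e : x / 2 ^ (m * (K - k)) * y * 2 ^ m + x / 2 ^ (m * j) % 2 ^ m * y =
          x / 2 ^ (m * j) * y := by
        have h0 := horner m j x
        rw [hj]
        calc x / 2 ^ (m * (j + 1)) * y * 2 ^ m + x / 2 ^ (m * j) % 2 ^ m * y =
            (x / 2 ^ (m * (j + 1)) * 2 ^ m + x / 2 ^ (m * j) % 2 ^ m) * y := by ring
          _ = x / 2 ^ (m * j) * y := by rw [h0]
      rw [e, hj']
      funext r
      cases r <;> simp)
  simp only [Finset.sum_const, Finset.card_range, smul_eq_mul] at h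
  have e0 : Function.update (Function.update s
      Lr.XR (bits (bitsOf (m * (K - 0)) x)).reverse)
      Lr.Z (bits (bitsOf L (x / 2 ^ (m * (K - 0)) * y))) = s := by
    rw [Nat.sub_zero, Nat.div_eq_of_lt hx, Nat.zero_mul, ← hXR, ← hZ]
    simp
  rw [e0] at h
  refine (h.mono ?_).of_eq ?_
  · have : K * (K * (C * (m + T m) + 14 * m + 60 * L + 72) + 8 * m + 6 * (m * K) + 68 * L + 77) =
      K * (K * (C * (m + T m) + 14 * m + 60 * L + 72) + 8 * m + 6 * (m * K) + 68 * L + 70 + 4) +
        3 * K := by ring
    omega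
  · simp [bits]

/-! ### Preparation -/

/-- Move the top of `AX` to `XR` and count it on `TA`. -/
def cntStep : PL E := Prog.act fun tp l =>
  match tp Lr.AX with
  | none => Op.keep
  | some a => if l = Lr.AX then Op.pop else if l = Lr.XR then Op.push a
      else if l = Lr.TA then Op.push mk else Op.keep

/-- Reverse `AX` onto `XR` and count its length on `TA`. -/
def cnt : PL E := Prog.loop (nonempty Lr.AX) cntStep

theorem runs_cnt (l : List (SSym E)) : ∀ (s : SL E), s Lr.AX = l →
    Runs cnt s (Function.update (Function.update (Function.update s Lr.AX [])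
      Lr.XR (l.reverse ++ s Lr.XR)) Lr.TA (una l.length ++ s Lr.TA)) (3 * l.length) := by
  induction l with
  | nil =>
    intro s h
    refine (Runs.loopF (by rw [nonempty_tops, h]; rfl)).of_eq ?_
    funext r
    cases r <;> simp [h, una]
  | cons a l ih =>
    intro s h
    have r1 : Runs cntStep s (Function.update (Function.update (Function.update s Lr.AX l)
        Lr.XR (a :: s Lr.XR)) Lr.TA (mk :: s Lr.TA)) 1 := by
      refine (Runs.act _ s).of_eq ?_
      funext r
      cases r <;> simp [h]
    have r2 := ih (Function.update (Function.update (Function.update s Lr.AX l)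
        Lr.XR (a :: s Lr.XR)) Lr.TA (mk :: s Lr.TA)) (by simp)
    have r3 := Runs.loopT (c := nonempty Lr.AX) (p := cntStep)
      (by rw [nonempty_tops, h]; rfl) r1 r2
    refine (r3.mono ?_).of_eq ?_
    · simp only [List.length_cons]; omega
    · have e : (una l.length ++ mk :: s Lr.TA : List (SSym E)) =
          una (l.length + 1) ++ s Lr.TA := by
        unfold una
        rw [List.replicate_succ', List.append_assoc]
        rfl
      funext r
      cases r <;> simp [e]

/-- The quotient `⌈M / K⌉` in unary: `T` holds `M` marks. -/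
def ceilP : PL E :=
  Prog.loop (nonempty Lr.T) ((Prog.push Lr.MM mk).seq (dropN Lr.KK Lr.T Lr.F6))

/-- Rounded division. -/
def cdiv (M K : ℕ) : ℕ := (M + K - 1) / K

theorem cdiv_pos {M K : ℕ} (hK : 1 ≤ K) (hM : 1 ≤ M) : 1 ≤ cdiv M K :=
  (Nat.one_le_div_iff (by omega)).2 (by omega)

theorem cdiv_step {M K : ℕ} (hK : 1 ≤ K) (hM : 1 ≤ M) : cdiv M K = cdiv (M - K) K + 1 := by
  unfold cdiv
  rcases Nat.lt_or_ge M K with h | h
  · have e1 : M - K = 0 := by omega
    rw [e1, Nat.zero_add, Nat.div_eq_of_lt (show K - 1 < K by omega)]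
    have : M + K - 1 = (M - 1) + K := by omega
    rw [this, Nat.add_div_right _ (by omega), Nat.div_eq_of_lt (by omega)]
  · have : M + K - 1 = (M - K + K - 1) + K := by omega
    rw [this, Nat.add_div_right _ (by omega)]

theorem le_mul_cdiv {M K : ℕ} (hK : 1 ≤ K) : M ≤ cdiv M K * K := by
  unfold cdiv
  have := Nat.lt_div_mul_add (a := M + K - 1) (b := K) (by omega)
  omega

theorem cdiv_le {M K : ℕ} (hK : 1 ≤ K) : cdiv M K ≤ M := by
  unfold cdiv
  rcases Nat.eq_zero_or_pos M with rfl | hM
  · rw [Nat.zero_add, Nat.div_eq_of_lt (by omega)]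
  · rw [Nat.div_le_iff_le_mul_add_pred (by omega)]
    have := Nat.le_mul_of_pos_left M hK
    omega

theorem runs_ceilP {K : ℕ} (hK : 1 ≤ K) (M : ℕ) : ∀ (s : SL E) (q : ℕ), s Lr.T = una M →
    s Lr.MM = una q → s Lr.KK = una K → s Lr.F6 = [] →
    Runs ceilP s (Function.update (Function.update s Lr.T [])
      Lr.MM (una (q + cdiv M K))) (cdiv M K * (8 * K + 5)) := by
  induction M using Nat.strong_induction_on with
  | _ M ih =>
    intro s q hT hM hKK h6
    rcases Nat.eq_zero_or_pos M with rfl | hM1
    · have e : cdiv 0 K = 0 := by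
        unfold cdiv; rw [Nat.zero_add]; exact Nat.div_eq_of_lt (by omega)
      refine ((Runs.loopF (by rw [nonempty_tops, hT]; rfl)).mono (by omega)).of_eq ?_
      rw [e]
      funext r
      cases r <;> simp [hT, hM, una]
    · have r1 := Runs.push Lr.MM (mk : SSym E) s
      have r2 := runs_dropN (u := Lr.KK) (a := Lr.T) (t := Lr.F6) (by decide) (by decide)
        (by decide) mk K (Function.update s Lr.MM (mk :: s Lr.MM)) (by simp [hKK, una])
        (by simp [h6])
      have r3 := ih (M - K) (by omega) (Function.update (Function.update s Lr.T (una (M - K)))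
        Lr.MM (una (q + 1))) (q + 1) (by simp) (by simp) (by simp [hKK]) (by simp [h6])
      have r4 := Runs.loopT (c := nonempty Lr.T)
        (p := (Prog.push Lr.MM mk).seq (dropN Lr.KK Lr.T Lr.F6))
        (by
          rw [nonempty_tops, hT]
          obtain ⟨d, rfl⟩ : ∃ d, M = d + 1 := ⟨M - 1, by omega⟩
          rfl) ((r1.seq r2).of_eq ?_) r3
      · rw [cdiv_step hK hM1]
        refine (r4.mono ?_).of_eq ?_
        · have : (cdiv (M - K) K + 1) * (8 * K + 5) =
            cdiv (M - K) K * (8 * K + 5) + 8 * K + 5 := by ring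
          omega
        · have : q + 1 + cdiv (M - K) K = q + (cdiv (M - K) K + 1) := by ring
          rw [this]
          funext r
          cases r <;> simp
      · have e : (mk :: una q : List (SSym E)) = una (q + 1) := by
          simp [una, List.replicate_succ]
        have e' : (una M : List (SSym E)).drop K = una (M - K) := by simp [una]
        funext r
        cases r <;> simp [hT, hM, e, e']

end Vale.Agent.P338.Limb
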