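import Vale.Agent.P338.Limb

/-!
# P338: long products: the loops
-/

namespace Vale.Agent.P338.Limb

open S2 SS

variable {J E : Type}

/-- The stacks in the big store. -/
def emb : Lr → Loc (J ⊕ Lr)
  | .AX => Sum.inl R.AX
  | .AY => Sum.inl R.AY
  | .AZ => Sum.inl R.AZ
  | q => Sum.inr (Sum.inr q)

/-- Inverse of `emb`. -/
def unemb : Loc (J ⊕ Lr) → Lr
  | Sum.inl R.AX => .AX
  | Sum.inl R.AY => .AY
  | Sum.inl _ => .AZ
  | Sum.inr (Sum.inl _) => .AZ
  | Sum.inr (Sum.inr q) => q

theorem emb_injective : Function.Injective (emb : Lr → Loc (J ⊕ Lr)) := by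
  refine Function.LeftInverse.injective (g := unemb) ?_
  intro q
  cases q <;> rfl

variable [DecidableEq J]

/-- The frame: the stacks of the machine and its counters are empty. -/
def Fr (S : St (J ⊕ Lr) E) : Prop :=
  (∀ j : J, S (Sum.inr (Sum.inl j)) = []) ∧ S (Sum.inl R.CNT) = [] ∧ S (Sum.inl R.CLK) = []

/-- The called program, with more stacks. -/
noncomputable def cl (call : Pr J E) : Pr (J ⊕ Lr) E := call.map (lft Sum.inl)

theorem runs_cl {call : Pr J E} {T : ℕ → ℕ} {C : ℕ} (hcall : CallFullSpec call T C)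
    {S : St (J ⊕ Lr) E} (hS : Fr S) (s : SL E) {m : ℕ} {xs ys : List Bool} (hm : 1 ≤ m)
    (hx : xs.length = m) (hy : ys.length = m) (hX : s Lr.AX = bits xs)
    (hY : s Lr.AY = bits ys) (hZ : s Lr.AZ = []) :
    RunsE emb S (cl call) s (Function.update (Function.update (Function.update s Lr.AX [])
      Lr.AY []) Lr.AZ (bits (bitsOf (2 * m) (natOf xs * natOf ys)))) (C * (m + T m)) := by
  obtain ⟨h1, h2, h3⟩ := hS
  have hi := emb_injective (J := J)
  have eX : ovw emb s S (Sum.inl R.AX) = bits xs := by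
    rw [← hX]; exact ovw_apply hi s S Lr.AX
  have eY : ovw emb s S (Sum.inl R.AY) = bits ys := by
    rw [← hY]; exact ovw_apply hi s S Lr.AY
  have eZ : ovw emb s S (Sum.inl R.AZ) = [] := by
    rw [← hZ]; exact ovw_apply hi s S Lr.AZ
  have nJ : ∀ j : J, ¬ ∃ i, (emb i : Loc (J ⊕ Lr)) = Sum.inr (Sum.inl j) := by
    rintro j ⟨i, hi⟩
    cases i <;> simp [emb] at hi
  have nC : ¬ ∃ i, (emb i : Loc (J ⊕ Lr)) = Sum.inl R.CNT := by
    rintro ⟨i, hi⟩
    cases i <;> simp [emb] at hi
  have nK : ¬ ∃ i, (emb i : Loc (J ⊕ Lr)) = Sum.inl R.CLK := by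
    rintro ⟨i, hi⟩
    cases i <;> simp [emb] at hi
  have h := hcall m xs ys (fun k => ovw emb s S (lft Sum.inl k)) hm hx hy
    (fun j => by
      show ovw emb s S (Sum.inr (Sum.inl j)) = []
      rw [ovw_of_not _ _ (nJ j), h1])
    (fun r hr => by
      show ovw emb s S (Sum.inl r) = []
      simp only [List.mem_cons, List.not_mem_nil, or_false] at hr
      rcases hr with rfl | rfl | rfl
      · exact eZ
      · rw [ovw_of_not _ _ nC, h2]
      · rw [ovw_of_not _ _ nK, h3]) eX eY
  unfold RunsE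
  rw [ovw_update hi, ovw_update hi, ovw_update hi]
  refine h.map (lft_injective Sum.inl_injective) (fun _ => rfl) ?_ ?_
  · intro k
    rcases k with r | j
    · simp only [lft, Sum.map_inl, id, St.set, Function.update_apply, Sum.inl.injEq, emb]
    · simp only [lft, Sum.map_inr, St.set, Function.update_apply, reduceCtorEq, if_false, emb]
  · intro k hk
    have g : ∀ r : R, k ≠ Sum.inl r := fun r h => hk ⟨Sum.inl r, h.symm⟩
    simp only [emb, Function.update_apply, if_neg (g _)]

/-! ### One limb of the second factor -/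

/-- The small part of the inner step before the call. -/
def inA : PL E :=
  (takeN Lr.MM Lr.YC Lr.AY Lr.F6).seq (Prog.copyOnto Lr.XL Lr.AX Lr.T)

/-- The small part of the inner step after the call. -/
def inB : PL E :=
  (Prog.fill Lr.LZ (sb false) Lr.P Lr.F6).seq ((mvOnto Lr.AZ Lr.P Lr.T).seq (shAdd Lr.WA))

/-- The scratch stacks. -/
def sc0 : List Lr :=
  [Lr.AX, Lr.AY, Lr.AZ, Lr.P, Lr.V, Lr.T, Lr.T2, Lr.C1, Lr.C2, Lr.F6]

/-- The reversed low part of a number. -/
theorem split_low (m j y : ℕ) :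
    bitsOf (m * (j + 1)) y = bitsOf (m * j) y ++ bitsOf m (y / 2 ^ (m * j)) := by
  rw [Nat.mul_succ, bitsOf_add]

theorem runs_inA (s : SL E) {m j a y : ℕ} (hM : s Lr.MM = una m)
    (hY : s Lr.YC = (bits (bitsOf (m * (j + 1)) y)).reverse) (hX : s Lr.XL = bits (bitsOf m a))
    (h0 : ∀ r ∈ sc0, s r = []) :
    Runs inA s (Function.update (Function.update (Function.update s
      Lr.YC (bits (bitsOf (m * j) y)).reverse) Lr.AY (bits (bitsOf m (y / 2 ^ (m * j)))))
      Lr.AX (bits (bitsOf m a))) (14 * m + 3) := by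
  have z := h0
  have r1 := runs_takeN (u := Lr.MM) (a := Lr.YC) (b := Lr.AY) (t := Lr.F6) (by decide)
    (by decide) (by decide) (by decide) (by decide) (by decide) mk
    (bits (bitsOf m (y / 2 ^ (m * j)))).reverse (bits (bitsOf (m * j) y)).reverse s
    (by rw [hM]; simp [una]) (z _ (by decide))
    (by rw [hY, split_low, bits_append, List.reverse_append])
  rw [List.reverse_reverse, z Lr.AY (by decide), List.append_nil] at r1
  have r2 := Runs.copyOnto (a := Lr.XL) (b := Lr.AX) (t := Lr.T) (by decide) (by decide)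
    (by decide) (Function.update (Function.update s Lr.YC (bits (bitsOf (m * j) y)).reverse)
      Lr.AY (bits (bitsOf m (y / 2 ^ (m * j))))) (by simpa using z Lr.T (by decide))
  refine ((r1.seq r2).mono ?_).of_eq ?_
  · simp [hX]
    omega
  · funext r
    cases r <;> simp [hX, z Lr.AX (by decide)]

theorem runs_inB (s : SL E) {m L w t : ℕ} (hm : 2 * m ≤ L) (hM : s Lr.MM = una m)
    (hLZ : s Lr.LZ = una (L - 2 * m)) (ht : t < 2 ^ (2 * m))
    (hZ : s Lr.AZ = bits (bitsOf (2 * m) t)) (hW : s Lr.WA = bits (bitsOf L w))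
    (h0 : ∀ r ∈ [Lr.P, Lr.V, Lr.T, Lr.T2, Lr.C1, Lr.C2, Lr.F6], s r = []) :
    Runs inB s (Function.update (Function.update s
      Lr.AZ []) Lr.WA (bits (bitsOf L (w * 2 ^ m + t)))) (60 * L + 60) := by
  have z := h0
  have r1 := Runs.fill (u := Lr.LZ) (b := Lr.P) (t := Lr.F6) (by decide) (by decide)
    (by decide) (sb false : SSym E) mk s (L - 2 * m) (by rw [hLZ]; rfl) (z _ (by decide))
  rw [z Lr.P (by decide), List.append_nil] at r1
  have r2 := runs_mvOnto (a := Lr.AZ) (b := Lr.P) (t := Lr.T) (by decide) (by decide)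
    (by decide) (Function.update s Lr.P (List.replicate (L - 2 * m) (sb false)))
    (by simpa using z Lr.T (by decide))
  have e2 : (bits (bitsOf (2 * m) t) ++ List.replicate (L - 2 * m) (sb false) : List (SSym E)) =
      bits (bitsOf L t) := by
    have := bitsOf_add_zeros ht (L - 2 * m)
    rw [Nat.add_sub_cancel' hm] at this
    rw [this]
    simp [bits]
  have r3 := runs_shAdd (W := Lr.WA) (Or.inl rfl)
    (Function.update (Function.update s Lr.AZ []) Lr.P (bits (bitsOf L t))) (L := L) (m := m)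
    (z := w) (p := t) (by omega) (by simp [hM]) (by simp [hW]) (by simp)
    (by
      intro r hr
      simp only [List.mem_cons, List.not_mem_nil, or_false] at hr
      rcases hr with rfl | rfl | rfl | rfl | rfl | rfl
      · simpa using z Lr.T (by decide)
      · simpa using z Lr.V (by decide)
      · simpa using z Lr.T2 (by decide)
      · simpa using z Lr.C1 (by decide)
      · simpa using z Lr.C2 (by decide)
      · simpa using z Lr.F6 (by decide))
  refine ((r1.seq ((r2.of_eq ?_).seq r3)).mono ?_).of_eq ?_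
  · rw [← e2]
    funext r
    cases r <;> simp [hZ]
  · simp [hZ]
    omega
  · funext r
    cases r <;> simp [z Lr.P (by decide)]

end Vale.Agent.P338.Limb
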