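import Mathlib

/-!
# P338: deterministic multitape Turing machines, multiplication, matrix transposition
-/

namespace Vale.Agent.P338

/-- The symbols that may occur in an input: blank, the two bits and the separator. -/
inductive Sym : Type
  | blank | zero | one | sep
deriving DecidableEq

instance : Fintype Sym :=
  ⟨{Sym.blank, Sym.zero, Sym.one, Sym.sep}, fun x => by cases x <;> simp⟩

/-- The symbol of a bit. -/
def Sym.ofBit (b : Bool) : Sym := if b then Sym.one else Sym.zero

/-- Head moves. -/
inductive Dir : Type
  | left | stay | right
deriving DecidableEq

instance : Fintype Dir :=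
  ⟨{Dir.left, Dir.stay, Dir.right}, fun x => by cases x <;> simp⟩

/-- New head position. The tape is one-way infinite: on the leftmost cell `0`, a
move to the left leaves the head where it is. -/
def Dir.move : Dir → ℕ → ℕ
  | Dir.left, p => p - 1
  | Dir.stay, p => p
  | Dir.right, p => p + 1

/-- A deterministic Turing machine with `k + 1` one-way infinite tapes numbered `0, …, k`,
a finite alphabet `Γ` containing the four symbols of `Sym`, and a finite set `Q` of states.
`δ q a = none` means that the machine halts in state `q` when the heads read `a`. Otherwise
`δ q a = some (q', f)`: it goes to state `q'`, and on tape `i` it writes `(f i).1` and moves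
the head by `(f i).2`. Tape `0` is the input tape, `out` is the output tape. -/
structure TM : Type 1 where
  k : ℕ
  Γ : Type
  finΓ : Finite Γ
  sym : Sym → Γ
  sym_inj : Function.Injective sym
  Q : Type
  finQ : Finite Q
  start : Q
  δ : Q → (Fin (k + 1) → Γ) → Option (Q × (Fin (k + 1) → Γ × Dir))
  out : Fin (k + 1)

namespace TM

/-- A configuration: state, contents of the tapes, head positions. -/
structure Cfg (M : TM) : Type where
  q : M.Q
  tape : Fin (M.k + 1) → ℕ → M.Γ
  head : Fin (M.k + 1) → ℕ

/-- The symbols read by the heads. -/
def Cfg.read {M : TM} (c : M.Cfg) : Fin (M.k + 1) → M.Γ := fun i => c.tape i (c.head i)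

/-- The result of performing the transition `(q', f)`. -/
def Cfg.apply {M : TM} (c : M.Cfg) (r : M.Q × (Fin (M.k + 1) → M.Γ × Dir)) : M.Cfg where
  q := r.1
  tape := fun i => Function.update (c.tape i) (c.head i) (r.2 i).1
  head := fun i => (r.2 i).2.move (c.head i)

/-- The configuration is a halting one. -/
def Halted (M : TM) (c : M.Cfg) : Prop := M.δ c.q c.read = none

/-- One step; a halting configuration is left unchanged. -/
def next (M : TM) (c : M.Cfg) : M.Cfg :=
  match M.δ c.q c.read with
  | none => c
  | some r => c.apply r

/-- The starting configuration on the input word `w`: the word is written on tape `0` from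
the leftmost cell on, everything else is blank, all heads are on the leftmost cell. -/
def init (M : TM) (w : List Sym) : M.Cfg where
  q := M.start
  tape := fun i p => if i = 0 then M.sym (w.getD p Sym.blank) else M.sym Sym.blank
  head := fun _ => 0

/-- The configuration after `t` steps on input `w`. -/
def run (M : TM) (w : List Sym) (t : ℕ) : M.Cfg := M.next^[t] (M.init w)

/-- The machine halts on input `w`. -/
def HaltsOn (M : TM) (w : List Sym) : Prop := ∃ t, M.Halted (M.run w t)

/-- The number of steps made on input `w` before halting. -/
noncomputable def time (M : TM) (w : List Sym) : ℕ := sInf {t | M.Halted (M.run w t)}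

/-- On input `w` the machine halts, and at that moment the first cells of the output tape hold
the word `v` (nothing is required about the cells after it). -/
def Writes (M : TM) (w v : List Sym) : Prop :=
  ∃ t, M.Halted (M.run w t) ∧
    ∀ i, i < v.length → (M.run w t).tape M.out i = M.sym (v.getD i Sym.blank)

/-- On input `w` the machine halts, and at that moment the output tape holds the word `v` from
the leftmost cell on, and is blank otherwise. -/
def WritesExactly (M : TM) (w v : List Sym) : Prop :=
  ∃ t, M.Halted (M.run w t) ∧
    ∀ i, (M.run w t).tape M.out i = M.sym (v.getD i Sym.blank)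

end TM

/-- The word of a list of bits. -/
def bitWord (l : List Bool) : List Sym := l.map Sym.ofBit

/-- The value of a bit string, leftmost bit most significant. -/
def val (l : List Bool) : ℕ := l.foldl (fun v b => 2 * v + b.toNat) 0

/-- The binary representation of `z` padded on the left to length `k`. -/
def bin (k z : ℕ) : List Bool := (List.range k).map fun i => z.testBit (k - 1 - i)

/-- The input `x # y`. -/
def mulInput {n : ℕ} (x y : Fin n → Bool) : List Sym :=
  bitWord (List.ofFn x) ++ Sym.sep :: bitWord (List.ofFn y)

/-- `A` multiplies: for all `n ≥ 1` and all `x, y ∈ {0,1}^n`, on input `x # y` it halts with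
the `2n`-bit representation of the product on its output tape. -/
def Multiplies (A : TM) : Prop :=
  ∀ n : ℕ, 1 ≤ n → ∀ x y : Fin n → Bool,
    A.Writes (mulInput x y)
      (bitWord (bin (2 * n) (val (List.ofFn x) * val (List.ofFn y))))

/-- `T_A(n)`: the worst-case running time over all `x, y ∈ {0,1}^n`. -/
noncomputable def mulTime (A : TM) (n : ℕ) : ℕ :=
  Finset.univ.sup fun p : (Fin n → Bool) × (Fin n → Bool) => A.time (mulInput p.1 p.2)

/-- The bits of an `m × n` matrix in row-major order. -/
def rowMajor {m n : ℕ} (a : Fin m → Fin n → Bool) : List Bool :=
  (List.ofFn fun i => List.ofFn (a i)).flatten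

/-- `B` transposes square bit matrices: for all `n ≥ 1`, given an `n × n` bit matrix in
row-major order (`n ^ 2` bits), it halts with the transposed matrix, in row-major order,
on its output tape. -/
def Transposes (B : TM) : Prop :=
  ∀ n : ℕ, 1 ≤ n → ∀ a : Fin n → Fin n → Bool,
    B.WritesExactly (bitWord (rowMajor a)) (bitWord (rowMajor fun i j => a j i))

/-- The worst-case running time of `B` over all `n × n` bit matrices. -/
noncomputable def transTime (B : TM) (n : ℕ) : ℕ :=
  Finset.univ.sup fun a : Fin n → Fin n → Bool => B.time (bitWord (rowMajor a))

/-- The input for a rectangular `m × n` matrix: `1^m # ` followed by the bits of the matrix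
in row-major order. -/
def rectInput {m n : ℕ} (a : Fin m → Fin n → Bool) : List Sym :=
  List.replicate m Sym.one ++ Sym.sep :: bitWord (rowMajor a)

/-- `B` transposes rectangular bit matrices. -/
def TransposesRect (B : TM) : Prop :=
  ∀ m n : ℕ, 1 ≤ m → 1 ≤ n → ∀ a : Fin m → Fin n → Bool,
    B.WritesExactly (rectInput a) (bitWord (rowMajor fun i j => a j i))

/-- The worst-case running time of `B` over all `m × n` bit matrices. -/
noncomputable def rectTime (B : TM) (m n : ℕ) : ℕ :=
  Finset.univ.sup fun a : Fin m → Fin n → Bool => B.time (rectInput a)

end Vale.Agent.P338
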