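import Vale.Agent.P338.Kron

/-!
# P338: arithmetic modulo `2 ^ D + 1`, and the values in the passes of a swap
-/

namespace Vale.Agent.P338

/-! ### Sums of powers -/

theorem geom_even {A : Type} [CommRing A] (y : A) (n : ℕ) :
    ∑ k ∈ Finset.range (2 * n), y ^ k = (1 + y) * ∑ k ∈ Finset.range n, (y ^ 2) ^ k := by
  induction n with
  | zero => simp
  | succ n ih =>
    rw [Nat.mul_succ, Finset.sum_range_succ, Finset.sum_range_succ, ih,
      Finset.sum_range_succ]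
    ring

theorem geom_two_pow {A : Type} [CommRing A] (y : A) (ρ j : ℕ) (hj : j < ρ)
    (hy : y ^ 2 ^ j = -1) : ∑ k ∈ Finset.range (2 ^ ρ), y ^ k = 0 := by
  induction ρ generalizing y j with
  | zero => omega
  | succ ρ ih =>
    rw [pow_succ 2 ρ, Nat.mul_comm, geom_even]
    cases j with
    | zero =>
      rw [pow_zero, pow_one] at hy
      rw [hy]
      simp
    | succ j =>
      rw [ih (y ^ 2) j (by omega) (by rw [← pow_mul, Nat.mul_comm, ← pow_succ, hy]), mul_zero]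

/-- A nonzero integer that is not divisible by `2 ^ ρ` is an odd multiple of some `2 ^ s` with
`s < ρ`. -/
theorem exists_odd_mul {ρ : ℕ} {d : ℤ} (h : ¬ (2 : ℤ) ^ ρ ∣ d) :
    ∃ s < ρ, ∃ o : ℤ, Odd o ∧ d = 2 ^ s * o := by
  induction ρ generalizing d with
  | zero => exact absurd (by simp) h
  | succ ρ ih =>
    rcases Int.even_or_odd d with he | ho
    · obtain ⟨e, rfl⟩ := he.two_dvd
      have h' : ¬ (2 : ℤ) ^ ρ ∣ e := by
        intro hd
        apply h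
        rw [pow_succ, mul_comm]
        exact mul_dvd_mul_left _ hd
      obtain ⟨s, hs, o, hodd, hd⟩ := ih h'
      exact ⟨s + 1, by omega, o, hodd, by rw [hd]; ring⟩
    · exact ⟨0, by omega, d, ho, by simp⟩

section

variable {A : Type} [CommRing A] {r ρ : ℕ} {z : Aˣ}

theorem zpow_odd_eq (hz : (z : A) ^ r = -1) {o : ℤ} (ho : Odd o) :
    ((z ^ ((r : ℤ) * o) : Aˣ) : A) = -1 := by
  have h1 : z ^ r = -1 := by
    ext
    rw [Units.val_pow_eq_pow_val, hz, Units.val_neg, Units.val_one]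
  rw [zpow_mul, zpow_natCast, h1, ho.neg_one_zpow]
  simp

theorem zpow_two_r (hz : (z : A) ^ r = -1) : z ^ (2 * r) = 1 := by
  ext
  rw [Units.val_pow_eq_pow_val, Nat.mul_comm, pow_mul, hz, Units.val_one]
  ring

theorem zpow_congr (hz : (z : A) ^ r = -1) {m n : ℤ} (h : m ≡ n [ZMOD ((2 * r : ℕ) : ℤ)]) :
    z ^ m = z ^ n := by
  rw [zpow_eq_zpow_iff_modEq]
  refine h.of_dvd ?_
  exact_mod_cast orderOf_dvd_of_pow_eq_one (zpow_two_r hz)

theorem zpow_eq_one (hz : (z : A) ^ r = -1) {m : ℤ} (h : ((2 * r : ℕ) : ℤ) ∣ m) :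
    z ^ m = 1 := by
  rw [zpow_congr hz ((Int.modEq_zero_iff_dvd).2 h), zpow_zero]

/-- Orthogonality. -/
theorem sum_zpow (hr : r = 2 ^ ρ) (hz : (z : A) ^ r = -1) (d : ℤ) :
    ∑ k ∈ Finset.range r, ((z ^ (2 * (k : ℤ) * d) : Aˣ) : A) =
      if (r : ℤ) ∣ d then (r : A) else 0 := by
  have h1 : ∀ k : ℕ, ((z ^ (2 * (k : ℤ) * d) : Aˣ) : A) = ((z ^ (2 * d) : Aˣ) : A) ^ k := by
    intro k
    rw [← Units.val_pow_eq_pow_val, ← zpow_natCast, ← zpow_mul]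
    congr 2
    ring
  simp_rw [h1]
  split
  · next h =>
    have h2 : z ^ (2 * d) = 1 := by
      refine zpow_eq_one hz ?_
      obtain ⟨e, rfl⟩ := h
      exact ⟨e, by push_cast; ring⟩
    rw [h2]
    simp
  · next h =>
    have h' : ¬ (2 : ℤ) ^ ρ ∣ d := by
      intro hd
      apply h
      rw [hr]
      exact_mod_cast hd
    obtain ⟨s, hs, o, ho, rfl⟩ := exists_odd_mul h'
    rw [hr]
    refine geom_two_pow _ ρ (ρ - 1 - s) (by omega) ?_
    rw [← Units.val_pow_eq_pow_val, ← zpow_natCast, ← zpow_mul]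
    rw [← zpow_odd_eq hz ho, hr]
    congr 2
    push_cast
    have : (2 : ℤ) ^ ρ = 2 * 2 ^ s * 2 ^ (ρ - 1 - s) := by
      rw [← pow_succ', ← pow_add]
      congr 1
      omega
    rw [this]
    ring

end

/-! ### Rotations, folding and convolutions modulo `2 ^ D + 1` -/

section

variable {A : Type} [CommRing A] {g r ρ : ℕ} {z : Aˣ}

theorem two_pow_eq (hg : (z : A) = 2 ^ g) (hz : (z : A) ^ r = -1) :
    (2 : A) ^ (g * r) = -1 := by
  rw [pow_mul, ← hg, hz]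

theorem cast_rotN (hg : (z : A) = 2 ^ g) (hz : (z : A) ^ r = -1) {u v : ℕ}
    (hu : u ≤ 2 * r) :
    ((rotN (4 * (g * r)) (g * (2 * r - u)) v : ℕ) : A) = v * ((z ^ (u : ℤ) : Aˣ) : A) := by
  have hD := two_pow_eq hg hz
  have he : g * (2 * r - u) ≤ 4 * (g * r) := by
    calc g * (2 * r - u) ≤ g * (2 * r) := Nat.mul_le_mul_left _ (Nat.sub_le _ _)
      _ = 2 * (g * r) := by ring
      _ ≤ 4 * (g * r) := by omega
  set e := g * (2 * r - u) with hedef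
  have h1 : ((rotN (4 * (g * r)) e v : ℕ) : A) * 2 ^ e = v := by
    have h2 : (2 : A) ^ (4 * (g * r) - e) * 2 ^ e = 1 := by
      rw [← pow_add, Nat.sub_add_cancel he, Nat.mul_comm 4, pow_mul, hD]
      norm_num
    have h3 : ((v / 2 ^ e : ℕ) : A) * 2 ^ e + ((v % 2 ^ e : ℕ) : A) = v := by
      have := congrArg (Nat.cast (R := A)) (Nat.div_add_mod' v (2 ^ e))
      push_cast at this
      exact this
    rw [rotN]
    push_cast
    calc (((v / 2 ^ e : ℕ) : A) + ((v % 2 ^ e : ℕ) : A) * 2 ^ (4 * (g * r) - e)) * 2 ^ e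
        = ((v / 2 ^ e : ℕ) : A) * 2 ^ e + ((v % 2 ^ e : ℕ) : A) *
          (2 ^ (4 * (g * r) - e) * 2 ^ e) := by ring
      _ = v := by rw [h2, mul_one, h3]
  have h4 : (2 : A) ^ e * ((z ^ (u : ℤ) : Aˣ) : A) = 1 := by
    rw [zpow_natCast, Units.val_pow_eq_pow_val, hg, ← pow_mul, ← pow_add, hedef,
      ← Nat.mul_add, Nat.sub_add_cancel hu, Nat.mul_comm 2 r, ← Nat.mul_assoc, pow_mul, hD]
    norm_num
  calc ((rotN (4 * (g * r)) e v : ℕ) : A)
      = ((rotN (4 * (g * r)) e v : ℕ) : A) * (2 ^ e * ((z ^ (u : ℤ) : Aˣ) : A)) := by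
        rw [h4, mul_one]
    _ = (((rotN (4 * (g * r)) e v : ℕ) : A) * 2 ^ e) * ((z ^ (u : ℤ) : Aˣ) : A) := by ring
    _ = _ := by rw [h1]

theorem four_chunks {D v : ℕ} (hv : v < 2 ^ (4 * D)) :
    v = v % 2 ^ D + 2 ^ D * (v / 2 ^ D % 2 ^ D) + 2 ^ (2 * D) * (v / 2 ^ (2 * D) % 2 ^ D) +
      2 ^ (3 * D) * (v / 2 ^ (3 * D) % 2 ^ D) := by
  have h1 := Nat.mod_add_div v (2 ^ D)
  have h2 := Nat.mod_add_div (v / 2 ^ D) (2 ^ D)
  have h3 := Nat.mod_add_div (v / 2 ^ (2 * D)) (2 ^ D)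
  have e2 : v / 2 ^ D / 2 ^ D = v / 2 ^ (2 * D) := by
    rw [Nat.div_div_eq_div_mul, ← pow_add]
    congr 2
    ring
  have e3 : v / 2 ^ (2 * D) / 2 ^ D = v / 2 ^ (3 * D) := by
    rw [Nat.div_div_eq_div_mul, ← pow_add]
    congr 2
    ring
  have h4 : v / 2 ^ (3 * D) % 2 ^ D = v / 2 ^ (3 * D) := by
    refine Nat.mod_eq_of_lt ?_
    rw [Nat.div_lt_iff_lt_mul (by positivity), ← pow_add]
    exact hv.trans_eq (by congr 1; ring)
  rw [e2] at h2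
  rw [e3] at h3
  rw [h4]
  calc v = v % 2 ^ D + 2 ^ D * (v / 2 ^ D) := h1.symm
    _ = v % 2 ^ D + 2 ^ D * (v / 2 ^ D % 2 ^ D + 2 ^ D * (v / 2 ^ (2 * D))) := by rw [h2]
    _ = v % 2 ^ D + 2 ^ D * (v / 2 ^ D % 2 ^ D + 2 ^ D *
        (v / 2 ^ (2 * D) % 2 ^ D + 2 ^ D * (v / 2 ^ (3 * D)))) := by rw [h3]
    _ = _ := by ring

theorem cast_foldN {D v : ℕ} (hD : (2 : A) ^ D = -1) (hv : v < 2 ^ (4 * D)) :
    ((foldN D v : ℕ) : A) = v := by
  have h0 : 1 ≤ 2 ^ D := Nat.one_le_two_pow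
  have hc : ∀ w : ℕ, ((2 ^ D - 1 - w % 2 ^ D : ℕ) : A) = -2 - ((w % 2 ^ D : ℕ) : A) := by
    intro w
    have h1 : w % 2 ^ D < 2 ^ D := Nat.mod_lt _ (by omega)
    rw [Nat.cast_sub (by omega), Nat.cast_sub h0]
    push_cast
    rw [hD]
    ring
  have h := congrArg (Nat.cast (R := A)) (four_chunks hv)
  rw [foldN]
  simp only [Nat.cast_add, hc]
  refine Eq.trans ?_ h.symm
  simp only [Nat.cast_add, Nat.cast_mul, Nat.cast_pow, Nat.cast_ofNat]
  have h2 : (2 : A) ^ (2 * D) = 1 := by rw [Nat.mul_comm, pow_mul, hD]; norm_num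
  have h3 : (2 : A) ^ (3 * D) = -1 := by rw [Nat.mul_comm, pow_mul, hD]; norm_num
  rw [h2, h3, hD]
  ring

theorem cast_conv (hr : Even r) (hr1 : 1 ≤ r) (hg : (z : A) = 2 ^ g)
    (hz : (z : A) ^ r = -1) (v : ℕ → ℕ → ℕ → ℕ) (a k j : ℕ) :
    ((conv g r v a k j : ℕ) : A) =
      ∑ i ∈ Finset.range r, (v a i j : A) * ((z ^ (-((k : ℤ) - i) ^ 2) : Aˣ) : A) := by
  rw [conv]
  push_cast
  refine Finset.sum_congr rfl fun i hi => ?_
  rw [Finset.mem_range] at hi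
  congr 1
  rw [pow_mul, ← hg, ← Units.val_pow_eq_pow_val, ← zpow_natCast]
  congr 1
  refine zpow_congr hz ?_
  have hlt : (r + k - i) ^ 2 % (2 * r) < 2 * r := Nat.mod_lt _ (by omega)
  have h1 : (((2 * r - (r + k - i) ^ 2 % (2 * r) : ℕ)) : ℤ) =
      ((2 * r : ℕ) : ℤ) - ((((r + k - i) ^ 2 : ℕ) : ℤ) % ((2 * r : ℕ) : ℤ)) := by
    rw [Nat.cast_sub hlt.le]
    push_cast
    ring
  rw [h1]
  have h2 : ((r + k - i : ℕ) : ℤ) = (r : ℤ) + k - i := by omega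
  have h3 : (((r + k - i) ^ 2 : ℕ) : ℤ) = ((r : ℤ) + k - i) ^ 2 := by
    push_cast
    rw [← h2]
  rw [h3]
  obtain ⟨t, ht⟩ := hr
  have h4 : ((r : ℤ) + k - i) ^ 2 ≡ ((k : ℤ) - i) ^ 2 [ZMOD ((2 * r : ℕ) : ℤ)] := by
    refine (Int.modEq_iff_dvd.2 ⟨-((t : ℤ) + ((k : ℤ) - i)), ?_⟩)
    push_cast
    have : (r : ℤ) = t + t := by exact_mod_cast ht
    rw [this]
    ring
  calc ((2 * r : ℕ) : ℤ) - ((r : ℤ) + k - i) ^ 2 % ((2 * r : ℕ) : ℤ)
      ≡ 0 - ((k : ℤ) - i) ^ 2 [ZMOD ((2 * r : ℕ) : ℤ)] := by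
        refine Int.ModEq.sub ?_ ((Int.mod_modEq _ _).trans h4)
        exact (Int.modEq_zero_iff_dvd).2 dvd_rfl
    _ = -((k : ℤ) - i) ^ 2 := by ring

end

/-! ### The passes of a swap -/

/-- The `p × p` array padded with zeros. -/
def padV (p : ℕ) (x : ℕ → ℕ → ℕ → ℕ) (a i j : ℕ) : ℕ := if i < p ∧ j < p then x a i j else 0

/-- Row `i` is rotated by `i` slots towards the high end. -/
def skewV (r : ℕ) (v : ℕ → ℕ → ℕ → ℕ) (a i j : ℕ) : ℕ := v a i ((j + (r - i)) % r)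

/-- Every slot is multiplied by the `u i j`-th power of the root of unity, and folded. -/
def twV (g r : ℕ) (u : ℕ → ℕ → ℕ) (v : ℕ → ℕ → ℕ → ℕ) (a i j : ℕ) : ℕ :=
  foldN (g * r) (rotN (4 * (g * r)) (g * (2 * r - u i j)) (v a i j))

/-- Folding every slot. -/
def foldV (D : ℕ) (v : ℕ → ℕ → ℕ → ℕ) (a i j : ℕ) : ℕ := foldN D (v a i j)

/-- Row `i` is rotated by `i` slots towards the low end. -/
def unskewV (r : ℕ) (v : ℕ → ℕ → ℕ → ℕ) (a i j : ℕ) : ℕ := v a i ((j + i) % r)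

theorem twV_le (g r : ℕ) (u : ℕ → ℕ → ℕ) (v : ℕ → ℕ → ℕ → ℕ) (a i j : ℕ) :
    twV g r u v a i j ≤ 2 ^ (g * r + 2) := foldN_le _ _

theorem foldV_le (D : ℕ) (v : ℕ → ℕ → ℕ → ℕ) (a i j : ℕ) :
    foldV D v a i j ≤ 2 ^ (D + 2) := foldN_le _ _

theorem rotN_lt' {g r u v : ℕ} (hv : v < 2 ^ (4 * (g * r))) :
    rotN (4 * (g * r)) (g * (2 * r - u)) v < 2 ^ (4 * (g * r)) := by
  refine rotN_lt ?_ hv
  calc g * (2 * r - u) ≤ g * (2 * r) := Nat.mul_le_mul_left _ (Nat.sub_le _ _)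
    _ = 2 * (g * r) := by ring
    _ ≤ 4 * (g * r) := by omega

theorem cast_twV {A : Type} [CommRing A] {g r : ℕ} {z : Aˣ} (hg : (z : A) = 2 ^ g)
    (hz : (z : A) ^ r = -1) {u : ℕ → ℕ → ℕ} {v : ℕ → ℕ → ℕ → ℕ} {a i j : ℕ}
    (hv : v a i j < 2 ^ (4 * (g * r))) (hu : u i j ≤ 2 * r) {w : ℤ}
    (hw : (u i j : ℤ) ≡ w [ZMOD ((2 * r : ℕ) : ℤ)]) :
    ((twV g r u v a i j : ℕ) : A) = v a i j * ((z ^ w : Aˣ) : A) := by
  rw [twV, cast_foldN (two_pow_eq hg hz) (rotN_lt' hv), cast_rotN hg hz hu,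
    zpow_congr hz hw]

/-- The values after pass 6, modulo `2 ^ D + 1`. -/
theorem cast_pass {A : Type} [CommRing A] {g r ρ : ℕ} {z : Aˣ} (hr : r = 2 ^ ρ)
    (hρ2 : 1 ≤ ρ) (hρ : ρ + 3 ≤ g * r) (hg : (z : A) = 2 ^ g) (hz : (z : A) ^ r = -1)
    {u₁ u₂ : ℕ → ℕ → ℕ} {v : ℕ → ℕ → ℕ → ℕ} {a : ℕ}
    (hv : ∀ i < r, ∀ j < r, v a i j < 2 ^ (4 * (g * r)))
    (hu₁ : ∀ i < r, ∀ j < r, u₁ i j ≤ 2 * r ∧
      (u₁ i j : ℤ) ≡ (i : ℤ) ^ 2 [ZMOD ((2 * r : ℕ) : ℤ)])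
    (hu₂ : ∀ i < r, ∀ j < r, u₂ i j ≤ 2 * r ∧
      (u₂ i j : ℤ) ≡ 2 * (i : ℤ) ^ 2 - 2 * i * j [ZMOD ((2 * r : ℕ) : ℤ)])
    {l j : ℕ} (hl : l < r) (hj : j < r) :
    ((twV g r u₁ (conv g r (twV g r u₂ (conv g r (twV g r u₁ v)))) a l j : ℕ) : A) =
      r * v a ((j + (r - l)) % r) j := by
  have hev : Even r := by
    rw [hr]
    exact Nat.even_pow.2 ⟨by decide, by omega⟩
  have hr1 : 1 ≤ r := by rw [hr]; exact Nat.one_le_two_pow
  have b2 : ∀ a i j, twV g r u₁ v a i j ≤ 2 ^ (g * r + 2) := fun a i j => twV_le _ _ _ _ _ _ _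
  have b3 : ∀ k < r, ∀ j, conv g r (twV g r u₁ v) a k j < 2 ^ (4 * (g * r)) := fun k hk j =>
    conv_lt hr rfl hρ hk fun i _ => b2 _ _ _
  have b5 : ∀ k < r, ∀ j, conv g r (twV g r u₂ (conv g r (twV g r u₁ v))) a k j <
      2 ^ (4 * (g * r)) := fun k hk j =>
    conv_lt hr rfl hρ hk fun i _ => twV_le _ _ _ _ _ _ _
  rw [cast_twV hg hz (b5 l hl j) (hu₁ l hl j hj).1 (hu₁ l hl j hj).2,
    cast_conv hev hr1 hg hz, Finset.sum_mul]
  have h1 : ∀ k ∈ Finset.range r,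
      ((twV g r u₂ (conv g r (twV g r u₁ v)) a k j : ℕ) : A) *
        ((z ^ (-((l : ℤ) - k) ^ 2) : Aˣ) : A) * ((z ^ ((l : ℤ) ^ 2) : Aˣ) : A) =
      ∑ i ∈ Finset.range r, (v a i j : A) *
        ((z ^ (2 * (k : ℤ) * ((i : ℤ) - j + l)) : Aˣ) : A) := by
    intro k hk
    rw [Finset.mem_range] at hk
    rw [cast_twV hg hz (b3 k hk j) (hu₂ k hk j hj).1 (hu₂ k hk j hj).2,
      cast_conv hev hr1 hg hz, Finset.sum_mul, Finset.sum_mul, Finset.sum_mul]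
    refine Finset.sum_congr rfl fun i hi => ?_
    rw [Finset.mem_range] at hi
    rw [cast_twV hg hz (hv i hi j hj) (hu₁ i hi j hj).1 (hu₁ i hi j hj).2]
    simp only [mul_assoc]
    congr 1
    rw [← Units.val_mul, ← Units.val_mul, ← Units.val_mul, ← Units.val_mul, ← zpow_add,
      ← zpow_add, ← zpow_add, ← zpow_add]
    congr 2
    ring
  rw [Finset.sum_congr rfl h1, Finset.sum_comm]
  have h2 : ∀ i ∈ Finset.range r, ∑ k ∈ Finset.range r, (v a i j : A) *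
        ((z ^ (2 * (k : ℤ) * ((i : ℤ) - j + l)) : Aˣ) : A) =
      if i = (j + (r - l)) % r then (r : A) * v a ((j + (r - l)) % r) j else 0 := by
    intro i hi
    rw [Finset.mem_range] at hi
    rw [← Finset.mul_sum, sum_zpow hr hz]
    have h3 : ((r : ℤ) ∣ (i : ℤ) - j + l) ↔ i = (j + (r - l)) % r := by
      constructor
      · rintro ⟨c, hc⟩
        have hc0 : c = 0 ∨ c = 1 := by
          have h4 : (r : ℤ) * c < r * 2 := by omega
          have h5 : (r : ℤ) * (-1) < r * c := by omega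
          have h6 := lt_of_mul_lt_mul_left h4 (by omega)
          have h7 := lt_of_mul_lt_mul_left h5 (by omega)
          omega
        rcases hc0 with rfl | rfl
        · have : j + (r - l) = i + r := by omega
          rw [this, Nat.add_mod_right, Nat.mod_eq_of_lt hi]
        · have : j + (r - l) = i := by omega
          rw [this, Nat.mod_eq_of_lt hi]
      · intro h
        rcases lt_or_ge (j + (r - l)) r with h4 | h4
        · rw [Nat.mod_eq_of_lt h4] at h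
          exact ⟨1, by omega⟩
        · have : j + (r - l) = (j - l) + r := by omega
          rw [this, Nat.add_mod_right, Nat.mod_eq_of_lt (by omega)] at h
          exact ⟨0, by omega⟩
    by_cases h4 : i = (j + (r - l)) % r
    · rw [if_pos h4, if_pos (h3.2 h4), ← h4, mul_comm]
    · rw [if_neg h4, if_neg (fun h => h4 (h3.1 h)), mul_zero]
  rw [Finset.sum_congr rfl h2, Finset.sum_ite_eq', if_pos]
  rw [Finset.mem_range]
  exact Nat.mod_lt _ (by omega)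

/-- Reading off the entry after the second folding. -/
theorem fold_extract {D ρ M U x : ℕ} (hρ2 : 2 ≤ ρ) (hM : ρ + M + 3 ≤ D)
    (hU : U ≤ 2 ^ (D + 2)) (hx : x < 2 ^ M)
    (h : (U : ZMod (2 ^ D + 1)) = (2 : ZMod (2 ^ D + 1)) ^ ρ * x) :
    foldN D U / 2 ^ ρ % 2 ^ M = x := by
  have h0 : 2 ^ 3 ≤ 2 ^ D := Nat.pow_le_pow_right (by norm_num) (by omega)
  have hu1 : U / 2 ^ D ≤ 4 := by
    rw [pow_add] at hU
    refine Nat.div_le_of_le_mul ?_
    omega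
  have hu2 : U / 2 ^ (2 * D) = 0 := by
    refine Nat.div_eq_of_lt (hU.trans_lt (Nat.pow_lt_pow_right (by norm_num) (by omega)))
  have hu3 : U / 2 ^ (3 * D) = 0 := by
    refine Nat.div_eq_of_lt (hU.trans_lt (Nat.pow_lt_pow_right (by norm_num) (by omega)))
  have hrx : 2 ^ ρ * x < 2 ^ (D - 3) := by
    calc 2 ^ ρ * x < 2 ^ ρ * 2 ^ M := Nat.mul_lt_mul_of_pos_left hx (by positivity)
      _ = 2 ^ (ρ + M) := (pow_add _ _ _).symm
      _ ≤ 2 ^ (D - 3) := Nat.pow_le_pow_right (by norm_num) (by omega)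
  have hD3 : 2 ^ D = 2 ^ (D - 3) * 8 := by
    rw [show (8 : ℕ) = 2 ^ 3 by norm_num, ← pow_add, Nat.sub_add_cancel (by omega)]
  have h1 : U ≡ 2 ^ ρ * x [MOD 2 ^ D + 1] := by
    rw [← ZMod.natCast_eq_natCast_iff, h]
    push_cast
    rfl
  have hmod := Nat.mod_add_div U (2 ^ D)
  have hlt : U % 2 ^ D < 2 ^ D := Nat.mod_lt _ (by positivity)
  set u0 := U % 2 ^ D with hu0
  set u1 := U / 2 ^ D with hu1'
  have h2 : u0 = 2 ^ ρ * x + u1 := by
    have h3 : u0 ≡ 2 ^ ρ * x + u1 [MOD 2 ^ D + 1] := by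
      calc u0 ≡ u0 + (2 ^ D + 1) * u1 [MOD 2 ^ D + 1] := by
            simp [Nat.ModEq]
        _ = U + u1 := by rw [← hmod]; ring
        _ ≡ 2 ^ ρ * x + u1 [MOD 2 ^ D + 1] := Nat.ModEq.add_right _ h1
    refine Nat.ModEq.eq_of_lt_of_lt h3 (by omega) ?_
    have : 1 ≤ 2 ^ (D - 3) := Nat.one_le_two_pow
    omega
  have h4 : foldN D U = 2 ^ ρ * (x + 2 ^ (D + 1 - ρ)) + 2 := by
    rw [foldN, hu2, hu3, Nat.zero_mod, ← hu0, ← hu1', Nat.mod_eq_of_lt (a := u1) (by omega)]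
    rw [Nat.mul_add, ← pow_add, show ρ + (D + 1 - ρ) = D + 1 by omega, pow_succ]
    omega
  have h5 : (2 : ℕ) < 2 ^ ρ := by
    calc (2 : ℕ) < 2 ^ 2 := by norm_num
      _ ≤ 2 ^ ρ := Nat.pow_le_pow_right (by norm_num) hρ2
  rw [h4, Nat.mul_add_div (by positivity), Nat.div_eq_of_lt h5, Nat.add_zero,
    show D + 1 - ρ = M + (D + 1 - ρ - M) by omega, pow_add, Nat.add_mul_mod_self_left,
    Nat.mod_eq_of_lt hx]

/-- The values computed by the passes of a swap. -/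
def swapV (g r p : ℕ) (u₁ u₂ : ℕ → ℕ → ℕ) (x : ℕ → ℕ → ℕ → ℕ) : ℕ → ℕ → ℕ → ℕ :=
  unskewV r (foldV (g * r) (twV g r u₁ (conv g r (twV g r u₂ (conv g r
    (twV g r u₁ (skewV r (padV p x))))))))

/-- **Correctness of a swap**, on the level of numbers. -/
theorem swapV_spec {g r ρ p M : ℕ} {u₁ u₂ : ℕ → ℕ → ℕ} {x : ℕ → ℕ → ℕ → ℕ} {a : ℕ}
    (hr : r = 2 ^ ρ) (hρ2 : 2 ≤ ρ) (hM : ρ + M + 3 ≤ g * r) (hp : p ≤ r)
    (hx : ∀ i < p, ∀ j < p, x a i j < 2 ^ M)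
    (hu₁ : ∀ i < r, ∀ j < r, u₁ i j ≤ 2 * r ∧
      (u₁ i j : ℤ) ≡ (i : ℤ) ^ 2 [ZMOD ((2 * r : ℕ) : ℤ)])
    (hu₂ : ∀ i < r, ∀ j < r, u₂ i j ≤ 2 * r ∧
      (u₂ i j : ℤ) ≡ 2 * (i : ℤ) ^ 2 - 2 * i * j [ZMOD ((2 * r : ℕ) : ℤ)])
    {i j : ℕ} (hi : i < p) (hj : j < p) :
    swapV g r p u₁ u₂ x a i j / 2 ^ ρ % 2 ^ M = x a j i := by
  have hr1 : 1 ≤ r := by rw [hr]; exact Nat.one_le_two_pow
  set D := g * r with hD
  set N := 2 ^ D + 1 with hN
  have hN1 : (2 : ZMod N) ^ D = -1 := by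
    have h1 : ((2 ^ D + 1 : ℕ) : ZMod N) = 0 := by
      rw [← hN]
      exact ZMod.natCast_self N
    push_cast at h1
    exact eq_neg_of_add_eq_zero_left h1
  have hN2 : ((2 : ZMod N) ^ g) ^ (2 * r) = 1 := by
    rw [← pow_mul, show g * (2 * r) = D * 2 by rw [hD]; ring, pow_mul, hN1]
    norm_num
  set z : (ZMod N)ˣ := Units.ofPowEqOne ((2 : ZMod N) ^ g) (2 * r) hN2 (by omega) with hzdef
  have hg : (z : ZMod N) = 2 ^ g := rfl
  have hz : (z : ZMod N) ^ r = -1 := by rw [hg, ← pow_mul, ← hD, hN1]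
  have hxb : ∀ i j, i < p → j < p → x a i j < 2 ^ (4 * (g * r)) := fun i j hi hj =>
    (hx i hi j hj).trans_le (Nat.pow_le_pow_right (by norm_num) (by omega))
  have hv : ∀ i < r, ∀ j < r, skewV r (padV p x) a i j < 2 ^ (4 * (g * r)) := by
    intro i _ j _
    unfold skewV padV
    split
    · next h => exact hxb _ _ h.1 h.2
    · positivity
  have hl : (j + i) % r < r := Nat.mod_lt _ (by omega)
  have hkey := cast_pass (v := skewV r (padV p x)) (a := a) (l := i) (j := (j + i) % r) hr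
    (by omega) (by omega) hg hz hv hu₁ hu₂ (by omega) hl
  have hback : ((j + i) % r + (r - i)) % r = j := by
    rw [Nat.mod_add_mod, show j + i + (r - i) = j + r by omega, Nat.add_mod_right,
      Nat.mod_eq_of_lt (by omega)]
  have hback' : ((j + i) % r + (r - j)) % r = i := by
    rw [Nat.mod_add_mod, show j + i + (r - j) = i + r by omega, Nat.add_mod_right,
      Nat.mod_eq_of_lt (by omega)]
  have hval : skewV r (padV p x) a j ((j + i) % r) = x a j i := by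
    unfold skewV padV
    rw [hback', if_pos ⟨hj, hi⟩]
  rw [hback, hval] at hkey
  unfold swapV unskewV foldV
  rw [← hD]
  have hb := twV_le g r u₁ (conv g r (twV g r u₂ (conv g r (twV g r u₁
    (skewV r (padV p x)))))) a i ((j + i) % r)
  rw [← hD] at hb
  exact fold_extract hρ2 hM hb (hx j hj i hi) (by rw [hkey, hr]; push_cast; rfl)

end Vale.Agent.P338
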