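import Vale.Agent.P338.S2Iface
import Vale.Agent.P338.Nums

/-!
# P338, second reduction: the layout of the digits
-/

namespace Vale.Agent.P338.S2

/-- The digits of an index below `r * r * t` on both sides, written out. -/
def L8 (h r t c : ℕ) (g : ℕ → ℕ → ℕ → ℕ → ℕ → ℕ → ℕ → ℕ → Bool) : List Bool :=
  cat h fun x => cat r fun p1 => cat r fun p2 => cat t fun p0 => cat c fun y =>
    cat r fun q1 => cat r fun q2 => cat t fun q0 => [g x p1 p2 p0 y q1 q2 q0]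

theorem L8_congr {h r t c : ℕ} {g g' : ℕ → ℕ → ℕ → ℕ → ℕ → ℕ → ℕ → ℕ → Bool}
    (H : ∀ x < h, ∀ p1 < r, ∀ p2 < r, ∀ p0 < t, ∀ y < c, ∀ q1 < r, ∀ q2 < r, ∀ q0 < t,
      g x p1 p2 p0 y q1 q2 q0 = g' x p1 p2 p0 y q1 q2 q0) : L8 h r t c g = L8 h r t c g' :=
  cat_congr fun x hx => cat_congr fun p1 h1 => cat_congr fun p2 h2 => cat_congr fun p0 h3 =>
    cat_congr fun y h4 => cat_congr fun q1 h5 => cat_congr fun q2 h6 => cat_congr fun q0 h7 => by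
      rw [H x hx p1 h1 p2 h2 p0 h3 y h4 q1 h5 q2 h6 q0 h7]

theorem dig_eq (h r t c : ℕ) (f : ℕ → ℕ → ℕ → ℕ → Bool) :
    dig h (r * r * t) c f = L8 h r t c fun x p1 p2 p0 y q1 q2 q0 =>
      f x ((p1 * r + p2) * t + p0) y ((q1 * r + q2) * t + q0) := by
  unfold dig L8
  simp only [cat_mul]

theorem cat_bits (t : ℕ) (g : ℕ → Bool) :
    cat t (fun q0 => [g q0]) = bitsOf t (natOf ((List.range t).map g)) := by
  rw [bitsOf_natOf_of (by simp)]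
  unfold cat
  induction t with
  | zero => rfl
  | succ n ih => simp [List.range_succ, ih]

theorem natOf_range_lt (t : ℕ) (g : ℕ → Bool) : natOf ((List.range t).map g) < 2 ^ t := by
  simpa using natOf_lt ((List.range t).map g)

/-- The elements for the first swap. -/
def E1 (c t : ℕ) (g : ℕ → ℕ → ℕ → ℕ → ℕ → ℕ → ℕ → ℕ → Bool) (x i y' j z : ℕ) : ℕ :=
  natOf ((List.range t).map fun q0 => g x i (y' / c / t) (y' / c % t) (y' % c) j z q0)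

theorem E1_lt (c t : ℕ) (g : ℕ → ℕ → ℕ → ℕ → ℕ → ℕ → ℕ → ℕ → Bool) (x i y' j z : ℕ) :
    E1 c t g x i y' j z < 2 ^ t := natOf_range_lt _ _

theorem div_add_of_lt {a b c : ℕ} (h : b < c) : (a * c + b) / c = a := by
  rw [Nat.add_comm, Nat.add_mul_div_right _ _ (by omega), Nat.div_eq_of_lt h, Nat.zero_add]

theorem mod_add_of_lt {a b c : ℕ} (h : b < c) : (a * c + b) % c = b := by
  rw [Nat.add_comm, Nat.add_mul_mod_self_right, Nat.mod_eq_of_lt h]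

/-- General form of the first layout. -/
theorem dat1 (h r t c : ℕ) (g : ℕ → ℕ → ℕ → ℕ → ℕ → ℕ → ℕ → ℕ → Bool)
    (e : ℕ → ℕ → ℕ → ℕ → ℕ → ℕ)
    (he : ∀ x < h, ∀ p1 < r, ∀ p2 < r, ∀ p0 < t, ∀ y < c, ∀ q1 < r, ∀ q2 < r,
      bitsOf t (e x p1 ((p2 * t + p0) * c + y) q1 q2) =
        cat t fun q0 => [g x p1 p2 p0 y q1 q2 q0]) :
    dat h r (r * t * c) r r t e = L8 h r t c g := by
  unfold dat L8
  refine cat_congr fun x hx => cat_congr fun p1 h1 => ?_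
  rw [cat_mul, cat_mul]
  exact cat_congr fun p2 h2 => cat_congr fun p0 h3 => cat_congr fun y h4 =>
    cat_congr fun q1 h5 => cat_congr fun q2 h6 => he x hx p1 h1 p2 h2 p0 h3 y h4 q1 h5 q2 h6

theorem dat1_eq (h r t c : ℕ) (g : ℕ → ℕ → ℕ → ℕ → ℕ → ℕ → ℕ → ℕ → Bool) :
    dat h r (r * t * c) r r t (E1 c t g) = L8 h r t c g := by
  refine dat1 h r t c g _ fun x _ p1 _ p2 _ p0 h3 y h4 q1 _ q2 _ => ?_
  rw [cat_bits, E1, div_add_of_lt h4, mod_add_of_lt h4, div_add_of_lt h3, mod_add_of_lt h3]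

theorem dat1_swap (h r t c : ℕ) (g : ℕ → ℕ → ℕ → ℕ → ℕ → ℕ → ℕ → ℕ → Bool) :
    dat h r (r * t * c) r r t (fun x i y j z => E1 c t g x j y i z) =
      L8 h r t c fun x p1 p2 p0 y q1 q2 q0 => g x q1 p2 p0 y p1 q2 q0 := by
  refine dat1 h r t c _ _ fun x _ p1 _ p2 _ p0 h3 y h4 q1 _ q2 _ => ?_
  rw [cat_bits, E1, div_add_of_lt h4, mod_add_of_lt h4, div_add_of_lt h3, mod_add_of_lt h3]

/-- The elements for the second swap. -/
def E2 (r c t : ℕ) (g : ℕ → ℕ → ℕ → ℕ → ℕ → ℕ → ℕ → ℕ → Bool) (x' i y' j _z : ℕ) : ℕ :=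
  natOf ((List.range t).map fun q0 =>
    g (x' / r) (x' % r) i (y' / r / c) (y' / r % c) (y' % r) j q0)

theorem E2_lt (r c t : ℕ) (g : ℕ → ℕ → ℕ → ℕ → ℕ → ℕ → ℕ → ℕ → Bool) (x i y' j z : ℕ) :
    E2 r c t g x i y' j z < 2 ^ t := natOf_range_lt _ _

/-- General form of the second layout. -/
theorem dat2 (h r t c : ℕ) (g : ℕ → ℕ → ℕ → ℕ → ℕ → ℕ → ℕ → ℕ → Bool)
    (e : ℕ → ℕ → ℕ → ℕ → ℕ → ℕ)
    (he : ∀ x < h, ∀ p1 < r, ∀ p2 < r, ∀ p0 < t, ∀ y < c, ∀ q1 < r, ∀ q2 < r,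
      bitsOf t (e (x * r + p1) p2 ((p0 * c + y) * r + q1) q2 0) =
        cat t fun q0 => [g x p1 p2 p0 y q1 q2 q0]) :
    dat (h * r) r (t * c * r) r 1 t e = L8 h r t c g := by
  unfold dat L8
  rw [cat_mul]
  refine cat_congr fun x hx => cat_congr fun p1 h1 => cat_congr fun p2 h2 => ?_
  rw [cat_mul, cat_mul]
  exact cat_congr fun p0 h3 => cat_congr fun y h4 => cat_congr fun q1 h5 =>
    cat_congr fun q2 h6 => by
      rw [cat_one]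
      exact he x hx p1 h1 p2 h2 p0 h3 y h4 q1 h5 q2 h6

theorem dat2_eq (h r t c : ℕ) (g : ℕ → ℕ → ℕ → ℕ → ℕ → ℕ → ℕ → ℕ → Bool) :
    dat (h * r) r (t * c * r) r 1 t (E2 r c t g) = L8 h r t c g := by
  refine dat2 h r t c g _ fun x _ p1 h1 p2 _ p0 h3 y h4 q1 h5 q2 _ => ?_
  rw [cat_bits, E2, div_add_of_lt h1, mod_add_of_lt h1, div_add_of_lt h5, mod_add_of_lt h5,
    div_add_of_lt h4, mod_add_of_lt h4]

theorem dat2_swap (h r t c : ℕ) (g : ℕ → ℕ → ℕ → ℕ → ℕ → ℕ → ℕ → ℕ → Bool) :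
    dat (h * r) r (t * c * r) r 1 t (fun x i y j z => E2 r c t g x j y i z) =
      L8 h r t c fun x p1 p2 p0 y q1 q2 q0 => g x p1 q2 p0 y q1 p2 q0 := by
  refine dat2 h r t c _ _ fun x _ p1 h1 p2 _ p0 h3 y h4 q1 h5 q2 _ => ?_
  rw [cat_bits, E2, div_add_of_lt h1, mod_add_of_lt h1, div_add_of_lt h5, mod_add_of_lt h5,
    div_add_of_lt h4, mod_add_of_lt h4]

/-- The bits for the inner level. -/
def Fg (r : ℕ) (g : ℕ → ℕ → ℕ → ℕ → ℕ → ℕ → ℕ → ℕ → Bool) (x a y b : ℕ) : Bool :=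
  g (x / r / r) (x / r % r) (x % r) a (y / r / r) (y / r % r) (y % r) b

/-- General form of the inner layout. -/
theorem dig2 (h r t c : ℕ) (g : ℕ → ℕ → ℕ → ℕ → ℕ → ℕ → ℕ → ℕ → Bool)
    (f : ℕ → ℕ → ℕ → ℕ → Bool)
    (hf : ∀ x < h, ∀ p1 < r, ∀ p2 < r, ∀ p0 < t, ∀ y < c, ∀ q1 < r, ∀ q2 < r, ∀ q0 < t,
      f ((x * r + p1) * r + p2) p0 ((y * r + q1) * r + q2) q0 = g x p1 p2 p0 y q1 q2 q0) :
    dig (h * r * r) t (c * r * r) f = L8 h r t c g := by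
  unfold dig L8
  rw [cat_mul, cat_mul]
  refine cat_congr fun x hx => cat_congr fun p1 h1 => cat_congr fun p2 h2 =>
    cat_congr fun p0 h3 => ?_
  rw [cat_mul, cat_mul]
  exact cat_congr fun y h4 => cat_congr fun q1 h5 => cat_congr fun q2 h6 =>
    cat_congr fun q0 h7 => by rw [hf x hx p1 h1 p2 h2 p0 h3 y h4 q1 h5 q2 h6 q0 h7]

theorem dig2_eq (h r t c : ℕ) (g : ℕ → ℕ → ℕ → ℕ → ℕ → ℕ → ℕ → ℕ → Bool) :
    dig (h * r * r) t (c * r * r) (Fg r g) = L8 h r t c g := by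
  refine dig2 h r t c g _ fun x _ p1 h1 p2 h2 p0 _ y _ q1 h5 q2 h6 q0 _ => ?_
  rw [Fg, div_add_of_lt h2, mod_add_of_lt h2, div_add_of_lt h6, mod_add_of_lt h6,
    div_add_of_lt h1, mod_add_of_lt h1, div_add_of_lt h5, mod_add_of_lt h5]

theorem dig2_swap (h r t c : ℕ) (g : ℕ → ℕ → ℕ → ℕ → ℕ → ℕ → ℕ → ℕ → Bool) :
    dig (h * r * r) t (c * r * r) (fun x a y b => Fg r g x b y a) =
      L8 h r t c fun x p1 p2 p0 y q1 q2 q0 => g x p1 p2 q0 y q1 q2 p0 := by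
  refine dig2 h r t c _ _ fun x _ p1 h1 p2 h2 p0 _ y _ q1 h5 q2 h6 q0 _ => ?_
  rw [Fg, div_add_of_lt h2, mod_add_of_lt h2, div_add_of_lt h6, mod_add_of_lt h6,
    div_add_of_lt h1, mod_add_of_lt h1, div_add_of_lt h5, mod_add_of_lt h5]

/-- The bits after the first swap. -/
def g1 (g : ℕ → ℕ → ℕ → ℕ → ℕ → ℕ → ℕ → ℕ → Bool) :
    ℕ → ℕ → ℕ → ℕ → ℕ → ℕ → ℕ → ℕ → Bool :=
  fun x p1 p2 p0 y q1 q2 q0 => g x q1 p2 p0 y p1 q2 q0

/-- The bits after the second swap. -/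
def g2 (g : ℕ → ℕ → ℕ → ℕ → ℕ → ℕ → ℕ → ℕ → Bool) :
    ℕ → ℕ → ℕ → ℕ → ℕ → ℕ → ℕ → ℕ → Bool :=
  fun x p1 p2 p0 y q1 q2 q0 => g1 g x p1 q2 p0 y q1 p2 q0

/-- The bits at the beginning. -/
def g0 (r t : ℕ) (f : ℕ → ℕ → ℕ → ℕ → Bool) :
    ℕ → ℕ → ℕ → ℕ → ℕ → ℕ → ℕ → ℕ → Bool :=
  fun x p1 p2 p0 y q1 q2 q0 => f x ((p1 * r + p2) * t + p0) y ((q1 * r + q2) * t + q0)

/-- The result of the three steps. -/
theorem level_eq (h r t c : ℕ) (f : ℕ → ℕ → ℕ → ℕ → Bool) :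
    dig (h * r * r) t (c * r * r) (fun x a y b => Fg r (g2 (g0 r t f)) x b y a) =
      dig h (r * r * t) c fun x a y b => f x b y a := by
  rw [dig2_swap, dig_eq]
  rfl

end Vale.Agent.P338.S2
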