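import Vale.Agent.P338.S2Lay
import Vale.Agent.P338.Cmd

/-!
# P338, second reduction: one level
-/

namespace Vale.Agent.P338.S2

variable {J E : Type}

/-! ### Saved registers -/

/-- The separator of the saved registers. -/
def sep : SSym E := Sum.inl (Base.num 7)

/-- The symbol is there, and is not a number. -/
def plain : Option (SSym E) → Bool
  | none => false
  | some (Sum.inl (Base.num _)) => false
  | _ => true

/-- A saved register. -/
def saved (l : List (SSym E)) : List (SSym E) := l.reverse ++ [sep]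

variable [DecidableEq J]

/-- Load the saved register on top of `PST` to `a`. -/
def load (a : R) : Pr J E :=
  (Prog.loop (fun tp => plain (tp (rg R.PST))) (Prog.mov (rg R.PST) (rg a))).seq
    (Prog.pop (rg R.PST))

theorem load_loop (a : R) (ha : a ≠ R.PST) (l : List (SSym E)) :
    ∀ (s : St J E) (rest : List (SSym E)), (∀ x ∈ l, plain (some x) = true) →
      s.at R.PST = l ++ sep :: rest →
      Runs (Prog.loop (fun tp => plain (tp (rg R.PST))) (Prog.mov (rg R.PST) (rg a))) s
        ((s.set a (l.reverse ++ s.at a)).set R.PST (sep :: rest)) (3 * l.length) := by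
  induction l with
  | nil =>
    intro s rest _ h
    refine (Runs.loopF ?_).of_eq ?_
    · simp only [St.at, List.nil_append] at h
      simp [rg, h, plain, sep]
    · funext q
      simp only [Function.update_apply]
      split_ifs <;> simp_all
  | cons b l ih =>
    intro s rest hl h
    have h1 := Runs.mov (i := (rg R.PST : Loc J)) (j := rg a) (by simpa [rg] using ha.symm) s
      (a := b) (l := l ++ sep :: rest) (by simpa using h)
    have h2 := ih ((s.set R.PST (l ++ sep :: rest)).set a (b :: s.at a)) rest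
      (fun x hx => hl x (by simp [hx]))
      (by simp [Function.update_apply, ha.symm])
    refine ((Runs.loopT ?_ h1 h2).mono ?_).of_eq ?_
    · simp only [St.at, List.cons_append] at h
      simp only [tops_apply, rg, h, List.head?_cons]
      exact hl b (by simp)
    · simp only [List.length_cons]; omega
    · funext q
      simp only [Function.update_apply]
      split_ifs <;> simp_all

theorem load_runs (a : R) (ha : a ≠ R.PST) (l : List (SSym E)) (s : St J E)
    (rest : List (SSym E)) (hl : ∀ x ∈ l, plain (some x) = true)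
    (h : s.at R.PST = saved l ++ rest) (hs : s.at a = []) :
    Runs (load a) s ((s.set a l).set R.PST rest) (3 * l.length + 2) := by
  have h1 := load_loop a ha l.reverse s rest (fun x hx => hl x (by simpa using hx))
    (by rw [h]; simp [saved])
  refine ((h1.seq (Runs.pop (rg R.PST) _)).mono ?_).of_eq ?_
  · simp
  · funext q
    simp only [Function.update_apply, List.reverse_reverse, hs]
    split_ifs <;> simp_all

theorem plain_una (n : ℕ) : ∀ x ∈ (una n : List (SSym E)), plain (some x) = true := by
  intro x hx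
  rw [una, List.mem_replicate] at hx
  rw [hx.2]
  rfl

theorem plain_tny (S v : ℕ) : ∀ x ∈ (tny S v : List (SSym E)), plain (some x) = true := by
  intro x hx
  rw [tny, bits, List.mem_map] at hx
  obtain ⟨b, _, rfl⟩ := hx
  rfl

/-! ### The parameters of the levels -/

/-- The parameters of a level: the digits are below `r * r * t`. -/
structure Lp : Type where
  r : ℕ
  t : ℕ
  S : ℕ
  w : ℕ
  w' : ℕ

/-- The saved parameters of a level. -/
def frame (a : Lp) : List (SSym E) :=
  saved (una a.r) ++ (saved (una a.t) ++ (saved (una a.S) ++ (saved (tny a.S (a.r + 1)) ++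
    (saved (tny a.S (2 ^ a.S / (a.r + 1))) ++ (saved (tny a.S a.w) ++ saved (tny a.S a.w'))))))

/-- The saved parameters of all levels. -/
def frames : List Lp → ℕ → List (SSym E)
  | [], τ => saved (una τ)
  | a :: L, τ => frame a ++ frames L τ

/-- The bound for the digits. -/
def siz : List Lp → ℕ → ℕ
  | [], τ => 2 ^ τ
  | a :: L, τ => a.r * a.r * siz L τ

/-- The assumptions on the parameters; `M` is the number of bits of the data. -/
def Good : List Lp → ℕ → ℕ → ℕ → Prop
  | [], _, _, _ => True
  | a :: L, τ, M, m =>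
    (a.t = siz L τ ∧ 1 ≤ a.t ∧ Nat.Prime (a.r + 1) ∧ 2 ^ a.t ≤ a.r + 1 ∧
      4 * Nat.size (a.r + 1) ≤ a.S ∧ a.w < a.r + 1 ∧ orderOf (a.w : ZMod (a.r + 1)) = a.r ∧
      a.w' = a.w ^ (a.r - 1) % (a.r + 1) ∧ 3 * (M / a.t) * a.S ≤ m) ∧ Good L τ M m

/-- The time. -/
def DTime (C : ℕ) (Tb Tt : ℕ → ℕ) : List Lp → ℕ → ℕ → ℕ → ℕ
  | [], τ, M, _ => C * (M * (τ + 1))
  | a :: L, τ, M, m =>
    C * (m + Tb m + M / a.t * (a.S + Tt a.S)) + DTime C Tb Tt L τ M m

/-- The stacks that are empty before and after. -/
def dScratch : List R :=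
  arScratch ++ pScratch ++
    [R.RR, R.TM, R.WW, R.U1, R.U2, R.AL, R.BE, R.DD, R.KER, R.P9, R.P10]

/-- What the program for `k` levels does. -/
def DSpec (p : Pr J E) (k : ℕ) (Tb Tt : ℕ → ℕ) (C : ℕ) : Prop :=
  ∀ (L : List Lp) (τ h c m : ℕ) (f : ℕ → ℕ → ℕ → ℕ → Bool) (rest : List (SSym E))
    (s : St J E), L.length = k → 1 ≤ h → 1 ≤ c →
    Good L τ (h * siz L τ * c * siz L τ) m → s.Idle → s.Empty dScratch →
    s.at R.HH = una h → s.at R.GG = una c → s.at R.MM = una m →
    s.at R.PST = frames L τ ++ rest →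
    s.at R.X = bits (dig h (siz L τ) c f) →
    Runs p s ((((s.set R.X (bits (dig h (siz L τ) c fun x a y b => f x b y a))).set
      R.PST rest).set R.HH []).set R.GG [])
      (DTime C Tb Tt L τ (h * siz L τ * c * siz L τ) m)

/-! ### The program for no level -/

/-- The program for no level. -/
def dswap0 (small : Pr J E) : Pr J E :=
  (load R.RHO).seq (small.seq (cmds [.clr R.RHO, .clr R.HH, .clr R.GG]))

theorem length_dig (h N c : ℕ) (f : ℕ → ℕ → ℕ → ℕ → Bool) :
    (dig h N c f).length = h * N * c * N := by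
  rw [dig, length_cat_of (L := N * (c * N))]
  · ring
  intro x _
  rw [length_cat_of (L := c * N)]
  intro a _
  rw [length_cat_of (L := N)]
  intro y _
  rw [length_cat_of (L := 1)]
  · ring
  intro b _
  rfl

theorem dswap0_spec {small : Pr J E} {C : ℕ} (hsm : SmallSpec small C) (Tb Tt : ℕ → ℕ) :
    DSpec (dswap0 small) 0 Tb Tt (C + 20) := by
  intro L τ h c m f rest s hL hh1 hc1 _ hidle hemp hHH hGG hMM hPST hX
  obtain rfl : L = [] := List.length_eq_zero_iff.mp hL
  have emp : ∀ q ∈ dScratch, s (Sum.inl q) = [] := hemp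
  simp only [frames] at hPST
  have h1 := load_runs R.RHO (by decide) (una τ) s rest (plain_una τ) hPST
    (emp _ (by decide))
  set s1 : St J E := (s.set R.RHO (una τ)).set R.PST rest with hs1
  simp only [St.at] at hHH hGG hMM hX
  have h2 := hsm h τ c f s1 hh1 hc1
    (by intro j; simp [hs1, hidle j])
    (by
      intro q hq
      have h3 : q ≠ R.PST := by rintro rfl; exact absurd hq (by decide)
      have h3' : q ≠ R.RHO := by rintro rfl; exact absurd hq (by decide)
      have h4 := emp q (by unfold dScratch; simp [hq])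
      simp [hs1, h3, h3', h4])
    (by
      intro q hq hqr
      have h3 : q ≠ R.PST := by rintro rfl; exact absurd hq (by decide)
      have h4 := emp q (by unfold dScratch; simp [hq])
      simp [hs1, h3, hqr, h4])
    (by simp [hs1, hHH]) (by simp [hs1]) (by simp [hs1, hGG])
    (by simp only [siz] at hX; simp [hs1, hX])
  have h3 := cmds_spec (J := J) (E := E) [.clr R.RHO, .clr R.HH, .clr R.GG]
    (s1.set R.X (bits (dig h (2 ^ τ) c fun x a y b => f x b y a)))
    ⟨trivial, trivial, trivial, trivial⟩
  refine ((h1.seq (h2.seq h3)).mono ?_).of_eq ?_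
  · have e1 : τ ≤ 2 ^ τ := (Nat.lt_two_pow_self).le
    have e0 : 1 ≤ 2 ^ τ := Nat.one_le_two_pow
    have hN : 0 < h * 2 ^ τ * c * 2 ^ τ * (τ + 1) := by positivity
    have a1 : 2 ^ τ ≤ h * 2 ^ τ * c * 2 ^ τ * (τ + 1) :=
      Nat.le_of_dvd hN ⟨h * c * 2 ^ τ * (τ + 1), by ring⟩
    have a2 : h ≤ h * 2 ^ τ * c * 2 ^ τ * (τ + 1) :=
      Nat.le_of_dvd hN ⟨2 ^ τ * c * 2 ^ τ * (τ + 1), by ring⟩
    have a3 : c ≤ h * 2 ^ τ * c * 2 ^ τ * (τ + 1) :=
      Nat.le_of_dvd hN ⟨h * 2 ^ τ * 2 ^ τ * (τ + 1), by ring⟩
    simp only [costs, Cmd.cost, Cmd.eff, St.at, hs1, Function.update_apply, length_una,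
      Sum.inl.injEq, reduceCtorEq, if_false, if_true, hHH, hGG, DTime, siz]
    rw [add_mul]
    omega
  · have hR : s (Sum.inl R.RHO) = [] := emp _ (by decide)
    simp only [effs, Cmd.eff, hs1, siz]
    funext q
    simp only [Function.update_apply]
    split_ifs <;> simp_all

/-! ### One level -/

/-- Load the parameters. -/
def loads : Pr J E :=
  (load R.RR).seq ((load R.TM).seq ((load R.WW).seq ((load R.U1).seq ((load R.U2).seq
    ((load R.AL).seq (load R.BE))))))

/-- The store after loading. -/
def ldSt (s : St J E) (a : Lp) (rest : List (SSym E)) : St J E :=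
  (((((((s.set R.RR (una a.r)).set R.TM (una a.t)).set R.WW (una a.S)).set R.U1
    (tny a.S (a.r + 1))).set R.U2 (tny a.S (2 ^ a.S / (a.r + 1)))).set R.AL
      (tny a.S a.w)).set R.BE (tny a.S a.w')).set R.PST rest

theorem lv_length_tny (S v : ℕ) : (tny S v : List (SSym E)).length = S := by
  simp [tny]

theorem load_set (a : R) (ha : a ≠ R.PST) (l : List (SSym E)) (s : St J E)
    (rest : List (SSym E)) (hl : ∀ x ∈ l, plain (some x) = true) (hs : s (Sum.inl a) = []) :
    Runs (load a) (s.set R.PST (saved l ++ rest)) ((s.set a l).set R.PST rest)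
      (3 * l.length + 2) := by
  refine (load_runs a ha l (s.set R.PST (saved l ++ rest)) rest hl (by simp)
    (by simp [ha, hs])).of_eq ?_
  funext q
  simp only [Function.update_apply]
  split_ifs <;> simp_all

theorem loads_runs (a : Lp) (s : St J E) (rest : List (SSym E))
    (h : s.at R.PST = frame a ++ rest)
    (he : s.Empty [R.RR, R.TM, R.WW, R.U1, R.U2, R.AL, R.BE]) :
    Runs loads s (ldSt s a rest) (3 * a.r + 3 * a.t + 15 * a.S + 20) := by
  have emp : ∀ q ∈ [R.RR, R.TM, R.WW, R.U1, R.U2, R.AL, R.BE], s (Sum.inl q) = [] := he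
  have e1 := emp R.RR (by decide)
  have e2 := emp R.TM (by decide)
  have e3 := emp R.WW (by decide)
  have e4 := emp R.U1 (by decide)
  have e5 := emp R.U2 (by decide)
  have e6 := emp R.AL (by decide)
  have e7 := emp R.BE (by decide)
  have hs : s = s.set R.PST (saved (una a.r) ++ (saved (una a.t) ++ (saved (una a.S) ++
      (saved (tny a.S (a.r + 1)) ++ (saved (tny a.S (2 ^ a.S / (a.r + 1))) ++
        (saved (tny a.S a.w) ++ (saved (tny a.S a.w') ++ rest))))))) := by
    have : saved (una a.r) ++ (saved (una a.t) ++ (saved (una a.S) ++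
      (saved (tny a.S (a.r + 1)) ++ (saved (tny a.S (2 ^ a.S / (a.r + 1))) ++
        (saved (tny a.S a.w) ++ (saved (tny a.S a.w') ++ rest)))))) = s.at R.PST := by
      rw [h, frame]
      simp only [List.append_assoc]
    rw [this]
    exact (Function.update_eq_self _ _).symm
  have h1 := load_set R.RR (by decide) (una a.r) s (saved (una a.t) ++ (saved (una a.S) ++
      (saved (tny a.S (a.r + 1)) ++ (saved (tny a.S (2 ^ a.S / (a.r + 1))) ++
        (saved (tny a.S a.w) ++ (saved (tny a.S a.w') ++ rest)))))) (plain_una _) e1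
  rw [← hs] at h1
  refine ((h1.seq ((load_set R.TM (by decide) (una a.t) _ _ (plain_una _) ?_).seq
    ((load_set R.WW (by decide) (una a.S) _ _ (plain_una _) ?_).seq
    ((load_set R.U1 (by decide) (tny a.S (a.r + 1)) _ _ (plain_tny _ _) ?_).seq
    ((load_set R.U2 (by decide) (tny a.S (2 ^ a.S / (a.r + 1))) _ _ (plain_tny _ _) ?_).seq
    ((load_set R.AL (by decide) (tny a.S a.w) _ _ (plain_tny _ _) ?_).seq
    (load_set R.BE (by decide) (tny a.S a.w') _ _ (plain_tny _ _) ?_))))))).mono ?_)
  · simp [e2]
  · simp [e3]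
  · simp [e4]
  · simp [e5]
  · simp [e6]
  · simp [e7]
  · simp only [length_una, lv_length_tny]
    omega

theorem reverse_una (n : ℕ) : (una n : List (SSym E)).reverse = una n := by
  simp [una]

/-- Commands before the first swap. -/
def cmdA : List (Cmd E) :=
  [.cp R.GG R.P10, .rep R.TM R.GG R.P9, .clr R.GG, .rep R.RR R.P9 R.GG, .clr R.P9,
    .cp R.RR R.DD]

/-- Commands between the two swaps. -/
def cmdB : List (Cmd E) :=
  [.rep R.RR R.HH R.P9, .clr R.HH, .rev R.P9 R.HH, .clr R.DD, .push R.DD mk]

/-- Commands after the second swap. -/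
def cmdC : List (Cmd E) :=
  [.rep R.RR R.HH R.P9, .clr R.HH, .rev R.P9 R.HH, .clr R.GG, .rep R.RR R.P10 R.P9,
    .rep R.RR R.P9 R.GG, .clr R.P9, .clr R.P10, .clr R.DD, .clr R.RR, .clr R.TM, .clr R.WW,
    .clr R.U1, .clr R.U2, .clr R.AL, .clr R.BE]

/-- One level. -/
def levelP (swap inner : Pr J E) : Pr J E :=
  loads.seq ((cmds cmdA).seq (swap.seq ((cmds cmdB).seq (swap.seq ((cmds cmdC).seq inner)))))

section

variable (s : St J E) (a : Lp) (rest : List (SSym E)) (h c : ℕ)

/-- The store before the first swap. -/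
def stA : St J E :=
  (((ldSt s a rest).set R.P10 (una c)).set R.GG (una (a.r * (a.t * c)))).set R.DD (una a.r)

/-- The store before the second swap. -/
def stB (l : List (SSym E)) : St J E :=
  (((stA s a rest c).set R.X l).set R.HH (una (a.r * h))).set R.DD (una 1)

/-- The store before the inner level. -/
def stC (l : List (SSym E)) : St J E :=
  (((s.set R.PST rest).set R.X l).set R.HH (una (a.r * (a.r * h)))).set R.GG
    (una (a.r * (a.r * c)))

theorem cmdA_runs (hemp : s.Empty dScratch) (hGG : s.at R.GG = una c) :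
    Runs (cmds cmdA) (ldSt s a rest) (stA s a rest c)
      (30 * (c + a.t * c + a.r * (a.t * c) + a.r + a.t + 1)) := by
  have emp : ∀ q ∈ dScratch, s (Sum.inl q) = [] := hemp
  have e1 := emp R.S1 (by decide)
  have e2 := emp R.S2 (by decide)
  have e3 := emp R.P9 (by decide)
  have e4 := emp R.P10 (by decide)
  have e5 := emp R.DD (by decide)
  simp only [St.at] at hGG
  have h1 := cmds_spec (J := J) (E := E) cmdA (ldSt s a rest) (by
    simp [cmdA, oks, Cmd.ok, Cmd.eff, ldSt, e1, e2, e3, e4, hGG])
  refine (h1.mono ?_).of_eq ?_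
  · simp only [cmdA, costs, Cmd.cost, Cmd.eff, St.at, ldSt, Function.update_apply,
      Sum.inl.injEq, reduceCtorEq, if_false, if_true, hGG, e3, e4, length_una,
      List.append_nil, rep_una]
    have b1 : a.t * (6 * c + 8) = 6 * (a.t * c) + 8 * a.t := by ring
    have b2 : a.r * (6 * (a.t * c) + 8) = 6 * (a.r * (a.t * c)) + 8 * a.r := by ring
    omega
  · simp only [cmdA, effs, Cmd.eff, ldSt, stA]
    funext q
    rcases q with q | q
    · cases q <;> simp [e3, e4, e5, hGG]
    · simp

theorem cmdB_runs (hemp : s.Empty dScratch) (hHH : s.at R.HH = una h)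
    (l : List (SSym E)) :
    Runs (cmds cmdB) ((stA s a rest c).set R.X l) (stB s a rest h c l)
      (30 * (h + a.r * h + a.r + 1)) := by
  have emp : ∀ q ∈ dScratch, s (Sum.inl q) = [] := hemp
  have e1 := emp R.S1 (by decide)
  have e2 := emp R.S2 (by decide)
  have e3 := emp R.P9 (by decide)
  simp only [St.at] at hHH
  have h1 := cmds_spec (J := J) (E := E) cmdB ((stA s a rest c).set R.X l) (by
    simp [cmdB, oks, Cmd.ok, stA, ldSt, e1, e2])
  refine (h1.mono ?_).of_eq ?_
  · simp only [cmdB, costs, Cmd.cost, Cmd.eff, St.at, stA, ldSt, Function.update_apply,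
      Sum.inl.injEq, reduceCtorEq, if_false, if_true, hHH, e3, length_una,
      List.append_nil, rep_una]
    have b1 : a.r * (6 * h + 8) = 6 * (a.r * h) + 8 * a.r := by ring
    omega
  · simp only [cmdB, effs, Cmd.eff, ldSt, stA, stB]
    funext q
    rcases q with q | q
    · cases q <;> simp [e3, hHH, reverse_una, una_one]
    · simp

theorem cmdC_runs (hemp : s.Empty dScratch) (l l' : List (SSym E)) :
    Runs (cmds cmdC) ((stB s a rest h c l').set R.X l) (stC s a rest h c l)
      (60 * (a.r * h + a.r * (a.r * h) + a.r * (a.t * c) + a.r * (a.r * c) + a.r * c + c + a.r +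
        a.t + a.S + 1)) := by
  have emp : ∀ q ∈ dScratch, s (Sum.inl q) = [] := hemp
  have e1 := emp R.S1 (by decide)
  have e2 := emp R.S2 (by decide)
  have e3 := emp R.P9 (by decide)
  have e4 := emp R.P10 (by decide)
  have e5 := emp R.DD (by decide)
  have e6 := emp R.RR (by decide)
  have e7 := emp R.TM (by decide)
  have e8 := emp R.WW (by decide)
  have e9 := emp R.U1 (by decide)
  have e10 := emp R.U2 (by decide)
  have e11 := emp R.AL (by decide)
  have e12 := emp R.BE (by decide)
  have h1 := cmds_spec (J := J) (E := E) cmdC ((stB s a rest h c l').set R.X l) (by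
    simp [cmdC, oks, Cmd.ok, Cmd.eff, stB, stA, ldSt, e1, e2, e3, exists_una])
  refine (h1.mono ?_).of_eq ?_
  · simp only [cmdC, costs, Cmd.cost, Cmd.eff, St.at, stB, stA, ldSt, Function.update_apply,
      Sum.inl.injEq, reduceCtorEq, if_false, if_true, e3, length_una, lv_length_tny,
      List.append_nil, rep_una, List.length_nil]
    have b1 : a.r * (6 * (a.r * h) + 8) = 6 * (a.r * (a.r * h)) + 8 * a.r := by ring
    have b2 : a.r * (6 * c + 8) = 6 * (a.r * c) + 8 * a.r := by ring
    have b3 : a.r * (6 * (a.r * c) + 8) = 6 * (a.r * (a.r * c)) + 8 * a.r := by ring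
    omega
  · simp only [cmdC, effs, Cmd.eff, ldSt, stA, stB, stC]
    funext q
    rcases q with q | q
    · cases q <;> simp [e3, e4, e5, e6, e7, e8, e9, e10, e11, e12, reverse_una]
    · simp

end

end Vale.Agent.P338.S2
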