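import Vale.Agent.P338.S2Level

/-!
# P338, second reduction: one level, the specification
-/

namespace Vale.Agent.P338.S2

variable {J E : Type} [DecidableEq J]

theorem stA_of {s : St J E} {a : Lp} {rest : List (SSym E)} {c : ℕ} {q : R}
    (hq : q ∉ [R.RR, R.TM, R.WW, R.U1, R.U2, R.AL, R.BE, R.PST, R.P10, R.GG, R.DD]) :
    stA s a rest c (Sum.inl q) = s (Sum.inl q) := by
  simp only [List.mem_cons, List.not_mem_nil, or_false, not_or] at hq
  simp [stA, ldSt, hq]

theorem stB_of {s : St J E} {a : Lp} {rest l : List (SSym E)} {h c : ℕ} {q : R}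
    (hq : q ∉ [R.RR, R.TM, R.WW, R.U1, R.U2, R.AL, R.BE, R.PST, R.P10, R.GG, R.DD, R.X, R.HH]) :
    stB s a rest h c l (Sum.inl q) = s (Sum.inl q) := by
  simp only [List.mem_cons, List.not_mem_nil, or_false, not_or] at hq
  simp [stB, stA, ldSt, hq]

theorem stC_of {s : St J E} {a : Lp} {rest l : List (SSym E)} {h c : ℕ} {q : R}
    (hq : q ∉ [R.PST, R.GG, R.X, R.HH]) :
    stC s a rest h c l (Sum.inl q) = s (Sum.inl q) := by
  simp only [List.mem_cons, List.not_mem_nil, or_false, not_or] at hq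
  simp [stC, hq]

/-- One level. -/
theorem level_spec {swap inner : Pr J E} {Tb Tt : ℕ → ℕ} {C D k : ℕ}
    (hsw : SwapSpec2 swap Tb Tt C) (hin : DSpec inner k Tb Tt D) (hCD : 2 * C + 1000 ≤ D) :
    DSpec (levelP swap inner) (k + 1) Tb Tt D := by
  intro L0 τ h c m f rest s hL hh1 hc1 hgood hidle hemp hHH hGG hMM hPST hX
  obtain ⟨a, L, rfl⟩ : ∃ a L, L0 = a :: L := by
    cases L0 with
    | nil => simp at hL
    | cons a L => exact ⟨a, L, rfl⟩
  have hL' : L.length = k := by simpa using hL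
  obtain ⟨⟨hat, ht1, hP, htP, hS, hw, hord, hw', hm⟩, hgood'⟩ := hgood
  obtain ⟨r, t, S, w, w'⟩ := a
  simp only at hat ht1 hP htP hS hw hord hw' hm
  simp only [siz, ← hat] at hgood' hX hm ⊢
  set Q : ℕ := h * r * (r * t * c) * r * r with hQ
  have hM : h * (r * r * t) * c * (r * r * t) = Q * t := by rw [hQ]; ring
  have hMt : h * (r * r * t) * c * (r * r * t) / t = Q := by
    rw [hM]; exact Nat.mul_div_cancel _ ht1
  rw [hMt] at hm
  have emp : ∀ q ∈ dScratch, s (Sum.inl q) = [] := hemp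
  have hr1 : 1 ≤ r := by have := hP.two_le; omega
  have n1 : Num h r (r * t * c) r t S m w w' :=
    ⟨hh1, Nat.succ_le_of_lt (by positivity), hr1, ht1, hP, htP, hS, hm, hw, hord, hw'⟩
  have n2 : Num (h * r) r (t * c * r) 1 t S m w w' :=
    ⟨Nat.succ_le_of_lt (by positivity), Nat.succ_le_of_lt (by positivity), le_rfl, ht1, hP,
      htP, hS, by
        have : h * r * r * (t * c * r) * r * 1 = Q := by rw [hQ]; ring
        rw [this]; exact hm, hw, hord, hw'⟩
  set a : Lp := ⟨r, t, S, w, w'⟩ with ha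
  simp only [St.at] at hHH hGG hMM hX
  -- loading
  have l1 := loads_runs a s (frames L τ ++ rest) (by rw [hPST, frames, List.append_assoc])
    (by
      intro q hq
      refine emp q ?_
      revert hq; revert q; decide)
  have l2 := cmdA_runs s a (frames L τ ++ rest) c hemp hGG
  -- the first swap
  have envA : ∀ l : List (SSym E),
      Env ((stA s a (frames L τ ++ rest) c).set R.X l) h r (r * t * c) r t S m w w' := by
    intro l
    have e0 : r * (t * c) = r * t * c := by ring
    refine ⟨⟨?_, ?_, ?_, ?_, ?_⟩, ?_, ?_, ?_, ?_, ?_, ?_, ?_, ?_, ?_⟩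
    · intro j; simp [stA, ldSt, hidle j]
    · intro q hq
      have h1 : q ∉ [R.RR, R.TM, R.WW, R.U1, R.U2, R.AL, R.BE, R.PST, R.P10, R.GG, R.DD, R.X] := by
        revert hq; revert q; decide
      have h2 : q ∈ dScratch := by simp [dScratch, hq]
      simp only [List.mem_cons, List.not_mem_nil, or_false, not_or] at h1
      simp [stA, ldSt, h1, emp q h2]
    · simp [stA, ldSt, ha]
    · simp [stA, ldSt, ha]
    · simp [stA, ldSt, ha]
    · intro q hq
      have h1 : q ∉ [R.RR, R.TM, R.WW, R.U1, R.U2, R.AL, R.BE, R.PST, R.P10, R.GG, R.DD, R.X] := by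
        revert hq; revert q; decide
      have h2 : q ∈ dScratch := by simp [dScratch, hq]
      simp only [List.mem_cons, List.not_mem_nil, or_false, not_or] at h1
      simp [stA, ldSt, h1, emp q h2]
    · simp [stA, ldSt, hHH]
    · simp [stA, ldSt, ha]
    · simp [stA, ha, e0]
    · simp [stA, ha]
    · simp [stA, ldSt, ha]
    · simp [stA, ldSt, hMM]
    · simp [stA, ldSt, ha]
    · simp [stA, ldSt, ha]
  have hXA : dig h (r * r * t) c f = dat h r (r * t * c) r r t (E1 c t (g0 r t f)) := by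
    rw [dat1_eq, dig_eq]; rfl
  have hstA : stA s a (frames L τ ++ rest) c =
      (stA s a (frames L τ ++ rest) c).set R.X
        (bits (dat h r (r * t * c) r r t (E1 c t (g0 r t f)))) := by
    rw [← hXA, ← hX]
    have h1 : s (Sum.inl R.X) = stA s a (frames L τ ++ rest) c (Sum.inl R.X) := by
      simp [stA, ldSt]
    rw [h1]
    exact (Function.update_eq_self _ _).symm
  have l3 := hsw h r (r * t * c) r t S m w w' (E1 c t (g0 r t f))
    (stA s a (frames L τ ++ rest) c) n1 (by rw [hstA]; exact envA _)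
    (by simp [stA, ldSt, emp R.KER (by decide)]) (E1_lt c t _) (by rw [hstA]; simp)
  have hXB : dat h r (r * t * c) r r t (fun x i y j z => E1 c t (g0 r t f) x j y i z) =
      dat (h * r) r (t * c * r) r 1 t (E2 r c t (g1 (g0 r t f))) := by
    rw [dat1_swap, dat2_eq]; rfl
  rw [hXB] at l3
  set lB : List (SSym E) := bits (dat (h * r) r (t * c * r) r 1 t (E2 r c t (g1 (g0 r t f))))
    with hlB
  have l4 := cmdB_runs s a (frames L τ ++ rest) h c hemp hHH lB
  -- the second swap
  have envB : Env (stB s a (frames L τ ++ rest) h c lB) (h * r) r (t * c * r) 1 t S m w w' := by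
    have e0 : r * (t * c) = t * c * r := by ring
    have e1 : r * h = h * r := by ring
    refine ⟨⟨?_, ?_, ?_, ?_, ?_⟩, ?_, ?_, ?_, ?_, ?_, ?_, ?_, ?_, ?_⟩
    · intro j; simp [stB, stA, ldSt, hidle j]
    · intro q hq
      have h1 : q ∉ [R.RR, R.TM, R.WW, R.U1, R.U2, R.AL, R.BE, R.PST, R.P10, R.GG, R.DD, R.X,
          R.HH] := by
        revert hq; revert q; decide
      have h2 : q ∈ dScratch := by simp [dScratch, hq]
      rw [stB_of h1, emp q h2]
    · simp [stB, stA, ldSt, ha]
    · simp [stB, stA, ldSt, ha]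
    · simp [stB, stA, ldSt, ha]
    · intro q hq
      have h1 : q ∉ [R.RR, R.TM, R.WW, R.U1, R.U2, R.AL, R.BE, R.PST, R.P10, R.GG, R.DD, R.X,
          R.HH] := by
        revert hq; revert q; decide
      have h2 : q ∈ dScratch := by simp [dScratch, hq]
      rw [stB_of h1, emp q h2]
    · simp [stB, ha, e1]
    · simp [stB, stA, ldSt, ha]
    · simp [stB, stA, ha, e0]
    · simp [stB]
    · simp [stB, stA, ldSt, ha]
    · simp [stB, stA, ldSt, hMM]
    · simp [stB, stA, ldSt, ha]
    · simp [stB, stA, ldSt, ha]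
  have l5 := hsw (h * r) r (t * c * r) 1 t S m w w' (E2 r c t (g1 (g0 r t f)))
    (stB s a (frames L τ ++ rest) h c lB) n2 envB
    (by
      have := stB_of (s := s) (a := a) (rest := frames L τ ++ rest) (l := lB) (h := h) (c := c)
        (q := R.KER) (by decide)
      simp only [St.at]
      rw [this]
      exact emp _ (by decide))
    (E2_lt r c t _) (by simp [stB, hlB])
  have hXC : dat (h * r) r (t * c * r) r 1 t (fun x i y j z => E2 r c t (g1 (g0 r t f)) x j y i z)
      = dig (h * r * r) t (c * r * r) (Fg r (g2 (g0 r t f))) := by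
    rw [dat2_swap, dig2_eq]; rfl
  rw [hXC] at l5
  set lC : List (SSym E) := bits (dig (h * r * r) t (c * r * r) (Fg r (g2 (g0 r t f))))
    with hlC
  have l6 := cmdC_runs s a (frames L τ ++ rest) h c hemp lC lB
  -- the inner level
  have hMM' : h * r * r * siz L τ * (c * r * r) * siz L τ = h * (r * r * t) * c * (r * r * t) := by
    rw [← hat]; ring
  have l7 := hin L τ (h * r * r) (c * r * r) m (Fg r (g2 (g0 r t f))) rest
    (stC s a (frames L τ ++ rest) h c lC) hL' (Nat.succ_le_of_lt (by positivity))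
    (Nat.succ_le_of_lt (by positivity)) (by rw [hMM']; exact hgood')
    (by intro j; simp [stC, hidle j])
    (by
      intro q hq
      have h1 : q ∉ [R.PST, R.GG, R.X, R.HH] := by
        revert hq; revert q; decide
      rw [stC_of h1, emp q hq])
    (by
      have : r * (r * h) = h * r * r := by ring
      simp [stC, ha, this])
    (by
      have : r * (r * c) = c * r * r := by ring
      simp [stC, ha, this])
    (by simp [stC, hMM]) (by simp [stC]) (by simp [stC, hlC, ← hat])
  rw [hMM', ← hat, level_eq] at l7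
  refine ((l1.seq (l2.seq (l3.seq (l4.seq (l5.seq (l6.seq l7)))))).mono ?_).of_eq ?_
  · have hS1 : 1 ≤ S := by
      have h1 : 1 ≤ Nat.size (r + 1) := by
        rw [Nat.succ_le_iff, Nat.size_pos]
        omega
      omega
    have hQ0 : 0 < Q := by rw [hQ]; positivity
    have b1 : r ≤ Q := Nat.le_of_dvd hQ0 ⟨h * (r * t * c) * r * r, by rw [hQ]; ring⟩
    have b2 : t ≤ Q := Nat.le_of_dvd hQ0 ⟨h * r * (r * c) * r * r, by rw [hQ]; ring⟩
    have b3 : c ≤ Q := Nat.le_of_dvd hQ0 ⟨h * r * (r * t) * r * r, by rw [hQ]; ring⟩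
    have b4 : t * c ≤ Q := Nat.le_of_dvd hQ0 ⟨h * r * r * r * r, by rw [hQ]; ring⟩
    have b5 : r * (t * c) ≤ Q := Nat.le_of_dvd hQ0 ⟨h * r * r * r, by rw [hQ]; ring⟩
    have b6 : h ≤ Q := Nat.le_of_dvd hQ0 ⟨r * (r * t * c) * r * r, by rw [hQ]; ring⟩
    have b7 : r * h ≤ Q := Nat.le_of_dvd hQ0 ⟨(r * t * c) * r * r, by rw [hQ]; ring⟩
    have b8 : r * (r * h) ≤ Q := Nat.le_of_dvd hQ0 ⟨(r * t * c) * r, by rw [hQ]; ring⟩
    have b9 : r * c ≤ Q := Nat.le_of_dvd hQ0 ⟨h * r * r * t * r, by rw [hQ]; ring⟩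
    have b10 : r * (r * c) ≤ Q := Nat.le_of_dvd hQ0 ⟨h * r * r * t, by rw [hQ]; ring⟩
    have b11 : 3 * Q ≤ m := (Nat.le_mul_of_pos_right _ hS1).trans hm
    have b12 : S ≤ m := by
      refine le_trans ?_ hm
      calc S = 1 * S := (one_mul _).symm
        _ ≤ 3 * Q * S := Nat.mul_le_mul_right _ (by omega)
    have e1 : h * r * r * (t * c * r) * r * 1 = Q := by rw [hQ]; ring
    rw [← hQ, e1]
    simp only [DTime, ha, hMt]
    have e2 : (2 * C + 1000) * (m + Tb m + Q * (S + Tt S)) ≤
        D * (m + Tb m + Q * (S + Tt S)) := Nat.mul_le_mul_right _ hCD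
    have e3 : (2 * C + 1000) * (m + Tb m + Q * (S + Tt S)) =
        2 * (C * (m + Tb m + Q * (S + Tt S))) + 1000 * (m + Tb m + Q * (S + Tt S)) := by ring
    rw [e3] at e2
    omega
  · funext q
    simp only [stC, Function.update_apply]
    split_ifs <;> simp_all

/-! ### All levels -/

theorem DTime_mono {C D : ℕ} (h : C ≤ D) (Tb Tt : ℕ → ℕ) (L : List Lp) (τ M m : ℕ) :
    DTime C Tb Tt L τ M m ≤ DTime D Tb Tt L τ M m := by
  induction L with
  | nil => exact Nat.mul_le_mul_right _ h
  | cons a L ih => exact Nat.add_le_add (Nat.mul_le_mul_right _ h) ih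

theorem DSpec.mono {p : Pr J E} {k : ℕ} {Tb Tt : ℕ → ℕ} {C D : ℕ} (h : DSpec p k Tb Tt C)
    (hCD : C ≤ D) : DSpec p k Tb Tt D := by
  intro L τ h' c m f rest s h1 h2 h3 h4 h5 h6 h7 h8 h9 h10 h11
  exact (h L τ h' c m f rest s h1 h2 h3 h4 h5 h6 h7 h8 h9 h10 h11).mono (DTime_mono hCD _ _ _ _ _ _)

/-- The program for `k` levels. -/
def dswap (swap small : Pr J E) : ℕ → Pr J E
  | 0 => dswap0 small
  | k + 1 => levelP swap (dswap swap small k)

theorem dswap_spec {swap small : Pr J E} {Tb Tt : ℕ → ℕ} {C C' : ℕ}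
    (hsw : SwapSpec2 swap Tb Tt C) (hsm : SmallSpec small C') (k : ℕ) :
    DSpec (dswap swap small k) k Tb Tt (2 * C + C' + 1020) := by
  induction k with
  | zero => exact (dswap0_spec hsm Tb Tt).mono (by omega)
  | succ k ih => exact level_spec hsw ih (by omega)

end Vale.Agent.P338.S2
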