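import Vale.Agent.P338.Lib
import Vale.Agent.P338.Frame
import Vale.Agent.P338.Nums

/-!
# P338, second reduction: unary arithmetic
-/

namespace Vale.Agent.P338.S2

variable {ι Γ : Type} [DecidableEq ι]

/-- The store in which the stack `i` holds `v i` copies of the symbol `c`. -/
def nst (c : Γ) (v : ι → ℕ) : Store ι Γ := fun i => List.replicate (v i) c

/-- The program changes the numbers `v` to `v'`. -/
def NR (c : Γ) (p : Prog ι Γ) (v v' : ι → ℕ) (t : ℕ) : Prop := Runs p (nst c v) (nst c v') t

theorem NR.mono {c : Γ} {p : Prog ι Γ} {v v' : ι → ℕ} {t t' : ℕ} (h : NR c p v v' t)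
    (ht : t ≤ t') : NR c p v v' t' := Runs.mono h ht

theorem NR.of_eq {c : Γ} {p : Prog ι Γ} {v v' v'' : ι → ℕ} {t : ℕ} (h : NR c p v v' t)
    (hv : v' = v'') : NR c p v v'' t := hv ▸ h

theorem NR.seq {c : Γ} {p q : Prog ι Γ} {v v' v'' : ι → ℕ} {t t' : ℕ} (h : NR c p v v' t)
    (h' : NR c q v' v'' t') : NR c (p.seq q) v v'' (t + 1 + t') := Runs.seq h h'

omit [DecidableEq ι] in
theorem nst_empty (c : Γ) (v : ι → ℕ) (i : ι) : nonempty i (tops (nst c v)) = decide (v i ≠ 0) := by
  rw [nonempty_tops, nst]
  rcases h : v i with _ | n <;> simp [List.replicate_succ]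

theorem nst_update (c : Γ) (v : ι → ℕ) (i : ι) (k : ℕ) :
    Function.update (nst c v) i (List.replicate k c) = nst c (Function.update v i k) := by
  funext j
  by_cases h : j = i
  · subst h; simp [nst]
  · simp [nst, h]

theorem NR.skip (c : Γ) (v : ι → ℕ) : NR c Prog.skip v v 1 := Runs.skip _

/-- `i := i + 1`. -/
theorem NR.inc (c : Γ) (i : ι) (v : ι → ℕ) :
    NR c (Prog.push i c) v (Function.update v i (v i + 1)) 1 := by
  refine (Runs.push i c _).of_eq ?_
  rw [← nst_update, List.replicate_succ]
  rfl

/-- `i := i - 1`. -/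
theorem NR.dec (c : Γ) (i : ι) (v : ι → ℕ) :
    NR c (Prog.pop i) v (Function.update v i (v i - 1)) 1 := by
  refine (Runs.pop i _).of_eq ?_
  rw [← nst_update]
  congr 1
  simp [nst]

/-- `j := j + i`, `i := 0`. -/
theorem NR.mova (c : Γ) {i j : ι} (hij : i ≠ j) (v : ι → ℕ) :
    NR c (Prog.rev i j) v (Function.update (Function.update v i 0) j (v i + v j)) (3 * v i) := by
  have h := Runs.rev hij (nst c v)
  refine (h.mono ?_).of_eq ?_
  · simp [nst]
  · rw [← nst_update, ← nst_update]
    congr 1
    simp [nst]

/-- `i := 0`. -/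
theorem NR.clear (c : Γ) (i : ι) (v : ι → ℕ) :
    NR c (Prog.clear i) v (Function.update v i 0) (3 * v i) := by
  have h := Runs.clear i (nst c v)
  refine (h.mono ?_).of_eq ?_
  · simp [nst]
  · rw [← nst_update]; rfl

/-- The rule for `forr`. -/
theorem NR.forr (c : Γ) {u t : ι} (hut : u ≠ t) {body : Prog ι Γ} (n : ℕ)
    (F : ℕ → ι → ℕ) (T : ℕ) (hu : ∀ k ≤ n, F k u = n) (ht : ∀ k ≤ n, F k t = 0)
    (h : ∀ k < n, ∀ l l' : ℕ, NR c body
      (Function.update (Function.update (F k) u l) t l')
      (Function.update (Function.update (F (k + 1)) u l) t l') T) :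
    NR c (Prog.forr u t body) (F 0) (F n) (n * (T + 7) + 1) := by
  have h1 := Runs.forr hut n c (fun k => nst c (F k)) (fun _ => T)
    (body := body) (fun k hk => by
      have h2 := h k hk (n - k - 1) (k + 1)
      rw [NR, ← nst_update, ← nst_update, ← nst_update, ← nst_update] at h2
      exact h2)
  have e : ∀ k ≤ n, Function.update (Function.update (nst c (F k)) u (List.replicate n c)) t []
      = nst c (F k) := by
    intro k hk
    have e1 : (List.replicate n c) = nst c (F k) u := by rw [nst, hu k hk]
    have e2 : ([] : List Γ) = nst c (F k) t := by rw [nst, ht k hk]; rfl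
    rw [e1, Function.update_eq_self, e2, Function.update_eq_self]
  simp only [Finset.sum_const, Finset.card_range, smul_eq_mul] at h1
  rw [e 0 (by omega), e n le_rfl] at h1
  exact h1.mono (by ring_nf; omega)

/-- `j := j + i` (with the scratch stack `t`). -/
def nadd (i j t : ι) (c : Γ) : Prog ι Γ := Prog.forr i t (Prog.push j c)

theorem NR.nadd (c : Γ) {i j t : ι} (hij : i ≠ j) (hit : i ≠ t) (hjt : j ≠ t) (v : ι → ℕ)
    (ht : v t = 0) :
    NR c (nadd i j t c) v (Function.update v j (v i + v j)) (8 * v i + 1) := by
  have h := NR.forr c hit (body := Prog.push j c) (v i)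
    (fun k => Function.update v j (k + v j)) 1 (by intro k _; simp [hij])
    (by intro k _; simp [hjt.symm, ht])
    (by
      intro k _ l l'
      refine (NR.inc c j _).of_eq ?_
      funext m
      simp only [Function.update_apply]
      split_ifs <;> simp_all
      omega)
  have e : Function.update v j (0 + v j) = v := by simp
  rw [e] at h
  exact h.mono (by omega)

/-- `k := k + i * j` (with the scratch stacks `t`, `t'`). -/
def nmul (i j k t t' : ι) (c : Γ) : Prog ι Γ := Prog.forr i t (nadd j k t' c)

theorem NR.nmul (c : Γ) {i j k t t' : ι} (hij : i ≠ j) (hik : i ≠ k) (hit : i ≠ t)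
    (hit' : i ≠ t') (hjk : j ≠ k) (hjt : j ≠ t) (hjt' : j ≠ t') (hkt : k ≠ t) (hkt' : k ≠ t')
    (htt' : t ≠ t') (v : ι → ℕ) (ht : v t = 0) (ht' : v t' = 0) :
    NR c (nmul i j k t t' c) v (Function.update v k (v i * v j + v k))
      (v i * (8 * v j + 8) + 1) := by
  have h := NR.forr c hit (body := Vale.Agent.P338.S2.nadd j k t' c) (v i)
    (fun m => Function.update v k (m * v j + v k)) (8 * v j + 1) (by intro m _; simp [hik])
    (by intro m _; simp [hkt.symm, ht])
    (by
      intro m _ l l'
      refine (NR.nadd c hjk hjt' hkt' _ ?_).of_eq ?_ |>.mono ?_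
      · simp [Function.update_apply, htt'.symm, hit'.symm, hkt'.symm, ht']
      · funext q
        simp only [Function.update_apply]
        split_ifs <;> simp_all
        ring
      · simp [Function.update_apply, hjt, hij.symm, hjk])
  have e : Function.update v k (0 * v j + v k) = v := by simp
  rw [e] at h
  exact h.mono (by ring_nf; omega)

/-- The rule for `loop`. -/
theorem NR.loop (c : Γ) {cond : (ι → Option Γ) → Bool} {p : Prog ι Γ} (n : ℕ)
    (F : ℕ → ι → ℕ) (T : ℕ)
    (hc : ∀ k < n, cond (tops (nst c (F k))) = true) (hn : cond (tops (nst c (F n))) = false)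
    (hb : ∀ k < n, NR c p (F k) (F (k + 1)) T) :
    NR c (Prog.loop cond p) (F 0) (F n) (n * (T + 2)) :=
  Runs.loop_iter_le n (fun k => nst c (F k)) T hc hn hb

/-- `j := j + i / 2`, `i := 0`. -/
def nhalf (i j : ι) (c : Γ) : Prog ι Γ :=
  Prog.loop (nonempty i) ((Prog.pop i).seq (Prog.ite (nonempty i)
    ((Prog.pop i).seq (Prog.push j c)) Prog.skip))

theorem NR.nhalf (c : Γ) {i j : ι} (hij : i ≠ j) (v : ι → ℕ) :
    NR c (nhalf i j c) v (Function.update (Function.update v i 0) j (v i / 2 + v j))
      (8 * (v i + 1)) := by
  have h := NR.loop c (cond := nonempty i) (p := (Prog.pop i).seq (Prog.ite (nonempty i)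
    ((Prog.pop i).seq (Prog.push j c)) Prog.skip)) ((v i + 1) / 2)
    (fun k => Function.update (Function.update v i (v i - 2 * k)) j (min k (v i / 2) + v j)) 6
    (by
      intro k hk
      rw [nst_empty]
      simp [hij]
      omega)
    (by
      rw [nst_empty]
      simp [hij]
      omega)
    (by
      intro k hk
      by_cases h2 : v i - 2 * k = 1
      · refine ((NR.dec c i _).seq (Runs.iteF ?_ (NR.skip c _))).mono (by omega) |>.of_eq ?_
        · rw [nst_empty]; simp [hij, h2]
        · funext q
          simp only [Function.update_apply]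
          split_ifs <;> simp_all <;> omega
      · refine ((NR.dec c i _).seq (Runs.iteT ?_ ((NR.dec c i _).seq (NR.inc c j _)))).mono
          (by omega) |>.of_eq ?_
        · rw [nst_empty]; simp [hij]; omega
        · funext q
          simp only [Function.update_apply]
          split_ifs <;> simp_all <;> omega)
  have e : Function.update (Function.update v i (v i - 2 * 0)) j (min 0 (v i / 2) + v j) = v := by
    simp
  rw [e] at h
  refine (h.mono (by omega)).of_eq ?_
  funext q
  simp only [Function.update_apply]
  split_ifs <;> simp_all <;> omega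

/-- `j := j + 2 * i`, `i := 0`. -/
def ndbl (i j : ι) (c : Γ) : Prog ι Γ :=
  Prog.loop (nonempty i) ((Prog.pop i).seq ((Prog.push j c).seq (Prog.push j c)))

theorem NR.ndbl (c : Γ) {i j : ι} (hij : i ≠ j) (v : ι → ℕ) :
    NR c (ndbl i j c) v (Function.update (Function.update v i 0) j (2 * v i + v j))
      (7 * v i) := by
  have h := NR.loop c (cond := nonempty i)
    (p := (Prog.pop i).seq ((Prog.push j c).seq (Prog.push j c))) (v i)
    (fun k => Function.update (Function.update v i (v i - k)) j (2 * k + v j)) 5
    (by
      intro k hk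
      rw [nst_empty]
      simp [hij]
      omega)
    (by
      rw [nst_empty]
      simp [hij])
    (by
      intro k hk
      refine ((NR.dec c i _).seq ((NR.inc c j _).seq (NR.inc c j _))).mono
          (by omega) |>.of_eq ?_
      funext q
      simp only [Function.update_apply]
      split_ifs <;> simp_all <;> omega)
  have e : Function.update (Function.update v i (v i - 0)) j (2 * 0 + v j) = v := by
    simp
  rw [e] at h
  refine (h.mono (by omega)).of_eq ?_
  funext q
  simp only [Function.update_apply]
  split_ifs <;> simp_all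

/-- Both `i` and `j` are decreased by the smaller one of them. -/
def nmin (i j : ι) : Prog ι Γ :=
  Prog.loop (fun tp => (tp i).isSome && (tp j).isSome) ((Prog.pop i).seq (Prog.pop j))

theorem NR.nmin (c : Γ) {i j : ι} (hij : i ≠ j) (v : ι → ℕ) :
    NR c (nmin i j) v (Function.update (Function.update v i (v i - v j)) j (v j - v i))
      (5 * v i) := by
  have hcond : ∀ u : ι → ℕ, ((tops (nst c u) i).isSome && (tops (nst c u) j).isSome) =
      decide (u i ≠ 0 ∧ u j ≠ 0) := by
    intro u
    have h1 := nst_empty c u i
    have h2 := nst_empty c u j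
    unfold nonempty at h1 h2
    rw [h1, h2]
    simp
  have h := NR.loop c (cond := fun tp => (tp i).isSome && (tp j).isSome)
    (p := (Prog.pop i).seq (Prog.pop j)) (min (v i) (v j))
    (fun k => Function.update (Function.update v i (v i - k)) j (v j - k)) 3
    (by
      intro k hk
      rw [hcond]
      simp [hij]
      omega)
    (by
      rw [hcond]
      simp [hij]
      omega)
    (by
      intro k hk
      refine ((NR.dec c i _).seq (NR.dec c j _)).mono (by omega) |>.of_eq ?_
      funext q
      simp only [Function.update_apply]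
      split_ifs <;> simp_all <;> omega)
  have e : Function.update (Function.update v i (v i - 0)) j (v j - 0) = v := by
    simp
  rw [e] at h
  refine (h.mono ?_).of_eq ?_
  · have : min (v i) (v j) ≤ v i := min_le_left _ _
    omega
  · funext q
    simp only [Function.update_apply]
    split_ifs <;> simp_all <;> omega

/-- `l := l + log i`, `i := 0` (with the scratch stack `j`). -/
def nlog (i j l : ι) (c : Γ) : Prog ι Γ :=
  (nhalf i j c).seq (Prog.loop (nonempty j)
    ((Prog.push l c).seq ((Prog.rev j i).seq (nhalf i j c))))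

theorem NR.nlog (c : Γ) {i j l : ι} (hij : i ≠ j) (hil : i ≠ l) (hjl : j ≠ l) (v : ι → ℕ)
    (hj : v j = 0) :
    NR c (nlog i j l c) v (Function.update (Function.update v i 0) l (Nat.log 2 (v i) + v l))
      (20 * (v i + 1) ^ 2) := by
  have h0 := NR.nhalf c hij v
  have h := NR.loop c (cond := nonempty j)
    (p := (Prog.push l c).seq ((Prog.rev j i).seq (Vale.Agent.P338.S2.nhalf i j c)))
    (Nat.log 2 (v i))
    (fun k => Function.update (Function.update (Function.update v i 0) j
      (v i / 2 ^ (k + 1))) l (k + v l)) (11 * v i + 11)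
    (by
      intro k hk
      rw [nst_empty]
      have h1 : 2 ^ (k + 1) ≤ v i := Nat.pow_le_of_le_log (by
        intro h2; rw [h2] at hk; simp at hk) (by omega)
      have h2 : v i / 2 ^ (k + 1) ≠ 0 := by
        have := Nat.div_pos h1 (by positivity)
        omega
      simp only [Function.update_apply, hjl, if_false, if_true, h2, ne_eq, not_false_eq_true,
        decide_true])
    (by
      rw [nst_empty]
      have h1 : v i < 2 ^ (Nat.log 2 (v i) + 1) := Nat.lt_pow_succ_log_self (by norm_num) _
      simp only [Function.update_apply, hjl, if_false, if_true, Nat.div_eq_of_lt h1, ne_eq,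
        not_true_eq_false, decide_false])
    (by
      intro k hk
      have hle : v i / 2 ^ (k + 1) ≤ v i := Nat.div_le_self _ _
      refine ((NR.inc c l _).seq ((NR.mova c hij.symm _).seq (NR.nhalf c hij _))).mono ?_
        |>.of_eq ?_
      · simp only [Function.update_apply, hjl, hil, hij, hij.symm, hjl.symm, hil.symm, if_false,
          if_true]
        omega
      · have e1 : v i / 2 ^ (k + 1) / 2 = v i / 2 ^ (k + 1 + 1) := by
          rw [Nat.div_div_eq_div_mul, ← pow_succ]
        funext q
        simp only [Function.update_apply]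
        split_ifs <;> simp_all <;> omega)
  have e : Function.update (Function.update v i 0) j (v i / 2 + v j) =
      Function.update (Function.update (Function.update v i 0) j
      (v i / 2 ^ (0 + 1))) l (0 + v l) := by
    funext q
    simp only [Function.update_apply]
    split_ifs <;> simp_all
  rw [e] at h0
  refine ((h0.seq h).mono ?_).of_eq ?_
  · have h1 : Nat.log 2 (v i) ≤ v i := Nat.log_le_self _ _
    have h2 : Nat.log 2 (v i) * (11 * v i + 11 + 2) ≤ v i * (11 * v i + 11 + 2) :=
      Nat.mul_le_mul_right _ h1
    nlinarith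
  · have h1 : v i < 2 ^ (Nat.log 2 (v i) + 1) := Nat.lt_pow_succ_log_self (by norm_num) _
    funext q
    simp only [Function.update_apply, Nat.div_eq_of_lt h1]
    split_ifs <;> simp_all

end Vale.Agent.P338.S2
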