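import Vale.Agent.P338.S2ParN

/-!
# P338, second reduction: the program that chooses the parameters
-/

namespace Vale.Agent.P338.S2

variable {J E : Type} [DecidableEq J]

/-! ### Saving and loading -/

/-- Save the register `a` on the stack `b`. -/
def save (a b : R) : Pr J E := (Prog.push (rg b) sep).seq (Prog.rev (rg a) (rg b))

theorem save_runs {a b : R} (hab : a ≠ b) (s : St J E) :
    Runs (save a b) s ((s.set a []).set b (saved (s.at a) ++ s.at b))
      (3 * (s.at a).length + 2) := by
  have h1 := Runs.push (rg b) sep s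
  have h2 := Runs.rev (i := (rg a : Loc J)) (j := rg b) (by simpa [rg] using hab)
    (Function.update s (rg b) (sep :: s (rg b)))
  refine ((h1.seq h2).mono ?_).of_eq ?_
  · rw [Function.update_of_ne (by simpa [rg] using hab)]
    simp only [St.at, rg]
    omega
  · funext q
    simp only [Function.update_apply, saved, rg, St.at]
    split_ifs <;> simp_all

/-- Load the saved register on top of `b` to `a`. -/
def loadF (b a : R) : Pr J E :=
  (Prog.loop (fun tp => plain (tp (rg b))) (Prog.mov (rg b) (rg a))).seq (Prog.pop (rg b))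

theorem loadF_loop (a b : R) (ha : a ≠ b) (l : List (SSym E)) :
    ∀ (s : St J E) (rest : List (SSym E)), (∀ x ∈ l, plain (some x) = true) →
      s.at b = l ++ sep :: rest →
      Runs (Prog.loop (fun tp => plain (tp (rg b))) (Prog.mov (rg b) (rg a))) s
        ((s.set a (l.reverse ++ s.at a)).set b (sep :: rest)) (3 * l.length) := by
  induction l with
  | nil =>
    intro s rest _ h
    refine (Runs.loopF ?_).of_eq ?_
    · simp only [St.at, List.nil_append] at h
      simp [rg, h, plain, sep]
    · funext q
      simp only [Function.update_apply]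
      split_ifs <;> simp_all
  | cons x l ih =>
    intro s rest hl h
    have h1 := Runs.mov (i := (rg b : Loc J)) (j := rg a) (by simpa [rg] using ha.symm) s
      (a := x) (l := l ++ sep :: rest) (by simpa using h)
    have h2 := ih ((s.set b (l ++ sep :: rest)).set a (x :: s.at a)) rest
      (fun x hx => hl x (by simp [hx]))
      (by simp [ha.symm])
    refine ((Runs.loopT ?_ h1 h2).mono ?_).of_eq ?_
    · simp only [St.at, List.cons_append] at h
      simp only [tops_apply, rg, h, List.head?_cons]
      exact hl x (by simp)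
    · simp only [List.length_cons]; omega
    · funext q
      simp only [Function.update_apply]
      split_ifs <;> simp_all

theorem loadF_runs (a b : R) (ha : a ≠ b) (l : List (SSym E)) (s : St J E)
    (rest : List (SSym E)) (hl : ∀ x ∈ l, plain (some x) = true)
    (h : s.at b = saved l ++ rest) (hs : s.at a = []) :
    Runs (loadF b a) s ((s.set a l).set b rest) (3 * l.length + 2) := by
  have h1 := loadF_loop a b ha l.reverse s rest (fun x hx => hl x (by simpa using hx))
    (by rw [h]; simp [saved])
  refine ((h1.seq (Runs.pop (rg b) _)).mono ?_).of_eq ?_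
  · simp
  · funext q
    simp only [Function.update_apply, List.reverse_reverse, hs]
    split_ifs <;> simp_all

/-! ### The unary stacks in the big store -/

/-- The names of the unary stacks. -/
def UQ.toR : UQ → R
  | .p => R.PP
  | .m => R.MP
  | .n => R.NN
  | .w => R.WW
  | .t => R.TM
  | .r => R.RR
  | .a => R.P1
  | .b => R.P2
  | .c => R.P3
  | .g => R.P4
  | .h => R.S3
  | .d => R.S4
  | .s => R.S5
  | .s2 => R.S6

theorem UQ.toR_injective : Function.Injective UQ.toR := by
  intro q q' h
  cases q <;> cases q' <;> first | rfl | exact absurd h (by decide)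

/-- The names of the unary stacks. -/
def UQ.loc (q : UQ) : Loc J := Sum.inl q.toR

omit [DecidableEq J] in
theorem UQ.loc_injective : Function.Injective (UQ.loc : UQ → Loc J) :=
  fun _ _ h => UQ.toR_injective (Sum.inl_injective h)

/-- Overwrite the unary stacks. -/
def putN (s : St J E) (v : UQ → ℕ) : St J E := fun l =>
  match l with
  | Sum.inl R.PP => una (v .p)
  | Sum.inl R.MP => una (v .m)
  | Sum.inl R.NN => una (v .n)
  | Sum.inl R.WW => una (v .w)
  | Sum.inl R.TM => una (v .t)
  | Sum.inl R.RR => una (v .r)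
  | Sum.inl R.P1 => una (v .a)
  | Sum.inl R.P2 => una (v .b)
  | Sum.inl R.P3 => una (v .c)
  | Sum.inl R.P4 => una (v .g)
  | Sum.inl R.S3 => una (v .h)
  | Sum.inl R.S4 => una (v .d)
  | Sum.inl R.S5 => una (v .s)
  | Sum.inl R.S6 => una (v .s2)
  | l => s l

omit [DecidableEq J] in
theorem putN_loc (s : St J E) (v : UQ → ℕ) (q : UQ) : putN s v (UQ.loc q) = una (v q) := by
  cases q <;> rfl

omit [DecidableEq J] in
theorem putN_putN (s : St J E) (v v' : UQ → ℕ) : putN (putN s v) v' = putN s v' := by
  funext l
  rcases l with l | l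
  · cases l <;> rfl
  · rfl

/-- The list of the unary stacks. -/
def uqR : List R := [R.PP, R.MP, R.NN, R.WW, R.TM, R.RR, R.P1, R.P2, R.P3, R.P4, R.S3, R.S4,
  R.S5, R.S6]

omit [DecidableEq J] in
theorem putN_of_not {s : St J E} {v : UQ → ℕ} {r : R} (hr : r ∉ uqR) :
    putN s v (Sum.inl r) = s (Sum.inl r) := by
  cases r <;> first | rfl | exact absurd (by decide) hr

theorem putN_set {s : St J E} {v : UQ → ℕ} {r : R} (hr : r ∉ uqR) (l : List (SSym E)) :
    putN (s.set r l) v = (putN s v).set r l := by
  funext k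
  by_cases hk : k = Sum.inl r
  · subst hk
    rw [putN_of_not hr]
    simp
  · have e2 : (putN s v).set r l k = putN s v k := Function.update_of_ne hk _ _
    rw [e2]
    rcases k with k | k
    · by_cases h2 : k ∈ uqR
      · have : ∀ k ∈ uqR, ∃ q : UQ, k = q.toR := by
          intro k hk
          simp only [uqR, List.mem_cons, List.not_mem_nil, or_false] at hk
          rcases hk with h | h | h | h | h | h | h | h | h | h | h | h | h | h
          exacts [⟨.p, h⟩, ⟨.m, h⟩, ⟨.n, h⟩, ⟨.w, h⟩, ⟨.t, h⟩, ⟨.r, h⟩, ⟨.a, h⟩, ⟨.b, h⟩,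
            ⟨.c, h⟩, ⟨.g, h⟩, ⟨.h, h⟩, ⟨.d, h⟩, ⟨.s, h⟩, ⟨.s2, h⟩]
        obtain ⟨q, rfl⟩ := this k h2
        have h3 := putN_loc (s.set r l) v q
        have h4 := putN_loc s v q
        rw [UQ.loc] at h3 h4
        rw [h3, h4]
      · rw [putN_of_not h2, putN_of_not h2]
        exact Function.update_of_ne hk _ _
    · exact Function.update_of_ne hk _ _

/-- A program on the unary stacks, in the big store. -/
theorem NR.big {p : Prog UQ (SSym E)} {v v' : UQ → ℕ} {t : ℕ} (h : NR mk p v v' t)
    (s : St J E) : Runs (p.map UQ.loc) (putN s v) (putN s v') t := by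
  refine Runs.map UQ.loc_injective h (fun q => ?_) (fun q => ?_) ?_
  · rw [putN_loc]; rfl
  · rw [putN_loc]; rfl
  · intro k hk
    rcases k with k | k
    · have h2 : k ∉ uqR := by
        intro h2
        apply hk
        simp only [uqR, List.mem_cons, List.not_mem_nil, or_false] at h2
        rcases h2 with h | h | h | h | h | h | h | h | h | h | h | h | h | h
        exacts [⟨.p, by rw [h]; rfl⟩, ⟨.m, by rw [h]; rfl⟩, ⟨.n, by rw [h]; rfl⟩,
          ⟨.w, by rw [h]; rfl⟩, ⟨.t, by rw [h]; rfl⟩, ⟨.r, by rw [h]; rfl⟩,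
          ⟨.a, by rw [h]; rfl⟩, ⟨.b, by rw [h]; rfl⟩, ⟨.c, by rw [h]; rfl⟩,
          ⟨.g, by rw [h]; rfl⟩, ⟨.h, by rw [h]; rfl⟩, ⟨.d, by rw [h]; rfl⟩,
          ⟨.s, by rw [h]; rfl⟩, ⟨.s2, by rw [h]; rfl⟩]
      rw [putN_of_not h2, putN_of_not h2]
    · rfl

end Vale.Agent.P338.S2
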