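import Vale.Agent.P338.S2Par

/-!
# P338, second reduction: the program that chooses the parameters, continued
-/

namespace Vale.Agent.P338.S2

variable {J E : Type} [DecidableEq J]

/-! ### Arithmetic -/

theorem xOf_sq_le {L t : ℕ} (hL : 1 ≤ L) (ht : 1 ≤ t) : xOf L t ^ 2 ≤ L := by
  unfold xOf
  rcases Nat.le_total (Nat.sqrt (L / (4 * t))) 1 with h | h
  · rw [max_eq_left h]; omega
  · rw [max_eq_right h]
    have h1 : Nat.sqrt (L / (4 * t)) * Nat.sqrt (L / (4 * t)) ≤ L / (4 * t) := Nat.sqrt_le _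
    calc Nat.sqrt (L / (4 * t)) ^ 2 = Nat.sqrt (L / (4 * t)) * Nat.sqrt (L / (4 * t)) := by ring
      _ ≤ L / (4 * t) := h1
      _ ≤ L := Nat.div_le_self _ _

theorem one_le_xOf (L t : ℕ) : 1 ≤ xOf L t := le_max_left _ _

theorem xOf_le {L t : ℕ} (hL : 1 ≤ L) (ht : 1 ≤ t) : xOf L t ≤ L := by
  have h1 := xOf_sq_le hL ht
  have h2 := one_le_xOf L t
  nlinarith

/-- The product is not too big. -/
theorem siz_le_L {L t r : ℕ} (ht : 1 ≤ t) (htL : t ≤ L) (hr : r + 1 ≤ 2 * xOf L t) :
    r * r * t ≤ L := by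
  unfold xOf at hr
  rcases Nat.le_total (Nat.sqrt (L / (4 * t))) 1 with h | h
  · rw [max_eq_left h] at hr
    have h1 : r ≤ 1 := by omega
    calc r * r * t ≤ 1 * 1 * t := by gcongr
      _ = t := by ring
      _ ≤ L := htL
  · rw [max_eq_right h] at hr
    set N := Nat.sqrt (L / (4 * t)) with hN
    have h1 : N * N ≤ L / (4 * t) := Nat.sqrt_le _
    calc r * r * t ≤ (2 * N) * (2 * N) * t := by gcongr <;> omega
      _ = N * N * (4 * t) := by ring
      _ ≤ L / (4 * t) * (4 * t) := Nat.mul_le_mul_right _ h1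
      _ ≤ L := Nat.div_mul_le_self _ _

/-- The product is not too small. -/
theorem L_le_siz {L t r : ℕ} (ht : 1 ≤ t) (hr : xOf L t ≤ r) : L ≤ 16 * (r * r * t) := by
  set N := Nat.sqrt (L / (4 * t)) with hN
  have h1 : L / (4 * t) < (N + 1) * (N + 1) := Nat.lt_succ_sqrt _
  have h2 : 0 < 4 * t := by omega
  have h3 := (Nat.div_lt_iff_lt_mul h2).1 h1
  have h4 : N ≤ r := le_trans (le_max_right _ _) hr
  have h5 : 1 ≤ r := le_trans (one_le_xOf L t) hr
  have h6 : N + 1 ≤ 2 * r := by omega
  calc L ≤ (N + 1) * (N + 1) * (4 * t) := h3.le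
    _ ≤ (2 * r) * (2 * r) * (4 * t) := by gcongr
    _ = 16 * (r * r * t) := by ring

/-- The elements fit. -/
theorem two_pow_t_le {L t r : ℕ} (hL : 1 ≤ L) (ht : 1 ≤ t) (htn : t ≤ nxt L)
    (hr : xOf L t ≤ r) : 2 ^ t ≤ r + 1 := by
  rcases Nat.lt_or_ge t 2 with h | h
  · obtain rfl : t = 1 := by omega
    have := one_le_xOf L 1
    omega
  · unfold nxt at htn
    have h1 : t ≤ Nat.log 2 L / 8 := by
      rcases le_max_iff.mp htn with h2 | h2
      · omega
      · exact h2
    have h2 : 8 * t ≤ Nat.log 2 L := by omega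
    have h3 : 2 ^ (8 * t) ≤ L := Nat.pow_le_of_le_log (by omega) h2
    have h4 : 2 ^ t * 2 ^ t ≤ L / (4 * t) := by
      rw [Nat.le_div_iff_mul_le (by omega)]
      have h5 : t ≤ 2 ^ t := Nat.lt_two_pow_self.le
      calc 2 ^ t * 2 ^ t * (4 * t) ≤ 2 ^ t * 2 ^ t * (4 * 2 ^ t) := by gcongr
        _ = 2 ^ (3 * t + 2) := by ring
        _ ≤ 2 ^ (8 * t) := Nat.pow_le_pow_right (by norm_num) (by omega)
        _ ≤ L := h3
    have h5 : 2 ^ t ≤ Nat.sqrt (L / (4 * t)) := Nat.le_sqrt.mpr h4
    have h6 : Nat.sqrt (L / (4 * t)) ≤ xOf L t := le_max_right _ _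
    omega

theorem size_two_mul_le {x L : ℕ} (hL : 1 ≤ L) (hx : x ≤ L) :
    4 * Nat.size (2 * x) ≤ tsz L := by
  have h1 : Nat.size (2 * x) ≤ Nat.size L + 1 := by
    rw [Nat.size_le, pow_succ]
    have := Nat.lt_size_self L
    omega
  have h2 : 1 ≤ Nat.size L := by
    rw [Nat.succ_le_iff, Nat.size_pos]; omega
  unfold tsz
  omega

theorem one_le_nxt (L : ℕ) : 1 ≤ nxt L := le_max_left _ _

theorem nxt_le {L : ℕ} (hL : 1 ≤ L) : nxt L ≤ L := by
  unfold nxt
  have h1 : Nat.log 2 L ≤ L := Nat.log_le_self _ _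
  have h2 : Nat.log 2 L / 8 ≤ Nat.log 2 L := Nat.div_le_self _ _
  exact max_le hL (h2.trans h1)

theorem tsz_le_mul {L : ℕ} (hL : 1 ≤ L) : tsz L ≤ 16 * L := by
  have h1 : Nat.size L ≤ L + 1 := by
    rw [Nat.size_le]
    have := @Nat.lt_two_pow_self L
    rw [pow_succ]
    omega
  unfold tsz
  omega

theorem siz_pos : ∀ {Ls : List Lp} {τ L : ℕ}, GoodP Ls τ L → 1 ≤ siz Ls τ
  | [], τ, _, _ => Nat.one_le_two_pow
  | a :: Ls, τ, L, h => by
    obtain ⟨⟨h1, h2, h3, _⟩, h4⟩ := h
    have h5 := siz_pos h4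
    have h6 : 1 ≤ a.r := by have := h3.two_le; omega
    simp only [siz]
    exact Nat.succ_le_of_lt (by positivity)

/-! ### The unary parts -/

omit [DecidableEq J] in
theorem putN_self {s : St J E} {v : UQ → ℕ} (h : ∀ q, s (UQ.loc q) = una (v q)) :
    putN s v = s := by
  funext l
  rcases l with l | l
  · by_cases h2 : l ∈ uqR
    · simp only [uqR, List.mem_cons, List.not_mem_nil, or_false] at h2
      rcases h2 with rfl | rfl | rfl | rfl | rfl | rfl | rfl | rfl | rfl | rfl | rfl | rfl |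
        rfl | rfl
      exacts [(h .p).symm, (h .m).symm, (h .n).symm, (h .w).symm, (h .t).symm, (h .r).symm,
        (h .a).symm, (h .b).symm, (h .c).symm, (h .g).symm, (h .h).symm, (h .d).symm,
        (h .s).symm, (h .s2).symm]
    · exact putN_of_not h2
  · rfl

/-- All numbers are zero. -/
def vz : UQ → ℕ := fun _ => 0

/-- The tiny size and the square root. -/
def numE : Prog UQ (SSym E) :=
  (nadd UQ.p UQ.b UQ.s mk).seq ((nSiz mk).seq (nX mk))

theorem numE_runs {L t : ℕ} (hL : 1 ≤ L) (ht : 1 ≤ t) (htL : t ≤ L) :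
    NR (mk : SSym E) numE (Function.update (Function.update vz UQ.p L) UQ.t t)
      (Function.update (Function.update (Function.update vz UQ.t t) UQ.w (tsz L)) UQ.n
        (xOf L t)) (3000 * L ^ 2) := by
  have h1 := NR.nadd (mk : SSym E) (i := UQ.p) (j := UQ.b) (t := UQ.s) (by decide) (by decide)
    (by decide) (Function.update (Function.update vz UQ.p L) UQ.t t) rfl
  have h2 := nSiz_runs (mk : SSym E) (Function.update (Function.update (Function.update vz UQ.p L)
    UQ.t t) UQ.b L) rfl rfl rfl (by simpa using hL)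
  have h3 := nX_runs (mk : SSym E) (Function.update (Function.update (Function.update vz UQ.p L)
    UQ.t t) UQ.w (tsz L)) (by simp [UQ.Zero, vz]) rfl (by simpa using ht) (by simpa using htL)
  have e1 : Function.update (Function.update (Function.update vz UQ.p L) UQ.t t) UQ.b
      ((Function.update (Function.update vz UQ.p L) UQ.t t) UQ.p +
        (Function.update (Function.update vz UQ.p L) UQ.t t) UQ.b) =
      Function.update (Function.update (Function.update vz UQ.p L) UQ.t t) UQ.b L := by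
    funext q
    cases q <;> simp [vz]
  have e2 : Function.update (Function.update (Function.update (Function.update
      (Function.update vz UQ.p L) UQ.t t) UQ.b L) UQ.b 0) UQ.w
      (tsz ((Function.update (Function.update (Function.update vz UQ.p L) UQ.t t) UQ.b L) UQ.b)) =
      Function.update (Function.update (Function.update vz UQ.p L) UQ.t t) UQ.w (tsz L) := by
    funext q
    cases q <;> simp [vz]
  rw [e1] at h1
  rw [e2] at h2
  refine ((h1.seq (h2.seq h3)).mono ?_).of_eq ?_
  · simp only [Function.update_apply, reduceCtorEq, if_false, if_true]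
    nlinarith
  · funext q
    cases q <;> simp [vz]

/-- The product. -/
def numF : Prog UQ (SSym E) :=
  (Prog.clear UQ.n).seq ((nmul UQ.r UQ.t UQ.a UQ.s UQ.s2 mk).seq
    ((nmul UQ.r UQ.a UQ.m UQ.s UQ.s2 mk).seq (Prog.clear UQ.a)))

theorem numF_runs (x r t S : ℕ) :
    NR (mk : SSym E) numF (Function.update (Function.update (Function.update (Function.update vz
      UQ.t t) UQ.w S) UQ.n x) UQ.r r)
      (Function.update (Function.update (Function.update (Function.update vz
      UQ.t t) UQ.w S) UQ.r r) UQ.m (r * (r * t)))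
      (3 * x + r * (8 * t + 8) + r * (8 * (r * t) + 8) + 3 * (r * t) + 10) := by
  refine (((NR.clear mk UQ.n _).seq ((NR.nmul mk (i := UQ.r) (j := UQ.t) (k := UQ.a) (t := UQ.s)
    (t' := UQ.s2) (by decide) (by decide) (by decide) (by decide) (by decide) (by decide)
    (by decide) (by decide) (by decide) (by decide) _ ?_ ?_).seq ((NR.nmul mk (i := UQ.r)
    (j := UQ.a) (k := UQ.m) (t := UQ.s)
    (t' := UQ.s2) (by decide) (by decide) (by decide) (by decide) (by decide) (by decide)
    (by decide) (by decide) (by decide) (by decide) _ ?_ ?_).seq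
    (NR.clear mk UQ.a _)))).mono ?_).of_eq ?_
  · rfl
  · rfl
  · rfl
  · rfl
  · simp [vz]
    omega
  · funext q
    cases q <;> simp [vz]

/-! ### The program -/

/-- Save the parameters. -/
def saves : Pr J E :=
  (save R.BE R.PST).seq ((save R.AL R.PST).seq ((save R.U2 R.PST).seq ((save R.U1 R.PST).seq
    ((save R.WW R.PST).seq ((save R.TM R.PST).seq (save R.RR R.PST))))))

theorem saves_runs (a : Lp) (s : St J E) (h1 : s.at R.RR = una a.r) (h2 : s.at R.TM = una a.t)
    (h3 : s.at R.WW = una a.S) (h4 : s.at R.U1 = tny a.S (a.r + 1))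
    (h5 : s.at R.U2 = tny a.S (2 ^ a.S / (a.r + 1))) (h6 : s.at R.AL = tny a.S a.w)
    (h7 : s.at R.BE = tny a.S a.w') :
    Runs saves s ((((((((s.set R.BE []).set R.AL []).set R.U2 []).set R.U1 []).set R.WW []).set
      R.TM []).set R.RR []).set R.PST (frame a ++ s.at R.PST))
      (3 * a.r + 3 * a.t + 15 * a.S + 20) := by
  simp only [St.at] at h1 h2 h3 h4 h5 h6 h7
  refine (((save_runs (by decide) s).seq ((save_runs (by decide) _).seq ((save_runs (by decide)
    _).seq ((save_runs (by decide) _).seq ((save_runs (by decide) _).seq ((save_runs (by decide)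
      _).seq (save_runs (by decide) _))))))).mono ?_).of_eq ?_
  · simp [h1, h2, h3, h4, h5, h6, h7, lv_length_tny]
    omega
  · funext q
    rcases q with q | q
    · cases q <;> simp [h1, h2, h3, h4, h5, h6, h7, frame]
    · simp

/-- The program that chooses the parameters of `k` levels. -/
noncomputable def par (search : Pr J E) : ℕ → Pr J E
  | 0 => ((nP0 mk).map UQ.loc).seq (save R.P3 R.PST)
  | k + 1 => ((nadd UQ.p UQ.b UQ.s mk).map UQ.loc).seq ((save R.PP R.PS2).seq
      (((nNxt mk).map UQ.loc).seq ((par search k).seq (((Prog.rev UQ.m UQ.t).map UQ.loc).seq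
        ((loadF R.PS2 R.PP).seq ((numE.map UQ.loc).seq (search.seq
          ((numF.map UQ.loc).seq saves))))))))

end Vale.Agent.P338.S2
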