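import Vale.Agent.P338.S2ParB

/-!
# P338, second reduction: the program that chooses the parameters, the specification
-/

namespace Vale.Agent.P338.S2

variable {J E : Type} [DecidableEq J]

/-- The first level. -/
theorem par_zero (search : Pr J E) (T : ℕ → ℕ) :
    ParSpec (par search 0) 0 T 500 := by
  intro L s hL hidle hemp hemp2 hPP
  have emp : ∀ q ∈ dScratch, s (Sum.inl q) = [] := hemp
  have emp2 : ∀ q ∈ [R.NN, R.MP, R.P1, R.P2, R.P3, R.P4], s (Sum.inl q) = [] := hemp2
  simp only [St.at] at hPP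
  have hMP : s (Sum.inl R.MP) = [] := emp2 _ (by decide)
  have hNN : s (Sum.inl R.NN) = [] := emp2 _ (by decide)
  have hWW : s (Sum.inl R.WW) = [] := emp _ (by decide)
  have hTM : s (Sum.inl R.TM) = [] := emp _ (by decide)
  have hRR : s (Sum.inl R.RR) = [] := emp _ (by decide)
  have hP1 : s (Sum.inl R.P1) = [] := emp2 _ (by decide)
  have hP2 : s (Sum.inl R.P2) = [] := emp2 _ (by decide)
  have hP3 : s (Sum.inl R.P3) = [] := emp2 _ (by decide)
  have hP4 : s (Sum.inl R.P4) = [] := emp2 _ (by decide)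
  have hS3 : s (Sum.inl R.S3) = [] := emp _ (by decide)
  have hS4 : s (Sum.inl R.S4) = [] := emp _ (by decide)
  have hS5 : s (Sum.inl R.S5) = [] := emp _ (by decide)
  have hS6 : s (Sum.inl R.S6) = [] := emp _ (by decide)
  have hs : s = putN s (Function.update vz UQ.p L) := by
    refine (putN_self fun q => ?_).symm
    cases q <;> assumption
  refine ⟨[], Nat.log 2 L, rfl, ⟨Nat.pow_log_le_self 2 (by omega), ?_⟩, ?_⟩
  · have := Nat.lt_pow_succ_log_self (b := 2) (by norm_num) L
    rw [pow_succ] at this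
    omega
  have h1 := (nP0_runs (mk : SSym E) (Function.update vz UQ.p L) (by simp [UQ.Zero, vz]) rfl
    (by simpa using hL)).big s
  rw [← hs] at h1
  have h2 := save_runs (a := R.P3) (b := R.PST) (by decide) (putN s (Function.update
    (Function.update (Function.update (Function.update vz UQ.p L) UQ.p 0) UQ.c
      (Nat.log 2 ((Function.update vz UQ.p L) UQ.p))) UQ.m
        (2 ^ Nat.log 2 ((Function.update vz UQ.p L) UQ.p))))
  refine ((h1.seq h2).mono ?_).of_eq ?_
  · have h3 : Nat.log 2 L ≤ L := Nat.log_le_self _ _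
    simp [putN, PTime]
    nlinarith
  · funext q
    rcases q with q | q
    · cases q <;> simp [putN, vz, frames, siz, una_nil', hMP, hNN, hWW, hTM, hRR, hP1, hP2, hP3,
        hP4, hS3, hS4, hS5, hS6]
    · simp [putN]

theorem putN_emp {s : St J E} {v : UQ → ℕ} {l : List R} (h : ∀ q ∈ l, s (Sum.inl q) = [])
    (hv : ∀ q : UQ, q.toR ∈ l → v q = 0) : ∀ q ∈ l, putN s v (Sum.inl q) = [] := by
  intro q hq
  by_cases h2 : q ∈ uqR
  · have key : ∀ u : UQ, q = u.toR → putN s v (Sum.inl q) = [] := by
      rintro u rfl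
      have h3 := putN_loc s v u
      rw [UQ.loc] at h3
      rw [h3, hv u hq]
      rfl
    simp only [uqR, List.mem_cons, List.not_mem_nil, or_false] at h2
    rcases h2 with h | h | h | h | h | h | h | h | h | h | h | h | h | h
    exacts [key .p h, key .m h, key .n h, key .w h, key .t h, key .r h, key .a h, key .b h,
      key .c h, key .g h, key .h h, key .d h, key .s h, key .s2 h]
  · rw [putN_of_not h2]
    exact h q hq

theorem putN_update (s : St J E) (v : UQ → ℕ) (u : UQ) (n : ℕ) :
    (putN s v).set u.toR (una n) = putN s (Function.update v u n) := by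
  funext l
  by_cases hl : l = Sum.inl u.toR
  · subst hl
    have h3 := putN_loc s (Function.update v u n) u
    rw [UQ.loc] at h3
    rw [h3]
    simp
  · have e1 : (putN s v).set u.toR (una n) l = putN s v l := Function.update_of_ne hl _ _
    rw [e1]
    rcases l with l | l
    · by_cases h2 : l ∈ uqR
      · have key : ∀ u' : UQ, l = u'.toR →
            putN s v (Sum.inl l) = putN s (Function.update v u n) (Sum.inl l) := by
          rintro u' rfl
          have h3 := putN_loc s v u'
          have h4 := putN_loc s (Function.update v u n) u'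
          rw [UQ.loc] at h3 h4
          have h5 : u' ≠ u := by rintro rfl; exact hl rfl
          rw [h3, h4, Function.update_of_ne h5]
        simp only [uqR, List.mem_cons, List.not_mem_nil, or_false] at h2
        rcases h2 with h | h | h | h | h | h | h | h | h | h | h | h | h | h
        exacts [key .p h, key .m h, key .n h, key .w h, key .t h, key .r h, key .a h, key .b h,
          key .c h, key .g h, key .h h, key .d h, key .s h, key .s2 h]
      · rw [putN_of_not h2, putN_of_not h2]
    · rfl

theorem putN_at (s : St J E) (v : UQ → ℕ) (u : UQ) : (putN s v).at u.toR = una (v u) :=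
  putN_loc s v u

/-- The store at the end. -/
theorem fin_eq {s : St J E} {Y : List (SSym E)} {a : Lp} {q n : ℕ}
    (emp : ∀ q ∈ dScratch, s (Sum.inl q) = [])
    (emp2 : ∀ q ∈ [R.NN, R.MP, R.P1, R.P2, R.P3, R.P4], s (Sum.inl q) = []) :
    ((((((((putN (((((s.set R.PST Y).set R.U1 (tny a.S q)).set R.U2 (tny a.S n)).set R.AL
      (tny a.S a.w)).set R.BE (tny a.S a.w'))
      (Function.update (Function.update (Function.update (Function.update vz
      UQ.t a.t) UQ.w a.S) UQ.r a.r) UQ.m (a.r * (a.r * a.t)))).set R.BE []).set R.AL []).set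
      R.U2 []).set R.U1 []).set R.WW []).set R.TM []).set R.RR []).set R.PST (frame a ++
      (putN (((((s.set R.PST Y).set R.U1 (tny a.S q)).set R.U2 (tny a.S n)).set R.AL
      (tny a.S a.w)).set R.BE (tny a.S a.w'))
      (Function.update (Function.update (Function.update (Function.update vz
      UQ.t a.t) UQ.w a.S) UQ.r a.r) UQ.m (a.r * (a.r * a.t)))).at R.PST) =
    ((s.set R.PP []).set R.MP (una (a.r * (a.r * a.t)))).set R.PST (frame a ++ Y) := by
  have hNN : s (Sum.inl R.NN) = [] := emp2 _ (by decide)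
  have hWW : s (Sum.inl R.WW) = [] := emp _ (by decide)
  have hTM : s (Sum.inl R.TM) = [] := emp _ (by decide)
  have hRR : s (Sum.inl R.RR) = [] := emp _ (by decide)
  have hP1 : s (Sum.inl R.P1) = [] := emp2 _ (by decide)
  have hP2 : s (Sum.inl R.P2) = [] := emp2 _ (by decide)
  have hP3 : s (Sum.inl R.P3) = [] := emp2 _ (by decide)
  have hP4 : s (Sum.inl R.P4) = [] := emp2 _ (by decide)
  have hS3 : s (Sum.inl R.S3) = [] := emp _ (by decide)
  have hS4 : s (Sum.inl R.S4) = [] := emp _ (by decide)
  have hS5 : s (Sum.inl R.S5) = [] := emp _ (by decide)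
  have hS6 : s (Sum.inl R.S6) = [] := emp _ (by decide)
  have hU1 : s (Sum.inl R.U1) = [] := emp _ (by decide)
  have hU2 : s (Sum.inl R.U2) = [] := emp _ (by decide)
  have hAL : s (Sum.inl R.AL) = [] := emp _ (by decide)
  have hBE : s (Sum.inl R.BE) = [] := emp _ (by decide)
  funext q
  rcases q with q | q
  · cases q <;> simp [putN, vz, una_nil', hNN, hWW, hTM, hRR,
      hP1, hP2, hP3, hP4, hS3, hS4, hS5, hS6, hU1, hU2, hAL, hBE]
  · simp [putN]

/-- The time. -/
theorem par_cost {C D L t x r S TS X : ℕ} (hD : C + 8000 ≤ D) (hL : 1 ≤ L) (ht1 : 1 ≤ t)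
    (htL : t ≤ L) (hx : x = xOf L t) (hr1 : x ≤ r) (hr2 : r + 1 ≤ 2 * x) (hS : S = tsz L) :
    8 * L + 1 + 1 + (3 * L + 2 + 1 + (100 * (L + 1) ^ 2 + 1 + (X + 1 + (3 * t + 1 +
      (3 * L + 2 + 1 + (3000 * L ^ 2 + 1 + (C * (x ^ 3 + x ^ 2 * (S + TS)) + 1 +
        (3 * x + r * (8 * t + 8) + r * (8 * (r * t) + 8) + 3 * (r * t) + 10 + 1 +
          (3 * r + 3 * t + 15 * S + 20))))))))) ≤ D * (L ^ 2 + L * (S + TS)) + X := by
  have hx1 : 1 ≤ x := by rw [hx]; exact one_le_xOf L t
  have hx2 : x ^ 2 ≤ L := by rw [hx]; exact xOf_sq_le hL ht1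
  have hxL : x ≤ L := by rw [hx]; exact xOf_le hL ht1
  have hx3 : x ^ 3 ≤ L ^ 2 := by
    calc x ^ 3 = x * x ^ 2 := by ring
      _ ≤ L * L := Nat.mul_le_mul hxL hx2
      _ = L ^ 2 := by ring
  have hr0 : 1 ≤ r := le_trans hx1 hr1
  have hrr : r * r * t = r * (r * t) := by ring
  have hrrL : r * (r * t) ≤ L := by rw [← hrr]; exact siz_le_L ht1 htL (by rw [← hx]; exact hr2)
  have hrtL : r * t ≤ L := le_trans (Nat.le_mul_of_pos_left _ hr0) hrrL
  have hrL : r ≤ L := le_trans (Nat.le_mul_of_pos_right _ ht1) hrtL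
  have hS16 : S ≤ 16 * L := by rw [hS]; exact tsz_le_mul hL
  have hLL : L ≤ L ^ 2 := by nlinarith
  have c8 : C * (x ^ 3 + x ^ 2 * (S + TS)) ≤ C * (L ^ 2 + L * (S + TS)) :=
    Nat.mul_le_mul_left _ (Nat.add_le_add hx3 (Nat.mul_le_mul_right _ hx2))
  have cD : (C + 8000) * (L ^ 2 + L * (S + TS)) ≤ D * (L ^ 2 + L * (S + TS)) :=
    Nat.mul_le_mul_right _ hD
  have cE : (C + 8000) * (L ^ 2 + L * (S + TS)) =
      C * (L ^ 2 + L * (S + TS)) + 8000 * (L ^ 2 + L * (S + TS)) := by ring
  have b1 : r * (8 * t + 8) = 8 * (r * t) + 8 * r := by ring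
  have b2 : r * (8 * (r * t) + 8) = 8 * (r * (r * t)) + 8 * r := by ring
  have b3 : 100 * (L + 1) ^ 2 ≤ 400 * L ^ 2 := by nlinarith
  have b4 : L ^ 2 ≤ L ^ 2 + L * (S + TS) := Nat.le_add_right _ _
  rw [b1, b2]
  omega

/-- One more level. -/
theorem par_succ {search : Pr J E} {T : ℕ → ℕ} {C D k : ℕ} (hse : SearchSpec search T C)
    (ih : ParSpec (par search k) k T D) (hD : C + 8000 ≤ D) :
    ParSpec (par search (k + 1)) (k + 1) T D := by
  intro L s hL hidle hemp hemp2 hPP
  have emp : ∀ q ∈ dScratch, s (Sum.inl q) = [] := hemp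
  have emp2 : ∀ q ∈ [R.NN, R.MP, R.P1, R.P2, R.P3, R.P4], s (Sum.inl q) = [] := hemp2
  simp only [St.at] at hPP
  have hs : s = putN s (Function.update vz UQ.p L) := by
    have hMP : s (Sum.inl R.MP) = [] := emp2 _ (by decide)
    have hNN : s (Sum.inl R.NN) = [] := emp2 _ (by decide)
    have hWW : s (Sum.inl R.WW) = [] := emp _ (by decide)
    have hTM : s (Sum.inl R.TM) = [] := emp _ (by decide)
    have hRR : s (Sum.inl R.RR) = [] := emp _ (by decide)
    have hP1 : s (Sum.inl R.P1) = [] := emp2 _ (by decide)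
    have hP2 : s (Sum.inl R.P2) = [] := emp2 _ (by decide)
    have hP3 : s (Sum.inl R.P3) = [] := emp2 _ (by decide)
    have hP4 : s (Sum.inl R.P4) = [] := emp2 _ (by decide)
    have hS3 : s (Sum.inl R.S3) = [] := emp _ (by decide)
    have hS4 : s (Sum.inl R.S4) = [] := emp _ (by decide)
    have hS5 : s (Sum.inl R.S5) = [] := emp _ (by decide)
    have hS6 : s (Sum.inl R.S6) = [] := emp _ (by decide)
    refine (putN_self fun q => ?_).symm
    cases q <;> assumption
  -- copy and save `L`
  have h1 := (NR.nadd (mk : SSym E) (i := UQ.p) (j := UQ.b) (t := UQ.s) (by decide) (by decide)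
    (by decide) (Function.update vz UQ.p L) rfl).big s
  rw [← hs] at h1
  have h2 := save_runs (a := R.PP) (b := R.PS2) (by decide) (putN s (Function.update
    (Function.update vz UQ.p L) UQ.b ((Function.update vz UQ.p L) UQ.p +
      (Function.update vz UQ.p L) UQ.b)))
  set X2 : List (SSym E) := saved (una L) ++ s.at R.PS2 with hX2
  have e2 : ((putN s (Function.update (Function.update vz UQ.p L) UQ.b
      ((Function.update vz UQ.p L) UQ.p + (Function.update vz UQ.p L) UQ.b))).set R.PP []).set
      R.PS2 (saved ((putN s (Function.update (Function.update vz UQ.p L) UQ.b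
      ((Function.update vz UQ.p L) UQ.p + (Function.update vz UQ.p L) UQ.b))).at R.PP) ++
      (putN s (Function.update (Function.update vz UQ.p L) UQ.b
      ((Function.update vz UQ.p L) UQ.p + (Function.update vz UQ.p L) UQ.b))).at R.PS2) =
      putN (s.set R.PS2 X2) (Function.update vz UQ.b L) := by
    rw [putN_set (by decide), hX2]
    have a1 : ([] : List (SSym E)) = una 0 := rfl
    rw [a1, show R.PP = UQ.toR UQ.p from rfl, putN_update, putN_at]
    congr 2
    funext q; cases q <;> simp [vz]
  rw [e2] at h2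
  -- the next bound
  have h3 := (nNxt_runs (mk : SSym E) (Function.update vz UQ.b L) rfl rfl rfl).big (s.set R.PS2 X2)
  have e3 : Function.update (Function.update (Function.update vz UQ.b L) UQ.b 0) UQ.p
      (nxt ((Function.update vz UQ.b L) UQ.b)) = Function.update vz UQ.p (nxt L) := by
    funext q; cases q <;> simp [vz]
  rw [e3] at h3
  -- the inner levels
  have hd : ∀ q ∈ dScratch, (s.set R.PS2 X2) (Sum.inl q) = [] := by
    intro q hq
    have h4 : q ≠ R.PS2 := by rintro rfl; exact absurd hq (by decide)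
    simp [h4, emp q hq]
  have hd2 : ∀ q ∈ [R.NN, R.MP, R.P1, R.P2, R.P3, R.P4], (s.set R.PS2 X2) (Sum.inl q) = [] := by
    intro q hq
    have h4 : q ≠ R.PS2 := by rintro rfl; exact absurd hq (by decide)
    simp [h4, emp2 q hq]
  obtain ⟨Ls, τ, hlen, hgood, h4⟩ := ih (nxt L)
    (putN (s.set R.PS2 X2) (Function.update vz UQ.p (nxt L))) (one_le_nxt L)
    (by intro j; exact hidle j)
    (putN_emp hd (by
      intro q hq
      have : q ≠ UQ.p := by rintro rfl; exact absurd hq (by decide)
      simp [this, vz]))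
    (putN_emp hd2 (by
      intro q hq
      have : q ≠ UQ.p := by rintro rfl; exact absurd hq (by decide)
      simp [this, vz]))
    (by rw [show R.PP = UQ.toR UQ.p from rfl, putN_at]; simp)
  set t := siz Ls τ with ht
  have ht1 : 1 ≤ t := siz_pos hgood
  have htn : t ≤ nxt L := (siz_le_of_goodP hgood).1
  have htL : t ≤ L := htn.trans (nxt_le hL)
  set Y : List (SSym E) := frames Ls τ ++ s.at R.PST with hY
  have e4 : ((((putN (s.set R.PS2 X2) (Function.update vz UQ.p (nxt L))).set R.PP []).set R.MP
      (una t)).set R.PST (frames Ls τ ++ (putN (s.set R.PS2 X2)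
        (Function.update vz UQ.p (nxt L))).at R.PST)) =
      putN ((s.set R.PS2 X2).set R.PST Y) (Function.update vz UQ.m t) := by
    rw [putN_set (r := R.PST) (by decide), hY]
    have a1 : ([] : List (SSym E)) = una 0 := rfl
    rw [a1, show R.PP = UQ.toR UQ.p from rfl, putN_update, show R.MP = UQ.toR UQ.m from rfl,
      putN_update]
    congr 2
    funext q; cases q <;> simp [vz]
  rw [e4] at h4
  -- the element size
  have h5 := (NR.mova (mk : SSym E) (i := UQ.m) (j := UQ.t) (by decide)
    (Function.update vz UQ.m t)).big ((s.set R.PS2 X2).set R.PST Y)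
  have e5 : Function.update (Function.update (Function.update vz UQ.m t) UQ.m 0) UQ.t
      ((Function.update vz UQ.m t) UQ.m + (Function.update vz UQ.m t) UQ.t) =
      Function.update vz UQ.t t := by
    funext q; cases q <;> simp [vz]
  rw [e5] at h5
  -- reload `L`
  have h6 := loadF_runs R.PP R.PS2 (by decide) (una L)
    (putN ((s.set R.PS2 X2).set R.PST Y) (Function.update vz UQ.t t)) (s.at R.PS2)
    (plain_una _) (by simp [putN, hX2]) (by simp [putN, vz, una_nil'])
  have e6 : ((putN ((s.set R.PS2 X2).set R.PST Y) (Function.update vz UQ.t t)).set R.PP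
      (una L)).set R.PS2 (s.at R.PS2) =
      putN (s.set R.PST Y) (Function.update (Function.update vz UQ.p L) UQ.t t) := by
    have e0 : ((s.set R.PS2 X2).set R.PST Y).set R.PS2 (s.at R.PS2) = s.set R.PST Y := by
      funext q
      by_cases h1 : q = Sum.inl R.PS2
      · subst h1; simp
      · by_cases h2 : q = Sum.inl R.PST
        · subst h2; simp
        · simp [h1, h2]
    rw [show R.PP = UQ.toR UQ.p from rfl, putN_update, ← putN_set (by decide), e0]
    congr 1
    funext q; cases q <;> simp [vz]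
  rw [e6] at h6
  -- the tiny size and the square root
  have h7 := (numE_runs (E := E) hL ht1 htL).big (s.set R.PST Y)
  set x := xOf L t with hx
  set S := tsz L with hS
  -- the search
  have hy : ∀ q ∈ dScratch, (s.set R.PST Y) (Sum.inl q) = [] := by
    intro q hq
    have h4 : q ≠ R.PST := by rintro rfl; exact absurd hq (by decide)
    simp [h4, emp q hq]
  set v7 : UQ → ℕ := Function.update (Function.update (Function.update vz UQ.t t) UQ.w S) UQ.n x
    with hv7
  have hq7 : ∀ q : UQ, q.toR ∈ arScratch ++ pScratch ++ [R.RR, R.U1, R.U2, R.AL, R.BE] →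
      v7 q = 0 := by
    intro q hq
    cases q <;> first | rfl | exact absurd hq (by decide)
  have hsub : ∀ q ∈ arScratch ++ pScratch ++ [R.RR, R.U1, R.U2, R.AL, R.BE], q ∈ dScratch := by
    decide
  have hemp7 := putN_emp (s := s.set R.PST Y) (v := v7)
    (l := arScratch ++ pScratch ++ [R.RR, R.U1, R.U2, R.AL, R.BE])
    (fun q hq => hy q (hsub q hq)) hq7
  obtain ⟨r, w, w', hr1, hr2, hP, hw, hord, hw', h8⟩ := hse x S (putN (s.set R.PST Y) v7)
    (one_le_xOf L t) (size_two_mul_le hL (xOf_le hL ht1))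
    (by intro j; exact hidle j)
    (fun q hq => hemp7 q (by simp only [List.mem_append]; exact Or.inl (Or.inl hq)))
    (fun q hq => hemp7 q (by simp only [List.mem_append]; exact Or.inl (Or.inr hq)))
    (fun q hq => hemp7 q (by simp only [List.mem_append]; exact Or.inr hq))
    (by rw [show R.NN = UQ.toR UQ.n from rfl, putN_at]; rfl)
    (by rw [show R.WW = UQ.toR UQ.w from rfl, putN_at]; rfl)
  set s8 : St J E := ((((s.set R.PST Y).set R.U1 (tny S (r + 1))).set R.U2
    (tny S (2 ^ S / (r + 1)))).set R.AL (tny S w)).set R.BE (tny S w') with hs8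
  have e8 : (((((putN (s.set R.PST Y) v7).set R.RR (una r)).set R.U1 (tny S (r + 1))).set R.U2
      (tny S (2 ^ S / (r + 1)))).set R.AL (tny S w)).set R.BE (tny S w') =
      putN s8 (Function.update v7 UQ.r r) := by
    rw [show R.RR = UQ.toR UQ.r from rfl, putN_update, ← putN_set (by decide),
      ← putN_set (by decide), ← putN_set (by decide), ← putN_set (by decide)]
  rw [e8] at h8
  -- the product
  have h9 := (numF_runs (E := E) x r t S).big s8
  rw [← hv7] at h9
  set v9 : UQ → ℕ := Function.update (Function.update (Function.update (Function.update vz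
      UQ.t t) UQ.w S) UQ.r r) UQ.m (r * (r * t)) with hv9
  -- saving the parameters
  set a : Lp := ⟨r, t, S, w, w'⟩ with ha
  have h10 := saves_runs a (putN s8 v9) (by simp [putN, hv9, ha]) (by simp [putN, hv9, ha])
    (by simp [putN, hv9, ha]) (by simp [putN, hs8, ha]) (by simp [putN, hs8, ha])
    (by simp [putN, hs8, ha]) (by simp [putN, hs8, ha])
  have hsz : siz (a :: Ls) τ = r * (r * t) := by
    simp only [siz, ha, ← ht]
    ring
  have hrr : r * r * t = r * (r * t) := by ring
  refine ⟨a :: Ls, τ, by simp [hlen], ⟨⟨ht, ht1, hP, ?_, ?_, hw, hord, hw', rfl, ?_, ?_⟩, hgood⟩, ?_⟩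
  · exact two_pow_t_le hL ht1 htn hr1
  · refine le_trans (Nat.mul_le_mul_left 4 (Nat.size_le_size ?_))
      (size_two_mul_le hL (xOf_le hL ht1))
    exact hr2
  · rw [hsz, ← hrr]; exact siz_le_L ht1 htL hr2
  · rw [hsz, ← hrr]; exact L_le_siz ht1 hr1
  · refine ((h1.seq (h2.seq (h3.seq (h4.seq (h5.seq (h6.seq (h7.seq (h8.seq (h9.seq
      h10))))))))).mono ?_).of_eq ?_
    · have l1 : (putN s (Function.update (Function.update vz UQ.p L) UQ.b
          ((Function.update vz UQ.p L) UQ.p + (Function.update vz UQ.p L) UQ.b)) : St J E).at R.PP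
          = una L := by
        rw [show R.PP = UQ.toR UQ.p from rfl, putN_at]; simp
      have l3 : Function.update vz UQ.b L UQ.b = L := by simp
      have l5 : Function.update vz UQ.m t UQ.m = t := by simp
      have l0 : Function.update vz UQ.p L UQ.p = L := by simp
      rw [l1, l3, l5, l0, length_una]
      exact par_cost (X := PTime D T k (nxt L)) hD hL ht1 htL hx hr1 hr2 hS
    · have h11 := fin_eq (s := s) (Y := Y) (a := a) (q := r + 1) (n := 2 ^ S / (r + 1)) emp emp2
      have h12 : frame a ++ Y = frames (a :: Ls) τ ++ s.at R.PST := by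
        rw [hY, frames, List.append_assoc]
      rw [h12] at h11
      rw [hsz]
      exact h11

theorem PTime_mono {C D : ℕ} (h : C ≤ D) (T : ℕ → ℕ) : ∀ (k L : ℕ), PTime C T k L ≤ PTime D T k L
  | 0, L => Nat.mul_le_mul_right _ h
  | k + 1, L => Nat.add_le_add (Nat.mul_le_mul_right _ h) (PTime_mono h T k _)

theorem ParSpec.mono {p : Pr J E} {k : ℕ} {T : ℕ → ℕ} {C D : ℕ} (h : ParSpec p k T C)
    (hCD : C ≤ D) : ParSpec p k T D := by
  intro L s h1 h2 h3 h4 h5
  obtain ⟨Ls, τ, h6, h7, h8⟩ := h L s h1 h2 h3 h4 h5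
  exact ⟨Ls, τ, h6, h7, h8.mono (PTime_mono hCD _ _ _)⟩

/-- The program that chooses the parameters. -/
theorem parSpec {search : Pr J E} {T : ℕ → ℕ} {C : ℕ} (hse : SearchSpec search T C) (k : ℕ) :
    ParSpec (par search k) k T (C + 8000) := by
  induction k with
  | zero => exact (par_zero search T).mono (by omega)
  | succ k ih => exact par_succ hse ih le_rfl

end Vale.Agent.P338.S2
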