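import Vale.Agent.P338.S2LevelB

/-!
# P338, second reduction: the choice of the parameters
-/

namespace Vale.Agent.P338.S2

variable {J E : Type}

/-- The bound for the element size, given the bound `L` for the digits. -/
def nxt (L : ℕ) : ℕ := max 1 (Nat.log 2 L / 8)

/-- The tiny size, given the bound `L` for the digits. -/
def tsz (L : ℕ) : ℕ := 8 * Nat.size L

/-- The relations between the parameters of the levels and the bound `L`. -/
def GoodP : List Lp → ℕ → ℕ → Prop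
  | [], τ, L => 2 ^ τ ≤ L ∧ L < 2 * 2 ^ τ
  | a :: Ls, τ, L =>
    (a.t = siz Ls τ ∧ 1 ≤ a.t ∧ Nat.Prime (a.r + 1) ∧ 2 ^ a.t ≤ a.r + 1 ∧
      4 * Nat.size (a.r + 1) ≤ a.S ∧ a.w < a.r + 1 ∧ orderOf (a.w : ZMod (a.r + 1)) = a.r ∧
      a.w' = a.w ^ (a.r - 1) % (a.r + 1) ∧ a.S = tsz L ∧
      siz (a :: Ls) τ ≤ L ∧ L ≤ 16 * siz (a :: Ls) τ) ∧ GoodP Ls τ (nxt L)

/-- The time for finding the parameters. -/
def PTime (C : ℕ) (T : ℕ → ℕ) : ℕ → ℕ → ℕ
  | 0, L => C * L ^ 2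
  | k + 1, L => C * (L ^ 2 + L * (tsz L + T (tsz L))) + PTime C T k (nxt L)

/-- The program that finds the parameters for `k` levels: `L` is on `PP` (unary); the frames
are pushed on `PST`, and `siz` (unary) is put on `MP`. -/
def ParSpec [DecidableEq J] (p : Pr J E) (k : ℕ) (T : ℕ → ℕ) (C : ℕ) : Prop :=
  ∀ (L : ℕ) (s : St J E), 1 ≤ L → s.Idle → s.Empty dScratch →
    s.Empty [R.NN, R.MP, R.P1, R.P2, R.P3, R.P4] → s.at R.PP = una L →
    ∃ (Ls : List Lp) (τ : ℕ), Ls.length = k ∧ GoodP Ls τ L ∧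
      Runs p s (((s.set R.PP []).set R.MP (una (siz Ls τ))).set R.PST
        (frames Ls τ ++ s.at R.PST)) (PTime C T k L)

/-! ### Consequences -/

theorem siz_le_of_goodP {Ls : List Lp} {τ L : ℕ} (h : GoodP Ls τ L) :
    siz Ls τ ≤ L ∧ L ≤ 16 * siz Ls τ := by
  cases Ls with
  | nil =>
    obtain ⟨h1, h2⟩ := h
    simp only [siz]
    omega
  | cons a Ls =>
    obtain ⟨⟨_, _, _, _, _, _, _, _, _, h1, h2⟩, _⟩ := h
    exact ⟨h1, h2⟩

theorem tsz_le (L : ℕ) (hL : 1 ≤ L) : tsz L ≤ 128 * nxt L := by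
  have h1 : Nat.size L = Nat.log 2 L + 1 := le_antisymm
    (Nat.size_le.mpr (Nat.lt_pow_succ_log_self (by norm_num) L))
    (Nat.lt_size.mpr (Nat.pow_log_le_self 2 (by omega)))
  unfold tsz nxt
  rw [h1]
  rcases Nat.lt_or_ge (Nat.log 2 L / 8) 1 with h | h
  · omega
  · omega

/-- `S ≤ 2048 * t` on every level. -/
theorem goodP_S_le {a : Lp} {Ls : List Lp} {τ L : ℕ} (hL : 1 ≤ L) (h : GoodP (a :: Ls) τ L) :
    a.S ≤ 2048 * a.t := by
  obtain ⟨⟨h1, _, _, _, _, _, _, _, h2, _, _⟩, h3⟩ := h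
  have h4 := (siz_le_of_goodP h3).2
  have h5 := tsz_le L hL
  rw [h2, h1]
  omega

theorem good_of_goodP {τ M m : ℕ} (hm : 6144 * M ≤ m) : ∀ {Ls : List Lp} {L : ℕ}, 1 ≤ L →
    GoodP Ls τ L → Good Ls τ M m
  | [], _, _, _ => trivial
  | a :: Ls, L, hL, h => by
    have h1 := goodP_S_le hL h
    obtain ⟨⟨c1, c2, c3, c4, c5, c6, c7, c8, c9, _, _⟩, h3⟩ := h
    refine ⟨⟨c1, c2, c3, c4, c5, c6, c7, c8, ?_⟩, good_of_goodP hm (le_max_left _ _) h3⟩
    calc 3 * (M / a.t) * a.S ≤ 3 * (M / a.t) * (2048 * a.t) := Nat.mul_le_mul_left _ h1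
      _ = 6144 * (M / a.t * a.t) := by ring
      _ ≤ 6144 * M := Nat.mul_le_mul_left _ (Nat.div_mul_le_self _ _)
      _ ≤ m := hm

end Vale.Agent.P338.S2
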