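import Vale.Agent.P338.S2Num
import Vale.Agent.P338.S2ParIface

/-!
# P338, second reduction: the unary arithmetic of the choice of the parameters
-/

namespace Vale.Agent.P338.S2

/-- The unary stacks for the choice of the parameters. -/
inductive UQ : Type
  | p | m | n | w | t | r | a | b | c | g | h | d | s | s2
deriving DecidableEq

variable {Γ : Type}

/-- Scratch stacks. -/
def UQ.Zero (v : UQ → ℕ) : Prop :=
  v UQ.a = 0 ∧ v UQ.b = 0 ∧ v UQ.c = 0 ∧ v UQ.g = 0 ∧ v UQ.h = 0 ∧ v UQ.d = 0 ∧
    v UQ.s = 0 ∧ v UQ.s2 = 0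

/-! ### No level -/

/-- `c := log p`, `m := 2 ^ c`, `p := 0`. -/
def nP0 (c : Γ) : Prog UQ Γ :=
  (nlog UQ.p UQ.a UQ.c c).seq ((Prog.push UQ.m c).seq
    (Prog.forr UQ.c UQ.s ((Prog.rev UQ.m UQ.a).seq (ndbl UQ.a UQ.m c))))

theorem nP0_runs (c : Γ) (v : UQ → ℕ) (hz : UQ.Zero v) (hm : v UQ.m = 0) (hp : 1 ≤ v UQ.p) :
    NR c (nP0 c) v (Function.update (Function.update (Function.update v UQ.p 0) UQ.c
      (Nat.log 2 (v UQ.p))) UQ.m (2 ^ Nat.log 2 (v UQ.p))) (100 * (v UQ.p + 1) ^ 2) := by
  obtain ⟨ha, hb, hc, hg, hh, hd, hs, hs2⟩ := hz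
  have h1 := NR.nlog c (i := UQ.p) (j := UQ.a) (l := UQ.c) (by decide) (by decide) (by decide)
    v ha
  set L := v UQ.p with hL
  set τ := Nat.log 2 L with hτ
  have h2 := NR.inc c UQ.m (Function.update (Function.update v UQ.p 0) UQ.c (τ + v UQ.c))
  have hτL : 2 ^ τ ≤ L := Nat.pow_log_le_self 2 (by omega)
  have h3 := NR.forr c (u := UQ.c) (t := UQ.s) (by decide)
    (body := (Prog.rev UQ.m UQ.a).seq (ndbl UQ.a UQ.m c)) τ
    (fun k => Function.update (Function.update (Function.update v UQ.p 0) UQ.c τ) UQ.m (2 ^ k))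
    (10 * L + 1)
    (by intro k _; simp) (by intro k _; simp [hs])
    (by
      intro k hk l l'
      have hk2 : 2 ^ k ≤ L := le_trans (Nat.pow_le_pow_right (by norm_num) hk.le) hτL
      refine ((NR.mova c (by decide) _).seq (NR.ndbl c (by decide) _)).mono ?_ |>.of_eq ?_
      · simp only [Function.update_apply, reduceCtorEq, if_false, if_true, ha]
        omega
      · funext q
        cases q <;> simp [Function.update_apply, ha, pow_succ]
        omega)
  have e : Function.update (Function.update (Function.update v UQ.p 0) UQ.c (τ + v UQ.c)) UQ.m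
      ((Function.update (Function.update v UQ.p 0) UQ.c (τ + v UQ.c)) UQ.m + 1) =
      Function.update (Function.update (Function.update v UQ.p 0) UQ.c τ) UQ.m (2 ^ 0) := by
    funext q
    cases q <;> simp [Function.update_apply, hc, hm]
  rw [e] at h2
  refine (h1.seq (h2.seq h3)).mono ?_
  have h4 : τ ≤ L := Nat.log_le_self _ _
  have h5 : τ * (10 * L + 1 + 7) ≤ L * (10 * L + 1 + 7) := Nat.mul_le_mul_right _ h4
  nlinarith

/-! ### The next bound -/

/-- `p := max 1 (log b / 8)`, `b := 0` (`p = 0` before). -/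
def nNxt (c : Γ) : Prog UQ Γ :=
  (nlog UQ.b UQ.a UQ.c c).seq ((nhalf UQ.c UQ.a c).seq ((nhalf UQ.a UQ.c c).seq
    ((nhalf UQ.c UQ.p c).seq (Prog.ite (nonempty UQ.p) Prog.skip (Prog.push UQ.p c)))))

theorem nNxt_runs (c : Γ) (v : UQ → ℕ) (ha : v UQ.a = 0) (hc : v UQ.c = 0)
    (hp : v UQ.p = 0) :
    NR c (nNxt c) v (Function.update (Function.update v UQ.b 0) UQ.p (nxt (v UQ.b)))
      (100 * (v UQ.b + 1) ^ 2) := by
  set L := v UQ.b with hL
  set τ := Nat.log 2 L with hτ
  have h1 := NR.nlog c (i := UQ.b) (j := UQ.a) (l := UQ.c) (by decide) (by decide) (by decide)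
    v ha
  have h2 := NR.nhalf c (i := UQ.c) (j := UQ.a) (by decide)
    (Function.update (Function.update v UQ.b 0) UQ.c (Nat.log 2 (v UQ.b) + v UQ.c))
  have e2 : Function.update (Function.update (Function.update (Function.update v UQ.b 0) UQ.c
      (Nat.log 2 (v UQ.b) + v UQ.c)) UQ.c 0) UQ.a ((Function.update (Function.update v UQ.b 0)
      UQ.c (Nat.log 2 (v UQ.b) + v UQ.c)) UQ.c / 2 + (Function.update (Function.update v UQ.b 0)
      UQ.c (Nat.log 2 (v UQ.b) + v UQ.c)) UQ.a) =
      Function.update (Function.update v UQ.b 0) UQ.a (τ / 2) := by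
    funext q
    cases q <;> simp [Function.update_apply, ha, hc, ← hL, ← hτ]
  rw [e2] at h2
  have h3 := NR.nhalf c (i := UQ.a) (j := UQ.c) (by decide)
    (Function.update (Function.update v UQ.b 0) UQ.a (τ / 2))
  have e3 : Function.update (Function.update (Function.update (Function.update v UQ.b 0) UQ.a
      (τ / 2)) UQ.a 0) UQ.c ((Function.update (Function.update v UQ.b 0)
      UQ.a (τ / 2)) UQ.a / 2 + (Function.update (Function.update v UQ.b 0)
      UQ.a (τ / 2)) UQ.c) =
      Function.update (Function.update v UQ.b 0) UQ.c (τ / 4) := by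
    funext q
    cases q <;> simp [Function.update_apply, ha, hc, Nat.div_div_eq_div_mul]
  rw [e3] at h3
  have h4 := NR.nhalf c (i := UQ.c) (j := UQ.p) (by decide)
    (Function.update (Function.update v UQ.b 0) UQ.c (τ / 4))
  have e4 : Function.update (Function.update (Function.update (Function.update v UQ.b 0) UQ.c
      (τ / 4)) UQ.c 0) UQ.p ((Function.update (Function.update v UQ.b 0)
      UQ.c (τ / 4)) UQ.c / 2 + (Function.update (Function.update v UQ.b 0)
      UQ.c (τ / 4)) UQ.p) =
      Function.update (Function.update v UQ.b 0) UQ.p (τ / 8) := by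
    funext q
    cases q <;> simp [Function.update_apply, hp, hc, Nat.div_div_eq_div_mul]
  rw [e4] at h4
  have h5 : NR c (Prog.ite (nonempty UQ.p) Prog.skip (Prog.push UQ.p c))
      (Function.update (Function.update v UQ.b 0) UQ.p (τ / 8))
      (Function.update (Function.update v UQ.b 0) UQ.p (nxt L)) 2 := by
    by_cases h6 : τ / 8 = 0
    · refine (Runs.iteF ?_ (NR.inc c UQ.p _)).of_eq ?_ |>.mono (by omega)
      · rw [nst_empty]; simp [h6]
      · congr 1
        funext q
        cases q <;> simp [Function.update_apply, nxt, ← hτ, h6]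
    · refine (Runs.iteT ?_ (NR.skip c _)).of_eq ?_ |>.mono (by omega)
      · rw [nst_empty]; simp [h6]
      · congr 1
        funext q
        cases q <;> simp [Function.update_apply, nxt, ← hτ]
        omega
  refine (h1.seq (h2.seq (h3.seq (h4.seq h5)))).mono ?_
  have h6 : τ ≤ L := Nat.log_le_self _ _
  simp only [Function.update_apply, reduceCtorEq, if_false, if_true, hc, ← hL, ← hτ]
  have h7 : τ / 2 ≤ τ := Nat.div_le_self _ _
  have h8 : τ / 4 ≤ τ := Nat.div_le_self _ _
  nlinarith

/-! ### The tiny size -/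

/-- `w := 8 * (log b + 1)`, `b := 0` (`w = 0` before). -/
def nSiz (c : Γ) : Prog UQ Γ :=
  (nlog UQ.b UQ.a UQ.c c).seq ((Prog.push UQ.c c).seq ((ndbl UQ.c UQ.w c).seq
    ((ndbl UQ.w UQ.c c).seq (ndbl UQ.c UQ.w c))))

theorem nSiz_runs (c : Γ) (v : UQ → ℕ) (ha : v UQ.a = 0) (hc : v UQ.c = 0)
    (hw : v UQ.w = 0) (hb : 1 ≤ v UQ.b) :
    NR c (nSiz c) v (Function.update (Function.update v UQ.b 0) UQ.w (tsz (v UQ.b)))
      (200 * (v UQ.b + 1) ^ 2) := by
  set L := v UQ.b with hL
  set τ := Nat.log 2 L with hτ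
  have hsz : Nat.size L = τ + 1 := le_antisymm
    (Nat.size_le.mpr (Nat.lt_pow_succ_log_self (by norm_num) L))
    (Nat.lt_size.mpr (Nat.pow_log_le_self 2 (by omega)))
  have h1 := NR.nlog c (i := UQ.b) (j := UQ.a) (l := UQ.c) (by decide) (by decide) (by decide)
    v ha
  have h6 : τ ≤ L := Nat.log_le_self _ _
  refine (h1.seq ((NR.inc c UQ.c _).seq ((NR.ndbl c (i := UQ.c) (j := UQ.w) (by decide) _).seq
    ((NR.ndbl c (i := UQ.w) (j := UQ.c) (by decide) _).seq
      (NR.ndbl c (i := UQ.c) (j := UQ.w) (by decide) _))))).of_eq ?_ |>.mono ?_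
  · funext q
    cases q <;> simp [Function.update_apply, hc, hw, tsz, hsz, ← hL, ← hτ]
    ring
  · simp only [Function.update_apply, reduceCtorEq, if_false, if_true, hc, hw, ← hL, ← hτ]
    nlinarith

/-! ### The square root -/

/-- `max 1 √(L / (4 t))`. -/
def xOf (L t : ℕ) : ℕ := max 1 (Nat.sqrt (L / (4 * t)))

/-- One round. -/
def nXbody (c : Γ) : Prog UQ Γ :=
  (nadd UQ.b UQ.d UQ.s c).seq ((nmin UQ.d UQ.p).seq (Prog.ite (nonempty UQ.d)
    ((Prog.clear UQ.d).seq (Prog.pop UQ.g))
    ((Prog.push UQ.n c).seq ((nadd UQ.h UQ.b UQ.s c).seq (nadd UQ.h UQ.b UQ.s c)))))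

/-- `n := max 1 √(p / (4 t))`, `p := 0`. -/
def nX (c : Γ) : Prog UQ Γ :=
  (nadd UQ.t UQ.a UQ.s c).seq ((ndbl UQ.a UQ.b c).seq ((ndbl UQ.b UQ.h c).seq
    ((nadd UQ.h UQ.b UQ.s c).seq ((Prog.push UQ.g c).seq
      ((Prog.loop (nonempty UQ.g) (nXbody c)).seq ((Prog.clear UQ.b).seq ((Prog.clear UQ.h).seq
        (Prog.ite (nonempty UQ.n) Prog.skip (Prog.push UQ.n c)))))))))

/-- The numbers after `k` successful rounds. -/
def xst (v : UQ → ℕ) (L h k : ℕ) : UQ → ℕ := fun q =>
  match q with
  | .p => L - k ^ 2 * h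
  | .n => k
  | .b => (2 * k + 1) * h
  | .g => 1
  | .h => h
  | q => v q

/-- The numbers after the last round. -/
def xfin (v : UQ → ℕ) (h k : ℕ) : UQ → ℕ := fun q =>
  match q with
  | .p => 0
  | .n => k
  | .b => (2 * k + 1) * h
  | .g => 0
  | .h => h
  | q => v q

theorem nX_runs (c : Γ) (v : UQ → ℕ) (hz : UQ.Zero v) (hn : v UQ.n = 0) (ht : 1 ≤ v UQ.t)
    (htp : v UQ.t ≤ v UQ.p) :
    NR c (nX c) v (Function.update (Function.update v UQ.p 0) UQ.n
      (xOf (v UQ.p) (v UQ.t))) (400 * (v UQ.p + 1) ^ 2) := by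
  obtain ⟨ha, hb, hc, hg, hh, hd, hs, hs2⟩ := hz
  set L := v UQ.p with hL
  set t := v UQ.t with ht'
  set h := 4 * t with hh4
  set N := Nat.sqrt (L / h) with hN
  have hNle : N ^ 2 * h ≤ L := by
    have h1 : N * N ≤ L / h := Nat.sqrt_le _
    calc N ^ 2 * h = N * N * h := by ring
      _ ≤ L / h * h := Nat.mul_le_mul_right _ h1
      _ ≤ L := Nat.div_mul_le_self _ _
  have hNlt : L < (N + 1) ^ 2 * h := by
    have h1 : L / h < (N + 1) * (N + 1) := Nat.lt_succ_sqrt _
    have h2 : 0 < h := by omega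
    have h3 := (Nat.div_lt_iff_lt_mul h2).1 h1
    calc L < (N + 1) * (N + 1) * h := h3
      _ = (N + 1) ^ 2 * h := by ring
  have hb4 : (2 * N + 1) * h ≤ 4 * L := by
    rcases Nat.eq_zero_or_pos N with h0 | h0
    · rw [h0]; omega
    · have h1 : 2 * N + 1 ≤ 3 * N ^ 2 := by nlinarith
      have h2 : (2 * N + 1) * h ≤ 3 * N ^ 2 * h := Nat.mul_le_mul_right _ h1
      have h3 : 3 * N ^ 2 * h = 3 * (N ^ 2 * h) := by ring
      omega
  have hNL : N ≤ L := by
    have h2 : N ≤ N ^ 2 * h := by nlinarith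
    omega
  -- the loop
  have hloop := NR.loop c (cond := nonempty UQ.g) (p := nXbody c) (N + 1)
    (fun k => if k ≤ N then xst v L h k else xfin v h N) (128 * L + 30)
    (by
      intro k hk
      rw [nst_empty, if_pos (by omega)]
      simp [xst])
    (by
      rw [nst_empty, if_neg (by omega)]
      simp [xfin])
    (by
      intro k hk
      rw [if_pos (by omega : k ≤ N)]
      have hbk : (2 * k + 1) * h ≤ (2 * N + 1) * h := Nat.mul_le_mul_right _ (by omega)
      have r1 := NR.nadd c (i := UQ.b) (j := UQ.d) (t := UQ.s) (by decide) (by decide)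
        (by decide) (xst v L h k) (by simp [xst, hs])
      have r2 := NR.nmin c (i := UQ.d) (j := UQ.p) (by decide)
        (Function.update (xst v L h k) UQ.d (xst v L h k UQ.b + xst v L h k UQ.d))
      by_cases hkN : k < N
      · rw [if_pos (by omega : k + 1 ≤ N)]
        have hk1 : (k + 1) ^ 2 * h ≤ L :=
          le_trans (Nat.mul_le_mul_right _ (Nat.pow_le_pow_left (by omega) 2)) hNle
        have hk2 : (k + 1) ^ 2 * h = k ^ 2 * h + (2 * k + 1) * h := by ring
        have hcmp : (2 * k + 1) * h ≤ L - k ^ 2 * h := by omega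
        refine (r1.seq (r2.seq (Runs.iteF ?_ ((NR.inc c UQ.n _).seq
          ((NR.nadd c (i := UQ.h) (j := UQ.b) (t := UQ.s) (by decide) (by decide) (by decide) _
            ?_).seq (NR.nadd c (i := UQ.h) (j := UQ.b) (t := UQ.s) (by decide) (by decide)
              (by decide) _ ?_)))))).mono ?_ |>.of_eq ?_
        · rw [nst_empty]
          simp [xst, hd]
          omega
        · simp [xst, hs]
        · simp [xst, hs]
        · simp [xst, hd]
          omega
        · funext q
          cases q <;> simp [xst, hd]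
          · omega
          · ring
          · omega
      · have hkN' : k = N := by omega
        subst hkN'
        rw [if_neg (by omega : ¬ N + 1 ≤ N)]
        have hk2 : (N + 1) ^ 2 * h = N ^ 2 * h + (2 * N + 1) * h := by ring
        have hcmp : L - N ^ 2 * h < (2 * N + 1) * h := by omega
        refine (r1.seq (r2.seq (Runs.iteT ?_ ((NR.clear c UQ.d _).seq
          (NR.dec c UQ.g _))))).mono ?_ |>.of_eq ?_
        · rw [nst_empty]
          simp [xst, hd]
          omega
        · simp [xst, hd]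
          omega
        · funext q
          cases q <;> simp [xst, xfin, hd]
          omega)
  rw [if_pos (Nat.zero_le _), if_neg (by omega)] at hloop
  have s1 := NR.nadd c (i := UQ.t) (j := UQ.a) (t := UQ.s) (by decide) (by decide)
        (by decide) v hs
  have s2 := NR.ndbl c (i := UQ.a) (j := UQ.b) (by decide)
    (Function.update v UQ.a (v UQ.t + v UQ.a))
  have s3 := NR.ndbl c (i := UQ.b) (j := UQ.h) (by decide) (Function.update v UQ.b (2 * t))
  have s4 := NR.nadd c (i := UQ.h) (j := UQ.b) (t := UQ.s) (by decide) (by decide)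
        (by decide) (Function.update v UQ.h (4 * t)) (by simp [hs])
  have s5 := NR.inc c UQ.g (Function.update (Function.update v UQ.h (4 * t)) UQ.b (4 * t))
  have s6 := NR.clear c UQ.b (xfin v h N)
  have s7 := NR.clear c UQ.h (Function.update (xfin v h N) UQ.b 0)
  have s8 : NR c (Prog.ite (nonempty UQ.n) Prog.skip (Prog.push UQ.n c))
      (Function.update (Function.update (xfin v h N) UQ.b 0) UQ.h 0)
      (Function.update (Function.update v UQ.p 0) UQ.n (xOf L t)) 2 := by
    by_cases h6 : N = 0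
    · refine (Runs.iteF ?_ (NR.inc c UQ.n _)).of_eq ?_ |>.mono (by omega)
      · rw [nst_empty]; simp [xfin, h6]
      · congr 1
        funext q
        cases q <;> simp [xfin, xOf, ← hh4, ← hN, h6, hb, hg, hh]
    · refine (Runs.iteT ?_ (NR.skip c _)).of_eq ?_ |>.mono (by omega)
      · rw [nst_empty]; simp [xfin, h6]
      · congr 1
        funext q
        cases q <;> simp [xfin, xOf, ← hh4, ← hN, hb, hg, hh]
        omega
  have f2 : Function.update (Function.update (Function.update v UQ.a (v UQ.t + v UQ.a)) UQ.a 0)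
      UQ.b (2 * (Function.update v UQ.a (v UQ.t + v UQ.a)) UQ.a +
        (Function.update v UQ.a (v UQ.t + v UQ.a)) UQ.b) = Function.update v UQ.b (2 * t) := by
    funext q
    cases q <;> simp [ha, hb, ← ht']
  rw [f2] at s2
  have f3 : Function.update (Function.update (Function.update v UQ.b (2 * t)) UQ.b 0)
      UQ.h (2 * (Function.update v UQ.b (2 * t)) UQ.b +
        (Function.update v UQ.b (2 * t)) UQ.h) = Function.update v UQ.h (4 * t) := by
    funext q
    cases q <;> simp [hb, hh]
    ring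
  rw [f3] at s3
  have f4 : Function.update (Function.update v UQ.h (4 * t)) UQ.b
      ((Function.update v UQ.h (4 * t)) UQ.h + (Function.update v UQ.h (4 * t)) UQ.b) =
      Function.update (Function.update v UQ.h (4 * t)) UQ.b (4 * t) := by
    funext q
    cases q <;> simp [hb]
  rw [f4] at s4
  have f5 : Function.update (Function.update (Function.update v UQ.h (4 * t)) UQ.b (4 * t)) UQ.g
      ((Function.update (Function.update v UQ.h (4 * t)) UQ.b (4 * t)) UQ.g + 1) =
      xst v L h 0 := by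
    funext q
    cases q <;> simp [xst, hg, hn, ← hh4, hL]
  rw [f5] at s5
  refine (s1.seq (s2.seq (s3.seq (s4.seq (s5.seq (hloop.seq (s6.seq (s7.seq s8)))))))).mono ?_
  simp only [Function.update_apply, xfin, reduceCtorEq, if_false, if_true, ha, ← ht']
  have h7 : (N + 1) * (128 * L + 30 + 2) ≤ (L + 1) * (128 * L + 30 + 2) :=
    Nat.mul_le_mul_right _ (by omega)
  nlinarith

end Vale.Agent.P338.S2
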