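import Vale.Agent.P338.Emb
import Vale.Agent.P338.TopLib
import Vale.Agent.P338.S2Iface

/-!
# P338, second reduction: the passes that multiply all elements by factors modulo `P`
-/

namespace Vale.Agent.P338.S2

/-! ### Loops that read from one stack and write on another -/

theorem RunsE.strm {κ ι Γ : Type} [DecidableEq κ] [DecidableEq ι] {e : κ → ι}
    (he : Function.Injective e) {S : Store ι Γ} {u t x o : κ} (hut : u ≠ t) (hux : u ≠ x)
    (huo : u ≠ o) (htx : t ≠ x) (hto : t ≠ o) {body : Prog ι Γ} (n : ℕ) (a : Γ)
    (B : ℕ → Store κ Γ) (w v : ℕ → List Γ) (T : ℕ)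
    (hu : ∀ k ≤ n, B k u = List.replicate n a) (ht : ∀ k ≤ n, B k t = [])
    (h : ∀ k < n, ∀ l l' rest out : List Γ, RunsE e S body
      (Function.update (Function.update (Function.update (Function.update (B k) u l) t l') x
        (w k ++ rest)) o out)
      (Function.update (Function.update (Function.update (Function.update (B (k + 1)) u l) t
        l') x rest) o ((v k).reverse ++ out)) T) (rest out : List Γ) :
    RunsE e S (Prog.forr (e u) (e t) body)
      (Function.update (Function.update (B 0) x (cat n w ++ rest)) o out)
      (Function.update (Function.update (B n) x rest) o ((cat n v).reverse ++ out))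
      (n * (T + 7) + 1) := by
  have h1 := RunsE.forr' he (S := S) hut (body := body) n a
    (fun k => Function.update (Function.update (B k) x
      (cat (n - k) (fun i => w (k + i)) ++ rest)) o ((cat k v).reverse ++ out)) (fun _ => T)
    (by
      intro k hk
      rw [Function.update_of_ne huo, Function.update_of_ne hux, hu k hk])
    (by
      intro k hk
      rw [Function.update_of_ne hto, Function.update_of_ne htx, ht k hk])
    (by
      intro k hk l l'
      have h2 := h k hk l l' (cat (n - (k + 1)) (fun i => w (k + 1 + i)) ++ rest)
        ((cat k v).reverse ++ out)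
      obtain ⟨m, hm⟩ : ∃ m, n - k = m + 1 := ⟨n - k - 1, by omega⟩
      have hm' : n - (k + 1) = m := by omega
      have e1 : cat (n - k) (fun i => w (k + i)) =
          w k ++ cat (n - (k + 1)) (fun i => w (k + 1 + i)) := by
        rw [hm, hm', cat_succ']
        simp only [Nat.add_zero]
        congr 1
        exact cat_congr fun i _ => by rw [Nat.add_right_comm, Nat.add_assoc]
      have c1 : ∀ (A : Store κ Γ) (p q : List Γ),
          Function.update (Function.update (Function.update (Function.update A x p) o q) u l)
            t l' =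
          Function.update (Function.update (Function.update (Function.update A u l) t l') x
            p) o q := by
        intro A p q
        rw [Function.update_comm huo.symm, Function.update_comm hux.symm,
          Function.update_comm hto.symm, Function.update_comm htx.symm]
      rw [c1, c1, e1, List.append_assoc, cat_succ, List.reverse_append, List.append_assoc]
      exact h2)
  have e0 : ∑ k ∈ Finset.range n, (T + 4) + 3 * n + 1 ≤ n * (T + 7) + 1 := by
    simp only [Finset.sum_const, Finset.card_range, smul_eq_mul]
    have : n * (T + 7) = n * (T + 4) + 3 * n := by ring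
    omega
  have h2 := h1.mono e0
  simpa using h2

/-! ### The stacks of the passes -/

/-- The stacks used by the passes. -/
inductive PR : Type
  | x | out | t | u | f | fa | fb | fc | gb | gc | a0 | b0 | c0
  | nx | kx | ni | ki | ny | ky | nj | kj | nz | kz | wi | wz | wo | kw
deriving DecidableEq

variable {E ι : Type}

/-- The small stores. -/
abbrev PSt (E : Type) : Type := Store PR (SSym E)

/-- The small programs. -/
abbrev PPr (E : Type) : Type := Prog PR (SSym E)

/-- Conditions on the small store during the treatment of a slot. -/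
structure Ok (s : PSt E) (a b S : ℕ) : Prop where
  t : s .t = []
  u : s .u = []
  kw : s .kw = []
  wi : s .wi = una a
  wz : s .wz = una (S - a)
  wo : s .wo = una b

theorem bits_append'' (l l' : List Bool) :
    (bits (l ++ l') : List (SSym E)) = bits l ++ bits l' := by simp [bits]

theorem bits_cat'' (n : ℕ) (f : ℕ → List Bool) :
    (bits (cat n f) : List (SSym E)) = cat n fun i => bits (f i) := map_cat _ _ _

/-- Load an element of `a` bits from `x` to `u`, padded to `S` bits. -/
def loadP : PPr E :=
  (Prog.movs PR.wi PR.kw PR.x PR.t).seq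
    ((Prog.fill PR.wz (sb false) PR.u PR.kw).seq (Prog.rev PR.t PR.u))

theorem runs_loadP {a b S v : ℕ} (ha : a ≤ S) (hv : v < 2 ^ a) (s : PSt E)
    (hs : Ok s a b S) (rest : List (SSym E)) (hx : s .x = bits (bitsOf a v) ++ rest) :
    Runs loadP s (Function.update (Function.update s .x rest) .u (tny S v))
      (20 * S + 10) := by
  obtain ⟨ht, hu, hkw, hwi, hwz, hwo⟩ := hs
  have lW : (bits (bitsOf a v) : List (SSym E)).length = a := by simp
  have r1 := Runs.movs (u := PR.wi) (t := PR.kw) (x := PR.x) (y := PR.t) (by decide)
    (by decide) (by decide) (by decide) (by decide) (by decide) (mk : SSym E) s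
    (bits (bitsOf a v)) rest (by rw [lW]; exact hwi) hkw hx
  have r2 := Runs.fill (u := PR.wz) (b := PR.u) (t := PR.kw) (by decide) (by decide)
    (by decide) (sb false : SSym E) (mk : SSym E)
    (Function.update (Function.update s .x rest) .t ((bits (bitsOf a v)).reverse ++ s .t))
    (S - a) (by simpa [una] using hwz) (by simpa using hkw)
  have r3 := Runs.rev (i := PR.t) (j := PR.u) (by decide)
    (Function.update (Function.update (Function.update s .x rest) .t
      ((bits (bitsOf a v)).reverse ++ s .t)) .u (List.replicate (S - a) (sb false : SSym E) ++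
      (Function.update (Function.update s .x rest) .t
        ((bits (bitsOf a v)).reverse ++ s .t)) .u))
  refine ((r1.seq (r2.seq r3)).mono ?_).of_eq ?_
  · have : (Function.update (Function.update (Function.update s .x rest) .t
      ((bits (bitsOf a v)).reverse ++ s .t)) .u (List.replicate (S - a) (sb false : SSym E) ++
      (Function.update (Function.update s .x rest) .t
        ((bits (bitsOf a v)).reverse ++ s .t)) .u)) PR.t = (bits (bitsOf a v)).reverse := by
      simp [ht]
    rw [this, List.length_reverse, lW]
    omega
  · have e : (tny S v : List (SSym E)) =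
        bits (bitsOf a v) ++ List.replicate (S - a) (sb false) := by
      obtain ⟨d, rfl⟩ := Nat.exists_eq_add_of_le ha
      rw [tny, bitsOf_add_zeros hv, bits_append'', Nat.add_sub_cancel_left]
      simp [bits]
    rw [e]
    funext r
    cases r <;> simp [ht, hu]

/-- Store the first `b` bits of `u` on `out`; clear `u`. -/
def storeP : PPr E :=
  (Prog.movs PR.wo PR.kw PR.u PR.out).seq (Prog.clear PR.u)

theorem runs_storeP {b S v : ℕ} (hb : b ≤ S) (s : PSt E)
    (hw : s .wo = una b) (hkw : s .kw = []) (hu : s .u = tny S v) :
    Runs storeP s (Function.update (Function.update s .out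
      ((bits (bitsOf b v)).reverse ++ s .out)) .u []) (11 * S + 2) := by
  obtain ⟨d, rfl⟩ := Nat.exists_eq_add_of_le hb
  have lW : (bits (bitsOf b v) : List (SSym E)).length = b := by simp
  have r1 := Runs.movs (u := PR.wo) (t := PR.kw) (x := PR.u) (y := PR.out) (by decide)
    (by decide) (by decide) (by decide) (by decide) (by decide) (mk : SSym E) s
    (bits (bitsOf b v)) (bits (bitsOf d (v / 2 ^ b))) (by rw [lW]; exact hw) hkw
    (by rw [hu, tny, bitsOf_add, bits_append''])
  have r2 := Runs.clear PR.u (Function.update (Function.update s .u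
    (bits (bitsOf d (v / 2 ^ b)))) .out ((bits (bitsOf b v)).reverse ++ s .out))
  refine ((r1.seq r2).mono ?_).of_eq ?_
  · have : (Function.update (Function.update s .u
      (bits (bitsOf d (v / 2 ^ b)))) .out ((bits (bitsOf b v)).reverse ++ s .out)) PR.u =
        bits (bitsOf d (v / 2 ^ b)) := by simp
    rw [this, lW, length_bits, length_bitsOf]
    omega
  · funext r
    cases r <;> simp

/-- What is assumed about the program that multiplies the slot by the factor. -/
def SlotSpec (e : PR → ι) (Bg : Store ι (SSym E)) (op : Prog ι (SSym E)) (P S M T : ℕ) :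
    Prop :=
  ∀ (s : PSt E) (v f : ℕ), v < 2 ^ M → f < P → s .u = tny S v → s .f = tny S f →
    RunsE e Bg op s (Function.update s .u (tny S (v * f % P))) T

/-- What is assumed about the program that multiplies factors. -/
def MulE (e : PR → ι) (Bg : Store ι (SSym E)) (mul : PR → PR → Prog ι (SSym E))
    (P S T : ℕ) : Prop :=
  ∀ (s : PSt E) (a b : PR) (u v : ℕ), a ≠ b → u < P → v < P → s a = tny S u →
    s b = tny S v → RunsE e Bg (mul a b) s (Function.update s a (tny S (u * v % P))) T

/-- One slot. -/
noncomputable def slotP (e : PR → ι) (op : Prog ι (SSym E)) : Prog ι (SSym E) :=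
  (loadP.map e).seq (op.seq (storeP.map e))

theorem runs_slotP {e : PR → ι} (he : Function.Injective e) {Bg : Store ι (SSym E)}
    {op : Prog ι (SSym E)} {P S M T a b : ℕ} (hop : SlotSpec e Bg op P S M T)
    (ha : a ≤ S) (hb : b ≤ S) (hM : a ≤ M) {v f : ℕ} (hv : v < 2 ^ a) (hf : f < P)
    (s : PSt E) (hs : Ok s a b S) (rest : List (SSym E))
    (hx : s .x = bits (bitsOf a v) ++ rest) (hf' : s .f = tny S f) :
    RunsE e Bg (slotP e op) s (Function.update (Function.update s .x rest) .out
      ((bits (bitsOf b (v * f % P))).reverse ++ s .out)) (T + 31 * S + 14) := by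
  have r1 := RunsE.small he Bg (runs_loadP ha hv s hs rest hx)
  have r3 := hop (Function.update (Function.update s .x rest) .u (tny S v)) v f
    (hv.trans_le (Nat.pow_le_pow_right (by norm_num) hM)) hf (by simp) (by simpa using hf')
  have r4 := RunsE.small he Bg (runs_storeP (v := v * f % P) hb
    (Function.update (Function.update (Function.update s .x rest) .u (tny S v)) .u
      (tny S (v * f % P))) (by simpa using hs.wo) (by simpa using hs.kw) (by simp))
  refine ((r1.seq (r3.seq r4)).mono ?_).of_eq ?_
  · omega
  · funext r
    cases r <;> simp [hs.u]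

/-! ### The loops -/

variable [DecidableEq ι]

/-- The loop over `z`: the same factor. -/
noncomputable def loopZ (e : PR → ι) (op : Prog ι (SSym E)) : Prog ι (SSym E) :=
  Prog.forr (e .nz) (e .kz) (slotP e op)

theorem runs_loopZ {e : PR → ι} (he : Function.Injective e) {Bg : Store ι (SSym E)}
    {op : Prog ι (SSym E)} {P S M T a b Z : ℕ} (hop : SlotSpec e Bg op P S M T)
    (ha : a ≤ S) (hb : b ≤ S) (hM : a ≤ M) {v : ℕ → ℕ} {f : ℕ}
    (hv : ∀ z, v z < 2 ^ a) (hf : f < P) (s : PSt E) (hs : Ok s a b S)
    (hf' : s .f = tny S f) (hn : s .nz = una Z) (hk : s .kz = [])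
    (rest out : List (SSym E)) :
    RunsE e Bg (loopZ e op)
      (Function.update (Function.update s .x ((cat Z fun z => bits (bitsOf a (v z))) ++ rest))
        .out out)
      (Function.update (Function.update s .x rest) .out
        ((cat Z fun z => bits (bitsOf b (v z * f % P))).reverse ++ out))
      (Z * (T + 31 * S + 21) + 1) := by
  refine RunsE.strm he (by decide) (by decide) (by decide) (by decide) (by decide)
    Z (mk : SSym E) (fun _ => s) _ _ (T + 31 * S + 14) (fun _ _ => hn) (fun _ _ => hk) ?_
    rest out
  intro k _ l l' rest out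
  refine (runs_slotP he hop ha hb hM (hv k) hf _ ⟨by simpa using hs.t, by simpa using hs.u,
    by simpa using hs.kw, by simpa using hs.wi, by simpa using hs.wz, by simpa using hs.wo⟩
    rest (by simp) (by simpa using hf')).of_eq ?_
  funext r
  cases r <;> simp

/-- The loop over `j`: the factor is multiplied by `fc`. -/
noncomputable def loopJ (e : PR → ι) (op : Prog ι (SSym E))
    (mul : PR → PR → Prog ι (SSym E)) : Prog ι (SSym E) :=
  Prog.forr (e .nj) (e .kj) ((loopZ e op).seq (mul .f .fc))

theorem runs_loopJ {e : PR → ι} (he : Function.Injective e) {Bg : Store ι (SSym E)}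
    {op : Prog ι (SSym E)} {mul : PR → PR → Prog ι (SSym E)} {P S M T T' a b r Z : ℕ}
    (hop : SlotSpec e Bg op P S M T) (hmul : MulE e Bg mul P S T') (hP : 0 < P)
    (ha : a ≤ S) (hb : b ≤ S) (hM : a ≤ M) {v : ℕ → ℕ → ℕ} {f c : ℕ}
    (hv : ∀ j z, v j z < 2 ^ a) (hf : f < P) (hc : c < P) (s : PSt E) (hs : Ok s a b S)
    (hf' : s .f = tny S f) (hc' : s .fc = tny S c) (hn : s .nz = una Z) (hk : s .kz = [])
    (hn2 : s .nj = una r) (hk2 : s .kj = [])
    (rest out : List (SSym E)) :
    RunsE e Bg (loopJ e op mul)
      (Function.update (Function.update s .x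
        ((cat r fun j => cat Z fun z => bits (bitsOf a (v j z))) ++ rest)) .out out)
      (Function.update (Function.update (Function.update s .f (tny S (f * c ^ r % P))) .x
        rest) .out
        ((cat r fun j => cat Z fun z =>
          bits (bitsOf b (v j z * (f * c ^ j % P) % P))).reverse ++ out))
      (r * (Z * (T + 31 * S + 21) + T' + 9) + 1) := by
  have h := RunsE.strm he (u := PR.nj) (t := PR.kj) (x := PR.x) (o := PR.out)
    (S := Bg) (by decide) (by decide) (by decide) (by decide) (by decide)
    (body := (loopZ e op).seq (mul .f .fc))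
    r (mk : SSym E) (fun k => Function.update s .f (tny S (f * c ^ k % P)))
    (fun j => cat Z fun z => bits (bitsOf a (v j z)))
    (fun j => cat Z fun z => bits (bitsOf b (v j z * (f * c ^ j % P) % P)))
    (Z * (T + 31 * S + 21) + T' + 2)
    (fun _ _ => by simpa [una] using hn2) (fun _ _ => by simpa using hk2)
    (by
      intro k _ l l' rest out
      have h1 := runs_loopZ he hop ha hb hM (v := v k) (f := f * c ^ k % P) (Z := Z)
        (hv k) (Nat.mod_lt _ hP)
        (Function.update (Function.update (Function.update s .f
          (tny S (f * c ^ k % P))) .nj l) .kj l')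
        ⟨by simpa using hs.t, by simpa using hs.u, by simpa using hs.kw,
          by simpa using hs.wi, by simpa using hs.wz, by simpa using hs.wo⟩
        (by simp) (by simpa using hn) (by simpa using hk) rest out
      have h2 := hmul (Function.update (Function.update (Function.update (Function.update
        (Function.update s .f (tny S (f * c ^ k % P))) .nj l) .kj l') .x rest) .out
        ((cat Z fun z => bits (bitsOf b (v k z * (f * c ^ k % P) % P))).reverse ++ out))
        .f .fc (f * c ^ k % P) c (by decide) (Nat.mod_lt _ hP) hc (by simp)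
        (by simpa using hc')
      refine ((h1.seq h2).mono (by omega)).of_eq ?_
      have e1 : f * c ^ k % P * c % P = f * c ^ (k + 1) % P := by
        rw [Nat.mod_mul_mod, pow_succ, Nat.mul_assoc]
      rw [e1]
      funext r
      cases r <;> simp)
    rest out
  have e0 : (Function.update s .f (tny S (f * c ^ 0 % P)) : PSt E) = s := by
    rw [pow_zero, Nat.mul_one, Nat.mod_eq_of_lt hf, ← hf', Function.update_eq_self]
  rw [e0] at h
  exact h.mono (by apply Nat.le_of_eq; ring)

/-- The loop over `y`. -/
noncomputable def loopY (e : PR → ι) (op : Prog ι (SSym E))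
    (mul : PR → PR → Prog ι (SSym E)) : Prog ι (SSym E) :=
  Prog.forr (e .ny) (e .ky) (((Prog.copyOnto PR.fa PR.f PR.t).map e).seq
    ((loopJ e op mul).seq ((Prog.clear PR.f).map e)))

theorem runs_loopY {e : PR → ι} (he : Function.Injective e) {Bg : Store ι (SSym E)}
    {op : Prog ι (SSym E)} {mul : PR → PR → Prog ι (SSym E)} {P S M T T' a b r Y Z : ℕ}
    (hop : SlotSpec e Bg op P S M T) (hmul : MulE e Bg mul P S T') (hP : 0 < P)
    (ha : a ≤ S) (hb : b ≤ S) (hM : a ≤ M) {v : ℕ → ℕ → ℕ → ℕ} {f c : ℕ}
    (hv : ∀ y j z, v y j z < 2 ^ a) (hf : f < P) (hc : c < P) (s : PSt E) (hs : Ok s a b S)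
    (hf0 : s .f = [])
    (hf' : s .fa = tny S f) (hc' : s .fc = tny S c) (hn : s .nz = una Z) (hk : s .kz = [])
    (hn2 : s .nj = una r) (hk2 : s .kj = []) (hn3 : s .ny = una Y) (hk3 : s .ky = [])
    (rest out : List (SSym E)) :
    RunsE e Bg (loopY e op mul)
      (Function.update (Function.update s .x
        ((cat Y fun y => cat r fun j => cat Z fun z => bits (bitsOf a (v y j z))) ++ rest))
        .out out)
      (Function.update (Function.update s .x rest) .out
        ((cat Y fun y => cat r fun j => cat Z fun z =>
          bits (bitsOf b (v y j z * (f * c ^ j % P) % P))).reverse ++ out))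
      (Y * (r * (Z * (T + 31 * S + 21) + T' + 9) + 9 * S + 11) + 1) := by
  have h := RunsE.strm he (u := PR.ny) (t := PR.ky) (x := PR.x) (o := PR.out)
    (S := Bg) (by decide) (by decide) (by decide) (by decide) (by decide)
    (body := ((Prog.copyOnto PR.fa PR.f PR.t).map e).seq
      ((loopJ e op mul).seq ((Prog.clear PR.f).map e)))
    Y (mk : SSym E) (fun _ => s)
    (fun y => cat r fun j => cat Z fun z => bits (bitsOf a (v y j z)))
    (fun y => cat r fun j => cat Z fun z => bits (bitsOf b (v y j z * (f * c ^ j % P) % P)))
    (r * (Z * (T + 31 * S + 21) + T' + 9) + 9 * S + 4)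
    (fun _ _ => hn3) (fun _ _ => hk3)
    (by
      intro k _ l l' rest out
      set s1 : PSt E := Function.update (Function.update s .ny l) .ky l' with hs1
      set w : List (SSym E) := cat r fun j => cat Z fun z => bits (bitsOf a (v k j z))
        with hw
      have h0 := Runs.copyOnto (a := PR.fa) (b := PR.f) (t := PR.t) (by decide) (by decide)
        (by decide) (Function.update (Function.update s1 .x (w ++ rest)) .out out)
        (by simpa [hs1] using hs.t)
      have h0' : RunsE e Bg ((Prog.copyOnto PR.fa PR.f PR.t).map e)
          (Function.update (Function.update s1 .x (w ++ rest)) .out out)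
          (Function.update (Function.update (Function.update s1 .f (tny S f)) .x
            (w ++ rest)) .out out) (6 * S + 1) := by
        refine RunsE.small he Bg ((h0.mono ?_).of_eq ?_)
        · simp [hs1, hf', tny]
        · funext r
          cases r <;> simp [hs1, hf', hf0]
      have h1 := runs_loopJ he hop hmul hP ha hb hM (v := v k) (f := f) (c := c) (Z := Z)
        (r := r) (hv k) hf hc (Function.update s1 .f (tny S f))
        ⟨by simpa [hs1] using hs.t, by simpa [hs1] using hs.u, by simpa [hs1] using hs.kw,
          by simpa [hs1] using hs.wi, by simpa [hs1] using hs.wz, by simpa [hs1] using hs.wo⟩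
        (by simp) (by simpa [hs1] using hc') (by simpa [hs1] using hn)
        (by simpa [hs1] using hk) (by simpa [hs1] using hn2) (by simpa [hs1] using hk2)
        rest out
      have h2 := RunsE.small he Bg (Runs.clear PR.f (Function.update (Function.update
        (Function.update (Function.update s1 .f (tny S f)) .f (tny S (f * c ^ r % P))) .x
        rest) .out ((cat r fun j => cat Z fun z =>
          bits (bitsOf b (v k j z * (f * c ^ j % P) % P))).reverse ++ out)))
      have h2' := h2.mono (t' := 3 * S) (by simp [tny])
      refine ((h0'.seq (h1.seq h2')).mono (by omega)).of_eq ?_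
      funext r
      cases r <;> simp [hs1, hf0])
    rest out
  exact h.mono (by apply Nat.le_of_eq; ring)

/-- The loop over `i`: the factors `fa`, `fb`, `fc` are multiplied by `fb`, `gb`, `gc`. -/
noncomputable def loopI (e : PR → ι) (op : Prog ι (SSym E))
    (mul : PR → PR → Prog ι (SSym E)) : Prog ι (SSym E) :=
  Prog.forr (e .ni) (e .ki) ((loopY e op mul).seq ((mul .fa .fb).seq
    ((mul .fb .gb).seq (mul .fc .gc))))

/-- The factors. -/
def fac (a b gb c gc i j : ℕ) : ℕ := a * b ^ i * gb ^ (i * (i - 1) / 2) * (c * gc ^ i) ^ j

theorem tri_succ (i : ℕ) : (i + 1) * (i + 1 - 1) / 2 = i * (i - 1) / 2 + i := by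
  rcases i with _ | i
  · rfl
  · simp only [Nat.add_sub_cancel]
    have : (i + 1 + 1) * (i + 1) = (i + 1) * i + 2 * (i + 1) := by ring
    rw [this]
    omega

theorem runs_loopI {e : PR → ι} (he : Function.Injective e) {Bg : Store ι (SSym E)}
    {op : Prog ι (SSym E)} {mul : PR → PR → Prog ι (SSym E)} {P S M T T' a b r r' Y Z : ℕ}
    (hop : SlotSpec e Bg op P S M T) (hmul : MulE e Bg mul P S T') (hP : 0 < P)
    (ha : a ≤ S) (hb : b ≤ S) (hM : a ≤ M) {v : ℕ → ℕ → ℕ → ℕ → ℕ} {a0 b0 c0 gb gc : ℕ}
    (hv : ∀ i y j z, v i y j z < 2 ^ a) (ha0 : a0 < P) (hb0 : b0 < P) (hc0 : c0 < P)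
    (hgb : gb < P) (hgc : gc < P) (s : PSt E) (hs : Ok s a b S)
    (hf0 : s .f = []) (hfa : s .fa = tny S a0) (hfb : s .fb = tny S b0)
    (hfc : s .fc = tny S c0) (hgb' : s .gb = tny S gb) (hgc' : s .gc = tny S gc)
    (hn : s .nz = una Z) (hk : s .kz = [])
    (hn2 : s .nj = una r) (hk2 : s .kj = []) (hn3 : s .ny = una Y) (hk3 : s .ky = [])
    (hn4 : s .ni = una r') (hk4 : s .ki = [])
    (rest out : List (SSym E)) :
    RunsE e Bg (loopI e op mul)
      (Function.update (Function.update s .x
        ((cat r' fun i => cat Y fun y => cat r fun j => cat Z fun z =>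
          bits (bitsOf a (v i y j z))) ++ rest)) .out out)
      (Function.update (Function.update (Function.update (Function.update (Function.update s
        .fa (tny S (a0 * b0 ^ r' * gb ^ (r' * (r' - 1) / 2) % P)))
        .fb (tny S (b0 * gb ^ r' % P)))
        .fc (tny S (c0 * gc ^ r' % P))) .x rest) .out
        ((cat r' fun i => cat Y fun y => cat r fun j => cat Z fun z =>
          bits (bitsOf b (v i y j z * fac a0 b0 gb c0 gc i j % P))).reverse ++ out))
      (r' * (Y * (r * (Z * (T + 31 * S + 21) + T' + 9) + 9 * S + 11) + 3 * T' + 11) + 1) := by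
  set A : ℕ → ℕ := fun i => a0 * b0 ^ i * gb ^ (i * (i - 1) / 2) % P with hA
  set B : ℕ → ℕ := fun i => b0 * gb ^ i % P with hB
  set C : ℕ → ℕ := fun i => c0 * gc ^ i % P with hC
  have eA : ∀ i, A i * B i % P = A (i + 1) := by
    intro i
    simp only [hA, hB]
    rw [← Nat.mul_mod, tri_succ]
    congr 1
    ring
  have eB : ∀ i, B i * gb % P = B (i + 1) := by
    intro i
    simp only [hB]
    rw [Nat.mod_mul_mod, pow_succ, Nat.mul_assoc]
  have eC : ∀ i, C i * gc % P = C (i + 1) := by
    intro i
    simp only [hC]
    rw [Nat.mod_mul_mod, pow_succ, Nat.mul_assoc]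
  have eF : ∀ i y j z, v i y j z * (A i * C i ^ j % P) % P =
      v i y j z * fac a0 b0 gb c0 gc i j % P := by
    intro i y j z
    simp only [hA, hC, fac]
    apply Nat.ModEq.mul_left
    refine (Nat.mod_modEq _ _).trans (Nat.ModEq.mul (Nat.mod_modEq _ _) ?_)
    exact (Nat.mod_modEq _ _).pow j
  have h := RunsE.strm he (u := PR.ni) (t := PR.ki) (x := PR.x) (o := PR.out)
    (S := Bg) (by decide) (by decide) (by decide) (by decide) (by decide)
    (body := (loopY e op mul).seq ((mul .fa .fb).seq ((mul .fb .gb).seq (mul .fc .gc))))
    r' (mk : SSym E) (fun k => Function.update (Function.update (Function.update s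
        .fa (tny S (A k))) .fb (tny S (B k))) .fc (tny S (C k)))
    (fun i => cat Y fun y => cat r fun j => cat Z fun z => bits (bitsOf a (v i y j z)))
    (fun i => cat Y fun y => cat r fun j => cat Z fun z =>
      bits (bitsOf b (v i y j z * fac a0 b0 gb c0 gc i j % P)))
    (Y * (r * (Z * (T + 31 * S + 21) + T' + 9) + 9 * S + 11) + 3 * T' + 4)
    (fun _ _ => by simpa [una] using hn4) (fun _ _ => by simpa using hk4)
    (by
      intro k _ l l' rest out
      set s1 : PSt E := Function.update (Function.update (Function.update (Function.update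
        (Function.update s .fa (tny S (A k))) .fb (tny S (B k))) .fc (tny S (C k))) .ni l)
        .ki l' with hs1
      have h1 := runs_loopY he hop hmul hP ha hb hM (v := v k) (f := A k) (c := C k) (Z := Z)
        (Y := Y) (r := r) (hv k) (Nat.mod_lt _ hP) (Nat.mod_lt _ hP) s1
        ⟨by simpa [hs1] using hs.t, by simpa [hs1] using hs.u, by simpa [hs1] using hs.kw,
          by simpa [hs1] using hs.wi, by simpa [hs1] using hs.wz, by simpa [hs1] using hs.wo⟩
        (by simpa [hs1] using hf0) (by simp [hs1]) (by simp [hs1]) (by simpa [hs1] using hn)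
        (by simpa [hs1] using hk) (by simpa [hs1] using hn2) (by simpa [hs1] using hk2)
        (by simpa [hs1] using hn3) (by simpa [hs1] using hk3) rest out
      set o2 : List (SSym E) := (cat Y fun y => cat r fun j => cat Z fun z =>
          bits (bitsOf b (v k y j z * (A k * C k ^ j % P) % P))).reverse ++ out with ho2
      set s2 : PSt E := Function.update (Function.update s1 .x rest) .out o2 with hs2
      have h2 := hmul s2 .fa .fb (A k) (B k) (by decide) (Nat.mod_lt _ hP)
        (Nat.mod_lt _ hP) (by simp [hs2, hs1]) (by simp [hs2, hs1])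
      have h3 := hmul (Function.update s2 .fa (tny S (A k * B k % P))) .fb .gb (B k) gb
        (by decide) (Nat.mod_lt _ hP) hgb (by simp [hs2, hs1]) (by simpa [hs2, hs1] using hgb')
      have h4 := hmul (Function.update (Function.update s2 .fa (tny S (A k * B k % P))) .fb
        (tny S (B k * gb % P))) .fc .gc (C k) gc (by decide) (Nat.mod_lt _ hP) hgc
        (by simp [hs2, hs1]) (by simpa [hs2, hs1] using hgc')
      refine ((h1.seq (h2.seq (h3.seq h4))).mono (by omega)).of_eq ?_
      rw [eA, eB, eC]
      funext r
      cases r <;> simp [hs2, hs1, ho2, eF])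
    rest out
  have e0 : (Function.update (Function.update (Function.update s .fa (tny S (A 0))) .fb
      (tny S (B 0))) .fc (tny S (C 0)) : PSt E) = s := by
    have a0' : A 0 = a0 := by simp [hA, Nat.mod_eq_of_lt ha0]
    have b0' : B 0 = b0 := by simp [hB, Nat.mod_eq_of_lt hb0]
    have c0' : C 0 = c0 := by simp [hC, Nat.mod_eq_of_lt hc0]
    rw [a0', b0', c0']
    funext i
    cases i <;> simp [hfa, hfb, hfc]
  rw [e0] at h
  exact h.mono (by apply Nat.le_of_eq; ring)

/-- The loop over `x`: the factors start anew. -/
noncomputable def loopX (e : PR → ι) (op : Prog ι (SSym E))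
    (mul : PR → PR → Prog ι (SSym E)) : Prog ι (SSym E) :=
  Prog.forr (e .nx) (e .kx) (((Prog.copyOnto PR.a0 PR.fa PR.t).map e).seq
    (((Prog.copyOnto PR.b0 PR.fb PR.t).map e).seq (((Prog.copyOnto PR.c0 PR.fc PR.t).map
      e).seq ((loopI e op mul).seq (((Prog.clear PR.fa).map e).seq
        (((Prog.clear PR.fb).map e).seq ((Prog.clear PR.fc).map e)))))))

theorem runs_loopX {e : PR → ι} (he : Function.Injective e) {Bg : Store ι (SSym E)}
    {op : Prog ι (SSym E)} {mul : PR → PR → Prog ι (SSym E)}
    {P S M T T' a b r r' X Y Z : ℕ}
    (hop : SlotSpec e Bg op P S M T) (hmul : MulE e Bg mul P S T') (hP : 0 < P)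
    (ha : a ≤ S) (hb : b ≤ S) (hM : a ≤ M) {v : ℕ → ℕ → ℕ → ℕ → ℕ → ℕ}
    {a0 b0 c0 gb gc : ℕ}
    (hv : ∀ x i y j z, v x i y j z < 2 ^ a) (ha0 : a0 < P) (hb0 : b0 < P) (hc0 : c0 < P)
    (hgb : gb < P) (hgc : gc < P) (s : PSt E) (hs : Ok s a b S)
    (hf0 : s .f = []) (hfa : s .fa = []) (hfb : s .fb = []) (hfc : s .fc = [])
    (ha0' : s .a0 = tny S a0) (hb0' : s .b0 = tny S b0)
    (hc0' : s .c0 = tny S c0) (hgb' : s .gb = tny S gb) (hgc' : s .gc = tny S gc)
    (hn : s .nz = una Z) (hk : s .kz = [])
    (hn2 : s .nj = una r) (hk2 : s .kj = []) (hn3 : s .ny = una Y) (hk3 : s .ky = [])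
    (hn4 : s .ni = una r') (hk4 : s .ki = []) (hn5 : s .nx = una X) (hk5 : s .kx = [])
    (rest out : List (SSym E)) :
    RunsE e Bg (loopX e op mul)
      (Function.update (Function.update s .x
        ((cat X fun x => cat r' fun i => cat Y fun y => cat r fun j => cat Z fun z =>
          bits (bitsOf a (v x i y j z))) ++ rest)) .out out)
      (Function.update (Function.update s .x rest) .out
        ((cat X fun x => cat r' fun i => cat Y fun y => cat r fun j => cat Z fun z =>
          bits (bitsOf b (v x i y j z * fac a0 b0 gb c0 gc i j % P))).reverse ++ out))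
      (X * (r' * (Y * (r * (Z * (T + 31 * S + 21) + T' + 9) + 9 * S + 11) + 3 * T' + 11) +
        27 * S + 17) + 1) := by
  have h := RunsE.strm he (u := PR.nx) (t := PR.kx) (x := PR.x) (o := PR.out)
    (S := Bg) (by decide) (by decide) (by decide) (by decide) (by decide)
    (body := ((Prog.copyOnto PR.a0 PR.fa PR.t).map e).seq
      (((Prog.copyOnto PR.b0 PR.fb PR.t).map e).seq (((Prog.copyOnto PR.c0 PR.fc PR.t).map
      e).seq ((loopI e op mul).seq (((Prog.clear PR.fa).map e).seq
        (((Prog.clear PR.fb).map e).seq ((Prog.clear PR.fc).map e)))))))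
    X (mk : SSym E) (fun _ => s)
    (fun x => cat r' fun i => cat Y fun y => cat r fun j => cat Z fun z =>
      bits (bitsOf a (v x i y j z)))
    (fun x => cat r' fun i => cat Y fun y => cat r fun j => cat Z fun z =>
      bits (bitsOf b (v x i y j z * fac a0 b0 gb c0 gc i j % P)))
    (r' * (Y * (r * (Z * (T + 31 * S + 21) + T' + 9) + 9 * S + 11) + 3 * T' + 11) +
        27 * S + 10)
    (fun _ _ => hn5) (fun _ _ => hk5)
    (by
      intro k _ l l' rest out
      set s1 : PSt E := Function.update (Function.update s .nx l) .kx l' with hs1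
      set w : List (SSym E) := cat r' fun i => cat Y fun y => cat r fun j =>
        cat Z fun z => bits (bitsOf a (v k i y j z)) with hw
      set w' : List (SSym E) := cat r' fun i => cat Y fun y => cat r fun j =>
        cat Z fun z => bits (bitsOf b (v k i y j z * fac a0 b0 gb c0 gc i j % P)) with hw'
      have lt : ∀ n, (tny S n : List (SSym E)).length = S := fun n => by simp [tny]
      have q1 : Runs (Prog.copyOnto PR.a0 PR.fa PR.t)
          (Function.update (Function.update s1 .x (w ++ rest)) .out out)
          (Function.update (Function.update (Function.update s1 .fa (tny S a0)) .x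
            (w ++ rest)) .out out) (6 * S + 1) := by
        refine ((Runs.copyOnto (by decide) (by decide) (by decide) _
          (by simpa [hs1] using hs.t)).mono ?_).of_eq ?_
        · simp [hs1, ha0', lt]
        · funext r
          cases r <;> simp [hs1, ha0', hfa]
      have q2 : Runs (Prog.copyOnto PR.b0 PR.fb PR.t)
          (Function.update (Function.update (Function.update s1 .fa (tny S a0)) .x
            (w ++ rest)) .out out)
          (Function.update (Function.update (Function.update (Function.update s1 .fa
            (tny S a0)) .fb (tny S b0)) .x (w ++ rest)) .out out) (6 * S + 1) := by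
        refine ((Runs.copyOnto (by decide) (by decide) (by decide) _
          (by simpa [hs1] using hs.t)).mono ?_).of_eq ?_
        · simp [hs1, hb0', lt]
        · funext r
          cases r <;> simp [hs1, hb0', hfb]
      have q3 : Runs (Prog.copyOnto PR.c0 PR.fc PR.t)
          (Function.update (Function.update (Function.update (Function.update s1 .fa
            (tny S a0)) .fb (tny S b0)) .x (w ++ rest)) .out out)
          (Function.update (Function.update (Function.update (Function.update
            (Function.update s1 .fa (tny S a0)) .fb (tny S b0)) .fc (tny S c0)) .x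
            (w ++ rest)) .out out) (6 * S + 1) := by
        refine ((Runs.copyOnto (by decide) (by decide) (by decide) _
          (by simpa [hs1] using hs.t)).mono ?_).of_eq ?_
        · simp [hs1, hc0', lt]
        · funext r
          cases r <;> simp [hs1, hc0', hfc]
      have h1 := runs_loopI he hop hmul hP ha hb hM (v := v k) (a0 := a0) (b0 := b0)
        (c0 := c0) (gb := gb) (gc := gc) (Z := Z) (Y := Y) (r := r) (r' := r') (hv k) ha0 hb0
        hc0 hgb hgc (Function.update (Function.update
            (Function.update s1 .fa (tny S a0)) .fb (tny S b0)) .fc (tny S c0))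
        ⟨by simpa [hs1] using hs.t, by simpa [hs1] using hs.u, by simpa [hs1] using hs.kw,
          by simpa [hs1] using hs.wi, by simpa [hs1] using hs.wz, by simpa [hs1] using hs.wo⟩
        (by simpa [hs1] using hf0) (by simp) (by simp) (by simp)
        (by simpa [hs1] using hgb') (by simpa [hs1] using hgc')
        (by simpa [hs1] using hn)
        (by simpa [hs1] using hk) (by simpa [hs1] using hn2) (by simpa [hs1] using hk2)
        (by simpa [hs1] using hn3) (by simpa [hs1] using hk3) (by simpa [hs1] using hn4)
        (by simpa [hs1] using hk4) rest out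
      obtain ⟨A', hA'⟩ : ∃ A', A' = a0 * b0 ^ r' * gb ^ (r' * (r' - 1) / 2) % P := ⟨_, rfl⟩
      obtain ⟨B', hB'⟩ : ∃ B', B' = b0 * gb ^ r' % P := ⟨_, rfl⟩
      obtain ⟨C', hC'⟩ : ∃ C', C' = c0 * gc ^ r' % P := ⟨_, rfl⟩
      rw [← hA', ← hB', ← hC'] at h1
      have h1' : RunsE e Bg (loopI e op mul)
          (Function.update (Function.update (Function.update (Function.update
            (Function.update s1 .fa (tny S a0)) .fb (tny S b0)) .fc (tny S c0)) .x
            (w ++ rest)) .out out)
          (Function.update (Function.update (Function.update (Function.update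
            (Function.update s1 .fa (tny S A')) .fb (tny S B')) .fc (tny S C')) .x
            rest) .out (w'.reverse ++ out))
          (r' * (Y * (r * (Z * (T + 31 * S + 21) + T' + 9) + 9 * S + 11) + 3 * T' + 11) + 1)
          := by
        refine h1.of_eq ?_
        rw [← hw']
        funext r
        cases r <;> simp
      have p1 : Runs (Prog.clear PR.fa)
          (Function.update (Function.update (Function.update (Function.update
            (Function.update s1 .fa (tny S A')) .fb (tny S B')) .fc (tny S C')) .x
            rest) .out (w'.reverse ++ out))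
          (Function.update (Function.update (Function.update (Function.update s1
            .fb (tny S B')) .fc (tny S C')) .x
            rest) .out (w'.reverse ++ out)) (3 * S) := by
        refine ((Runs.clear _ _).mono ?_).of_eq ?_
        · simp [lt]
        · funext r
          cases r <;> simp [hs1, hfa]
      have p2 : Runs (Prog.clear PR.fb)
          (Function.update (Function.update (Function.update (Function.update s1
            .fb (tny S B')) .fc (tny S C')) .x
            rest) .out (w'.reverse ++ out))
          (Function.update (Function.update (Function.update s1 .fc (tny S C')) .x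
            rest) .out (w'.reverse ++ out)) (3 * S) := by
        refine ((Runs.clear _ _).mono ?_).of_eq ?_
        · simp [lt]
        · funext r
          cases r <;> simp [hs1, hfb]
      have p3 : Runs (Prog.clear PR.fc)
          (Function.update (Function.update (Function.update s1 .fc (tny S C')) .x
            rest) .out (w'.reverse ++ out))
          (Function.update (Function.update s1 .x
            rest) .out (w'.reverse ++ out)) (3 * S) := by
        refine ((Runs.clear _ _).mono ?_).of_eq ?_
        · simp [lt]
        · funext r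
          cases r <;> simp [hs1, hfc]
      exact ((RunsE.small he Bg q1).seq ((RunsE.small he Bg q2).seq ((RunsE.small he Bg
        q3).seq (h1'.seq ((RunsE.small he Bg p1).seq ((RunsE.small he Bg p2).seq
          (RunsE.small he Bg p3))))))).mono (by omega))
    rest out
  exact h.mono (by apply Nat.le_of_eq; ring)

end Vale.Agent.P338.S2
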