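import Vale.Agent.P338.S2PassMain

/-!
# P338, second reduction: the first pass
-/

namespace Vale.Agent.P338.S2

variable {J E : Type} [DecidableEq J]

/-- The stacks changed by a command. -/
def tg : Cmd E → List R
  | .cp _ b => [b]
  | .push a _ => [a]
  | .pop a => [a]
  | .fill _ _ b => [b]
  | .rep _ _ b => [b]
  | .clr a => [a]
  | .rev a b => [a, b]
  | .sub _ b => [b]

theorem eff_frame (c : Cmd E) (s : St J E) (q : R) (h : q ∉ tg c) :
    c.eff s (Sum.inl q) = s (Sum.inl q) := by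
  cases c <;> simp_all [tg, Cmd.eff]

theorem effs_frame (L : List (Cmd E)) (s : St J E) (q : R) (h : ∀ c ∈ L, q ∉ tg c) :
    effs L s (Sum.inl q) = s (Sum.inl q) := by
  induction L generalizing s with
  | nil => rfl
  | cons c L ih =>
    rw [effs, ih _ (fun c' hc' => h c' (List.mem_cons_of_mem _ hc')),
      eff_frame c s q (h c List.mem_cons_self)]

theorem eff_inr (c : Cmd E) (s : St J E) (j : J) : c.eff s (Sum.inr j) = s (Sum.inr j) := by
  cases c <;> simp [Cmd.eff]

theorem effs_inr (L : List (Cmd E)) (s : St J E) (j : J) :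
    effs L s (Sum.inr j) = s (Sum.inr j) := by
  induction L generalizing s with
  | nil => rfl
  | cons c L ih => rw [effs, ih, eff_inr]

/-- `Ar` is preserved by commands that do not change its stacks. -/
theorem Ar.effs {s : St J E} {S P : ℕ} (h : Ar s S P) (L : List (Cmd E))
    (hL : ∀ q ∈ arUsed, ∀ c ∈ L, q ∉ tg c) : Ar (effs L s) S P := by
  obtain ⟨h1, h2, h3, h4, h5⟩ := h
  refine ⟨fun j => ?_, fun q hq => ?_, ?_, ?_, ?_⟩
  · rw [effs_inr]; exact h1 j
  · rw [effs_frame _ _ _ (hL q (by simp [arUsed, hq]))]; exact h2 q hq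
  · exact (effs_frame _ _ _ (hL R.WW (by simp [arUsed]))).trans h3
  · exact (effs_frame _ _ _ (hL R.U1 (by simp [arUsed]))).trans h4
  · exact (effs_frame _ _ _ (hL R.U2 (by simp [arUsed]))).trans h5

theorem Ar.put {s : St J E} {S P : ℕ} (h : Ar s S P) {a : R} (ha : a ∉ arUsed)
    (l : List (SSym E)) : Ar (s.set a l) S P := by
  obtain ⟨h1, h2, h3, h4, h5⟩ := h
  have key : ∀ q ∈ arUsed, (s.set a l) (Sum.inl q) = s (Sum.inl q) := by
    intro q hq
    have : (Sum.inl q : Loc J) ≠ Sum.inl a := fun h => ha (Sum.inl.inj h ▸ hq)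
    exact Function.update_of_ne this _ _
  refine ⟨fun j => ?_, fun q hq => ?_, ?_, ?_, ?_⟩
  · exact (Function.update_of_ne (by simp) _ _).trans (h1 j)
  · exact (key q (by simp [arUsed, hq])).trans (h2 q hq)
  · exact (key R.WW (by simp [arUsed])).trans h3
  · exact (key R.U1 (by simp [arUsed])).trans h4
  · exact (key R.U2 (by simp [arUsed])).trans h5

theorem drop_una (m n : ℕ) : (una m : List (SSym E)).drop n = una (m - n) := by
  simp [una]

theorem tail_una (m : ℕ) : (una m : List (SSym E)).tail = una (m - 1) := by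
  simp [una]

theorem una_zero' : (una 0 : List (SSym E)) = [] := rfl

/-- All the equations of the environment. -/
theorem Env.eqs {s : St J E} {X r Y Z t S m w w' : ℕ} (h : Env s X r Y Z t S m w w') :
    (∀ q ∈ pScratch, s (Sum.inl q) = []) ∧ s (Sum.inl R.HH) = una X ∧
    s (Sum.inl R.RR) = una r ∧ s (Sum.inl R.GG) = una Y ∧ s (Sum.inl R.DD) = una Z ∧
    s (Sum.inl R.TM) = una t ∧ s (Sum.inl R.WW) = una S ∧ s (Sum.inl R.AL) = tny S w ∧
    s (Sum.inl R.BE) = tny S w' ∧ s (Sum.inl R.U1) = tny S (r + 1) :=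
  ⟨h.emp2, h.hh, h.rr, h.gg, h.dd, h.tm, h.toAr.ww, h.al, h.be, h.toAr.u1⟩

theorem Num.facts {X r Y Z t S m w w' : ℕ} (h : Num X r Y Z t S m w w') :
    1 ≤ r ∧ t ≤ S ∧ 1 ≤ S ∧ 1 < r + 1 ∧ w' < r + 1 := by
  have h1 : 1 < r + 1 := h.prime.one_lt
  have h2 : 2 ^ t < 2 ^ (Nat.size (r + 1)) := h.tP.trans_lt (Nat.lt_size_self _)
  have h3 : t < Nat.size (r + 1) := (Nat.pow_lt_pow_iff_right (by norm_num)).1 h2
  have h4 := h.hS
  refine ⟨by omega, by omega, by omega, h1, ?_⟩
  rw [h.w'eq]
  exact Nat.mod_lt _ (by omega)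

/-- The stacks changed by the preparations. -/
def chg : List R := [R.SCH, R.RHO, R.MU, R.CY, R.CY2, R.S4, R.S7, R.S8, R.S9, R.S11]

theorem post_eff (s s1 : St J E) (W : List (SSym E))
    (hj : ∀ j, s1 (Sum.inr j) = s (Sum.inr j))
    (hq : ∀ q, q ∉ chg → s1 (Sum.inl q) = s (Sum.inl q)) (h0 : ∀ q ∈ chg, s (Sum.inl q) = [])
    (hOUT : s (Sum.inl R.OUT) = []) (h11 : s1 (Sum.inl R.S11) = []) :
    effs postL ((s1.set R.X []).set R.OUT W.reverse) = s.set R.X W := by
  funext i
  rcases i with q | j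
  · by_cases hc : q ∈ chg
    · have h := h0 q hc
      simp only [chg, List.mem_cons, List.not_mem_nil, or_false] at hc
      rcases hc with rfl | rfl | rfl | rfl | rfl | rfl | rfl | rfl | rfl | rfl <;>
        simp [effs, postL, Cmd.eff, h, h11]
    · by_cases hX : q = R.X
      · subst hX
        simp [effs, postL, Cmd.eff]
      · by_cases hO : q = R.OUT
        · subst hO
          simp [effs, postL, Cmd.eff, hOUT]
        · have hc' := hc
          simp only [chg, List.mem_cons, List.not_mem_nil, or_false, not_or] at hc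
          obtain ⟨c1, c2, c3, c4, c5, c6, c7, c8, c9, c10⟩ := hc
          rw [effs_frame _ _ _ (by simp [postL, tg, c1, c2, c3, c4, c5, c6, c7, c8, c9, hX,
            hO])]
          simp [hX, hO, hq q hc']
  · rw [effs_inr]
    simp [hj]

theorem post_cost {s : St J E} {X r Y Z a b S a0 b0 c0 gb gc N : ℕ}
    (hR : Rdy s X r Y Z a b S a0 b0 c0 gb gc) (ha : a ≤ S) (hb : b ≤ S)
    (W : List (SSym E)) (hW : W.length ≤ N) :
    costs postL ((s.set R.X []).set R.OUT W) ≤ 3 * N + 24 * S + 3 * r + 11 := by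
  have h1 := hR.a0
  have h2 := hR.b0
  have h3 := hR.c0
  have h4 := hR.gb
  have h5 := hR.gc
  have h6 := hR.nj
  have h7 := hR.wi
  have h8 := hR.wz
  have h9 := hR.wo
  simp only [St.at] at h1 h2 h3 h4 h5 h6 h7 h8 h9
  simp [costs, postL, Cmd.cost, Cmd.eff, h1, h2, h3, h4, h5, h6, h7, h8, h9, ps_length_tny]
  omega

theorem N_bounds {X r Y Z : ℕ} (hX : 1 ≤ X) (hr : 1 ≤ r) (hY : 1 ≤ Y) (hZ : 1 ≤ Z) :
    1 ≤ X * r * Y * r * Z ∧ r ≤ X * r * Y * r * Z := by
  have c4 : X ≤ X * r := Nat.le_mul_of_pos_right _ hr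
  have c3 : X * r ≤ X * r * Y := Nat.le_mul_of_pos_right _ hY
  have c2 : X * r * Y ≤ X * r * Y * r := Nat.le_mul_of_pos_right _ hr
  have c1 : X * r * Y * r ≤ X * r * Y * r * Z := Nat.le_mul_of_pos_right _ hZ
  have c0 : r ≤ X * r := Nat.le_mul_of_pos_left _ hX
  omega

theorem final_arith {N S Q r D D' c1 c2 c3 : ℕ} (h1 : c1 ≤ 150 * S + 20 * r + 60 + D')
    (h2 : c2 ≤ N * (D + 137 * Q)) (h3 : c3 ≤ 3 * (N * S) + 24 * S + 3 * r + 11)
    (n1 : 1 ≤ N) (n2 : r ≤ N) (hS : 1 ≤ S) (hSQ : S ≤ Q) :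
    c1 + 1 + (c2 + 1 + c3) ≤ N * (D + D' + 450 * Q) := by
  have d1 : N * S ≤ N * Q := Nat.mul_le_mul_left _ hSQ
  have d2 : S ≤ N * Q := hSQ.trans (Nat.le_mul_of_pos_left Q n1)
  have d3 : r ≤ N * Q := n2.trans (Nat.le_mul_of_pos_right _ (by omega))
  have d5 : D' ≤ N * D' := Nat.le_mul_of_pos_left D' n1
  have d4 : 1 ≤ N * Q := hS.trans d2
  have e1 : N * (D + 137 * Q) = N * D + 137 * (N * Q) := by ring
  have e2 : N * (D + D' + 450 * Q) = N * D + N * D' + 450 * (N * Q) := by ring
  rw [e2]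
  rw [e1] at h2
  omega

theorem pre_spec {mul : R → R → Pr J E} {T : ℕ → ℕ} {C : ℕ} (hmul : MulSpec mul T C) :
    PreSpec (prePass mul) T (5 * C + 450) := by
  intro X r Y Z t S m w w' e s hN hE hK he hX
  obtain ⟨hr, htS, hS1, hP1, hw'⟩ := hN.facts
  obtain ⟨emp, hHH, hRR, hGG, hDD, hTM, hWW, hAL, hBE, hU1⟩ := hE.eqs
  have hT := emp R.T (by simp [pScratch])
  have hOUT := emp R.OUT (by simp [pScratch])
  have hSCH := emp R.SCH (by simp [pScratch])
  have hCY := emp R.CY (by simp [pScratch])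
  have hCY2 := emp R.CY2 (by simp [pScratch])
  have hV0 := emp R.V0 (by simp [pScratch])
  have hV1 := emp R.V1 (by simp [pScratch])
  have hV2 := emp R.V2 (by simp [pScratch])
  have hV3 := emp R.V3 (by simp [pScratch])
  have hXS := emp R.XS (by simp [pScratch])
  have hRHO := emp R.RHO (by simp [pScratch])
  have hMU := emp R.MU (by simp [pScratch])
  have hS1' := emp R.S1 (by simp [pScratch])
  have hS2 := emp R.S2 (by simp [pScratch])
  have hS3 := emp R.S3 (by simp [pScratch])
  have hS4 := emp R.S4 (by simp [pScratch])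
  have hS5 := emp R.S5 (by simp [pScratch])
  have hS6 := emp R.S6 (by simp [pScratch])
  have hS7 := emp R.S7 (by simp [pScratch])
  have hS8 := emp R.S8 (by simp [pScratch])
  have hS9 := emp R.S9 (by simp [pScratch])
  have hS10 := emp R.S10 (by simp [pScratch])
  have hS11 := emp R.S11 (by simp [pScratch])
  have hone : (tny S 1 : List (SSym E)) = sb true :: List.replicate (S - 1) (sb false) :=
    tny_one hS1
  have hAr : Ar (effs preL s) S (r + 1) := by
    refine hE.toAr.effs _ ?_
    simp [arUsed, arScratch, preL, tg]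
  have hok : oks preL s := by
    simp [preL, oks, Cmd.ok, Cmd.eff, hS1', hRR, hTM, hWW, hBE, hS4, hS7, hS8, hS9, hS11,
      hSCH, hMU, hCY2, hRHO, exists_una, tail_una, drop_una]
  have hR : Rdy (effs preL s) X r Y Z t S S 1 w' 1 w' 1 := by
    constructor <;>
      simp [preL, effs, Cmd.eff, hS1', hRR, hTM, hWW, hBE, hS4, hS7, hS8, hS9, hS11,
        hSCH, hMU, hCY2, hRHO, hCY, tail_una, drop_una, hT, hV0, hV1, hV2, hV3, hXS,
        hHH, hS2, hS3, hS5, hS6, hS10, hGG, hDD, hOUT, hone]
  have hx : (effs preL s).at R.X = bits (dat X r Y r Z t e) := by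
    rw [← hX]
    exact effs_frame _ _ _ (by simp [preL, tg])
  have h1 := cmds_spec preL s hok
  have h2 := runs_pass (slot_opMul hmul hN.prime hN.hS hN.tP hAr)
    (mulE_of hmul hN.prime hN.hS hAr) (by omega) htS le_rfl le_rfl he hP1 hw' hP1 hw' hP1 hR hx
  set W : List (SSym E) := bits (dat X r Y r Z S fun x i y j z =>
        e x i y j z * fac 1 w' w' 1 1 i j % (r + 1)) with hW
  have h3 := cmds_spec postL (((effs preL s).set R.X []).set R.OUT W.reverse) (oks_post _)
  rw [post_eff s (effs preL s) W (effs_inr _ _) (fun q hq => effs_frame _ _ _ (by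
      simp only [chg, List.mem_cons, List.not_mem_nil, or_false, not_or] at hq
      simp [preL, tg, hq]))
    (fun q hq => emp q (by
      simp only [chg, List.mem_cons, List.not_mem_nil, or_false] at hq
      rcases hq with rfl | rfl | rfl | rfl | rfl | rfl | rfl | rfl | rfl | rfl <;>
        simp [pScratch])) hOUT
    (by simp [preL, effs, Cmd.eff])] at h3
  have hWl : W.reverse.length = X * r * Y * r * Z * S := by
    rw [List.length_reverse, hW, length_bits, length_dat]
    ring
  have c3 := post_cost hR htS le_rfl W.reverse le_rfl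
  have c1 : costs preL s ≤ 100 * S + 10 * r + 40 := by
    simp [preL, costs, Cmd.cost, Cmd.eff, hS1', hRR, hTM, hWW, hBE, hS4, hS7, hS8, hS9,
      hS11, hSCH, hMU, hCY2, hRHO, hCY, tail_una, drop_una, ps_length_tny]
    omega
  obtain ⟨n1, n2⟩ := N_bounds hN.hX hr hN.hY hN.hZ
  have c2 := time_bound (X := X) (r := r) (Y := Y) (Z := Z) (S := S) (Q := S + T S)
    (T := C * (S + T S)) (T' := C * (S + T S)) hN.hX hr hN.hY hN.hZ hS1 (by omega)
  refine ((h1.seq (h2.seq h3)).mono ?_).of_eq ?_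
  · rw [hWl] at c3
    refine (final_arith (D' := 0) (by omega) c2 c3 n1 n2 hS1 (by omega)).trans (le_of_eq ?_)
    ring
  · have hd : dat X r Y r Z S (fun x i y j z => e x i y j z * fac 1 w' w' 1 1 i j % (r + 1))
        = dat X r Y r Z S fun x i y j z => e x i y j z * fPre (r + 1) w' i % (r + 1) := by
      unfold dat
      refine cat_congr fun x _ => cat_congr fun i _ => cat_congr fun y _ =>
        cat_congr fun j _ => cat_congr fun z _ => ?_
      simp only [fac_pre, fPre, Nat.mul_mod_mod]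
    rw [hW, hd]

/-! ### The second pass -/

theorem fac_mid (P w w' i j v : ℕ) :
    v * fac 1 w' (w' * w' % P) 1 w i j % P = v % P * fMid P w w' i j % P := by
  unfold fac fMid
  have h1 : i + 2 * (i * (i - 1) / 2) = i * i := by
    rcases i with _ | i
    · rfl
    · have h2 : 2 ∣ (i + 1) * (i + 1 - 1) := (Nat.even_mul_pred_self (i + 1)).two_dvd
      rw [Nat.mul_div_cancel' h2, Nat.add_sub_cancel]
      ring
  have h3 : 1 * w' ^ i * (w' * w') ^ (i * (i - 1) / 2) * (1 * w ^ i) ^ j =
      w ^ (i * j) * w' ^ (i * i) := by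
    rw [← h1, pow_add, pow_mul w' 2, pow_mul w i j, sq]
    ring
  have h4 : v * (1 * w' ^ i * (w' * w' % P) ^ (i * (i - 1) / 2) * (1 * w ^ i) ^ j) ≡
      v * (1 * w' ^ i * (w' * w') ^ (i * (i - 1) / 2) * (1 * w ^ i) ^ j) [MOD P] :=
    Nat.ModEq.mul_left _ (Nat.ModEq.mul_right _ (Nat.ModEq.mul_left _
      ((Nat.mod_modEq _ _).pow _)))
  rw [h4, h3, ← Nat.mul_mod]

/-- Preparations. -/
def midL : List (Cmd E) :=
  [.cp R.RR R.S4, .cp R.WW R.S7, .cp R.WW R.S9,
   .cp R.WW R.S11, .pop R.S11, .fill R.S11 (sb false) R.SCH, .push R.SCH (sb true),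
   .cp R.SCH R.MU, .cp R.AL R.CY2, .cp R.BE R.RHO, .cp R.BE R.CY, .clr R.S11]

/-- The second pass. -/
noncomputable def midPass (red : R → Pr J E) (mul : R → R → Pr J E) : Pr J E :=
  ((cmds midL).seq (mul R.CY R.RHO)).seq
    ((loopX er (opRed red mul) (fun a b => mul a.reg b.reg)).seq (cmds postL))

theorem mid_spec {red : R → Pr J E} {mul : R → R → Pr J E} {T : ℕ → ℕ} {C C' : ℕ}
    (hred : RedSpec red T C') (hmul : MulSpec mul T C) :
    MidSpec (midPass red mul) T (C' + 6 * C + 451) := by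
  intro X r Y Z t S m w w' e K s hN hE hK he hX
  obtain ⟨hr, htS, hS1, hP1, hw'⟩ := hN.facts
  obtain ⟨emp, hHH, hRR, hGG, hDD, hTM, hWW, hAL, hBE, hU1⟩ := hE.eqs
  have hT := emp R.T (by simp [pScratch])
  have hOUT := emp R.OUT (by simp [pScratch])
  have hSCH := emp R.SCH (by simp [pScratch])
  have hCY := emp R.CY (by simp [pScratch])
  have hCY2 := emp R.CY2 (by simp [pScratch])
  have hV0 := emp R.V0 (by simp [pScratch])
  have hV1 := emp R.V1 (by simp [pScratch])
  have hV2 := emp R.V2 (by simp [pScratch])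
  have hV3 := emp R.V3 (by simp [pScratch])
  have hXS := emp R.XS (by simp [pScratch])
  have hRHO := emp R.RHO (by simp [pScratch])
  have hMU := emp R.MU (by simp [pScratch])
  have hS1' := emp R.S1 (by simp [pScratch])
  have hS2 := emp R.S2 (by simp [pScratch])
  have hS3 := emp R.S3 (by simp [pScratch])
  have hS4 := emp R.S4 (by simp [pScratch])
  have hS5 := emp R.S5 (by simp [pScratch])
  have hS6 := emp R.S6 (by simp [pScratch])
  have hS7 := emp R.S7 (by simp [pScratch])
  have hS8 := emp R.S8 (by simp [pScratch])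
  have hS9 := emp R.S9 (by simp [pScratch])
  have hS10 := emp R.S10 (by simp [pScratch])
  have hS11 := emp R.S11 (by simp [pScratch])
  have hone : (tny S 1 : List (SSym E)) = sb true :: List.replicate (S - 1) (sb false) :=
    tny_one hS1
  have hAr0 : Ar (effs midL s) S (r + 1) := by
    refine hE.toAr.effs _ ?_
    simp [arUsed, arScratch, midL, tg]
  have hok : oks midL s := by
    simp [midL, oks, Cmd.ok, Cmd.eff, hS1', hRR, hWW, hS4, hS7, hS9, hS11,
      hSCH, hMU, hCY2, hRHO, exists_una, tail_una]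
  -- the square of the factor
  set s1 : St J E := (effs midL s).set R.CY (tny S (w' * w' % (r + 1))) with hs1
  have h0 := hmul S (r + 1) w' w' R.CY R.RHO (effs midL s) hN.prime hN.hS hAr0 (by decide)
    (by decide) (by decide) hw' hw'
    (by simp [midL, effs, Cmd.eff, hS1', hBE, hCY])
    (by simp [midL, effs, Cmd.eff, hS1', hBE, hRHO])
  have hAr : Ar s1 S (r + 1) := hAr0.put (by decide) _
  have hR : Rdy s1 X r Y Z S S S 1 w' 1 (w' * w' % (r + 1)) w := by
    constructor <;>
      simp [hs1, midL, effs, Cmd.eff, hS1', hRR, hWW, hBE, hS4, hS7, hS8, hS9, hS11,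
        hSCH, hMU, hCY2, hRHO, tail_una, hT, hV0, hV1, hV2, hV3, hXS,
        hHH, hS2, hS3, hS5, hS6, hS10, hGG, hDD, hOUT, hone, hAL, una_zero']
  have hx : s1.at R.X = bits (dat X r Y r Z S e) := by
    rw [← hX]
    exact (Function.update_of_ne (by simp) _ _).trans
      (effs_frame _ _ _ (by simp [midL, tg]))
  have h1 := cmds_spec midL s hok
  have h2 := runs_pass (slot_opRed hred hmul hN.prime hN.hS hAr)
    (mulE_of hmul hN.prime hN.hS hAr) (by omega) le_rfl le_rfl le_rfl he hP1 hw' hP1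
    (Nat.mod_lt _ (by omega)) hN.wlt hR hx
  set W : List (SSym E) := bits (dat X r Y r Z S fun x i y j z =>
        e x i y j z * fac 1 w' (w' * w' % (r + 1)) 1 w i j % (r + 1)) with hW
  have h3 := cmds_spec postL ((s1.set R.X []).set R.OUT W.reverse) (oks_post _)
  rw [post_eff s s1 W (fun j => (Function.update_of_ne (by simp) _ _).trans (effs_inr _ _ j))
    (fun q hq => by
      simp only [chg, List.mem_cons, List.not_mem_nil, or_false, not_or] at hq
      refine (Function.update_of_ne (by simp [hq]) _ _).trans ?_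
      exact effs_frame _ _ _ (by simp [midL, tg, hq]))
    (fun q hq => emp q (by
      simp only [chg, List.mem_cons, List.not_mem_nil, or_false] at hq
      rcases hq with rfl | rfl | rfl | rfl | rfl | rfl | rfl | rfl | rfl | rfl <;>
        simp [pScratch])) hOUT
    (by simp [hs1, midL, effs, Cmd.eff])] at h3
  have hWl : W.reverse.length = X * r * Y * r * Z * S := by
    rw [List.length_reverse, hW, length_bits, length_dat]
    ring
  have c3 := post_cost hR le_rfl le_rfl W.reverse le_rfl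
  have c1 : costs midL s ≤ 100 * S + 10 * r + 40 := by
    simp [midL, costs, Cmd.cost, Cmd.eff, hRR, hWW, hAL, hBE, hS4, hS7, hS9,
      hS11, hSCH, hMU, hCY2, hRHO, hCY, tail_una, ps_length_tny]
    omega
  obtain ⟨n1, n2⟩ := N_bounds hN.hX hr hN.hY hN.hZ
  have c2 := time_bound (X := X) (r := r) (Y := Y) (Z := Z) (S := S) (Q := S + T S)
    (T := C' * (S + T S) + 1 + C * (S + T S)) (T' := C * (S + T S)) hN.hX hr hN.hY hN.hZ hS1
    (by omega)
  refine (((h1.seq h0).seq (h2.seq h3)).mono ?_).of_eq ?_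
  · rw [hWl] at c3
    refine (final_arith (D' := C * (S + T S)) (by omega) c2 c3 n1 n2 hS1 (by omega)).trans ?_
    have e1 : (C' + 6 * C + 451) * (X * r * Y * r * Z * (S + T S)) =
      X * r * Y * r * Z * (C' * (S + T S) + C * (S + T S) +
        4 * (C * (S + T S)) + C * (S + T S) + 451 * (S + T S)) := by ring
    rw [e1]
    refine Nat.mul_le_mul_left _ ?_
    omega
  · have hd : dat X r Y r Z S (fun x i y j z => e x i y j z *
          fac 1 w' (w' * w' % (r + 1)) 1 w i j % (r + 1))
        = dat X r Y r Z S fun x k y j z =>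
          e x k y j z % (r + 1) * fMid (r + 1) w w' k j % (r + 1) := by
      unfold dat
      refine cat_congr fun x _ => cat_congr fun i _ => cat_congr fun y _ =>
        cat_congr fun j _ => cat_congr fun z _ => ?_
      simp only [fac_mid]
    rw [hW, hd]

end Vale.Agent.P338.S2
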