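import Vale.Agent.P338.S2Pass
import Vale.Agent.P338.Cmd

/-!
# P338, second reduction: the passes `PreSpec`, `MidSpec`, `PostSpec`
-/

namespace Vale.Agent.P338.S2

variable {J E : Type}

/-- The stacks of the passes in the big store. -/
def PR.reg : PR → R
  | .x => R.X
  | .out => R.OUT
  | .t => R.T
  | .u => R.V0
  | .f => R.V1
  | .fa => R.V2
  | .fb => R.V3
  | .fc => R.XS
  | .gb => R.CY
  | .gc => R.CY2
  | .a0 => R.SCH
  | .b0 => R.RHO
  | .c0 => R.MU
  | .nx => R.HH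
  | .kx => R.S1
  | .ni => R.RR
  | .ki => R.S2
  | .ny => R.GG
  | .ky => R.S3
  | .nj => R.S4
  | .kj => R.S5
  | .nz => R.DD
  | .kz => R.S6
  | .wi => R.S7
  | .wz => R.S8
  | .wo => R.S9
  | .kw => R.S10

theorem reg_inj : Function.Injective PR.reg := by
  intro a b h
  cases a <;> cases b <;> first | rfl | exact absurd h (by decide)

/-- The embedding of the small store. -/
def er (r : PR) : Loc J := Sum.inl r.reg

theorem er_inj : Function.Injective (er : PR → Loc J) := fun _ _ h =>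
  reg_inj (Sum.inl.inj h)

theorem reg_not_used (r : PR) : r.reg ∉ arUsed := by
  cases r <;> decide

theorem ovw_er_inr (σ : PSt E) (s : St J E) (j : J) :
    ovw er σ s (Sum.inr j) = s (Sum.inr j) :=
  ovw_of_not _ _ (by rintro ⟨i, hi⟩; cases hi)

theorem ovw_er_used (σ : PSt E) (s : St J E) {q : R} (hq : q ∈ arUsed) :
    ovw er σ s (Sum.inl q) = s (Sum.inl q) := by
  refine ovw_of_not _ _ ?_
  rintro ⟨i, hi⟩
  have : i.reg = q := Sum.inl.inj hi
  exact reg_not_used i (this ▸ hq)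

theorem Ar.ovw {s : St J E} {S P : ℕ} (h : Ar s S P) (σ : PSt E) :
    Ar (ovw er σ s) S P := by
  obtain ⟨h1, h2, h3, h4, h5⟩ := h
  refine ⟨fun j => ?_, fun q hq => ?_, ?_, ?_, ?_⟩
  · rw [ovw_er_inr]; exact h1 j
  · rw [ovw_er_used σ s (by simp [arUsed, hq])]; exact h2 q hq
  · exact (ovw_er_used σ s (by simp [arUsed])).trans h3
  · exact (ovw_er_used σ s (by simp [arUsed])).trans h4
  · exact (ovw_er_used σ s (by simp [arUsed])).trans h5

variable [DecidableEq J]

theorem mulE_of {mul : R → R → Pr J E} {T : ℕ → ℕ} {C : ℕ} (hmul : MulSpec mul T C)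
    {S P : ℕ} (hP : P.Prime) (hS : 4 * Nat.size P ≤ S) {s : St J E} (hs : Ar s S P) :
    MulE er s (fun a b => mul a.reg b.reg) P S (C * (S + T S)) := by
  intro σ a b u v hab hu hv ha hb
  have h := hmul S P u v a.reg b.reg (ovw er σ s) hP hS (hs.ovw σ) (reg_not_used a)
    (reg_not_used b) (reg_inj.ne hab) hu hv
    ((ovw_apply er_inj σ s a).trans ha) ((ovw_apply er_inj σ s b).trans hb)
  unfold RunsE
  rw [ovw_update er_inj]
  exact h

/-- The slot program without reduction. -/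
def opMul (mul : R → R → Pr J E) : Pr J E := mul R.V0 R.V1

/-- The slot program with reduction. -/
def opRed (red : R → Pr J E) (mul : R → R → Pr J E) : Pr J E :=
  (red R.V0).seq (mul R.V0 R.V1)

theorem slot_opMul {mul : R → R → Pr J E} {T : ℕ → ℕ} {C : ℕ} (hmul : MulSpec mul T C)
    {S P M : ℕ} (hP : P.Prime) (hS : 4 * Nat.size P ≤ S) (hM : 2 ^ M ≤ P) {s : St J E}
    (hs : Ar s S P) : SlotSpec er s (opMul mul) P S M (C * (S + T S)) := by
  intro σ v f hv hf hu hf'
  exact mulE_of hmul hP hS hs σ .u .f v f (by decide) (hv.trans_le hM) hf hu hf'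

theorem slot_opRed {red : R → Pr J E} {mul : R → R → Pr J E} {T : ℕ → ℕ} {C1 C2 : ℕ}
    (hred : RedSpec red T C1) (hmul : MulSpec mul T C2)
    {S P : ℕ} (hP : P.Prime) (hS : 4 * Nat.size P ≤ S) {s : St J E}
    (hs : Ar s S P) :
    SlotSpec er s (opRed red mul) P S S (C1 * (S + T S) + 1 + C2 * (S + T S)) := by
  intro σ v f hv hf hu hf'
  have h1 := hred S P v PR.u.reg (ovw er σ s) hP hS (hs.ovw σ) (reg_not_used .u) hv
    ((ovw_apply er_inj σ s .u).trans hu)
  have h2 := mulE_of hmul hP hS hs (Function.update σ .u (tny S (v % P))) .u .f (v % P) f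
    (by decide) (Nat.mod_lt _ hP.pos) hf (by simp) (by simpa using hf')
  unfold RunsE at h2
  rw [ovw_update er_inj] at h2
  have h3 := h1.seq h2
  unfold RunsE
  refine h3.of_eq ?_
  rw [Nat.mod_mul_mod]
  simp

theorem tny_one {S : ℕ} (hS : 1 ≤ S) :
    (tny S 1 : List (SSym E)) = sb true :: List.replicate (S - 1) (sb false) := by
  obtain ⟨n, rfl⟩ : ∃ n, S = n + 1 := ⟨S - 1, by omega⟩
  have h : bitsOf (n + 1) 1 = true :: List.replicate n false := by
    rw [bitsOf_succ]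
    simp [bitsOf_zero]
  rw [tny, h]
  simp [bits]

theorem ps_length_tny (S v : ℕ) : (tny S v : List (SSym E)).length = S := by simp [tny]

theorem bits_dat (X r Y r' Z k : ℕ) (e : ℕ → ℕ → ℕ → ℕ → ℕ → ℕ) :
    (bits (dat X r Y r' Z k e) : List (SSym E)) = cat X fun x => cat r fun i => cat Y fun y =>
      cat r' fun j => cat Z fun z => bits (bitsOf k (e x i y j z)) := by
  simp only [dat, bits_cat'']

theorem length_dat (X r Y r' Z k : ℕ) (e : ℕ → ℕ → ℕ → ℕ → ℕ → ℕ) :
    (dat X r Y r' Z k e).length = X * (r * (Y * (r' * (Z * k)))) := by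
  unfold dat
  refine length_cat_of fun x _ => length_cat_of fun i _ => length_cat_of fun y _ =>
    length_cat_of fun j _ => length_cat_of fun z _ => ?_
  simp

/-- The bound for the time of the loops, in general. -/
theorem time_bound' {X r Y Z : ℕ} (hX : 1 ≤ X) (hr : 1 ≤ r) (hY : 1 ≤ Y) (hZ : 1 ≤ Z)
    (A B1 B2 B3 B4 B5 : ℕ) :
    X * (r * (Y * (r * (Z * A + B1) + B2) + B3) + B4) + B5 ≤
      X * r * Y * r * Z * (A + B1 + B2 + B3 + B4 + B5) := by
  have c5 : 1 ≤ X := hX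
  have c4 : X ≤ X * r := Nat.le_mul_of_pos_right _ hr
  have c3 : X * r ≤ X * r * Y := Nat.le_mul_of_pos_right _ hY
  have c2 : X * r * Y ≤ X * r * Y * r := Nat.le_mul_of_pos_right _ hr
  have c1 : X * r * Y * r ≤ X * r * Y * r * Z := Nat.le_mul_of_pos_right _ hZ
  have d1 : X * r * Y * r * B1 ≤ X * r * Y * r * Z * B1 := Nat.mul_le_mul_right _ c1
  have d2 : X * r * Y * B2 ≤ X * r * Y * r * Z * B2 :=
    Nat.mul_le_mul_right _ (c2.trans c1)
  have d3 : X * r * B3 ≤ X * r * Y * r * Z * B3 :=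
    Nat.mul_le_mul_right _ (c3.trans (c2.trans c1))
  have d4 : X * B4 ≤ X * r * Y * r * Z * B4 :=
    Nat.mul_le_mul_right _ (c4.trans (c3.trans (c2.trans c1)))
  have d5 : 1 * B5 ≤ X * r * Y * r * Z * B5 :=
    Nat.mul_le_mul_right _ (c5.trans (c4.trans (c3.trans (c2.trans c1))))
  have e1 : X * (r * (Y * (r * (Z * A + B1) + B2) + B3) + B4) + B5 =
      X * r * Y * r * Z * A + X * r * Y * r * B1 + X * r * Y * B2 + X * r * B3 + X * B4 +
        1 * B5 := by ring
  have e2 : X * r * Y * r * Z * (A + B1 + B2 + B3 + B4 + B5) =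
      X * r * Y * r * Z * A + X * r * Y * r * Z * B1 + X * r * Y * r * Z * B2 +
        X * r * Y * r * Z * B3 + X * r * Y * r * Z * B4 + X * r * Y * r * Z * B5 := by ring
  rw [e1, e2]
  generalize X * r * Y * r * Z * A = q0 at *
  omega

/-- The bound for the time of the loops. -/
theorem time_bound {X r Y Z S Q T T' : ℕ} (hX : 1 ≤ X) (hr : 1 ≤ r) (hY : 1 ≤ Y)
    (hZ : 1 ≤ Z) (hS : 1 ≤ S) (hSQ : S ≤ Q) :
    X * (r * (Y * (r * (Z * (T + 31 * S + 21) + T' + 9) + 9 * S + 11) + 3 * T' + 11) +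
        27 * S + 17) + 1 ≤ X * r * Y * r * Z * (T + 4 * T' + 137 * Q) := by
  have h := time_bound' hX hr hY hZ (T + 31 * S + 21) (T' + 9) (9 * S + 11) (3 * T' + 11)
    (27 * S + 17) 1
  refine le_trans (le_of_eq ?_) (h.trans (Nat.mul_le_mul_left _ (by omega)))
  ring

/-- What the loops need. -/
structure Rdy (s : St J E) (X r Y Z a b S a0 b0 c0 gb gc : ℕ) : Prop where
  t : s.at R.T = []
  u : s.at R.V0 = []
  f : s.at R.V1 = []
  fa : s.at R.V2 = []
  fb : s.at R.V3 = []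
  fc : s.at R.XS = []
  gb : s.at R.CY = tny S gb
  gc : s.at R.CY2 = tny S gc
  a0 : s.at R.SCH = tny S a0
  b0 : s.at R.RHO = tny S b0
  c0 : s.at R.MU = tny S c0
  nx : s.at R.HH = una X
  kx : s.at R.S1 = []
  ni : s.at R.RR = una r
  ki : s.at R.S2 = []
  ny : s.at R.GG = una Y
  ky : s.at R.S3 = []
  nj : s.at R.S4 = una r
  kj : s.at R.S5 = []
  nz : s.at R.DD = una Z
  kz : s.at R.S6 = []
  wi : s.at R.S7 = una a
  wz : s.at R.S8 = una (S - a)
  wo : s.at R.S9 = una b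
  kw : s.at R.S10 = []
  out : s.at R.OUT = []

theorem runs_pass {op : Pr J E} {mul' : PR → PR → Pr J E} {P S M T T' a b r X Y Z : ℕ}
    {a0 b0 c0 gb gc : ℕ} {s : St J E} (hop : SlotSpec er s op P S M T)
    (hmul : MulE er s mul' P S T') (hP : 0 < P) (ha : a ≤ S) (hb : b ≤ S) (hM : a ≤ M)
    {v : ℕ → ℕ → ℕ → ℕ → ℕ → ℕ}
    (hv : ∀ x i y j z, v x i y j z < 2 ^ a) (ha0 : a0 < P) (hb0 : b0 < P) (hc0 : c0 < P)
    (hgb : gb < P) (hgc : gc < P) (hR : Rdy s X r Y Z a b S a0 b0 c0 gb gc)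
    (hx : s.at R.X = bits (dat X r Y r Z a v)) :
    Runs (loopX er op mul') s
      ((s.set R.X []).set R.OUT (bits (dat X r Y r Z b fun x i y j z =>
        v x i y j z * fac a0 b0 gb c0 gc i j % P)).reverse)
      (X * (r * (Y * (r * (Z * (T + 31 * S + 21) + T' + 9) + 9 * S + 11) + 3 * T' + 11) +
        27 * S + 17) + 1) := by
  have h := runs_loopX er_inj (Bg := s) hop hmul hP ha hb hM (r := r) (r' := r) (X := X)
    (Y := Y) (Z := Z) (v := v) (a0 := a0) (b0 := b0) (c0 := c0) (gb := gb) (gc := gc)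
    hv ha0 hb0 hc0 hgb hgc (fun q => s (er q)) ⟨hR.t, hR.u, hR.kw, hR.wi, hR.wz, hR.wo⟩
    hR.f hR.fa hR.fb hR.fc hR.a0 hR.b0 hR.c0 hR.gb hR.gc hR.nz hR.kz hR.nj hR.kj hR.ny hR.ky
    hR.ni hR.ki hR.nx hR.kx [] []
  unfold RunsE at h
  rw [ovw_update er_inj, ovw_update er_inj, ovw_update er_inj, ovw_update er_inj,
    ovw_self er_inj, List.append_nil, List.append_nil, ← bits_dat, ← bits_dat] at h
  have e0 : Function.update (Function.update s (er PR.x) (bits (dat X r Y r Z a v)))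
      (er PR.out) [] = s := by
    rw [← hx]
    have h1 : Function.update s (er PR.x) (s.at R.X) = s := Function.update_eq_self _ _
    rw [h1, ← hR.out]
    exact Function.update_eq_self _ _
  rw [e0] at h
  exact h

/-! ### The first pass -/

/-- Preparations. -/
def preL : List (Cmd E) :=
  [.cp R.RR R.S4, .cp R.TM R.S7, .cp R.WW R.S9, .cp R.WW R.S8, .sub R.TM R.S8,
   .cp R.WW R.S11, .pop R.S11, .fill R.S11 (sb false) R.SCH, .push R.SCH (sb true),
   .cp R.SCH R.MU, .cp R.SCH R.CY2, .cp R.BE R.RHO, .cp R.BE R.CY, .clr R.S11]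

/-- Cleaning. -/
def postL : List (Cmd E) :=
  [.rev R.OUT R.X, .clr R.SCH, .clr R.RHO, .clr R.MU, .clr R.CY, .clr R.CY2, .clr R.S4,
   .clr R.S7, .clr R.S8, .clr R.S9]

/-- The first pass. -/
noncomputable def prePass (mul : R → R → Pr J E) : Pr J E :=
  (cmds preL).seq ((loopX er (opMul mul) (fun a b => mul a.reg b.reg)).seq (cmds postL))

theorem oks_post (s : St J E) : oks postL s := by
  simp [oks, postL, Cmd.ok]

theorem fac_pre (w' i j : ℕ) : fac 1 w' w' 1 1 i j = w' ^ (i * (i + 1) / 2) := by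
  unfold fac
  have h : i * (i + 1) / 2 = i + i * (i - 1) / 2 := by
    have h1 := tri_succ i
    rw [Nat.add_sub_cancel] at h1
    rw [Nat.mul_comm i (i + 1), h1]
    omega
  rw [h, pow_add]
  simp

end Vale.Agent.P338.S2
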