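import Vale.Agent.P338.S2PassFin

/-!
# P338, second reduction: the third pass and the kernel
-/

namespace Vale.Agent.P338.S2

/-! ### Decrement of a number -/

section Dec

variable {ι E : Type} [DecidableEq ι]

/-- The top of the stack `a` is the bit `b`. -/
def isBit (a : ι) (b : Bool) : (ι → Option (SSym E)) → Bool := fun tp =>
  match tp a with
  | some (Sum.inl (Base.bit c)) => c == b
  | _ => false

/-- Subtract `1` from the number on the stack `a`. -/
def dec (a t : ι) : Prog ι (SSym E) :=
  (Prog.loop (isBit a false) ((Prog.pop a).seq (Prog.push t (sb true)))).seq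
    ((Prog.pop a).seq ((Prog.push t (sb false)).seq (Prog.rev t a)))

theorem runs_decLoop {a t : ι} (hat : a ≠ t) (k : ℕ) : ∀ (s : Store ι (SSym E))
    (l : List Bool), s a = bits (List.replicate k false ++ true :: l) →
    Runs (Prog.loop (isBit a false) ((Prog.pop a).seq (Prog.push t (sb true)))) s
      (Function.update (Function.update s a (bits (true :: l))) t
        (List.replicate k (sb true) ++ s t)) (5 * k) := by
  induction k with
  | zero =>
    intro s l ha
    refine (Runs.loopF ?_).of_eq ?_
    · simp [isBit, ha, bits, sb]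
    · funext i
      simp only [Function.update_apply]
      split_ifs <;> simp_all
  | succ k ih =>
    intro s l ha
    have h1 := (Runs.pop a s).seq (Runs.push t (sb true) (Function.update s a (s a).tail))
    have h2 := ih (Function.update (Function.update s a (s a).tail) t
      (sb true :: (Function.update s a (s a).tail) t)) l (by
        rw [Function.update_of_ne hat, Function.update_self, ha]
        simp [bits, List.replicate_succ])
    have h3 := Runs.loopT (c := isBit a false)
      (p := (Prog.pop a).seq (Prog.push t (sb true))) (by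
        simp [isBit, ha, bits, sb, List.replicate_succ]) h1 h2
    refine (h3.mono (by omega)).of_eq ?_
    have e : List.replicate (k + 1) (sb true : SSym E) ++ s t =
        List.replicate k (sb true) ++ sb true :: s t := by
      rw [List.replicate_succ', List.append_assoc]; rfl
    rw [e, Function.update_of_ne hat.symm]
    funext i
    simp only [Function.update_apply]
    clear h1 h2 h3 ih
    split_ifs <;> simp_all

theorem dec_list (S v : ℕ) (hv : 1 ≤ v) (hS : v < 2 ^ S) : ∃ (k : ℕ) (l : List Bool),
    bitsOf S v = List.replicate k false ++ true :: l ∧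
    bitsOf S (v - 1) = List.replicate k true ++ false :: l ∧ k < S := by
  induction S generalizing v with
  | zero => simp at hS; omega
  | succ S ih =>
    rw [bitsOf_succ, bitsOf_succ]
    rcases Nat.even_or_odd v with h | h
    · obtain ⟨u, hu⟩ := h
      obtain ⟨k, l, h1, h2, h3⟩ := ih u (by omega) (by rw [pow_succ] at hS; omega)
      refine ⟨k + 1, l, ?_, ?_, by omega⟩
      · have e1 : v / 2 = u := by omega
        have e2 : v.testBit 0 = false := by simp [Nat.testBit_zero]; omega
        rw [e1, e2, h1, List.replicate_succ, List.cons_append]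
      · have e1 : (v - 1) / 2 = u - 1 := by omega
        have e2 : (v - 1).testBit 0 = true := by simp [Nat.testBit_zero]; omega
        rw [e1, e2, h2, List.replicate_succ, List.cons_append]
    · obtain ⟨u, hu⟩ := h
      refine ⟨0, bitsOf S u, ?_, ?_, by omega⟩
      · have e1 : v / 2 = u := by omega
        have e2 : v.testBit 0 = true := by simp [Nat.testBit_zero]; omega
        rw [e1, e2]; simp
      · have e1 : (v - 1) / 2 = u := by omega
        have e2 : (v - 1).testBit 0 = false := by simp [Nat.testBit_zero]; omega
        rw [e1, e2]; simp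

theorem runs_dec {a t : ι} (hat : a ≠ t) {S v : ℕ} (hv : 1 ≤ v) (hS : v < 2 ^ S)
    (s : Store ι (SSym E)) (ha : s a = tny S v) (ht : s t = []) :
    Runs (dec a t) s (Function.update s a (tny S (v - 1))) (8 * S + 10) := by
  obtain ⟨k, l, h1, h2, h3⟩ := dec_list S v hv hS
  have r1 := runs_decLoop (E := E) hat k s l (by rw [ha, tny, h1])
  have r2 := Runs.pop a (Function.update (Function.update s a (bits (true :: l))) t
        (List.replicate k (sb true : SSym E) ++ s t))
  have r3 := Runs.push t (sb false : SSym E) (Function.update (Function.update s a (bits l)) t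
        (List.replicate k (sb true : SSym E)))
  have r4 := Runs.rev (i := t) (j := a) hat.symm (Function.update (Function.update s a
    (bits l)) t (sb false :: List.replicate k (sb true : SSym E)))
  have r2' : Runs (Prog.pop a) (Function.update (Function.update s a (bits (true :: l))) t
        (List.replicate k (sb true : SSym E) ++ s t))
      (Function.update (Function.update s a (bits l)) t
        (List.replicate k (sb true : SSym E))) 1 := by
    refine r2.of_eq ?_
    funext i
    simp only [Function.update_apply]
    split_ifs <;> simp_all [bits]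
  have r3' : Runs (Prog.push t (sb false)) (Function.update (Function.update s a (bits l)) t
        (List.replicate k (sb true : SSym E)))
      (Function.update (Function.update s a
    (bits l)) t (sb false :: List.replicate k (sb true : SSym E))) 1 := by
    refine r3.of_eq ?_
    funext i
    simp only [Function.update_apply]
    split_ifs <;> simp_all
  have r4' : Runs (Prog.rev t a) (Function.update (Function.update s a
    (bits l)) t (sb false :: List.replicate k (sb true : SSym E)))
      (Function.update s a (tny S (v - 1))) (3 * (k + 1)) := by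
    refine (r4.mono ?_).of_eq ?_
    · simp
    · have e : (sb false :: List.replicate k (sb true : SSym E)).reverse ++ bits l =
          tny S (v - 1) := by
        rw [tny, h2]
        simp [bits]
      funext i
      simp only [Function.update_apply]
      clear r1 r2 r2' r3 r3' r4
      split_ifs <;> simp_all
  exact (r1.seq (r2'.seq (r3'.seq r4'))).mono (by omega)

end Dec

variable {J E : Type} [DecidableEq J]

/-! ### The third pass -/

theorem fac_post (P w' i j : ℕ) :
    fac (P - 1) 1 w' 1 1 i j = (P - 1) * w' ^ (i * (i - 1) / 2) := by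
  unfold fac
  simp

/-- Preparations. -/
def pstL : List (Cmd E) :=
  [.cp R.RR R.S4, .cp R.WW R.S7, .cp R.TM R.S9,
   .cp R.WW R.S11, .pop R.S11, .fill R.S11 (sb false) R.RHO, .push R.RHO (sb true),
   .cp R.RHO R.MU, .cp R.RHO R.CY2, .cp R.BE R.CY, .cp R.U1 R.SCH, .clr R.S11]

/-- The third pass. -/
noncomputable def postPass (red : R → Pr J E) (mul : R → R → Pr J E) : Pr J E :=
  ((cmds pstL).seq (dec (Sum.inl R.SCH) (Sum.inl R.S1))).seq
    ((loopX er (opRed red mul) (fun a b => mul a.reg b.reg)).seq (cmds postL))

theorem post_spec {red : R → Pr J E} {mul : R → R → Pr J E} {T : ℕ → ℕ} {C C' : ℕ}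
    (hred : RedSpec red T C') (hmul : MulSpec mul T C) :
    PostSpec (postPass red mul) T (C' + 5 * C + 451) := by
  intro X r Y Z t S m w w' e s hN hE hK he hX
  obtain ⟨hr, htS, hS1, hP1, hw'⟩ := hN.facts
  obtain ⟨emp, hHH, hRR, hGG, hDD, hTM, hWW, hAL, hBE, hU1⟩ := hE.eqs
  have hT := emp R.T (by simp [pScratch])
  have hOUT := emp R.OUT (by simp [pScratch])
  have hSCH := emp R.SCH (by simp [pScratch])
  have hCY := emp R.CY (by simp [pScratch])
  have hCY2 := emp R.CY2 (by simp [pScratch])
  have hV0 := emp R.V0 (by simp [pScratch])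
  have hV1 := emp R.V1 (by simp [pScratch])
  have hV2 := emp R.V2 (by simp [pScratch])
  have hV3 := emp R.V3 (by simp [pScratch])
  have hXS := emp R.XS (by simp [pScratch])
  have hRHO := emp R.RHO (by simp [pScratch])
  have hMU := emp R.MU (by simp [pScratch])
  have hS1' := emp R.S1 (by simp [pScratch])
  have hS2 := emp R.S2 (by simp [pScratch])
  have hS3 := emp R.S3 (by simp [pScratch])
  have hS4 := emp R.S4 (by simp [pScratch])
  have hS5 := emp R.S5 (by simp [pScratch])
  have hS6 := emp R.S6 (by simp [pScratch])
  have hS7 := emp R.S7 (by simp [pScratch])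
  have hS8 := emp R.S8 (by simp [pScratch])
  have hS9 := emp R.S9 (by simp [pScratch])
  have hS10 := emp R.S10 (by simp [pScratch])
  have hS11 := emp R.S11 (by simp [pScratch])
  have hone : (tny S 1 : List (SSym E)) = sb true :: List.replicate (S - 1) (sb false) :=
    tny_one hS1
  have hAr0 : Ar (effs pstL s) S (r + 1) := by
    refine hE.toAr.effs _ ?_
    simp [arUsed, arScratch, pstL, tg]
  have hok : oks pstL s := by
    simp [pstL, oks, Cmd.ok, Cmd.eff, hS1', hRR, hWW, hTM, hU1, hS4, hS7, hS9, hS11,
      hSCH, hMU, hCY2, hRHO, exists_una, tail_una]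
  -- the number `P - 1`
  set s1 : St J E := (effs pstL s).set R.SCH (tny S (r + 1 - 1)) with hs1
  have hrS : r + 1 < 2 ^ S := (Nat.lt_size_self (r + 1)).trans_le
    (Nat.pow_le_pow_right (by norm_num) (by have := hN.hS; omega))
  have h0 := runs_dec (a := (Sum.inl R.SCH : Loc J)) (t := Sum.inl R.S1) (by simp)
    (S := S) (v := r + 1) (by omega) hrS (effs pstL s)
    (by simp [pstL, effs, Cmd.eff, hS1', hU1, hSCH]) (by
      simp [pstL, effs, Cmd.eff, hS1'])
  have hAr : Ar s1 S (r + 1) := hAr0.put (by decide) _
  have hR : Rdy s1 X r Y Z S t S (r + 1 - 1) 1 1 w' 1 := by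
    constructor <;>
      simp [hs1, pstL, effs, Cmd.eff, hS1', hRR, hWW, hTM, hBE, hS4, hS7, hS8, hS9, hS11,
        hMU, hCY2, hRHO, hCY, tail_una, hT, hV0, hV1, hV2, hV3, hXS,
        hHH, hS2, hS3, hS5, hS6, hS10, hGG, hDD, hOUT, hone, una_zero']
  have hx : s1.at R.X = bits (dat X r Y r Z S e) := by
    rw [← hX]
    exact (Function.update_of_ne (by simp) _ _).trans
      (effs_frame _ _ _ (by simp [pstL, tg]))
  have h1 := cmds_spec pstL s hok
  have h2 := runs_pass (slot_opRed hred hmul hN.prime hN.hS hAr)
    (mulE_of hmul hN.prime hN.hS hAr) (by omega) le_rfl htS le_rfl he (by omega) hP1 hP1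
    hw' hP1 hR hx
  set W : List (SSym E) := bits (dat X r Y r Z t fun x i y j z =>
        e x i y j z * fac (r + 1 - 1) 1 w' 1 1 i j % (r + 1)) with hW
  have h3 := cmds_spec postL ((s1.set R.X []).set R.OUT W.reverse) (oks_post _)
  rw [post_eff s s1 W (fun j => (Function.update_of_ne (by simp) _ _).trans (effs_inr _ _ j))
    (fun q hq => by
      simp only [chg, List.mem_cons, List.not_mem_nil, or_false, not_or] at hq
      refine (Function.update_of_ne (by simp [hq]) _ _).trans ?_
      exact effs_frame _ _ _ (by simp [pstL, tg, hq]))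
    (fun q hq => emp q (by
      simp only [chg, List.mem_cons, List.not_mem_nil, or_false] at hq
      rcases hq with rfl | rfl | rfl | rfl | rfl | rfl | rfl | rfl | rfl | rfl <;>
        simp [pScratch])) hOUT
    (by simp [hs1, pstL, effs, Cmd.eff])] at h3
  have hWl : W.reverse.length = X * r * Y * r * Z * t := by
    rw [List.length_reverse, hW, length_bits, length_dat]
    ring
  have c3 := post_cost hR le_rfl htS W.reverse (N := X * r * Y * r * Z * S) (by
    rw [hWl]; exact Nat.mul_le_mul_left _ htS)
  have c1 : costs pstL s ≤ 100 * S + 10 * r + 40 := by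
    simp [pstL, costs, Cmd.cost, Cmd.eff, hRR, hWW, hTM, hU1, hBE, hS4, hS7, hS9,
      hS11, hSCH, hMU, hCY2, hRHO, hCY, tail_una, ps_length_tny]
    omega
  obtain ⟨n1, n2⟩ := N_bounds hN.hX hr hN.hY hN.hZ
  have c2 := time_bound (X := X) (r := r) (Y := Y) (Z := Z) (S := S) (Q := S + T S)
    (T := C' * (S + T S) + 1 + C * (S + T S)) (T' := C * (S + T S)) hN.hX hr hN.hY hN.hZ hS1
    (by omega)
  refine (((h1.seq h0).seq (h2.seq h3)).mono ?_).of_eq ?_
  · refine (final_arith (D' := 0) (by omega) c2 c3 n1 n2 hS1 (by omega)).trans ?_
    have e1 : (C' + 5 * C + 451) * (X * r * Y * r * Z * (S + T S)) =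
      X * r * Y * r * Z * (C' * (S + T S) + C * (S + T S) +
        4 * (C * (S + T S)) + 451 * (S + T S)) := by ring
    rw [e1]
    refine Nat.mul_le_mul_left _ ?_
    omega
  · have hd : dat X r Y r Z t (fun x i y j z => e x i y j z *
          fac (r + 1 - 1) 1 w' 1 1 i j % (r + 1))
        = dat X r Y r Z t fun x l y j z =>
          e x l y j z % (r + 1) * fPost (r + 1) w' l % (r + 1) := by
      unfold dat
      refine cat_congr fun x _ => cat_congr fun i _ => cat_congr fun y _ =>
        cat_congr fun j _ => cat_congr fun z _ => ?_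
      simp only [fac_post, fPost, ← Nat.mul_mod]
    rw [hW, hd]

end Vale.Agent.P338.S2
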