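import Vale.Agent.P338.Emb
import Vale.Agent.P338.TopLib
import Vale.Agent.P338.Iface

/-!
# P338: the search for a prime, by trial division in unary
-/

namespace Vale.Agent.P338.Srch

/-- The stacks used by the search. -/
inductive Q : Type
  | x | r | s | u1 | u2 | al | be | a | b | c | d | e | f | g
deriving DecidableEq

/-- The contents of the stacks. -/
structure V (E : Type) : Type where
  x : List (SSym E)
  r : List (SSym E)
  s : List (SSym E)
  u1 : List (SSym E)
  u2 : List (SSym E)
  al : List (SSym E)
  be : List (SSym E)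
  a : List (SSym E)
  b : List (SSym E)
  c : List (SSym E)
  d : List (SSym E)
  e : List (SSym E)
  f : List (SSym E)
  g : List (SSym E)

/-- The contents of the stacks, as a store. -/
def V.st {E : Type} (v : V E) : Store Q (SSym E)
  | .x => v.x
  | .r => v.r
  | .s => v.s
  | .u1 => v.u1
  | .u2 => v.u2
  | .al => v.al
  | .be => v.be
  | .a => v.a
  | .b => v.b
  | .c => v.c
  | .d => v.d
  | .e => v.e
  | .f => v.f
  | .g => v.g

variable {E : Type}

theorem una_succ (n : ℕ) : (una (n + 1) : List (SSym E)) = mk :: una n := rfl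

theorem una_isEmpty (n : ℕ) : (una n : List (SSym E)).isEmpty = decide (n = 0) := by
  cases n <;> simp [una, List.replicate_succ]

theorem una_app (m n : ℕ) : (una m ++ una n : List (SSym E)) = una (m + n) := by
  simp [una]

theorem una_rev (n : ℕ) : (una n : List (SSym E)).reverse = una n := by
  simp [una]

theorem una_drop (m n : ℕ) : (una m : List (SSym E)).drop n = una (m - n) := by
  simp [una]

theorem conv {ι Γ : Type} {p : Prog ι Γ} {s s' s₁ s₂ : Store ι Γ} {t t' : ℕ}
    (h : Runs p s s' t) (h₁ : s = s₁) (h₂ : s' = s₂) (ht : t ≤ t') : Runs p s₁ s₂ t' := by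
  subst h₁; subst h₂; exact h.mono ht

/-! ### One trial division -/

/-- One step of the trial division: a mark is moved from `d` to `e`; if `d` is then empty
then everything moves back. -/
def trialStep : Prog Q (SSym E) :=
  (Prog.pop Q.a).seq ((Prog.mov Q.d Q.e).seq
    (Prog.ite (nonempty Q.d) Prog.skip (Prog.rev Q.e Q.d)))

theorem succ_mod (i m : ℕ) : (i + 1) % m = (i % m + 1) % m := by
  conv_lhs => rw [← Nat.mod_add_div i m]
  rw [show i % m + m * (i / m) + 1 = i % m + 1 + m * (i / m) by ring,
    Nat.add_mul_mod_self_left]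

theorem runs_trialStep (v : V E) {n m i : ℕ} (hm : 0 < m) (ha : v.a = una (n + 1))
    (hd : v.d = una (m - i % m)) (he : v.e = una (i % m)) :
    Runs trialStep v.st
      ({ v with a := una n, d := una (m - (i + 1) % m), e := una ((i + 1) % m) } : V E).st
      (6 + if (i + 1) % m = 0 then 3 * m else 0) := by
  have hj : i % m < m := Nat.mod_lt _ hm
  have r1 : Runs (Prog.pop Q.a) v.st ({ v with a := una n } : V E).st 1 :=
    (Runs.pop Q.a v.st).of_eq (by
      funext q; cases q <;> simp [V.st, ha, una_succ])
  have r2 : Runs (Prog.mov Q.d Q.e) ({ v with a := una n } : V E).st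
      ({ v with a := una n, d := una (m - i % m - 1), e := una (i % m + 1) } : V E).st 1 := by
    refine (Runs.mov (i := Q.d) (j := Q.e) (by decide) _ (a := mk)
      (l := una (m - i % m - 1)) ?_).of_eq ?_
    · show v.d = _
      rw [hd]
      obtain ⟨k, hk⟩ : ∃ k, m - i % m = k + 1 := ⟨m - i % m - 1, by omega⟩
      rw [hk]; rfl
    · funext q; cases q <;> simp [V.st, he, una_succ]
  by_cases h : i % m + 1 = m
  · have h1 : (i + 1) % m = 0 := by rw [succ_mod, h, Nat.mod_self]
    have r3 := Runs.rev (i := Q.e) (j := Q.d) (by decide)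
      ({ v with a := una n, d := una (m - i % m - 1), e := una (i % m + 1) } : V E).st
    have r4 := Runs.iteF (c := nonempty Q.d) (p := Prog.skip) (by
      rw [nonempty_tops]
      show (!(una (m - i % m - 1) : List (SSym E)).isEmpty) = false
      rw [una_isEmpty]
      simp; omega) r3
    refine ((r1.seq (r2.seq r4)).mono ?_).of_eq ?_
    · rw [if_pos h1]
      show 1 + 1 + (1 + 1 + (1 + 3 * (una (i % m + 1) : List (SSym E)).length)) ≤ _
      rw [length_una, h]
      omega
    · rw [h1, h]
      funext q
      cases q <;> simp [V.st, una_rev, una_app]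
      · congr 1; omega
      · rfl
  · have h1 : (i + 1) % m = i % m + 1 := by
      rw [succ_mod, Nat.mod_eq_of_lt (by omega)]
    have r3 := Runs.skip
      ({ v with a := una n, d := una (m - i % m - 1), e := una (i % m + 1) } : V E).st
    have r4 := Runs.iteT (c := nonempty Q.d) (q := Prog.rev Q.e Q.d) (by
      rw [nonempty_tops]
      show (!(una (m - i % m - 1) : List (SSym E)).isEmpty) = true
      rw [una_isEmpty]
      simp; omega) r3
    refine ((r1.seq (r2.seq r4)).mono ?_).of_eq ?_
    · omega
    · rw [h1, Nat.sub_sub]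

theorem sum_reset (m n : ℕ) (hm : 0 < m) :
    ∑ i ∈ Finset.range n, (if (i + 1) % m = 0 then 3 * m else 0) + 3 * (n % m) = 3 * n := by
  induction n with
  | zero => simp
  | succ n ih =>
    have hj : n % m < m := Nat.mod_lt _ hm
    rw [Finset.sum_range_succ]
    by_cases h : n % m + 1 = m
    · have h1 : (n + 1) % m = 0 := by rw [succ_mod, h, Nat.mod_self]
      rw [if_pos h1, h1]
      omega
    · have h1 : (n + 1) % m = n % m + 1 := by rw [succ_mod, Nat.mod_eq_of_lt (by omega)]
      rw [if_neg (by omega), h1]
      omega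

theorem runs_trialLoop (v : V E) {n m : ℕ} (hm : 0 < m) (ha : v.a = una n)
    (hd : v.d = una m) (he : v.e = []) :
    Runs (Prog.loop (nonempty Q.a) trialStep) v.st
      ({ v with a := [], d := una (m - n % m), e := una (n % m) } : V E).st (11 * n) := by
  have h := Runs.loop_iter (c := nonempty Q.a) (p := trialStep) n
    (fun i => ({ v with a := una (n - i), d := una (m - i % m), e := una (i % m) } : V E).st)
    (fun i => 6 + if (i + 1) % m = 0 then 3 * m else 0) ?_ ?_ ?_
  · refine conv h ?_ ?_ ?_
    · funext q; cases q <;> simp [V.st, ha, hd, he, una]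
    · simp [una]
    · have h1 := sum_reset m n hm
      have h2 : ∑ k ∈ Finset.range n, (6 + (if (k + 1) % m = 0 then 3 * m else 0) + 2) =
          8 * n + ∑ k ∈ Finset.range n, (if (k + 1) % m = 0 then 3 * m else 0) := by
        rw [Finset.sum_add_distrib, Finset.sum_add_distrib]
        simp; ring
      rw [h2]
      omega
  · intro k hk
    rw [nonempty_tops]
    show (!(una (n - k) : List (SSym E)).isEmpty) = true
    rw [una_isEmpty]
    simp; omega
  · rw [nonempty_tops]
    show (!(una (n - n) : List (SSym E)).isEmpty) = false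
    rw [una_isEmpty]
    simp
  · intro k hk
    refine (runs_trialStep (E := E) _ (n := n - (k + 1)) (m := m) (i := k) hm ?_ rfl rfl)
    show (una (n - k) : List (SSym E)) = _
    congr 1; omega

/-- One trial division: `r + 1` by the number on `d`. -/
def trial : Prog Q (SSym E) :=
  (Prog.copyOnto Q.r Q.a Q.b).seq ((Prog.push Q.a mk).seq
    ((Prog.loop (nonempty Q.a) trialStep).seq
      ((Prog.ite (nonempty Q.e) Prog.skip (Prog.push Q.f mk)).seq (Prog.rev Q.e Q.d))))

theorem runs_trial (v : V E) {r m : ℕ} (hm : 0 < m) (hr : v.r = una r) (ha : v.a = [])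
    (hb : v.b = []) (hd : v.d = una m) (he : v.e = []) :
    Runs trial v.st
      ({ v with f := if (r + 1) % m = 0 then mk :: v.f else v.f } : V E).st
      (30 * (r + 1)) := by
  have hj : (r + 1) % m < m := Nat.mod_lt _ hm
  have r1 : Runs (Prog.copyOnto Q.r Q.a Q.b) v.st ({ v with a := una r } : V E).st
      (6 * r + 1) := by
    refine conv (Runs.copyOnto (a := Q.r) (b := Q.a) (t := Q.b) (by decide) (by decide)
      (by decide) v.st hb) rfl ?_ ?_
    · funext q; cases q <;> simp [V.st, ha, hr]
    · show 6 * (v.r).length + 1 ≤ _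
      rw [hr, length_una]
  have r2 : Runs (Prog.push Q.a mk) ({ v with a := una r } : V E).st
      ({ v with a := una (r + 1) } : V E).st 1 :=
    (Runs.push Q.a mk _).of_eq (by funext q; cases q <;> simp [V.st, una_succ])
  have r3 := runs_trialLoop ({ v with a := una (r + 1) } : V E) (n := r + 1) hm rfl hd he
  have r5 := Runs.rev (i := Q.e) (j := Q.d) (by decide)
    ({ v with
        a := []
        d := una (m - (r + 1) % m)
        e := una ((r + 1) % m)
        f := if (r + 1) % m = 0 then mk :: v.f else v.f } : V E).st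
  have hle : (r + 1) % m ≤ r + 1 := Nat.mod_le _ _
  have r4 : Runs (Prog.ite (nonempty Q.e) Prog.skip (Prog.push Q.f mk))
      ({ v with a := [], d := una (m - (r + 1) % m), e := una ((r + 1) % m) } : V E).st
      ({ v with
          a := []
          d := una (m - (r + 1) % m)
          e := una ((r + 1) % m)
          f := if (r + 1) % m = 0 then mk :: v.f else v.f } : V E).st 2 := by
    by_cases h : (r + 1) % m = 0
    · refine conv (Runs.iteF (c := nonempty Q.e) (p := Prog.skip) ?_ (Runs.push Q.f mk _)) rfl
        ?_ le_rfl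
      · rw [nonempty_tops]
        show (!(una ((r + 1) % m) : List (SSym E)).isEmpty) = false
        rw [una_isEmpty, h]; rfl
      · rw [if_pos h]
        funext q; cases q <;> simp [V.st]
    · refine conv (Runs.iteT (c := nonempty Q.e) (q := Prog.push Q.f mk) ?_ (Runs.skip _)) rfl
        ?_ le_rfl
      · rw [nonempty_tops]
        show (!(una ((r + 1) % m) : List (SSym E)).isEmpty) = true
        rw [una_isEmpty]; simp [h]
      · rw [if_neg h]
  refine conv (r1.seq (r2.seq (r3.seq (r4.seq r5)))) rfl ?_ ?_
  · funext q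
    cases q <;> simp [V.st, ha, hd, he, una_rev, una_app]
    congr 1; omega
  · show 6 * r + 1 + 1 + (1 + 1 + (11 * (r + 1) + 1 + (2 + 1 +
      3 * (una ((r + 1) % m) : List (SSym E)).length))) ≤ _
    rw [length_una]
    omega

/-! ### The primality test -/

/-- The number of divisors of `r + 1` found after `k` trial divisions. -/
def cnt (r : ℕ) : ℕ → ℕ
  | 0 => 0
  | k + 1 => if (r + 1) % (k + 2) = 0 then cnt r k + 1 else cnt r k

theorem cnt_eq_zero (r k : ℕ) : cnt r k = 0 ↔ ∀ i < k, (r + 1) % (i + 2) ≠ 0 := by
  induction k with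
  | zero => simp [cnt]
  | succ k ih =>
    rw [cnt]
    split_ifs with h
    · constructor
      · intro h1; exact h1.elim
      · intro h1; exact absurd h (h1 k (by omega))
    · rw [ih]
      constructor
      · intro h1 i hi
        rcases Nat.lt_succ_iff_lt_or_eq.1 hi with h2 | h2
        · exact h1 i h2
        · rw [h2]; exact h
      · intro h1 i hi
        exact h1 i (by omega)

theorem prime_iff_cnt {r : ℕ} (hr : 1 ≤ r) : Nat.Prime (r + 1) ↔ cnt r (r - 1) = 0 := by
  rw [cnt_eq_zero, Nat.prime_def_lt']
  constructor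
  · rintro ⟨-, h⟩ i hi h1
    exact h (i + 2) (by omega) (by omega) (Nat.dvd_of_mod_eq_zero h1)
  · intro h
    refine ⟨by omega, fun m h2 hm hd => ?_⟩
    refine h (m - 2) (by omega) ?_
    rw [show m - 2 + 2 = m by omega]
    exact Nat.mod_eq_zero_of_dvd hd

theorem cnt_le (r k : ℕ) : cnt r k ≤ k := by
  induction k with
  | zero => simp [cnt]
  | succ k ih =>
    rw [cnt]
    split_ifs <;> omega

/-- The primality test for `r + 1`: the number of proper divisors `≥ 2` is put on `f`. -/
def test : Prog Q (SSym E) :=
  (Prog.copyOnto Q.r Q.c Q.b).seq ((Prog.pop Q.c).seq ((Prog.push Q.d mk).seq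
    ((Prog.push Q.d mk).seq
      ((Prog.loop (nonempty Q.c) ((Prog.pop Q.c).seq (trial.seq (Prog.push Q.d mk)))).seq
        (Prog.clear Q.d)))))

theorem runs_test (v : V E) {r : ℕ} (h1 : 1 ≤ r) (hr : v.r = una r) (ha : v.a = [])
    (hb : v.b = []) (hc : v.c = []) (hd : v.d = []) (he : v.e = []) (hf : v.f = []) :
    Runs test v.st ({ v with f := una (cnt r (r - 1)) } : V E).st (80 * (r * r)) := by
  obtain ⟨q, rfl⟩ := Nat.exists_eq_add_of_le h1
  have r1 : Runs (Prog.copyOnto Q.r Q.c Q.b) v.st ({ v with c := una (1 + q) } : V E).st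
      (6 * (1 + q) + 1) := by
    refine conv (Runs.copyOnto (a := Q.r) (b := Q.c) (t := Q.b) (by decide) (by decide)
      (by decide) v.st hb) rfl ?_ ?_
    · funext q; cases q <;> simp [V.st, hc, hr]
    · show 6 * (v.r).length + 1 ≤ _
      rw [hr, length_una]
  have r2 : Runs (Prog.pop Q.c) ({ v with c := una (1 + q) } : V E).st
      ({ v with c := una q } : V E).st 1 :=
    (Runs.pop Q.c _).of_eq (by
      funext p; cases p <;> simp [V.st, Nat.add_comm 1 q, una_succ])
  have r3 : Runs (Prog.push Q.d mk) ({ v with c := una q } : V E).st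
      ({ v with c := una q, d := una 1 } : V E).st 1 :=
    (Runs.push Q.d mk _).of_eq (by
      funext p; cases p <;> simp [V.st, hd, una])
  have r4 : Runs (Prog.push Q.d mk) ({ v with c := una q, d := una 1 } : V E).st
      ({ v with c := una q, d := una 2 } : V E).st 1 :=
    (Runs.push Q.d mk _).of_eq (by
      funext p; cases p <;> simp [V.st, una])
  have r5 := Runs.loop_iter_le (c := nonempty Q.c)
    (p := (Prog.pop Q.c).seq (trial.seq (Prog.push Q.d mk))) q
    (fun k => ({ v with c := una (q - k), d := una (k + 2), f := una (cnt (1 + q) k) } :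
      V E).st) (30 * (q + 2) + 4)
    (by
      intro k hk
      rw [nonempty_tops]
      show (!(una (q - k) : List (SSym E)).isEmpty) = true
      rw [una_isEmpty]; simp; omega)
    (by
      rw [nonempty_tops]
      show (!(una (q - q) : List (SSym E)).isEmpty) = false
      rw [una_isEmpty]; simp)
    (by
      intro k hk
      have s1 : Runs (Prog.pop Q.c)
          ({ v with c := una (q - k), d := una (k + 2), f := una (cnt (1 + q) k) } : V E).st
          ({ v with c := una (q - (k + 1)), d := una (k + 2), f := una (cnt (1 + q) k) } :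
            V E).st 1 :=
        (Runs.pop Q.c _).of_eq (by
          obtain ⟨j, hj⟩ : ∃ j, q - k = j + 1 := ⟨q - k - 1, by omega⟩
          have hj' : q - (k + 1) = j := by omega
          funext p; cases p <;> simp [V.st, hj, hj', una_succ])
      have s2 := runs_trial
        ({ v with c := una (q - (k + 1)), d := una (k + 2), f := una (cnt (1 + q) k) } : V E)
        (r := 1 + q) (m := k + 2) (by omega) hr ha hb rfl he
      have s3 := Runs.push Q.d mk
        ({ v with
            c := una (q - (k + 1))
            d := una (k + 2)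
            f := if (1 + q + 1) % (k + 2) = 0 then mk :: una (cnt (1 + q) k)
              else una (cnt (1 + q) k) } : V E).st
      refine conv (s1.seq (s2.seq s3)) rfl ?_ ?_
      · have e1 : (if (1 + q + 1) % (k + 2) = 0 then mk :: una (cnt (1 + q) k)
              else una (cnt (1 + q) k) : List (SSym E)) = una (cnt (1 + q) (k + 1)) := by
          rw [cnt]
          split_ifs <;> rfl
        rw [e1]
        funext p; cases p <;> simp [V.st, una_succ]
      · omega)
  have r6 := Runs.clear Q.d
    ({ v with c := una (q - q), d := una (q + 2), f := una (cnt (1 + q) q) } : V E).st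
  refine conv (r1.seq (r2.seq (r3.seq ((r4.of_eq ?_).seq (r5.seq r6))))) rfl ?_ ?_
  · funext p; cases p <;> simp [V.st, hf, cnt, una]
  · funext p; cases p <;> simp [V.st, hc, hd, una]
  · show 6 * (1 + q) + 1 + 1 + (1 + 1 + (1 + 1 + (1 + 1 + (q * (30 * (q + 2) + 4 + 2) + 1 +
      3 * (una (q + 2) : List (SSym E)).length)))) ≤ _
    rw [length_una]
    nlinarith

/-! ### The search for a prime -/

/-- Search for a prime `r + 1` above the number on `x`. -/
def findP : Prog Q (SSym E) :=
  (Prog.copyOnto Q.x Q.r Q.b).seq (test.seq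
    (Prog.loop (nonempty Q.f) ((Prog.clear Q.f).seq ((Prog.push Q.r mk).seq test))))

theorem runs_findP (v : V E) {x : ℕ} (h1 : 1 ≤ x) (hx : v.x = una x) (hr : v.r = [])
    (ha : v.a = []) (hb : v.b = []) (hc : v.c = []) (hd : v.d = []) (he : v.e = [])
    (hf : v.f = []) :
    ∃ r, x ≤ r ∧ r + 1 ≤ 2 * x ∧ Nat.Prime (r + 1) ∧
      Runs findP v.st ({ v with r := una r } : V E).st (1000 * x ^ 3) := by
  classical
  obtain ⟨p, hp, hp1, hp2⟩ := Nat.exists_prime_lt_and_le_two_mul x (by omega)
  have hex : ∃ j, Nat.Prime (x + j + 1) := ⟨p - x - 1, by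
    rw [show x + (p - x - 1) + 1 = p by omega]; exact hp⟩
  obtain ⟨n, hn⟩ : ∃ n, n = Nat.find hex := ⟨_, rfl⟩
  have hnp : Nat.Prime (x + n + 1) := by rw [hn]; exact Nat.find_spec hex
  have hnm : ∀ j < n, ¬ Nat.Prime (x + j + 1) := fun j hj => Nat.find_min hex (hn ▸ hj)
  have hnx : x + n + 1 ≤ p := by
    have : n ≤ p - x - 1 := by
      rw [hn]
      refine Nat.find_min' hex ?_
      rw [show x + (p - x - 1) + 1 = p by omega]
      exact hp
    omega
  refine ⟨x + n, by omega, by omega, hnp, ?_⟩
  have r1 : Runs (Prog.copyOnto Q.x Q.r Q.b) v.st ({ v with r := una x } : V E).st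
      (6 * x + 1) := by
    refine conv (Runs.copyOnto (a := Q.x) (b := Q.r) (t := Q.b) (by decide) (by decide)
      (by decide) v.st hb) rfl ?_ ?_
    · funext q; cases q <;> simp [V.st, hr, hx]
    · show 6 * (v.x).length + 1 ≤ _
      rw [hx, length_una]
  have r2 := runs_test ({ v with r := una x } : V E) h1 rfl ha hb hc hd he hf
  have r3 := Runs.loop_iter_le (c := nonempty Q.f)
    (p := (Prog.clear Q.f).seq ((Prog.push Q.r mk).seq test)) n
    (fun j => ({ v with r := una (x + j), f := una (cnt (x + j) (x + j - 1)) } : V E).st)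
    (3 * (2 * x) + 1 + 1 + 1 + 80 * ((2 * x) * (2 * x)))
    (by
      intro j hj
      rw [nonempty_tops]
      show (!(una (cnt (x + j) (x + j - 1)) : List (SSym E)).isEmpty) = true
      rw [una_isEmpty]
      have := hnm j hj
      rw [prime_iff_cnt (by omega)] at this
      simp [this])
    (by
      rw [nonempty_tops]
      show (!(una (cnt (x + n) (x + n - 1)) : List (SSym E)).isEmpty) = false
      rw [una_isEmpty, (prime_iff_cnt (by omega)).1 hnp]
      simp)
    (by
      intro j hj
      have s1 := Runs.clear Q.f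
        ({ v with r := una (x + j), f := una (cnt (x + j) (x + j - 1)) } : V E).st
      have s2 := Runs.push Q.r mk ({ v with r := una (x + j) } : V E).st
      have s3 := runs_test ({ v with r := una (x + (j + 1)) } : V E) (r := x + (j + 1))
        (by omega) rfl ha hb hc hd he hf
      refine conv ((s1.of_eq (s'' := ({ v with r := una (x + j) } : V E).st) ?_).seq
        ((s2.of_eq (s'' := ({ v with r := una (x + (j + 1)) } : V E).st) ?_).seq s3)) rfl rfl ?_
      · funext p; cases p <;> simp [V.st, hf]
      · funext p; cases p <;> simp [V.st, ← Nat.add_assoc, una_succ]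
      · show 3 * (una (cnt (x + j) (x + j - 1)) : List (SSym E)).length + 1 + (1 + 1 +
          80 * ((x + (j + 1)) * (x + (j + 1)))) ≤ _
        rw [length_una]
        have := cnt_le (x + j) (x + j - 1)
        have h2 : (x + (j + 1)) * (x + (j + 1)) ≤ (2 * x) * (2 * x) :=
          Nat.mul_le_mul (by omega) (by omega)
        omega)
  refine conv (r1.seq (r2.seq r3)) rfl ?_ ?_
  · rw [(prime_iff_cnt (by omega)).1 hnp]
    funext p; cases p <;> simp [V.st, hf, una]
  · have hn' : n ≤ x := by omega
    have h3 : n * (3 * (2 * x) + 1 + 1 + 1 + 80 * ((2 * x) * (2 * x)) + 2) ≤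
        x * (3 * (2 * x) + 1 + 1 + 1 + 80 * ((2 * x) * (2 * x)) + 2) :=
      Nat.mul_le_mul_right _ hn'
    have h4 : 1 ≤ x ^ 2 := Nat.one_le_pow _ _ h1
    have h5 : x ≤ x ^ 3 := by
      calc x = x * 1 := (Nat.mul_one x).symm
        _ ≤ x * x ^ 2 := Nat.mul_le_mul_left _ h4
        _ = x ^ 3 := by ring
    have h6 : x ^ 2 ≤ x ^ 3 := Nat.pow_le_pow_right h1 (by norm_num)
    have h7 : x * (3 * (2 * x) + 1 + 1 + 1 + 80 * ((2 * x) * (2 * x)) + 2) =
        6 * x ^ 2 + 5 * x + 320 * x ^ 3 := by ring
    have h8 : 80 * (x * x) = 80 * x ^ 2 := by ring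
    omega

end Vale.Agent.P338.Srch
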