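import Vale.Agent.P338.S2SearchA

/-!
# P338: the search for a prime: the prime in binary and `2 ^ S / P`
-/

namespace Vale.Agent.P338.Srch

open Vale.Agent.P338

variable {E ι : Type}

/-! ### Increment of a binary number -/

/-- The top of a stack is the bit `true`. -/
def isTrue (i : ι) : (ι → Option (SSym E)) → Bool := fun tp =>
  match tp i with
  | some (Sum.inl (Base.bit true)) => true
  | _ => false

theorem exists_decomp (l : List Bool) (h : natOf l + 1 < 2 ^ l.length) :
    ∃ j l', l = List.replicate j true ++ false :: l' := by
  induction l with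
  | nil => simp at h
  | cons b l ih =>
    cases b with
    | false => exact ⟨0, l, rfl⟩
    | true =>
      rw [natOf_cons, List.length_cons, pow_succ] at h
      simp only [Bool.toNat_true] at h
      obtain ⟨j, l', rfl⟩ := ih (by omega)
      exact ⟨j + 1, l', rfl⟩

theorem natOf_replicate_true (j : ℕ) : natOf (List.replicate j true) + 1 = 2 ^ j := by
  induction j with
  | zero => rfl
  | succ j ih =>
    rw [List.replicate_succ, natOf_cons, pow_succ]
    simp only [Bool.toNat_true]
    omega

theorem natOf_inc (j : ℕ) (l' : List Bool) :
    natOf (List.replicate j false ++ true :: l') =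
      natOf (List.replicate j true ++ false :: l') + 1 := by
  rw [natOf_append, natOf_append, natOf_cons, natOf_cons, natOf_replicate_false]
  have := natOf_replicate_true j
  simp only [List.length_replicate, Bool.toNat_true, Bool.toNat_false]
  have h : 2 ^ j * (1 + 2 * natOf l') = 2 ^ j + 2 ^ j * (0 + 2 * natOf l') := by ring
  omega

variable [DecidableEq ι]

/-- Increment the binary number on `a`, with the scratch stack `b`. -/
def incP (a b : ι) : Prog ι (SSym E) :=
  (Prog.loop (isTrue a) (Prog.act fun _ l => if l = a then Op.pop else if l = b then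
    Op.push (sb false) else Op.keep)).seq
  ((Prog.pop a).seq ((Prog.push a (sb true)).seq (Prog.rev b a)))

theorem runs_incLoop {a b : ι} (hab : a ≠ b) (l' : List Bool) : ∀ (j : ℕ)
    (s : Store ι (SSym E)), s a = bits (List.replicate j true ++ false :: l') →
    Runs (Prog.loop (isTrue a) (Prog.act fun _ l => if l = a then Op.pop else if l = b then
      Op.push (sb false) else Op.keep)) s
      (Function.update (Function.update s a (bits (false :: l'))) b
        (List.replicate j (sb false) ++ s b)) (3 * j) := by
  intro j
  induction j with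
  | zero =>
    intro s hs
    refine (Runs.loopF ?_).of_eq ?_
    · simp [isTrue, hs, bits, sb]
    · funext k
      simp only [Function.update_apply]
      split_ifs <;> simp_all
  | succ j ih =>
    intro s hs
    have h1 : Runs (Prog.act fun _ l => if l = a then Op.pop else if l = b then
      Op.push (sb false) else Op.keep) s (Function.update (Function.update s a
        (bits (List.replicate j true ++ false :: l'))) b (sb false :: s b)) 1 := by
      refine (Runs.act _ s).of_eq ?_
      funext k
      simp only [Function.update_apply]
      split_ifs with q1 q2 q3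
      · exact absurd (q1.symm.trans q2) hab
      · subst q1
        simp [hs, bits, List.replicate_succ]
      · subst q3; simp
      · simp
    have h2 := ih _ (show Function.update (Function.update s a
        (bits (List.replicate j true ++ false :: l'))) b (sb false :: s b) a = _ by
      rw [Function.update_of_ne hab, Function.update_self])
    have h3 := Runs.loopT (c := isTrue a) (by
      simp [isTrue, hs, bits, List.replicate_succ, sb]) h1 h2
    refine conv h3 rfl ?_ (by omega)
    funext k
    simp only [Function.update_apply, List.replicate_succ']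
    split_ifs <;> simp_all

theorem runs_incP {a b : ι} (hab : a ≠ b) (s : Store ι (SSym E)) {S v : ℕ}
    (hv : v + 1 < 2 ^ S) (ha : s a = bits (bitsOf S v)) (hb : s b = []) :
    Runs (incP a b) s (Function.update s a (bits (bitsOf S (v + 1)))) (6 * S + 6) := by
  obtain ⟨j, l', hl⟩ := exists_decomp (bitsOf S v) (by
    rw [natOf_bitsOf_of_lt (by omega), length_bitsOf]; exact hv)
  have hlen : j + (l'.length + 1) = S := by
    have := congrArg List.length hl
    simpa using this.symm
  have hinc : bitsOf S (v + 1) = List.replicate j false ++ true :: l' := by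
    apply natOf_inj
    · simp; omega
    · rw [natOf_inc, ← hl, natOf_bitsOf_of_lt hv, natOf_bitsOf_of_lt (by omega)]
  have r1 := runs_incLoop hab l' j s (by rw [ha, hl])
  have r2 : Runs (Prog.pop a) (Function.update (Function.update s a (bits (false :: l'))) b
        (List.replicate j (sb false) ++ s b)) (Function.update (Function.update s a (bits l')) b
        (List.replicate j (sb false))) 1 := by
    refine (Runs.pop a _).of_eq ?_
    funext k
    simp only [Function.update_apply]
    split_ifs <;> simp_all [bits]
  have r3 : Runs (Prog.push a (sb true)) (Function.update (Function.update s a (bits l')) b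
        (List.replicate j (sb false))) (Function.update (Function.update s a
        (bits (true :: l'))) b (List.replicate j (sb false))) 1 := by
    refine (Runs.push a _ _).of_eq ?_
    funext k
    simp only [Function.update_apply]
    split_ifs <;> simp_all [bits]
  have r4 := Runs.rev (i := b) (j := a) (Ne.symm hab) (Function.update (Function.update s a
        (bits (true :: l'))) b (List.replicate j (sb false)))
  refine conv (r1.seq (r2.seq (r3.seq r4))) rfl ?_ ?_
  · rw [hinc]
    funext k
    simp only [Function.update_apply]
    split_ifs <;> simp_all [bits]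
  · rw [Function.update_self, List.length_replicate]
    omega

/-! ### The prime in binary -/

/-- Put `r + 1` in binary on `u1`. -/
def binP : Prog Q (SSym E) :=
  (Prog.fill Q.s (sb false) Q.u1 Q.b).seq ((Prog.copyOnto Q.r Q.c Q.b).seq
    ((Prog.push Q.c mk).seq
      (Prog.loop (nonempty Q.c) ((Prog.pop Q.c).seq (incP Q.u1 Q.b)))))

theorem runs_binP (v : V E) {r S : ℕ} (hr : v.r = una r) (hs : v.s = una S)
    (hb : v.b = []) (hc : v.c = []) (hu : v.u1 = []) (hS : r + 1 < 2 ^ S) :
    Runs binP v.st ({ v with u1 := bits (bitsOf S (r + 1)) } : V E).st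
      (40 * ((r + 1) * (S + 1))) := by
  have r1 : Runs (Prog.fill Q.s (sb false) Q.u1 Q.b) v.st
      ({ v with u1 := bits (bitsOf S 0) } : V E).st (8 * S + 1) := by
    refine conv (Runs.fill (u := Q.s) (b := Q.u1) (t := Q.b) (by decide) (by decide)
      (by decide) (sb false) mk v.st S hs hb) rfl ?_ le_rfl
    funext q; cases q <;> simp [V.st, hu, bitsOf_zero, bits]
  have r2 : Runs (Prog.copyOnto Q.r Q.c Q.b) ({ v with u1 := bits (bitsOf S 0) } : V E).st
      ({ v with u1 := bits (bitsOf S 0), c := una r } : V E).st (6 * r + 1) := by
    refine conv (Runs.copyOnto (a := Q.r) (b := Q.c) (t := Q.b) (by decide) (by decide)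
      (by decide) _ hb) rfl ?_ ?_
    · funext q; cases q <;> simp [V.st, hc, hr]
    · show 6 * (v.r).length + 1 ≤ _
      rw [hr, length_una]
  have r3 : Runs (Prog.push Q.c mk) ({ v with u1 := bits (bitsOf S 0), c := una r } : V E).st
      ({ v with u1 := bits (bitsOf S 0), c := una (r + 1) } : V E).st 1 :=
    (Runs.push Q.c mk _).of_eq (by
      funext p; cases p <;> simp [V.st, una_succ])
  have r4 := Runs.loop_iter_le (c := nonempty Q.c)
    (p := (Prog.pop Q.c).seq (incP Q.u1 Q.b)) (r + 1)
    (fun k => ({ v with u1 := bits (bitsOf S k), c := una (r + 1 - k) } : V E).st)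
    (1 + 1 + (6 * S + 6))
    (by
      intro k hk
      rw [nonempty_tops]
      show (!(una (r + 1 - k) : List (SSym E)).isEmpty) = true
      rw [una_isEmpty]; simp; omega)
    (by
      rw [nonempty_tops]
      show (!(una (r + 1 - (r + 1)) : List (SSym E)).isEmpty) = false
      rw [una_isEmpty]; simp)
    (by
      intro k hk
      have s1 : Runs (Prog.pop Q.c)
          ({ v with u1 := bits (bitsOf S k), c := una (r + 1 - k) } : V E).st
          ({ v with u1 := bits (bitsOf S k), c := una (r + 1 - (k + 1)) } : V E).st 1 :=
        (Runs.pop Q.c _).of_eq (by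
          obtain ⟨j, hj⟩ : ∃ j, r + 1 - k = j + 1 := ⟨r + 1 - k - 1, by omega⟩
          have hj' : r + 1 - (k + 1) = j := by omega
          funext p; cases p <;> simp [V.st, hj, hj', una_succ])
      have s2 := runs_incP (a := Q.u1) (b := Q.b) (by decide)
        ({ v with u1 := bits (bitsOf S k), c := una (r + 1 - (k + 1)) } : V E).st
        (S := S) (v := k) (by omega) rfl hb
      refine conv (s1.seq s2) rfl ?_ le_rfl
      funext p; cases p <;> simp [V.st])
  refine conv (r1.seq (r2.seq (r3.seq r4))) rfl ?_ ?_
  · funext p; cases p <;> simp [V.st, hc, una]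
  · nlinarith

/-! ### Division of `2 ^ S` by the prime -/

/-- Doubling: for every mark of `a` two marks are put on `d` and on `e`. -/
def dbl : Prog Q (SSym E) :=
  Prog.loop (nonempty Q.a) ((Prog.pop Q.a).seq ((Prog.push Q.d mk).seq
    ((Prog.push Q.d mk).seq ((Prog.push Q.e mk).seq (Prog.push Q.e mk)))))

theorem runs_dbl (v : V E) {n : ℕ} (ha : v.a = una n) (hd : v.d = []) (he : v.e = []) :
    Runs dbl v.st ({ v with a := [], d := una (2 * n), e := una (2 * n) } : V E).st
      (11 * n) := by
  have h := Runs.loop_iter_le (c := nonempty Q.a)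
    (p := (Prog.pop Q.a).seq ((Prog.push Q.d mk).seq
    ((Prog.push Q.d mk).seq ((Prog.push Q.e mk).seq (Prog.push Q.e mk))))) n
    (fun k => ({ v with a := una (n - k), d := una (2 * k), e := una (2 * k) } : V E).st) 9
    (by
      intro k hk
      rw [nonempty_tops]
      show (!(una (n - k) : List (SSym E)).isEmpty) = true
      rw [una_isEmpty]; simp; omega)
    (by
      rw [nonempty_tops]
      show (!(una (n - n) : List (SSym E)).isEmpty) = false
      rw [una_isEmpty]; simp)
    (by
      intro k hk
      obtain ⟨j, hj⟩ : ∃ j, n - k = j + 1 := ⟨n - k - 1, by omega⟩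
      have hj' : n - (k + 1) = j := by omega
      have s1 : Runs (Prog.pop Q.a)
          ({ v with a := una (n - k), d := una (2 * k), e := una (2 * k) } : V E).st
          ({ v with a := una (n - (k + 1)), d := una (2 * k), e := una (2 * k) } : V E).st 1 :=
        (Runs.pop Q.a _).of_eq (by
          funext p; cases p <;> simp [V.st, hj, hj', una_succ])
      have s2 := Runs.push Q.d mk
        ({ v with a := una (n - (k + 1)), d := una (2 * k), e := una (2 * k) } : V E).st
      have s3 := Runs.push Q.d mk
        ({ v with a := una (n - (k + 1)), d := una (2 * k + 1), e := una (2 * k) } : V E).st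
      have s4 := Runs.push Q.e mk
        ({ v with a := una (n - (k + 1)), d := una (2 * k + 2), e := una (2 * k) } : V E).st
      have s5 := Runs.push Q.e mk
        ({ v with
            a := una (n - (k + 1))
            d := una (2 * k + 2)
            e := una (2 * k + 1) } : V E).st
      refine conv (s1.seq ((s2.of_eq
        (s'' := ({ v with
            a := una (n - (k + 1))
            d := una (2 * k + 1)
            e := una (2 * k) } : V E).st) ?_).seq ((s3.of_eq
        (s'' := ({ v with
            a := una (n - (k + 1))
            d := una (2 * k + 2)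
            e := una (2 * k) } : V E).st) ?_).seq ((s4.of_eq
        (s'' := ({ v with
            a := una (n - (k + 1))
            d := una (2 * k + 2)
            e := una (2 * k + 1) } : V E).st) ?_).seq s5)))) rfl ?_ (by omega)
      · funext p; cases p <;> simp [V.st, una_succ]
      · funext p; cases p <;> simp [V.st, una_succ]
      · funext p; cases p <;> simp [V.st, una_succ]
      · rw [show 2 * (k + 1) = 2 * k + 2 by ring]
        funext p; cases p <;> simp [V.st, una_succ])
  refine conv h ?_ ?_ (by omega)
  · funext q; cases q <;> simp [V.st, ha, hd, he, una]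
  · simp [una]

/-- One step of the long division. -/
def divStep : Prog Q (SSym E) :=
  dbl.seq ((Prog.copyOnto Q.r Q.f Q.b).seq ((Prog.push Q.f mk).seq ((Prog.subtr Q.d Q.f).seq
    (Prog.ite (nonempty Q.f)
      ((Prog.push Q.u2 (sb false)).seq ((Prog.clear Q.f).seq (Prog.rev Q.e Q.a)))
      ((Prog.push Q.u2 (sb true)).seq ((Prog.clear Q.e).seq (Prog.rev Q.d Q.a)))))))

theorem runs_divStep (v : V E) {r m : ℕ} (hm : m < r + 1) (hr : v.r = una r)
    (ha : v.a = una m) (hb : v.b = []) (hd : v.d = []) (he : v.e = []) (hf : v.f = []) :
    Runs divStep v.st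
      ({ v with
          a := una (if 2 * m < r + 1 then 2 * m else 2 * m - (r + 1))
          u2 := sb (decide (¬ 2 * m < r + 1)) :: v.u2 } : V E).st (60 * (r + 1)) := by
  have r1 := runs_dbl v ha hd he
  have r2 : Runs (Prog.copyOnto Q.r Q.f Q.b)
      ({ v with a := [], d := una (2 * m), e := una (2 * m) } : V E).st
      ({ v with a := [], d := una (2 * m), e := una (2 * m), f := una r } : V E).st
      (6 * r + 1) := by
    refine conv (Runs.copyOnto (a := Q.r) (b := Q.f) (t := Q.b) (by decide) (by decide)
      (by decide) _ hb) rfl ?_ ?_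
    · funext q; cases q <;> simp [V.st, hf, hr]
    · show 6 * (v.r).length + 1 ≤ _
      rw [hr, length_una]
  have r3 : Runs (Prog.push Q.f mk)
      ({ v with a := [], d := una (2 * m), e := una (2 * m), f := una r } : V E).st
      ({ v with a := [], d := una (2 * m), e := una (2 * m), f := una (r + 1) } : V E).st 1 :=
    (Runs.push Q.f mk _).of_eq (by funext p; cases p <;> simp [V.st, una_succ])
  have r4 : Runs (Prog.subtr Q.d Q.f)
      ({ v with a := [], d := una (2 * m), e := una (2 * m), f := una (r + 1) } : V E).st
      ({ v with
          a := []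
          d := una (2 * m - (r + 1))
          e := una (2 * m)
          f := una (r + 1 - 2 * m) } : V E).st (3 * (r + 1)) := by
    refine conv (Runs.subtr (u := Q.d) (v := Q.f) (by decide) _) rfl ?_ ?_
    · funext p; cases p <;> simp [V.st, una_drop]
    · show 3 * min (una (2 * m) : List (SSym E)).length
        (una (r + 1) : List (SSym E)).length ≤ _
      rw [length_una, length_una]
      omega
  by_cases h : 2 * m < r + 1
  · have s1 := Runs.push Q.u2 (sb false)
      ({ v with
          a := []
          d := una (2 * m - (r + 1))
          e := una (2 * m)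
          f := una (r + 1 - 2 * m) } : V E).st
    have s2 := Runs.clear Q.f
      ({ v with
          a := []
          d := una (2 * m - (r + 1))
          e := una (2 * m)
          f := una (r + 1 - 2 * m)
          u2 := sb false :: v.u2 } : V E).st
    have s3 := Runs.rev (i := Q.e) (j := Q.a) (by decide)
      ({ v with
          a := []
          d := una (2 * m - (r + 1))
          e := una (2 * m)
          f := []
          u2 := sb false :: v.u2 } : V E).st
    have r5 := Runs.iteT (c := nonempty Q.f)
      (q := (Prog.push Q.u2 (sb true)).seq ((Prog.clear Q.e).seq (Prog.rev Q.d Q.a)))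
      (by
        rw [nonempty_tops]
        show (!(una (r + 1 - 2 * m) : List (SSym E)).isEmpty) = true
        rw [una_isEmpty]; simp; omega)
      ((s1.of_eq (s'' := ({ v with
          a := []
          d := una (2 * m - (r + 1))
          e := una (2 * m)
          f := una (r + 1 - 2 * m)
          u2 := sb false :: v.u2 } : V E).st) (by
            funext p; cases p <;> simp [V.st])).seq
        ((s2.of_eq (s'' := ({ v with
          a := []
          d := una (2 * m - (r + 1))
          e := una (2 * m)
          f := []
          u2 := sb false :: v.u2 } : V E).st) (by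
            funext p; cases p <;> simp [V.st])).seq s3))
    refine conv (r1.seq (r2.seq (r3.seq (r4.seq r5)))) rfl ?_ ?_
    · have h0 : 2 * m - (r + 1) = 0 := by omega
      have h' : decide (¬ 2 * m < r + 1) = false := by simp [h]
      rw [if_pos h, h', h0]
      funext p; cases p <;> simp [V.st, una_rev, hd, he, hf, una]
    · show 11 * m + 1 + (6 * r + 1 + 1 + (1 + 1 + (3 * (r + 1) + 1 + (1 + (1 + 1 +
        (3 * (una (r + 1 - 2 * m) : List (SSym E)).length + 1 +
          3 * (una (2 * m) : List (SSym E)).length)))))) ≤ _
      rw [length_una, length_una]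
      omega
  · have s1 := Runs.push Q.u2 (sb true)
      ({ v with
          a := []
          d := una (2 * m - (r + 1))
          e := una (2 * m)
          f := una (r + 1 - 2 * m) } : V E).st
    have s2 := Runs.clear Q.e
      ({ v with
          a := []
          d := una (2 * m - (r + 1))
          e := una (2 * m)
          f := una (r + 1 - 2 * m)
          u2 := sb true :: v.u2 } : V E).st
    have s3 := Runs.rev (i := Q.d) (j := Q.a) (by decide)
      ({ v with
          a := []
          d := una (2 * m - (r + 1))
          e := []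
          f := una (r + 1 - 2 * m)
          u2 := sb true :: v.u2 } : V E).st
    have r5 := Runs.iteF (c := nonempty Q.f)
      (p := (Prog.push Q.u2 (sb false)).seq ((Prog.clear Q.f).seq (Prog.rev Q.e Q.a)))
      (by
        rw [nonempty_tops]
        show (!(una (r + 1 - 2 * m) : List (SSym E)).isEmpty) = false
        rw [una_isEmpty]; simp; omega)
      ((s1.of_eq (s'' := ({ v with
          a := []
          d := una (2 * m - (r + 1))
          e := una (2 * m)
          f := una (r + 1 - 2 * m)
          u2 := sb true :: v.u2 } : V E).st) (by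
            funext p; cases p <;> simp [V.st])).seq
        ((s2.of_eq (s'' := ({ v with
          a := []
          d := una (2 * m - (r + 1))
          e := []
          f := una (r + 1 - 2 * m)
          u2 := sb true :: v.u2 } : V E).st) (by
            funext p; cases p <;> simp [V.st])).seq s3))
    refine conv (r1.seq (r2.seq (r3.seq (r4.seq r5)))) rfl ?_ ?_
    · have h0 : r + 1 - 2 * m = 0 := by omega
      have h' : decide (¬ 2 * m < r + 1) = true := by simp; omega
      rw [if_neg h, h', h0]
      funext p; cases p <;> simp [V.st, una_rev, hd, he, hf, una]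
    · show 11 * m + 1 + (6 * r + 1 + 1 + (1 + 1 + (3 * (r + 1) + 1 + (1 + (1 + 1 +
        (3 * (una (2 * m) : List (SSym E)).length + 1 +
          3 * (una (2 * m - (r + 1)) : List (SSym E)).length)))))) ≤ _
      rw [length_una, length_una]
      omega

theorem divStep_eq {P k : ℕ} (hP : 0 < P) :
    2 ^ (k + 1) % P = (if 2 * (2 ^ k % P) < P then 2 * (2 ^ k % P) else
      2 * (2 ^ k % P) - P) ∧
    bitsOf (k + 1) (2 ^ (k + 1) / P) =
      decide (¬ 2 * (2 ^ k % P) < P) :: bitsOf k (2 ^ k / P) := by
  obtain ⟨m, hm⟩ : ∃ m, m = 2 ^ k % P := ⟨_, rfl⟩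
  obtain ⟨q, hq⟩ : ∃ q, q = 2 ^ k / P := ⟨_, rfl⟩
  have h1 : 2 ^ k = m + P * q := by rw [hm, hq]; exact (Nat.mod_add_div _ _).symm
  have hmP : m < P := by rw [hm]; exact Nat.mod_lt _ hP
  have h2 : 2 ^ (k + 1) = 2 * m + P * (2 * q) := by rw [pow_succ, h1]; ring
  rw [← hm, ← hq]
  by_cases h : 2 * m < P
  · have e1 : 2 ^ (k + 1) % P = 2 * m := by
      rw [h2, Nat.add_mul_mod_self_left, Nat.mod_eq_of_lt h]
    have e2 : 2 ^ (k + 1) / P = 2 * q := by
      rw [h2, Nat.add_mul_div_left _ _ hP, Nat.div_eq_of_lt h, Nat.zero_add]
    rw [if_pos h, e1, e2, bitsOf_succ]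
    refine ⟨rfl, ?_⟩
    congr 1
    · simp [h]
    · congr 1; omega
  · have h3 : 2 ^ (k + 1) = (2 * m - P) + P * (2 * q + 1) := by
      rw [h2]
      have : P * (2 * q + 1) = P * (2 * q) + P := by ring
      omega
    have e1 : 2 ^ (k + 1) % P = 2 * m - P := by
      rw [h3, Nat.add_mul_mod_self_left, Nat.mod_eq_of_lt (by omega)]
    have e2 : 2 ^ (k + 1) / P = 2 * q + 1 := by
      rw [h3, Nat.add_mul_div_left _ _ hP, Nat.div_eq_of_lt (by omega), Nat.zero_add]
    rw [if_neg h, e1, e2, bitsOf_succ]
    refine ⟨rfl, ?_⟩
    congr 1
    · have : (2 * q + 1) % 2 = 1 := by omega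
      simp [h, Nat.testBit_zero, this]
    · congr 1; omega

/-- Put `2 ^ S / (r + 1)` on `u2`. -/
def divP : Prog Q (SSym E) :=
  (Prog.push Q.a mk).seq ((Prog.copyOnto Q.s Q.c Q.b).seq
    ((Prog.loop (nonempty Q.c) ((Prog.pop Q.c).seq divStep)).seq (Prog.clear Q.a)))

theorem runs_divP (v : V E) {r S : ℕ} (h1 : 1 ≤ r) (hr : v.r = una r) (hs : v.s = una S)
    (ha : v.a = []) (hb : v.b = []) (hc : v.c = []) (hd : v.d = []) (he : v.e = [])
    (hf : v.f = []) (hu : v.u2 = []) :
    Runs divP v.st ({ v with u2 := bits (bitsOf S (2 ^ S / (r + 1))) } : V E).st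
      (100 * ((r + 1) * (S + 1))) := by
  have r1 : Runs (Prog.push Q.a mk) v.st ({ v with a := una 1 } : V E).st 1 :=
    (Runs.push Q.a mk _).of_eq (by funext p; cases p <;> simp [V.st, ha, una])
  have r2 : Runs (Prog.copyOnto Q.s Q.c Q.b) ({ v with a := una 1 } : V E).st
      ({ v with a := una 1, c := una S } : V E).st (6 * S + 1) := by
    refine conv (Runs.copyOnto (a := Q.s) (b := Q.c) (t := Q.b) (by decide) (by decide)
      (by decide) _ hb) rfl ?_ ?_
    · funext q; cases q <;> simp [V.st, hc, hs]
    · show 6 * (v.s).length + 1 ≤ _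
      rw [hs, length_una]
  have r3 := Runs.loop_iter_le (c := nonempty Q.c)
    (p := (Prog.pop Q.c).seq divStep) S
    (fun k => ({ v with
      a := una (2 ^ k % (r + 1))
      c := una (S - k)
      u2 := bits (bitsOf k (2 ^ k / (r + 1))) } : V E).st) (1 + 1 + 60 * (r + 1))
    (by
      intro k hk
      rw [nonempty_tops]
      show (!(una (S - k) : List (SSym E)).isEmpty) = true
      rw [una_isEmpty]; simp; omega)
    (by
      rw [nonempty_tops]
      show (!(una (S - S) : List (SSym E)).isEmpty) = false
      rw [una_isEmpty]; simp)
    (by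
      intro k hk
      obtain ⟨j, hj⟩ : ∃ j, S - k = j + 1 := ⟨S - k - 1, by omega⟩
      have hj' : S - (k + 1) = j := by omega
      have s1 : Runs (Prog.pop Q.c)
          ({ v with
            a := una (2 ^ k % (r + 1))
            c := una (S - k)
            u2 := bits (bitsOf k (2 ^ k / (r + 1))) } : V E).st
          ({ v with
            a := una (2 ^ k % (r + 1))
            c := una (S - (k + 1))
            u2 := bits (bitsOf k (2 ^ k / (r + 1))) } : V E).st 1 :=
        (Runs.pop Q.c _).of_eq (by
          funext p; cases p <;> simp [V.st, hj, hj', una_succ])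
      have s2 := runs_divStep
        ({ v with
            a := una (2 ^ k % (r + 1))
            c := una (S - (k + 1))
            u2 := bits (bitsOf k (2 ^ k / (r + 1))) } : V E) (r := r) (m := 2 ^ k % (r + 1))
        (Nat.mod_lt _ (by omega)) hr rfl hb hd he hf
      obtain ⟨e1, e2⟩ := divStep_eq (P := r + 1) (k := k) (by omega)
      refine conv (s1.seq s2) rfl ?_ le_rfl
      rw [e1, e2]
      rfl)
  have r4 := Runs.clear Q.a
    ({ v with
      a := una (2 ^ S % (r + 1))
      c := una (S - S)
      u2 := bits (bitsOf S (2 ^ S / (r + 1))) } : V E).st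
  refine conv (r1.seq ((r2.of_eq ?_).seq (r3.seq r4))) rfl ?_ ?_
  · have h2 : 2 ^ 0 % (r + 1) = 1 := by
      rw [pow_zero, Nat.mod_eq_of_lt (by omega)]
    rw [h2]
    funext p; cases p <;> simp [V.st, hu, bits]
  · funext p; cases p <;> simp [V.st, hc, ha, una]
  · show 1 + 1 + (6 * S + 1 + 1 + (S * (1 + 1 + 60 * (r + 1) + 2) + 1 +
      3 * (una (2 ^ S % (r + 1)) : List (SSym E)).length)) ≤ _
    rw [length_una]
    have : 2 ^ S % (r + 1) < r + 1 := Nat.mod_lt _ (by omega)
    nlinarith

end Vale.Agent.P338.Srch
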