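import Vale.Agent.P338.S2SearchB
import Vale.Agent.P338.S2Iface

/-!
# P338: the search for a primitive root
-/

namespace Vale.Agent.P338.Srch

open Vale.Agent.P338

variable {E : Type}

/-! ### Comparison with `1` -/

/-- One step of the comparison: a digit moves from `be` to `b`; if it is wrong a mark is put
on `g`. -/
def chkStep : Prog Q (SSym E) :=
  Prog.act fun tp l =>
    if l = Q.be then Op.pop
    else if l = Q.b then Op.push (sb (isTrue Q.be tp))
    else if l = Q.g then (if isTrue Q.be tp = (tp Q.b).isNone then Op.keep else Op.push mk)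
    else Op.keep

theorem runs_chkStep (v : V E) (c : Bool) (l : List Bool) (hv : v.be = bits (c :: l)) :
    Runs chkStep v.st
      ({ v with
          be := bits l
          b := sb c :: v.b
          g := if c = v.b.isEmpty then v.g else mk :: v.g } : V E).st 1 := by
  have e1 : isTrue Q.be (tops v.st) = c := by
    unfold isTrue
    have : tops v.st Q.be = some (sb c) := by
      show v.be.head? = _
      rw [hv]; rfl
    rw [this]
    cases c <;> rfl
  have e2 : (tops v.st Q.b).isNone = v.b.isEmpty := by
    show v.b.head?.isNone = _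
    cases v.b <;> rfl
  refine (Runs.act _ v.st).of_eq ?_
  funext q
  simp only [e1, e2]
  cases q <;> simp [V.st]
  · rw [hv]; rfl
  · split_ifs <;> rfl

theorem runs_chkTail (l : List Bool) : ∀ (v : V E) (y : SSym E) (Y : List (SSym E)) (n : ℕ),
    v.be = bits l → v.b = y :: Y → v.g = una n →
    Runs (Prog.loop (nonempty Q.be) chkStep) v.st
      ({ v with
          be := []
          b := (bits l).reverse ++ v.b
          g := una (n + l.count true) } : V E).st (3 * l.length) := by
  induction l with
  | nil =>
    intro v y Y n h1 h2 h3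
    refine (Runs.loopF ?_).of_eq ?_
    · rw [nonempty_tops]
      show (!v.be.isEmpty) = false
      rw [h1]; rfl
    · funext q; cases q <;> simp [V.st, h1, h3, bits]
  | cons c l ih =>
    intro v y Y n h1 h2 h3
    have r1 := runs_chkStep v c l h1
    have r2 := ih ({ v with
          be := bits l
          b := sb c :: v.b
          g := if c = v.b.isEmpty then v.g else mk :: v.g } : V E) (sb c) v.b
          (n + if c then 1 else 0) rfl rfl (by
            show (if c = v.b.isEmpty then v.g else mk :: v.g) = _
            rw [h2, h3]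
            cases c <;> rfl)
    have r3 := Runs.loopT (c := nonempty Q.be) (by
      rw [nonempty_tops]
      show (!v.be.isEmpty) = true
      rw [h1]; rfl) r1 r2
    refine conv r3 rfl ?_ ?_
    · funext q; cases q <;> simp [V.st, bits]
      cases c <;> simp [Nat.add_assoc, Nat.add_comm 1]
    · simp only [List.length_cons]; omega

/-- The number of wrong digits in the comparison with `1`. -/
def mis : List Bool → ℕ
  | [] => 0
  | c :: l => (if c then 0 else 1) + l.count true

theorem count_eq_zero_iff (l : List Bool) : l.count true = 0 ↔ natOf l = 0 := by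
  induction l with
  | nil => simp
  | cons c l ih =>
    rw [natOf_cons, List.count_cons]
    cases c
    · simp [ih]
    · simp

theorem mis_eq_zero {S w : ℕ} (hS : 1 ≤ S) (hw : w < 2 ^ S) :
    mis (bitsOf S w) = 0 ↔ w = 1 := by
  have h := natOf_bitsOf_of_lt hw
  obtain ⟨T, rfl⟩ := Nat.exists_eq_add_of_le hS
  rw [Nat.add_comm 1 T, bitsOf_succ] at *
  rw [natOf_cons] at h
  rw [mis]
  have h2 := count_eq_zero_iff (bitsOf T (w / 2))
  cases hc : w.testBit 0
  · rw [hc] at h
    simp only [Bool.toNat_false] at h
    simp
    omega
  · rw [hc] at h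
    simp only [Bool.toNat_true] at h
    simp only [if_true, Nat.zero_add]
    rw [h2]
    omega

theorem mis_le (l : List Bool) : mis l ≤ l.length := by
  cases l with
  | nil => simp [mis]
  | cons c l =>
    have := List.count_le_length (a := true) (l := l)
    rw [mis, List.length_cons]
    split_ifs <;> omega

/-- Push a mark on `f` if the number on `be` is `1`. -/
def chk : Prog Q (SSym E) :=
  (Prog.loop (nonempty Q.be) chkStep).seq ((Prog.rev Q.b Q.be).seq
    (Prog.ite (nonempty Q.g) (Prog.clear Q.g) (Prog.push Q.f mk)))

theorem runs_chkLoop (v : V E) {S w : ℕ} (hS : 1 ≤ S)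
    (hbe : v.be = bits (bitsOf S w)) (hb : v.b = []) (hg : v.g = []) :
    Runs (Prog.loop (nonempty Q.be) chkStep) v.st
      ({ v with
          be := []
          b := (bits (bitsOf S w)).reverse
          g := una (mis (bitsOf S w)) } : V E).st (3 * S) := by
  obtain ⟨T, rfl⟩ := Nat.exists_eq_add_of_le hS
  rw [Nat.add_comm 1 T, bitsOf_succ] at *
  have r1 := runs_chkStep v (w.testBit 0) (bitsOf T (w / 2)) hbe
  have r2 := runs_chkTail (bitsOf T (w / 2))
    ({ v with
          be := bits (bitsOf T (w / 2))
          b := sb (w.testBit 0) :: v.b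
          g := if w.testBit 0 = v.b.isEmpty then v.g else mk :: v.g } : V E)
          (sb (w.testBit 0)) v.b (if w.testBit 0 then 0 else 1) rfl rfl (by
            show (if w.testBit 0 = v.b.isEmpty then v.g else mk :: v.g) = _
            rw [hb, hg]
            cases w.testBit 0 <;> rfl)
  have r3 := Runs.loopT (c := nonempty Q.be) (by
      rw [nonempty_tops]
      show (!v.be.isEmpty) = true
      rw [hbe]; rfl) r1 r2
  refine conv r3 rfl ?_ ?_
  · rw [mis]
    funext q; cases q <;> simp [V.st, bits, hb]
  · rw [length_bitsOf]; omega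

theorem runs_chk (v : V E) {S w : ℕ} (hS : 1 ≤ S) (hw : w < 2 ^ S)
    (hbe : v.be = bits (bitsOf S w)) (hb : v.b = []) (hg : v.g = []) :
    Runs chk v.st ({ v with f := if w = 1 then mk :: v.f else v.f } : V E).st
      (10 * S + 5) := by
  have r1 := runs_chkLoop v hS hbe hb hg
  have r2 := Runs.rev (i := Q.b) (j := Q.be) (by decide)
    ({ v with
          be := []
          b := (bits (bitsOf S w)).reverse
          g := una (mis (bitsOf S w)) } : V E).st
  have r2' : Runs (Prog.rev Q.b Q.be)
      ({ v with
          be := []
          b := (bits (bitsOf S w)).reverse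
          g := una (mis (bitsOf S w)) } : V E).st
      ({ v with g := una (mis (bitsOf S w)) } : V E).st (3 * S) := by
    refine conv r2 rfl ?_ ?_
    · funext q; cases q <;> simp [V.st, hbe, hb]
    · show 3 * ((bits (bitsOf S w)).reverse : List (SSym E)).length ≤ _
      simp
  have hm := mis_eq_zero hS hw
  have hl := mis_le (bitsOf S w)
  rw [length_bitsOf] at hl
  by_cases h : w = 1
  · have r3 := Runs.iteF (c := nonempty Q.g) (p := Prog.clear Q.g) (by
      rw [nonempty_tops]
      show (!(una (mis (bitsOf S w)) : List (SSym E)).isEmpty) = false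
      rw [una_isEmpty, hm.2 h]; rfl)
      (Runs.push Q.f mk ({ v with g := una (mis (bitsOf S w)) } : V E).st)
    refine conv (r1.seq (r2'.seq r3)) rfl ?_ (by omega)
    rw [hm.2 h, if_pos h]
    funext q; cases q <;> simp [V.st, hg, una]
  · have r3 := Runs.iteT (c := nonempty Q.g) (q := Prog.push Q.f mk) (by
      rw [nonempty_tops]
      show (!(una (mis (bitsOf S w)) : List (SSym E)).isEmpty) = true
      rw [una_isEmpty]
      simp only [Bool.not_eq_true', decide_eq_false_iff_not]
      exact fun h' => h (hm.1 h'))
      (Runs.clear Q.g ({ v with g := una (mis (bitsOf S w)) } : V E).st)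
    refine conv (r1.seq (r2'.seq r3)) rfl ?_ ?_
    · rw [if_neg h]
      funext q; cases q <;> simp [V.st, hg]
    · show 3 * S + 1 + (3 * S + 1 +
        (1 + 3 * (una (mis (bitsOf S w)) : List (SSym E)).length)) ≤ _
      rw [length_una]
      omega

/-! ### The number `1` -/

/-- Put the number `1` on `a`. -/
def setOne (a : Q) : Prog Q (SSym E) :=
  (Prog.fill Q.s (sb false) a Q.b).seq ((Prog.pop a).seq (Prog.push a (sb true)))

theorem bitsOf_one {S : ℕ} (hS : 1 ≤ S) :
    bitsOf S 1 = true :: List.replicate (S - 1) false := by
  obtain ⟨T, rfl⟩ := Nat.exists_eq_add_of_le hS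
  rw [Nat.add_comm 1 T, bitsOf_succ]
  simp [bitsOf_zero]

theorem runs_setOne {a : Q} (h1 : Q.s ≠ a) (h2 : a ≠ Q.b) (s : Store Q (SSym E)) {S : ℕ}
    (hS : 1 ≤ S) (hs : s Q.s = una S) (hb : s Q.b = []) (ha : s a = []) :
    Runs (setOne a) s (Function.update s a (bits (bitsOf S 1))) (8 * S + 5) := by
  have r1 := Runs.fill (u := Q.s) (b := a) (t := Q.b) h1 (by decide) h2 (sb false) mk s S
    (by simpa [una] using hs) hb
  have r2 := Runs.pop a (Function.update s a (List.replicate S (sb false) ++ s a))
  have r3 := Runs.push a (sb true) (Function.update (Function.update s a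
    (List.replicate S (sb false) ++ s a)) a ((Function.update s a
    (List.replicate S (sb false) ++ s a)) a).tail)
  refine conv (r1.seq (r2.seq r3)) rfl ?_ (by omega)
  rw [bitsOf_one hS]
  obtain ⟨T, rfl⟩ := Nat.exists_eq_add_of_le hS
  simp [ha, bits, Nat.add_comm 1 T, List.replicate_succ]

end Vale.Agent.P338.Srch
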