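import Vale.Agent.P338.Lib
import Vale.Agent.P338.Nums
import Vale.Agent.P338.Defs

/-!
# P338: subtraction of binary numbers on stacks, and Barrett reduction
-/

namespace Vale.Agent.P338.S2

/-! ### Arithmetic -/

/-- Barrett reduction. -/
theorem barrett {P E v : ℕ} (hP : 0 < P) (hv : v < 2 ^ E) :
    v * (2 ^ E / P) / 2 ^ E * P ≤ v ∧ v < v * (2 ^ E / P) / 2 ^ E * P + 2 * P := by
  obtain ⟨μ, hμ⟩ : ∃ μ, μ = 2 ^ E / P := ⟨_, rfl⟩
  obtain ⟨q, hq⟩ : ∃ q, q = v * μ / 2 ^ E := ⟨_, rfl⟩
  rw [← hμ, ← hq]
  have hE : 0 < 2 ^ E := by positivity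
  have h1 : μ * P ≤ 2 ^ E := by rw [hμ]; exact Nat.div_mul_le_self _ _
  have h2 : 2 ^ E < (μ + 1) * P := by
    rw [hμ]
    have := Nat.lt_div_mul_add (a := 2 ^ E) hP
    linarith
  have h3 : q * 2 ^ E ≤ v * μ := by rw [hq]; exact Nat.div_mul_le_self _ _
  have h4 : v * μ < (q + 1) * 2 ^ E := by
    rw [hq]
    have := Nat.lt_div_mul_add (a := v * μ) hE
    linarith
  constructor
  · have h5 : q * P * 2 ^ E ≤ v * 2 ^ E := by
      calc q * P * 2 ^ E = q * 2 ^ E * P := by ring
        _ ≤ v * μ * P := Nat.mul_le_mul_right _ h3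
        _ = v * (μ * P) := by ring
        _ ≤ v * 2 ^ E := Nat.mul_le_mul_left _ h1
    exact Nat.le_of_mul_le_mul_right h5 hE
  · have h6 : v * 2 ^ E ≤ v * μ * P + v * P := by
      calc v * 2 ^ E ≤ v * ((μ + 1) * P) := Nat.mul_le_mul_left _ h2.le
        _ = v * μ * P + v * P := by ring
    have h7 : v * μ * P + P ≤ (q + 1) * 2 ^ E * P := by
      calc v * μ * P + P = (v * μ + 1) * P := by ring
        _ ≤ (q + 1) * 2 ^ E * P := Nat.mul_le_mul_right _ h4
    have h8 : v * P ≤ 2 ^ E * P := Nat.mul_le_mul_right _ hv.le
    have h9 : v * 2 ^ E < (q * P + 2 * P) * 2 ^ E := by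
      calc v * 2 ^ E < v * 2 ^ E + P := by omega
        _ ≤ v * μ * P + v * P + P := by omega
        _ ≤ (q + 1) * 2 ^ E * P + 2 ^ E * P := by omega
        _ = (q * P + 2 * P) * 2 ^ E := by ring
    exact Nat.lt_of_mul_lt_mul_right h9

/-- Barrett reduction, with one conditional subtraction. -/
theorem barrett_mod {P E v : ℕ} (hP : 0 < P) (hv : v < 2 ^ E) :
    (if v - v * (2 ^ E / P) / 2 ^ E * P < P then v - v * (2 ^ E / P) / 2 ^ E * P
      else v - v * (2 ^ E / P) / 2 ^ E * P - P) = v % P := by
  obtain ⟨h1, h2⟩ := barrett hP hv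
  obtain ⟨q, hq⟩ : ∃ q, q = v * (2 ^ E / P) / 2 ^ E := ⟨_, rfl⟩
  rw [← hq] at h1 h2 ⊢
  have hv' : v = v - q * P + P * q := by rw [Nat.mul_comm P q]; omega
  split
  · next h =>
    conv_rhs => rw [hv', Nat.add_mul_mod_self_left]
    rw [Nat.mod_eq_of_lt h]
  · next h =>
    have hv2 : v = v - q * P - P + P * (q + 1) := by
      have : P * (q + 1) = q * P + P := by ring
      omega
    conv_rhs => rw [hv2, Nat.add_mul_mod_self_left]
    rw [Nat.mod_eq_of_lt (by omega)]

/-! ### Subtraction of bit lists -/

/-- The borrow in one column. -/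
def brw (x y b : Bool) : Bool := (!x && (y || b)) || (y && b)

/-- The difference of two little-endian bit lists, for a given borrow. -/
def subL : List Bool → List Bool → Bool → List Bool
  | x :: xs, y :: ys, b => (x ^^ (y ^^ b)) :: subL xs ys (brw x y b)
  | _, _, _ => []

/-- The final borrow. -/
def subB : List Bool → List Bool → Bool → Bool
  | x :: xs, y :: ys, b => subB xs ys (brw x y b)
  | _, _, b => b

theorem length_subL (xs : List Bool) : ∀ (ys : List Bool) (b : Bool),
    xs.length = ys.length → (subL xs ys b).length = xs.length := by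
  induction xs with
  | nil => intro ys b _; cases ys <;> rfl
  | cons x xs ih =>
    intro ys b h
    cases ys with
    | nil => simp at h
    | cons y ys =>
      simp only [subL, List.length_cons]
      rw [ih ys _ (by simpa using h)]

theorem natOf_subL (xs : List Bool) : ∀ (ys : List Bool) (b : Bool), xs.length = ys.length →
    natOf (subL xs ys b) + natOf ys + b.toNat =
      natOf xs + 2 ^ xs.length * (subB xs ys b).toNat := by
  induction xs with
  | nil =>
    intro ys b h
    cases ys with
    | nil => simp [subL, subB]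
    | cons y ys => simp at h
  | cons x xs ih =>
    intro ys b h
    cases ys with
    | nil => simp at h
    | cons y ys =>
      have h1 := ih ys (brw x y b) (by simpa using h)
      simp only [subL, subB, natOf_cons, List.length_cons, pow_succ]
      have h2 : (x ^^ (y ^^ b)).toNat + y.toNat + b.toNat =
          x.toNat + 2 * (brw x y b).toNat := by
        cases x <;> cases y <;> cases b <;> rfl
      have h3 : 2 ^ xs.length * 2 * (subB xs ys (brw x y b)).toNat =
          2 * (2 ^ xs.length * (subB xs ys (brw x y b)).toNat) := by ring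
      omega

/-- Subtraction of numbers, with a borrow if the result would be negative. -/
theorem subB_eq {m x y : ℕ} (hx : x < 2 ^ m) (hy : y < 2 ^ m) :
    subB (bitsOf m x) (bitsOf m y) false = decide (x < y) := by
  have h := natOf_subL (bitsOf m x) (bitsOf m y) false (by simp)
  have h1 := natOf_lt (subL (bitsOf m x) (bitsOf m y) false)
  rw [length_subL _ _ _ (by simp)] at h1
  rw [natOf_bitsOf_of_lt hx, natOf_bitsOf_of_lt hy] at h
  simp only [length_bitsOf] at h h1
  cases hb : subB (bitsOf m x) (bitsOf m y) false with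
  | false =>
    rw [hb] at h
    simp only [Bool.toNat_false] at h
    symm
    rw [decide_eq_false_iff_not]
    omega
  | true =>
    rw [hb] at h
    simp only [Bool.toNat_false, Bool.toNat_true] at h
    symm
    rw [decide_eq_true_iff]
    omega

theorem subL_eq {m x y : ℕ} (hx : x < 2 ^ m) (hyx : y ≤ x) :
    subL (bitsOf m x) (bitsOf m y) false = bitsOf m (x - y) := by
  have hy : y < 2 ^ m := by omega
  have h := natOf_subL (bitsOf m x) (bitsOf m y) false (by simp)
  rw [natOf_bitsOf_of_lt hx, natOf_bitsOf_of_lt hy, subB_eq hx hy] at h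
  have h2 : decide (x < y) = false := by rw [decide_eq_false_iff_not]; omega
  rw [h2] at h
  simp only [Bool.toNat_false] at h
  apply natOf_inj
  · rw [length_subL _ _ _ (by simp)]; simp
  · rw [natOf_bitsOf_of_lt (by omega)]
    omega

/-! ### Programs -/

variable {E ι : Type}

/-- The bit in a cell (`false` for other symbols and for an empty stack). -/
def tb : Option (SSym E) → Bool
  | some (Sum.inl (Base.bit b)) => b
  | _ => false

@[simp] theorem tb_sb (b : Bool) : tb (some (sb b : SSym E)) = b := rfl

/-- The borrow as a stack: a mark if there is a borrow. -/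
def flg (b : Bool) : List (SSym E) := if b then [mk] else []

@[simp] theorem flg_false : (flg false : List (SSym E)) = [] := rfl

@[simp] theorem flg_true : (flg true : List (SSym E)) = [mk] := rfl

variable [DecidableEq ι]

/-- One column of the subtraction `X - Y`: the digits of `X`, `Y` and of the difference go to
`X'`, `Y'` and `D`, the borrow is on `B`. -/
def subStep (X Y X' Y' D B : ι) : Prog ι (SSym E) :=
  Prog.act fun tp l =>
    if l = X then Op.pop
    else if l = Y then Op.pop
    else if l = X' then Op.push (sb (tb (tp X)))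
    else if l = Y' then Op.push (sb (tb (tp Y)))
    else if l = D then Op.push (sb (tb (tp X) ^^ (tb (tp Y) ^^ (tp B).isSome)))
    else if l = B then
      (if brw (tb (tp X)) (tb (tp Y)) (tp B).isSome then
        (if (tp B).isSome then Op.keep else Op.push mk)
      else (if (tp B).isSome then Op.pop else Op.keep))
    else Op.keep

/-- The store with new contents of six stacks. -/
def st6 (s : Store ι (SSym E)) (X Y X' Y' D B : ι) (x y x' y' d b : List (SSym E)) :
    Store ι (SSym E) := fun i =>
  if i = X then x else if i = Y then y else if i = X' then x' else if i = Y' then y'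
  else if i = D then d else if i = B then b else s i

theorem runs_subStep {X Y X' Y' D B : ι} (h : [X, Y, X', Y', D, B].Nodup)
    (s : Store ι (SSym E)) (x y b : Bool) (xs ys x' y' d : List (SSym E)) :
    Runs (subStep X Y X' Y' D B)
      (st6 s X Y X' Y' D B (sb x :: xs) (sb y :: ys) x' y' d (flg b))
      (st6 s X Y X' Y' D B xs ys (sb x :: x') (sb y :: y') (sb (x ^^ (y ^^ b)) :: d)
        (flg (brw x y b))) 1 := by
  refine (Runs.act _ _).of_eq ?_
  simp only [List.nodup_cons, List.mem_cons, List.not_mem_nil, or_false, not_or,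
    List.nodup_nil, and_true] at h
  obtain ⟨⟨h1, h2, h3, h4, h5⟩, ⟨h6, h7, h8, h9⟩, ⟨h10, h11, h12⟩, ⟨h13, h14⟩, h15, -⟩ := h
  have eX : tops (st6 s X Y X' Y' D B (sb x :: xs) (sb y :: ys) x' y' d (flg b)) X =
      some (sb x) := by simp [st6]
  have eY : tops (st6 s X Y X' Y' D B (sb x :: xs) (sb y :: ys) x' y' d (flg b)) Y =
      some (sb y) := by simp [st6, Ne.symm h1]
  have eB : (tops (st6 s X Y X' Y' D B (sb x :: xs) (sb y :: ys) x' y' d (flg b)) B).isSome =
      b := by
    simp only [tops_apply, st6, Ne.symm h5, Ne.symm h9, Ne.symm h12, Ne.symm h14, Ne.symm h15,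
      if_false, if_true]
    cases b <;> rfl
  funext l
  simp only [eX, eY, eB, tb_sb]
  unfold st6
  by_cases q1 : l = X
  · subst q1; simp
  by_cases q2 : l = Y
  · subst q2; simp [q1]
  by_cases q3 : l = X'
  · subst q3; simp [q1, q2]
  by_cases q4 : l = Y'
  · subst q4; simp [q1, q2, q3]
  by_cases q5 : l = D
  · subst q5; simp [q1, q2, q3, q4]
  by_cases q6 : l = B
  · subst q6
    simp only [q1, q2, q3, q4, q5, if_false, if_true]
    cases brw x y b <;> cases b <;> rfl
  simp [q1, q2, q3, q4, q5, q6]

/-- The subtraction of two numbers of the same length. -/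
def subLoop (X Y X' Y' D B : ι) : Prog ι (SSym E) :=
  Prog.loop (nonempty X) (subStep X Y X' Y' D B)

theorem runs_subLoop {X Y X' Y' D B : ι} (h : [X, Y, X', Y', D, B].Nodup)
    (s : Store ι (SSym E)) (xs : List Bool) : ∀ (ys : List Bool) (b : Bool)
    (x' y' d : List (SSym E)), xs.length = ys.length →
    Runs (subLoop X Y X' Y' D B)
      (st6 s X Y X' Y' D B (bits xs) (bits ys) x' y' d (flg b))
      (st6 s X Y X' Y' D B [] [] (bits xs.reverse ++ x') (bits ys.reverse ++ y')
        (bits (subL xs ys b).reverse ++ d) (flg (subB xs ys b))) (3 * xs.length) := by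
  have eX : ∀ x y x' y' d b : List (SSym E), st6 s X Y X' Y' D B x y x' y' d b X = x := by
    intros; simp [st6]
  induction xs with
  | nil =>
    intro ys b x' y' d hl
    cases ys with
    | cons y ys => simp at hl
    | nil =>
      refine (Runs.loopF ?_).of_eq ?_
      · rw [nonempty_tops, eX]; rfl
      · rfl
  | cons x xs ih =>
    intro ys b x' y' d hl
    cases ys with
    | nil => simp at hl
    | cons y ys =>
      have h1 := runs_subStep h s x y b (bits xs) (bits ys) x' y' d
      have h2 := ih ys (brw x y b) (sb x :: x') (sb y :: y') (sb (x ^^ (y ^^ b)) :: d)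
        (by simpa using hl)
      have h3 := Runs.loopT (c := nonempty X) (p := subStep X Y X' Y' D B)
        (by rw [nonempty_tops, eX]; rfl) h1 h2
      refine (h3.mono ?_).of_eq ?_
      · simp only [List.length_cons]; omega
      · simp [subL, subB, bits]

/-- Conditional subtraction: subtract `Y` from `X` if `X ≥ Y`; otherwise only put a mark on
`B`. The stacks `X'`, `Y'`, `D` are scratch. -/
def condSub (X Y X' Y' D B : ι) : Prog ι (SSym E) :=
  (subLoop X Y X' Y' D B).seq ((Prog.rev Y' Y).seq
    (Prog.ite (nonempty B) ((Prog.rev X' X).seq (Prog.clear D))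
      ((Prog.rev D X).seq (Prog.clear X'))))

theorem runs_condSub {X Y X' Y' D B : ι} (h : [X, Y, X', Y', D, B].Nodup)
    (s : Store ι (SSym E)) {m x y : ℕ} (hx : x < 2 ^ m) (hy : y < 2 ^ m)
    (hX : s X = bits (bitsOf m x)) (hY : s Y = bits (bitsOf m y)) (hX' : s X' = [])
    (hY' : s Y' = []) (hD : s D = []) (hB : s B = []) :
    Runs (condSub X Y X' Y' D B) s
      (Function.update (Function.update s X (bits (bitsOf m (if x < y then x else x - y)))) B
        (flg (decide (x < y)))) (12 * m + 4) := by
  have hn := h
  simp only [List.nodup_cons, List.mem_cons, List.not_mem_nil, or_false, not_or,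
    List.nodup_nil, and_true] at h
  obtain ⟨⟨h1, h2, h3, h4, h5⟩, ⟨h6, h7, h8, h9⟩, ⟨h10, h11, h12⟩, ⟨h13, h14⟩, h15, -⟩ := h
  have e0 : st6 s X Y X' Y' D B (bits (bitsOf m x)) (bits (bitsOf m y)) [] [] []
      (flg false) = s := by
    funext i
    unfold st6
    split_ifs <;> simp_all
  have r1 := runs_subLoop hn s (bitsOf m x) (bitsOf m y) false [] [] [] (by simp)
  rw [e0, subB_eq hx hy] at r1
  simp only [List.append_nil] at r1
  have r2 := Runs.rev (i := Y') (j := Y) (Ne.symm h7)
    (st6 s X Y X' Y' D B [] [] (bits (bitsOf m x).reverse) (bits (bitsOf m y).reverse)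
        (bits (subL (bitsOf m x) (bitsOf m y) false).reverse) (flg (decide (x < y))))
  have eY' : (st6 s X Y X' Y' D B [] [] (bits (bitsOf m x).reverse) (bits (bitsOf m y).reverse)
        (bits (subL (bitsOf m x) (bitsOf m y) false).reverse) (flg (decide (x < y)))) Y' =
      bits (bitsOf m y).reverse := by
    simp [st6, Ne.symm h3, Ne.symm h7, Ne.symm h10]
  have e1 : (Function.update (Function.update
      (st6 s X Y X' Y' D B [] [] (bits (bitsOf m x).reverse) (bits (bitsOf m y).reverse)
        (bits (subL (bitsOf m x) (bitsOf m y) false).reverse) (flg (decide (x < y)))) Y' [])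
      Y (((st6 s X Y X' Y' D B [] [] (bits (bitsOf m x).reverse) (bits (bitsOf m y).reverse)
        (bits (subL (bitsOf m x) (bitsOf m y) false).reverse) (flg (decide (x < y)))) Y').reverse
        ++ (st6 s X Y X' Y' D B [] [] (bits (bitsOf m x).reverse) (bits (bitsOf m y).reverse)
        (bits (subL (bitsOf m x) (bitsOf m y) false).reverse) (flg (decide (x < y)))) Y)) =
      (st6 s X Y X' Y' D B [] (bits (bitsOf m y)) (bits (bitsOf m x).reverse) []
        (bits (subL (bitsOf m x) (bitsOf m y) false).reverse) (flg (decide (x < y)))) := by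
    rw [eY']
    have eY : (st6 s X Y X' Y' D B [] [] (bits (bitsOf m x).reverse) (bits (bitsOf m y).reverse)
        (bits (subL (bitsOf m x) (bitsOf m y) false).reverse) (flg (decide (x < y)))) Y = [] := by
      simp [st6, Ne.symm h1]
    rw [eY]
    funext i
    unfold st6
    simp only [Function.update_apply]
    by_cases q1 : i = X
    · subst q1; simp [h1, h3]
    by_cases q2 : i = Y
    · subst q2; simp [Ne.symm h1, bits]
    by_cases q3 : i = X'
    · subst q3; simp [Ne.symm h2, h10, q2]
    by_cases q4 : i = Y'
    · subst q4; simp [q1, q2, q3]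
    simp [q1, q2, q3, q4]
  rw [e1, eY'] at r2
  have eB : (st6 s X Y X' Y' D B [] (bits (bitsOf m y)) (bits (bitsOf m x).reverse) []
        (bits (subL (bitsOf m x) (bitsOf m y) false).reverse) (flg (decide (x < y)))) B =
      flg (decide (x < y)) := by
    simp [st6, Ne.symm h5, Ne.symm h9, Ne.symm h12, Ne.symm h14, Ne.symm h15]
  by_cases hxy : x < y
  · have hd : decide (x < y) = true := by simp [hxy]
    rw [hd] at r1 r2 eB ⊢
    have r3 := Runs.rev (i := X') (j := X) (Ne.symm h2)
      (st6 s X Y X' Y' D B [] (bits (bitsOf m y)) (bits (bitsOf m x).reverse) []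
        (bits (subL (bitsOf m x) (bitsOf m y) false).reverse) (flg true))
    have r4 := Runs.clear D (Function.update (Function.update
      (st6 s X Y X' Y' D B [] (bits (bitsOf m y)) (bits (bitsOf m x).reverse) []
        (bits (subL (bitsOf m x) (bitsOf m y) false).reverse) (flg true)) X' []) X
      (((st6 s X Y X' Y' D B [] (bits (bitsOf m y)) (bits (bitsOf m x).reverse) []
        (bits (subL (bitsOf m x) (bitsOf m y) false).reverse) (flg true)) X').reverse ++
      (st6 s X Y X' Y' D B [] (bits (bitsOf m y)) (bits (bitsOf m x).reverse) []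
        (bits (subL (bitsOf m x) (bitsOf m y) false).reverse) (flg true)) X))
    have eX' : (st6 s X Y X' Y' D B [] (bits (bitsOf m y)) (bits (bitsOf m x).reverse) []
        (bits (subL (bitsOf m x) (bitsOf m y) false).reverse) (flg true)) X' =
        bits (bitsOf m x).reverse := by
      simp [st6, Ne.symm h2, Ne.symm h6]
    have eX : (st6 s X Y X' Y' D B [] (bits (bitsOf m y)) (bits (bitsOf m x).reverse) []
        (bits (subL (bitsOf m x) (bitsOf m y) false).reverse) (flg true)) X = [] := by
      simp [st6]
    have eD : (st6 s X Y X' Y' D B [] (bits (bitsOf m y)) (bits (bitsOf m x).reverse) []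
        (bits (subL (bitsOf m x) (bitsOf m y) false).reverse) (flg true)) D =
        bits (subL (bitsOf m x) (bitsOf m y) false).reverse := by
      simp [st6, Ne.symm h4, Ne.symm h8, Ne.symm h11, Ne.symm h13]
    have r5 := Runs.iteT (c := nonempty B) (q := (Prog.rev D X).seq (Prog.clear X'))
      (by rw [nonempty_tops, eB]; rfl) (r3.seq r4)
    refine ((r1.seq (r2.seq r5)).mono ?_).of_eq ?_
    · rw [Function.update_of_ne (Ne.symm h4), Function.update_of_ne (Ne.symm h11), eX', eD]
      simp only [length_bits, List.length_reverse, length_bitsOf]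
      rw [length_subL _ _ _ (by simp)]
      simp only [length_bitsOf]
      omega
    · rw [eX', eX]
      funext i
      simp only [Function.update_apply]
      by_cases q1 : i = X
      · subst q1; simp [h4, hxy, bits, h5]
      by_cases q2 : i = Y
      · subst q2
        simp [h8, h6, q1, st6, hY, h9]
      by_cases q3 : i = X'
      · subst q3; simp [h11, q1, hX', h12]
      by_cases q4 : i = Y'
      · subst q4; simp [h13, q1, q2, q3, st6, hY', h14]
      by_cases q5 : i = D
      · subst q5; simp [hD, q1, h15]
      by_cases q6 : i = B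
      · subst q6; simp [q1, q2, q3, q4, q5, st6]
      simp [q1, q2, q3, q4, q5, q6, st6]
  · have hd : decide (x < y) = false := by simp [hxy]
    rw [hd] at r1 r2 eB ⊢
    have r3 := Runs.rev (i := D) (j := X) (Ne.symm h4)
      (st6 s X Y X' Y' D B [] (bits (bitsOf m y)) (bits (bitsOf m x).reverse) []
        (bits (subL (bitsOf m x) (bitsOf m y) false).reverse) (flg false))
    have r4 := Runs.clear X' (Function.update (Function.update
      (st6 s X Y X' Y' D B [] (bits (bitsOf m y)) (bits (bitsOf m x).reverse) []
        (bits (subL (bitsOf m x) (bitsOf m y) false).reverse) (flg false)) D []) X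
      (((st6 s X Y X' Y' D B [] (bits (bitsOf m y)) (bits (bitsOf m x).reverse) []
        (bits (subL (bitsOf m x) (bitsOf m y) false).reverse) (flg false)) D).reverse ++
      (st6 s X Y X' Y' D B [] (bits (bitsOf m y)) (bits (bitsOf m x).reverse) []
        (bits (subL (bitsOf m x) (bitsOf m y) false).reverse) (flg false)) X))
    have eX' : (st6 s X Y X' Y' D B [] (bits (bitsOf m y)) (bits (bitsOf m x).reverse) []
        (bits (subL (bitsOf m x) (bitsOf m y) false).reverse) (flg false)) X' =
        bits (bitsOf m x).reverse := by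
      simp [st6, Ne.symm h2, Ne.symm h6]
    have eX : (st6 s X Y X' Y' D B [] (bits (bitsOf m y)) (bits (bitsOf m x).reverse) []
        (bits (subL (bitsOf m x) (bitsOf m y) false).reverse) (flg false)) X = [] := by
      simp [st6]
    have eD : (st6 s X Y X' Y' D B [] (bits (bitsOf m y)) (bits (bitsOf m x).reverse) []
        (bits (subL (bitsOf m x) (bitsOf m y) false).reverse) (flg false)) D =
        bits (subL (bitsOf m x) (bitsOf m y) false).reverse := by
      simp [st6, Ne.symm h4, Ne.symm h8, Ne.symm h11, Ne.symm h13]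
    have r5 := Runs.iteF (c := nonempty B) (p := (Prog.rev X' X).seq (Prog.clear D))
      (by rw [nonempty_tops, eB]; rfl) (r3.seq r4)
    refine ((r1.seq (r2.seq r5)).mono ?_).of_eq ?_
    · rw [Function.update_of_ne (Ne.symm h2), Function.update_of_ne h11, eX', eD]
      simp only [length_bits, List.length_reverse, length_bitsOf]
      rw [length_subL _ _ _ (by simp)]
      simp only [length_bitsOf]
      omega
    · rw [eD, eX, subL_eq hx (by omega)]
      funext i
      simp only [Function.update_apply]
      by_cases q1 : i = X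
      · subst q1; simp [h2, hxy, bits, h5]
      by_cases q2 : i = Y
      · subst q2
        simp [h8, h6, q1, st6, hY, h9]
      by_cases q3 : i = X'
      · subst q3; simp [q1, hX', h12]
      by_cases q4 : i = Y'
      · subst q4; simp [h13, q1, q2, q3, st6, hY', h14]
      by_cases q5 : i = D
      · subst q5; simp [hD, q1, q3, h15]
      by_cases q6 : i = B
      · subst q6; simp [q1, q2, q3, q4, q5, st6]
      simp [q1, q2, q3, q4, q5, q6, st6]

end Vale.Agent.P338.S2
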