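import Vale.Agent.P338.Lib
import Vale.Agent.P338.Nums
import Vale.Agent.P338.Defs

/-!
# P338, third part: the interface of the built-in fast multiplication

Numbers of `S = 32 * 2 ^ u` bits are multiplied by the method of Schönhage and Strassen.
For `u ≥ 1` a number of `S` bits is cut into `lpH u` pieces of `lpP u` bits; these are the
first `lpH u` of the `lpK u = 2 * lpH u` coefficients of a polynomial (the others are zero).
Its transform consists of `lpK u` numbers of `lpW u = 32 * 2 ^ (u / 2)` bits. All numbers are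
taken modulo `2 ^ W - 1`, and are interpreted modulo `2 ^ D + 1`, where `W = 2 * D`.
-/

namespace Vale.Agent.P338.SS

/-! ### Arithmetic modulo `2 ^ W - 1` -/

/-- The data: `h` blocks of `n` numbers of `W` bits. -/
def arr (h n W : ℕ) (F : ℕ → ℕ → ℕ) : List Bool :=
  cat h fun β => cat n fun i => bitsOf W (F β i)

/-- Addition with end-around carry. -/
def addW (W x y : ℕ) : ℕ := (x + y + (x + y) / 2 ^ W) % 2 ^ W

/-- Subtraction, by addition of the complement. -/
def subW (W x y : ℕ) : ℕ := addW W x (2 ^ W - 1 - y)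

/-- Reduction of a number of `2 * W` bits. -/
def redW (W z : ℕ) : ℕ := addW W (z % 2 ^ W) (z / 2 ^ W)

/-- One stage of the transform: every block of `2 * q` numbers gives two blocks of `q`
numbers (sums; differences times `2 ^ (i * st)`). -/
def fwdF (W q st : ℕ) (F : ℕ → ℕ → ℕ) (β i : ℕ) : ℕ :=
  if β % 2 = 0 then addW W (F (β / 2) i) (F (β / 2) (i + q))
  else rotN W (W - i * st) (subW W (F (β / 2) i) (F (β / 2) (i + q)))

/-- One stage of the inverse transform (up to the factor `2`). -/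
def invF (W q st : ℕ) (G : ℕ → ℕ → ℕ) (β i : ℕ) : ℕ :=
  if i < q then addW W (G (2 * β) i) (rotN W (i * st) (G (2 * β + 1) i))
  else subW W (G (2 * β) (i - q)) (rotN W ((i - q) * st) (G (2 * β + 1) (i - q)))

/-- The transform, after `i` stages, for blocks of `K` numbers. -/
def fwdIter (W D K : ℕ) : ℕ → (ℕ → ℕ → ℕ) → ℕ → ℕ → ℕ
  | 0, F => F
  | i + 1, F => fwdF W (K / 2 ^ (i + 1)) (D / (K / 2 ^ (i + 1))) (fwdIter W D K i F)

/-- The inverse transform, after `i` stages. -/
def invIter (W D : ℕ) : ℕ → (ℕ → ℕ → ℕ) → ℕ → ℕ → ℕ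
  | 0, G => G
  | i + 1, G => invF W (2 ^ i) (D / 2 ^ i) (invIter W D i G)

/-- Division by `2 ^ κ` and reduction modulo `2 ^ D + 1` of a number of `2 * D` bits. -/
def nrm (D κ v : ℕ) : ℕ :=
  if rotN (2 * D) κ v / 2 ^ D ≤ rotN (2 * D) κ v % 2 ^ D then
    rotN (2 * D) κ v % 2 ^ D - rotN (2 * D) κ v / 2 ^ D
  else rotN (2 * D) κ v % 2 ^ D + 2 ^ D + 1 - rotN (2 * D) κ v / 2 ^ D

/-! ### The parameters -/

/-- The length of the pieces. -/
def lpP (u : ℕ) : ℕ := 4 * 2 ^ (u / 2)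

/-- The length of the numbers. -/
def lpW (u : ℕ) : ℕ := 32 * 2 ^ (u / 2)

/-- Half of `lpW`. -/
def lpD (u : ℕ) : ℕ := 16 * 2 ^ (u / 2)

/-- The number of pieces. -/
def lpH (u : ℕ) : ℕ := 8 * 2 ^ (u - u / 2)

/-- The length of the transform. -/
def lpK (u : ℕ) : ℕ := 16 * 2 ^ (u - u / 2)

/-- The number of stages. -/
def lpk (u : ℕ) : ℕ := u - u / 2 + 4

/-- The pieces of the numbers `x β`. -/
def pcs (u : ℕ) (x : ℕ → ℕ) (β i : ℕ) : ℕ :=
  if i < lpH u then x β / 2 ^ (lpP u * i) % 2 ^ lpP u else 0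

/-- The transforms of the numbers `x β`: `lpK u` numbers of `lpW u` bits for every `β`. -/
def leaf (u : ℕ) (x : ℕ → ℕ) (j : ℕ) : ℕ :=
  fwdIter (lpW u) (lpD u) (lpK u) (lpk u) (pcs u x) j 0

/-- The coefficients of the products, from the products `z` of the transforms. -/
def cof (u : ℕ) (z : ℕ → ℕ) (β i : ℕ) : ℕ :=
  nrm (lpD u) (lpk u) (invIter (lpW u) (lpD u) (lpk u) (fun j _ => redW (lpW u) (z j)) β i)

/-- What has to be proved about one level (package SS1). -/
def LevelPure : Prop :=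
  ∀ (u : ℕ) (x y : ℕ → ℕ), 1 ≤ u → (∀ β, x β < 2 ^ (32 * 2 ^ u)) →
    (∀ β, y β < 2 ^ (32 * 2 ^ u)) →
    ∀ β, (∀ i < lpK u, cof u (fun j => leaf u x j * leaf u y j) β i < 2 ^ lpD u) ∧
      ∑ i ∈ Finset.range (lpK u), cof u (fun j => leaf u x j * leaf u y j) β i *
        2 ^ (lpP u * i) = x β * y β

/-! ### The stacks -/

/-- The stacks of the multiplication program. -/
inductive Q : Type
  | AX | AY | AZ | X | Y | O | A | O2 | P | V | T1 | T2 | T3 | C1 | C2 | AC | EE
  | HB | QQ | WW | ST | PP | DD | KP | UU | FR | MM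
  | F1 | F2 | F3 | F4 | F5 | F6
deriving DecidableEq

/-- The scratch stacks: empty before and after every pass. -/
def sc : List Q :=
  [Q.O, Q.A, Q.O2, Q.P, Q.V, Q.T1, Q.T2, Q.T3, Q.C1, Q.C2, Q.AC, Q.EE, Q.F1, Q.F2, Q.F3,
   Q.F4, Q.F5, Q.F6]

variable {E : Type}

/-- The stores. -/
abbrev SQ (E : Type) : Type := Store Q (SSym E)

/-- The programs. -/
abbrev PQ (E : Type) : Type := Prog Q (SSym E)

/-- The scratch stacks are empty. -/
def Clean (s : SQ E) : Prop := ∀ r ∈ sc, s r = []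

/-! ### The passes -/

/-- A stage of the transform: `h` blocks of `2 * q` numbers to `2 * h` blocks of `q`. -/
def FwdSpec (p : PQ E) (C : ℕ) : Prop :=
  ∀ (h q W st : ℕ) (F : ℕ → ℕ → ℕ) (s : SQ E), Clean s → 1 ≤ q → 1 ≤ W → q * st ≤ W →
    (∀ β i, F β i < 2 ^ W) → s Q.HB = una h → s Q.QQ = una q → s Q.WW = una W →
    s Q.ST = una st → s Q.X = bits (arr h (2 * q) W F) →
    Runs p s (Function.update s Q.X (bits (arr (2 * h) q W (fwdF W q st F))))
      (C * (h * q * W + 1))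

/-- A stage of the inverse transform: `2 * h` blocks of `q` numbers to `h` blocks of
`2 * q`. -/
def InvSpec (p : PQ E) (C : ℕ) : Prop :=
  ∀ (h q W st : ℕ) (G : ℕ → ℕ → ℕ) (s : SQ E), Clean s → 1 ≤ q → 1 ≤ W → q * st ≤ W →
    (∀ β i, G β i < 2 ^ W) → s Q.HB = una h → s Q.QQ = una q → s Q.WW = una W →
    s Q.ST = una st → s Q.X = bits (arr (2 * h) q W G) →
    Runs p s (Function.update s Q.X (bits (arr h (2 * q) W (invF W q st G))))
      (C * (h * q * W + 1))

/-- Pieces of `p` bits to numbers of `8 * p` bits, and as many zeros. -/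
def SplitSpec (pr : PQ E) (C : ℕ) : Prop :=
  ∀ (h H p : ℕ) (F : ℕ → ℕ → ℕ) (s : SQ E), Clean s → 1 ≤ H → 1 ≤ p →
    (∀ β i, F β i < 2 ^ p) → s Q.HB = una h → s Q.QQ = una H → s Q.PP = una p →
    s Q.X = bits (arr h H p F) →
    Runs pr s (Function.update s Q.X (bits (arr h (2 * H) (8 * p) fun β i =>
      if i < H then F β i else 0))) (C * (h * H * p + 1))

/-- Reduction of `N` numbers of `2 * W` bits. -/
def RedSpec (p : PQ E) (C : ℕ) : Prop :=
  ∀ (N W : ℕ) (z : ℕ → ℕ) (s : SQ E), Clean s → 1 ≤ W → (∀ j, z j < 2 ^ (2 * W)) →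
    s Q.HB = una N → s Q.WW = una W → s Q.X = bits (arr N 1 (2 * W) fun j _ => z j) →
    Runs p s (Function.update s Q.X (bits (arr N 1 W fun j _ => redW W (z j))))
      (C * (N * W + 1))

/-- Division by `2 ^ κ` and reduction modulo `2 ^ D + 1`. -/
def NormSpec (p : PQ E) (C : ℕ) : Prop :=
  ∀ (h K D κ : ℕ) (F : ℕ → ℕ → ℕ) (s : SQ E), Clean s → 1 ≤ K → 1 ≤ D → κ ≤ D →
    (∀ β i, F β i < 2 ^ (2 * D)) →
    (∀ β < h, ∀ i < K, nrm D κ (F β i) < 2 ^ D) →
    s Q.HB = una h → s Q.QQ = una K → s Q.WW = una (2 * D) → s Q.DD = una D →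
    s Q.KP = una κ → s Q.X = bits (arr h K (2 * D) F) →
    Runs p s (Function.update s Q.X (bits (arr h K D fun β i => nrm D κ (F β i))))
      (C * (h * K * D + 1))

/-- Addition of the coefficients. -/
def AsmSpec (pr : PQ E) (C : ℕ) : Prop :=
  ∀ (h K p : ℕ) (c : ℕ → ℕ → ℕ) (s : SQ E), Clean s → 1 ≤ K → 1 ≤ p →
    (∀ β < h, ∀ i < K, c β i < 2 ^ (4 * p)) →
    (∀ β < h, ∑ i ∈ Finset.range K, c β i * 2 ^ (p * i) < 2 ^ (K * p)) →
    s Q.HB = una h → s Q.QQ = una K → s Q.DD = una (4 * p) → s Q.PP = una p →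
    s Q.X = bits (arr h K (4 * p) c) →
    Runs pr s (Function.update s Q.X (bits (arr h 1 (K * p) fun β _ =>
      ∑ i ∈ Finset.range K, c β i * 2 ^ (p * i)))) (C * (h * K * p + 1))

/-- Products of `h` pairs of numbers of `S` bits, by the school method. -/
def BaseSpec (p : PQ E) (C : ℕ) : Prop :=
  ∀ (h S : ℕ) (x y : ℕ → ℕ) (s : SQ E), Clean s → 1 ≤ S → (∀ j, x j < 2 ^ S) →
    (∀ j, y j < 2 ^ S) → s Q.HB = una h → s Q.WW = una S →
    s Q.X = bits (arr h 1 S fun j _ => x j) → s Q.Y = bits (arr h 1 S fun j _ => y j) →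
    Runs p s (Function.update (Function.update s Q.X
      (bits (arr h 1 (2 * S) fun j _ => x j * y j))) Q.Y []) (C * (h * S * S + 1))

/-! ### The parameters and the levels -/

/-- From `u ≥ 1` on `UU`: all parameters (`ST = D / H` for the first stage). -/
def ParSpec (p : PQ E) (C : ℕ) : Prop :=
  ∀ (u : ℕ) (s : SQ E), Clean s → 1 ≤ u → s Q.UU = una u →
    (∀ r ∈ [Q.QQ, Q.WW, Q.ST, Q.PP, Q.DD, Q.KP], s r = []) →
    Runs p s (Function.update (Function.update (Function.update (Function.update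
      (Function.update (Function.update s Q.QQ (una (lpH u))) Q.WW (una (lpW u)))
        Q.ST (una (lpD u / lpH u))) Q.PP (una (lpP u))) Q.DD (una (lpD u)))
        Q.KP (una (lpk u))) (C * 2 ^ u)

/-- The parameter stacks: empty between the levels. -/
def par : List Q := [Q.QQ, Q.WW, Q.ST, Q.PP, Q.DD, Q.KP]

/-- The frame of a level: `u` in unary and a separator. -/
def frm (u : ℕ) : List (SSym E) := una u ++ [Sum.inl (Base.num 7)]

/-- One level of the transform, for `h` numbers (`h` counts the numbers of both operands). -/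
def DownSpec (p : PQ E) (C : ℕ) : Prop :=
  ∀ (u h : ℕ) (x : ℕ → ℕ) (fr : List (SSym E)) (s : SQ E), Clean s → (∀ r ∈ par, s r = []) →
    1 ≤ u → 1 ≤ h → (∀ β, x β < 2 ^ (32 * 2 ^ u)) → s Q.UU = una u → s Q.HB = una h →
    s Q.FR = fr → s Q.X = bits (arr h 1 (32 * 2 ^ u) fun β _ => x β) →
    Runs p s (Function.update (Function.update (Function.update (Function.update s
      Q.UU (una (u / 2))) Q.HB (una (h * lpK u))) Q.FR (frm u ++ fr))
      Q.X (bits (arr (h * lpK u) 1 (32 * 2 ^ (u / 2)) fun j _ => leaf u x j)))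
      (C * (h * (32 * 2 ^ u) * lpk u))

/-- One level back: from the products of the transforms to the products. -/
def UpSpec (p : PQ E) (C : ℕ) : Prop :=
  ∀ (u h : ℕ) (x y : ℕ → ℕ) (fr : List (SSym E)) (s : SQ E), Clean s →
    (∀ r ∈ par, s r = []) → 1 ≤ u → 1 ≤ h → (∀ β, x β < 2 ^ (32 * 2 ^ u)) →
    (∀ β, y β < 2 ^ (32 * 2 ^ u)) → s Q.UU = [] → s Q.HB = una (h * lpK u) →
    s Q.FR = frm u ++ fr →
    s Q.X = bits (arr (h * lpK u) 1 (2 * (32 * 2 ^ (u / 2))) fun j _ =>
      leaf u x j * leaf u y j) →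
    Runs p s (Function.update (Function.update (Function.update s
      Q.HB (una h)) Q.FR fr) Q.X (bits (arr h 1 (2 * (32 * 2 ^ u)) fun β _ => x β * y β)))
      (C * (h * (32 * 2 ^ u) * lpk u))

/-! ### The whole program -/

/-- The time of the built-in multiplication. -/
def tSS (m : ℕ) : ℕ := m * (Nat.log 2 m + 1) ^ 4

/-- The multiplication program: the operands, of `m` bits, are on `AX` and `AY`, all other
stacks are empty. -/
def MainSpec (p : PQ E) (C : ℕ) : Prop :=
  ∀ (m : ℕ) (xs ys : List Bool) (s : SQ E), 1 ≤ m → xs.length = m → ys.length = m →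
    s Q.AX = bits xs → s Q.AY = bits ys → (∀ r : Q, r ≠ Q.AX → r ≠ Q.AY → s r = []) →
    Runs p s (Function.update (Function.update (Function.update s Q.AX []) Q.AY []) Q.AZ
      (bits (bitsOf (2 * m) (natOf xs * natOf ys)))) (C * tSS m)

end Vale.Agent.P338.SS
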