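import Vale.Agent.P338.SSIface
import Mathlib.Data.ZMod.Basic

/-!
# P338, third part: correctness of one level of the method of Schönhage and Strassen
-/

namespace Vale.Agent.P338.SS

open Finset

/-! ### The ring -/

/-- The integers modulo `2 ^ D + 1`. -/
abbrev RD (D : ℕ) : Type := ZMod (2 ^ D + 1)

variable {D : ℕ}

theorem two_pow_D : (2 : RD D) ^ D = -1 := by
  have h : ((2 ^ D + 1 : ℕ) : RD D) = 0 := ZMod.natCast_self _
  push_cast at h
  exact eq_neg_of_add_eq_zero_left h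

theorem two_pow_W : (2 : RD D) ^ (2 * D) = 1 := by
  rw [Nat.mul_comm, pow_mul, two_pow_D]
  ring

theorem two_pow_split {e : ℕ} (he : e ≤ 2 * D) : (2 : RD D) ^ e * 2 ^ (2 * D - e) = 1 := by
  rw [← pow_add, Nat.add_sub_cancel' he, two_pow_W]

theorem addW_lt (W x y : ℕ) : addW W x y < 2 ^ W := Nat.mod_lt _ (by positivity)

theorem subW_lt (W x y : ℕ) : subW W x y < 2 ^ W := Nat.mod_lt _ (by positivity)

theorem redW_lt (W z : ℕ) : redW W z < 2 ^ W := Nat.mod_lt _ (by positivity)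

theorem cast_addW {x y : ℕ} (hx : x < 2 ^ (2 * D)) (hy : y < 2 ^ (2 * D)) :
    ((addW (2 * D) x y : ℕ) : RD D) = x + y := by
  have hM : ((2 ^ (2 * D) : ℕ) : RD D) = 1 := by
    push_cast
    exact two_pow_W
  unfold addW
  generalize 2 ^ (2 * D) = M at hx hy hM ⊢
  by_cases h : x + y < M
  · have e0 : (x + y + (x + y) / M) % M = x + y := by
      rw [Nat.div_eq_of_lt h, Nat.add_zero, Nat.mod_eq_of_lt h]
    rw [e0]
    push_cast
    rfl
  · have e1 : (x + y) / M = 1 := Nat.div_eq_of_lt_le (by omega) (by omega)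
    have e2 : (x + y + 1) % M = x + y + 1 - M := by
      rw [Nat.mod_eq_sub_mod (by omega), Nat.mod_eq_of_lt (by omega)]
    rw [e1, e2, Nat.cast_sub (by omega), hM]
    push_cast
    ring

theorem cast_compl {y : ℕ} (hy : y < 2 ^ (2 * D)) :
    ((2 ^ (2 * D) - 1 - y : ℕ) : RD D) = -y := by
  have h : ((2 ^ (2 * D) - 1 - y + y + 1 : ℕ) : RD D) = ((2 ^ (2 * D) : ℕ) : RD D) := by
    congr 1
    omega
  have h2 := two_pow_W (D := D)
  push_cast at h
  rw [h2] at h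
  have h3 : ((2 ^ (2 * D) - 1 - y : ℕ) : RD D) + y = 0 := by
    have := congrArg (fun a => a - 1) h
    simpa using this
  exact eq_neg_of_add_eq_zero_left h3

theorem cast_subW {x y : ℕ} (hx : x < 2 ^ (2 * D)) (hy : y < 2 ^ (2 * D)) :
    ((subW (2 * D) x y : ℕ) : RD D) = x - y := by
  unfold subW
  rw [cast_addW hx (by omega), cast_compl hy]
  ring

theorem cast_rotN {e : ℕ} (he : e ≤ 2 * D) (v : ℕ) :
    ((rotN (2 * D) e v : ℕ) : RD D) = v * 2 ^ (2 * D - e) := by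
  have h1 : ((rotN (2 * D) e v : ℕ) : RD D) * 2 ^ e = v := by
    have h2 : rotN (2 * D) e v * 2 ^ e = 2 ^ e * (v / 2 ^ e) + v % 2 ^ e * 2 ^ (2 * D) := by
      rw [rotN, Nat.add_mul, Nat.mul_assoc, ← pow_add, Nat.sub_add_cancel he, Nat.mul_comm]
    have h3 := congrArg (fun a : ℕ => (a : RD D)) h2
    have h4 := congrArg (fun a : ℕ => (a : RD D)) (Nat.div_add_mod v (2 ^ e))
    push_cast at h3 h4 ⊢
    rw [h3, two_pow_W, mul_one]
    exact h4
  calc ((rotN (2 * D) e v : ℕ) : RD D)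
      = ((rotN (2 * D) e v : ℕ) : RD D) * (2 ^ e * 2 ^ (2 * D - e)) := by
        rw [two_pow_split he, mul_one]
    _ = (((rotN (2 * D) e v : ℕ) : RD D) * 2 ^ e) * 2 ^ (2 * D - e) := by ring
    _ = v * 2 ^ (2 * D - e) := by rw [h1]

theorem cast_redW {z : ℕ} (hz : z < 2 ^ (2 * (2 * D))) :
    ((redW (2 * D) z : ℕ) : RD D) = z := by
  unfold redW
  rw [cast_addW (Nat.mod_lt _ (by positivity))]
  · have h4 := congrArg (fun a : ℕ => (a : RD D)) (Nat.mod_add_div z (2 ^ (2 * D)))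
    push_cast at h4 ⊢
    rw [two_pow_W, one_mul] at h4
    exact h4
  · rw [Nat.div_lt_iff_lt_mul (by positivity), ← pow_add, ← Nat.two_mul]
    exact hz

theorem nrm_le (D κ v : ℕ) : nrm D κ v ≤ 2 ^ D := by
  unfold nrm
  have h2 : rotN (2 * D) κ v % 2 ^ D < 2 ^ D := Nat.mod_lt _ (by positivity)
  generalize rotN (2 * D) κ v % 2 ^ D = a at h2 ⊢
  generalize rotN (2 * D) κ v / 2 ^ D = b
  generalize 2 ^ D = c at h2 ⊢
  split
  · omega
  · next h => omega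

theorem cast_nrm {κ v : ℕ} (hv : v < 2 ^ (2 * D)) (hκ : κ ≤ 2 * D) :
    ((nrm D κ v : ℕ) : RD D) = v * 2 ^ (2 * D - κ) := by
  rw [← cast_rotN hκ]
  have h1 := rotN_lt hκ hv
  unfold nrm
  generalize rotN (2 * D) κ v = z at h1 ⊢
  have h5 : z / 2 ^ D < 2 ^ D := by
    rw [Nat.div_lt_iff_lt_mul (by positivity), ← pow_add, ← Nat.two_mul]
    exact h1
  have h4 := congrArg (fun a : ℕ => (a : RD D)) (Nat.mod_add_div z (2 ^ D))
  push_cast at h4
  rw [two_pow_D] at h4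
  rw [← h4]
  split
  · next h =>
    rw [Nat.cast_sub h]
    ring
  · next h =>
    rw [Nat.cast_sub (by omega)]
    push_cast
    rw [two_pow_D]
    ring

/-! ### Cyclic convolutions -/

section cyc

variable {R : Type} [CommRing R]

/-- The cyclic convolution of length `N`. -/
def cyc (N : ℕ) (a b : ℕ → R) (k : ℕ) : R :=
  ∑ i ∈ range N, ∑ j ∈ range N, if (i + j) % N = k then a i * b j else 0

theorem sum_double (q : ℕ) (f : ℕ → R) :
    ∑ i ∈ range (2 * q), f i = ∑ i ∈ range q, (f i + f (i + q)) := by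
  rw [Nat.two_mul, sum_range_add, sum_add_distrib]
  congr 1
  exact sum_congr rfl fun i _ => by rw [Nat.add_comm]

theorem mod_two_mul {q k m : ℕ} (hk : k < q) :
    (m % (2 * q) = k ∨ m % (2 * q) = k + q) ↔ m % q = k := by
  have h1 : m % (2 * q) % q = m % q := Nat.mod_mod_of_dvd _ ⟨2, by ring⟩
  have h2 : m % (2 * q) < 2 * q := Nat.mod_lt _ (by omega)
  constructor
  · rintro (h | h)
    · rw [← h1, h, Nat.mod_eq_of_lt hk]
    · rw [← h1, h, Nat.add_mod_right, Nat.mod_eq_of_lt hk]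
  · intro h
    rw [← h1] at h
    rcases Nat.lt_or_ge (m % (2 * q)) q with h3 | h3
    · rw [Nat.mod_eq_of_lt h3] at h
      exact Or.inl h
    · rw [Nat.mod_eq_sub_mod h3, Nat.mod_eq_of_lt (by omega)] at h
      exact Or.inr (by omega)

theorem cyc_half {q k : ℕ} (hk : k < q) (a b : ℕ → R) :
    cyc (2 * q) a b k + cyc (2 * q) a b (k + q) =
      cyc q (fun i => a i + a (i + q)) (fun j => b j + b (j + q)) k := by
  have h1 : cyc (2 * q) a b k + cyc (2 * q) a b (k + q) =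
      ∑ i ∈ range (2 * q), ∑ j ∈ range (2 * q), if (i + j) % q = k then a i * b j else 0 := by
    unfold cyc
    rw [← sum_add_distrib]
    refine sum_congr rfl fun i _ => ?_
    rw [← sum_add_distrib]
    refine sum_congr rfl fun j _ => ?_
    have h := mod_two_mul (m := i + j) hk
    by_cases h3 : (i + j) % q = k
    · rw [if_pos h3]
      rcases h.2 h3 with h4 | h4
      · rw [if_pos h4, if_neg (by omega), add_zero]
      · rw [if_neg (by omega), if_pos h4, zero_add]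
    · have h4 := mt h.1 h3
      rw [not_or] at h4
      rw [if_neg h4.1, if_neg h4.2, if_neg h3, add_zero]
  rw [h1, sum_double]
  unfold cyc
  refine sum_congr rfl fun i _ => ?_
  rw [sum_double, sum_double, ← sum_add_distrib]
  refine sum_congr rfl fun j _ => ?_
  have e1 : (i + (j + q)) % q = (i + j) % q := by rw [← Nat.add_assoc, Nat.add_mod_right]
  have e2 : (i + q + j) % q = (i + j) % q := by
    rw [show i + q + j = i + j + q by ring, Nat.add_mod_right]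
  have e3 : (i + q + (j + q)) % q = (i + j) % q := by
    rw [show i + q + (j + q) = i + j + q + q by ring, Nat.add_mod_right, Nat.add_mod_right]
  rw [e1, e2, e3]
  split
  · ring
  · simp

theorem cyc_weight {N : ℕ} {ω : R} (hω : ω ^ N = 1) (a b : ℕ → R) (k : ℕ) :
    ω ^ k * cyc N a b k = cyc N (fun i => ω ^ i * a i) (fun j => ω ^ j * b j) k := by
  unfold cyc
  rw [mul_sum]
  refine sum_congr rfl fun i _ => ?_
  rw [mul_sum]
  refine sum_congr rfl fun j _ => ?_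
  split
  · next h =>
    have h1 : ω ^ k = ω ^ (i + j) := by
      rw [← h]
      conv_rhs => rw [← Nat.mod_add_div (i + j) N, pow_add, pow_mul, hω, one_pow, mul_one]
    rw [h1, pow_add]
    ring
  · rw [mul_zero]

theorem cyc_diff {q k : ℕ} (hk : k < q) {ω : R} (hω : ω ^ q = -1) (a b : ℕ → R) :
    ω ^ k * (cyc (2 * q) a b k - cyc (2 * q) a b (k + q)) =
      cyc q (fun i => ω ^ i * (a i - a (i + q))) (fun j => ω ^ j * (b j - b (j + q))) k := by
  have hω2 : ω ^ (2 * q) = 1 := by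
    rw [Nat.mul_comm, pow_mul, hω]
    ring
  have h1 : ω ^ k * (cyc (2 * q) a b k - cyc (2 * q) a b (k + q)) =
      ω ^ k * cyc (2 * q) a b k + ω ^ (k + q) * cyc (2 * q) a b (k + q) := by
    rw [pow_add, hω]
    ring
  rw [h1, cyc_weight hω2, cyc_weight hω2, cyc_half hk]
  congr 1
  · funext i
    rw [pow_add, hω]
    ring
  · funext i
    rw [pow_add, hω]
    ring

theorem cyc_congr {N : ℕ} {a a' b b' : ℕ → R} (ha : ∀ i < N, a i = a' i)
    (hb : ∀ i < N, b i = b' i) (k : ℕ) : cyc N a b k = cyc N a' b' k := by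
  unfold cyc
  refine sum_congr rfl fun i hi => sum_congr rfl fun j hj => ?_
  rw [ha i (mem_range.1 hi), hb j (mem_range.1 hj)]

theorem cyc_one (a b : ℕ → R) : cyc 1 a b 0 = a 0 * b 0 := by simp [cyc]

/-- One stage of the transform, in the ring. -/
def fwdR (q : ℕ) (ω : R) (C : ℕ → ℕ → R) (β i : ℕ) : R :=
  if β % 2 = 0 then C (β / 2) i + C (β / 2) (i + q)
  else ω ^ i * (C (β / 2) i - C (β / 2) (i + q))

theorem fwdR_congr {q : ℕ} (ω : R) {C C' : ℕ → ℕ → R}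
    (h : ∀ β, ∀ i < 2 * q, C β i = C' β i) (β : ℕ) {i : ℕ} (hi : i < q) :
    fwdR q ω C β i = fwdR q ω C' β i := by
  unfold fwdR
  rw [h _ i (by omega), h _ (i + q) (by omega)]

theorem cyc_fwdR {q k : ℕ} (hk : k < q) {ω : R} (hω : ω ^ q = -1) (A B : ℕ → ℕ → R) (β : ℕ) :
    fwdR q ω (fun β => cyc (2 * q) (A β) (B β)) β k =
      cyc q (fwdR q ω A β) (fwdR q ω B β) k := by
  unfold fwdR
  by_cases hβ : β % 2 = 0
  · simp only [if_pos hβ]
    exact cyc_half hk _ _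
  · simp only [if_neg hβ]
    exact cyc_diff hk hω _ _

end cyc

/-! ### The iterated transform -/

/-- The transform in the ring, after `i` stages. -/
def fwdIterR (D K : ℕ) : ℕ → (ℕ → ℕ → RD D) → ℕ → ℕ → RD D
  | 0, F => F
  | i + 1, F => fwdR (K / 2 ^ (i + 1)) (2 ^ (D / (K / 2 ^ (i + 1)))) (fwdIterR D K i F)

theorem fwdF_lt {W : ℕ} (q st : ℕ) (F : ℕ → ℕ → ℕ) (β i : ℕ) : fwdF W q st F β i < 2 ^ W := by
  unfold fwdF
  split
  · exact addW_lt _ _ _
  · exact rotN_lt (Nat.sub_le _ _) (subW_lt _ _ _)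

theorem fwdIter_lt {W : ℕ} (D K : ℕ) {F : ℕ → ℕ → ℕ} (hF : ∀ β i, F β i < 2 ^ W) :
    ∀ (n β i : ℕ), fwdIter W D K n F β i < 2 ^ W
  | 0, β, i => hF β i
  | _ + 1, _, _ => fwdF_lt _ _ _ _ _

theorem invF_lt {W : ℕ} (q st : ℕ) (F : ℕ → ℕ → ℕ) (β i : ℕ) : invF W q st F β i < 2 ^ W := by
  unfold invF
  split
  · exact addW_lt _ _ _
  · exact subW_lt _ _ _

theorem invIter_lt {W : ℕ} (D : ℕ) {F : ℕ → ℕ → ℕ} (hF : ∀ β i, F β i < 2 ^ W) :
    ∀ (n β i : ℕ), invIter W D n F β i < 2 ^ W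
  | 0, β, i => hF β i
  | _ + 1, _, _ => invF_lt _ _ _ _ _

theorem cast_fwdF {q st : ℕ} (hq : q * st ≤ 2 * D) {F : ℕ → ℕ → ℕ}
    (hF : ∀ β i, F β i < 2 ^ (2 * D)) (β : ℕ) {i : ℕ} (hi : i < q) :
    ((fwdF (2 * D) q st F β i : ℕ) : RD D) =
      fwdR q (2 ^ st) (fun β i => ((F β i : ℕ) : RD D)) β i := by
  have hst : i * st ≤ 2 * D := (Nat.mul_le_mul_right _ hi.le).trans hq
  unfold fwdF fwdR
  by_cases hβ : β % 2 = 0
  · rw [if_pos hβ, if_pos hβ, cast_addW (hF _ _) (hF _ _)]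
  · rw [if_neg hβ, if_neg hβ, cast_rotN (Nat.sub_le _ _), cast_subW (hF _ _) (hF _ _),
      Nat.sub_sub_self hst, mul_comm, ← pow_mul, Nat.mul_comm st i]

theorem half_pow {κ i : ℕ} (hi : i + 1 ≤ κ) :
    2 * (2 ^ κ / 2 ^ (i + 1)) = 2 ^ κ / 2 ^ i := by
  rw [Nat.pow_div (by omega) (by norm_num), Nat.pow_div (by omega) (by norm_num),
    show κ - i = κ - (i + 1) + 1 by omega, pow_succ, Nat.mul_comm]

theorem stage_pow {κ δ i : ℕ} (hκ : κ ≤ δ + 1) (hi : i + 1 ≤ κ) :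
    (2 ^ κ / 2 ^ (i + 1)) * (2 ^ δ / (2 ^ κ / 2 ^ (i + 1))) = 2 ^ δ := by
  rw [Nat.pow_div hi (by norm_num), Nat.pow_div (by omega) (by norm_num), ← pow_add]
  congr 1
  omega

theorem cast_fwdIter {κ δ : ℕ} (hκ : κ ≤ δ + 1) {F : ℕ → ℕ → ℕ}
    (hF : ∀ β i, F β i < 2 ^ (2 * 2 ^ δ)) : ∀ {n : ℕ}, n ≤ κ → ∀ (β : ℕ) {i : ℕ},
    i < 2 ^ κ / 2 ^ n → ((fwdIter (2 * 2 ^ δ) (2 ^ δ) (2 ^ κ) n F β i : ℕ) : RD (2 ^ δ)) =
      fwdIterR (2 ^ δ) (2 ^ κ) n (fun β i => ((F β i : ℕ) : RD (2 ^ δ))) β i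
  | 0, _, _, _, _ => rfl
  | n + 1, hn, β, i, hi => by
    have h1 := stage_pow hκ hn
    rw [fwdIter, fwdIterR, cast_fwdF (by omega) (fwdIter_lt _ _ hF n) β hi]
    refine fwdR_congr _ (fun β' i' hi' => ?_) β hi
    rw [half_pow hn] at hi'
    exact cast_fwdIter hκ hF (by omega) β' hi'

theorem root_pow {κ δ i : ℕ} (hκ : κ ≤ δ + 1) (hi : i + 1 ≤ κ) :
    ((2 : RD (2 ^ δ)) ^ (2 ^ δ / (2 ^ κ / 2 ^ (i + 1)))) ^ (2 ^ κ / 2 ^ (i + 1)) = -1 := by
  rw [← pow_mul, Nat.mul_comm, stage_pow hκ hi, two_pow_D]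

theorem cyc_fwdIterR {κ δ : ℕ} (hκ : κ ≤ δ + 1) (A B : ℕ → ℕ → RD (2 ^ δ)) :
    ∀ {n : ℕ}, n ≤ κ → ∀ (β : ℕ) {k : ℕ}, k < 2 ^ κ / 2 ^ n →
      fwdIterR (2 ^ δ) (2 ^ κ) n (fun β => cyc (2 ^ κ) (A β) (B β)) β k =
        cyc (2 ^ κ / 2 ^ n) (fwdIterR (2 ^ δ) (2 ^ κ) n A β)
          (fwdIterR (2 ^ δ) (2 ^ κ) n B β) k
  | 0, _, _, _, _ => by simp [fwdIterR]
  | n + 1, hn, β, k, hk => by
    have h1 := half_pow hn
    have e : fwdIterR (2 ^ δ) (2 ^ κ) (n + 1) (fun β => cyc (2 ^ κ) (A β) (B β)) β k =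
        fwdR (2 ^ κ / 2 ^ (n + 1)) (2 ^ (2 ^ δ / (2 ^ κ / 2 ^ (n + 1))))
          (fun β => cyc (2 * (2 ^ κ / 2 ^ (n + 1))) (fwdIterR (2 ^ δ) (2 ^ κ) n A β)
            (fwdIterR (2 ^ δ) (2 ^ κ) n B β)) β k := by
      rw [fwdIterR]
      refine fwdR_congr _ (fun β' i' hi' => ?_) β hk
      rw [h1] at hi' ⊢
      exact cyc_fwdIterR hκ A B (by omega) β' hi'
    rw [e, cyc_fwdR hk (root_pow hκ hn)]
    rfl

/-! ### The inverse transform -/

theorem cast_invF {q st : ℕ} (hq : q * st ≤ 2 * D) {G : ℕ → ℕ → ℕ}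
    (hG : ∀ β i, G β i < 2 ^ (2 * D)) {C : ℕ → ℕ → RD D} {c : RD D}
    (h : ∀ β, ∀ i < q, ((G β i : ℕ) : RD D) = c * fwdR q (2 ^ st) C β i) (β : ℕ) {i : ℕ}
    (hi : i < 2 * q) : ((invF (2 * D) q st G β i : ℕ) : RD D) = 2 * c * C β i := by
  have e0 : 2 * β % 2 = 0 := by omega
  have e1 : (2 * β + 1) % 2 = 1 := by omega
  have e2 : 2 * β / 2 = β := by omega
  have e3 : (2 * β + 1) / 2 = β := by omega
  have key : ∀ k < q, ((2 : RD D) ^ st) ^ k * 2 ^ (2 * D - k * st) = 1 := by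
    intro k hk
    rw [← pow_mul, Nat.mul_comm st k]
    exact two_pow_split ((Nat.mul_le_mul_right _ hk.le).trans hq)
  unfold invF
  by_cases hiq : i < q
  · have hst : i * st ≤ 2 * D := (Nat.mul_le_mul_right _ hiq.le).trans hq
    rw [if_pos hiq, cast_addW (hG _ _) (rotN_lt hst (hG _ _)), cast_rotN hst, h _ i hiq,
      h _ i hiq, fwdR, fwdR, if_pos e0, if_neg (by omega), e2, e3]
    linear_combination c * (C β i - C β (i + q)) * key i hiq
  · have hiq' : i - q < q := by omega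
    have hst : (i - q) * st ≤ 2 * D := (Nat.mul_le_mul_right _ hiq'.le).trans hq
    rw [if_neg hiq, cast_subW (hG _ _) (rotN_lt hst (hG _ _)), cast_rotN hst, h _ _ hiq',
      h _ _ hiq', fwdR, fwdR, if_pos e0, if_neg (by omega), e2, e3,
      Nat.sub_add_cancel (by omega)]
    linear_combination (-c) * (C β (i - q) - C β i) * key (i - q) hiq'

theorem cast_invIter {κ δ : ℕ} (hκ : κ ≤ δ + 1) {G : ℕ → ℕ → ℕ}
    (hG : ∀ β i, G β i < 2 ^ (2 * 2 ^ δ)) (C : ℕ → ℕ → RD (2 ^ δ))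
    (h : ∀ β, ((G β 0 : ℕ) : RD (2 ^ δ)) = fwdIterR (2 ^ δ) (2 ^ κ) κ C β 0) :
    ∀ {n : ℕ}, n ≤ κ → ∀ (β : ℕ) {i : ℕ}, i < 2 ^ n →
      ((invIter (2 * 2 ^ δ) (2 ^ δ) n G β i : ℕ) : RD (2 ^ δ)) =
        2 ^ n * fwdIterR (2 ^ δ) (2 ^ κ) (κ - n) C β i
  | 0, _, β, i, hi => by
    have : i = 0 := by simpa using hi
    subst this
    rw [invIter, h, pow_zero, one_mul, Nat.sub_zero]
  | n + 1, hn, β, i, hi => by
    have h0 : κ - n = κ - (n + 1) + 1 := by omega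
    have hq : 2 ^ κ / 2 ^ (κ - (n + 1) + 1) = 2 ^ n := by
      rw [Nat.pow_div (by omega) (by norm_num)]
      congr 1
      omega
    have hst : 2 ^ n * (2 ^ δ / 2 ^ n) ≤ 2 * 2 ^ δ := by
      have := Nat.mul_div_le (2 ^ δ) (2 ^ n)
      omega
    rw [invIter, pow_succ, mul_comm ((2 : RD (2 ^ δ)) ^ n) 2]
    refine cast_invF hst (invIter_lt _ hG n) (C := fwdIterR (2 ^ δ) (2 ^ κ) (κ - (n + 1)) C)
      (fun β' i' hi' => ?_) β (by rw [pow_succ] at hi; omega)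
    rw [cast_invIter hκ hG C h (by omega) β' hi', h0, fwdIterR, hq]

/-! ### Natural numbers -/

/-- The product of two sequences, cyclically. -/
def cycN (N : ℕ) (a b : ℕ → ℕ) (k : ℕ) : ℕ :=
  ∑ i ∈ range N, ∑ j ∈ range N, if (i + j) % N = k then a i * b j else 0

theorem cast_cycN (N : ℕ) (a b : ℕ → ℕ) (k : ℕ) :
    ((cycN N a b k : ℕ) : RD D) = cyc N (fun i => ((a i : ℕ) : RD D))
      (fun i => ((b i : ℕ) : RD D)) k := by
  unfold cycN cyc
  push_cast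
  refine sum_congr rfl fun i _ => sum_congr rfl fun j _ => ?_
  split <;> simp

theorem sum_zero_tail {H : ℕ} {f : ℕ → ℕ} (hf : ∀ i, H ≤ i → f i = 0) :
    ∑ i ∈ range (2 * H), f i = ∑ i ∈ range H, f i := by
  rw [Nat.two_mul, sum_range_add]
  simp [hf]

theorem cycN_eq {H : ℕ} {a b : ℕ → ℕ} (ha : ∀ i, H ≤ i → a i = 0)
    (hb : ∀ i, H ≤ i → b i = 0) (k : ℕ) :
    cycN (2 * H) a b k = ∑ i ∈ range H, ∑ j ∈ range H, if i + j = k then a i * b j else 0 := by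
  unfold cycN
  rw [sum_zero_tail (fun i hi => by simp [ha i hi])]
  refine sum_congr rfl fun i hi => ?_
  rw [sum_zero_tail (fun j hj => by simp [hb j hj])]
  refine sum_congr rfl fun j hj => ?_
  rw [mem_range] at hi hj
  rw [Nat.mod_eq_of_lt (by omega)]

theorem cycN_sum {H p : ℕ} {a b : ℕ → ℕ} (ha : ∀ i, H ≤ i → a i = 0)
    (hb : ∀ i, H ≤ i → b i = 0) :
    ∑ k ∈ range (2 * H), cycN (2 * H) a b k * 2 ^ (p * k) =
      (∑ i ∈ range H, a i * 2 ^ (p * i)) * ∑ j ∈ range H, b j * 2 ^ (p * j) := by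
  simp_rw [cycN_eq ha hb, sum_mul, mul_sum]
  rw [sum_comm]
  refine sum_congr rfl fun i hi => ?_
  rw [sum_comm]
  refine sum_congr rfl fun j hj => ?_
  rw [mem_range] at hi hj
  rw [sum_eq_single (i + j)]
  · rw [if_pos rfl, Nat.mul_add, pow_add]
    ring
  · intro k _ hk
    rw [if_neg (Ne.symm hk), Nat.zero_mul]
  · intro h
    exact absurd (mem_range.2 (by omega)) h

theorem cycN_le {H B : ℕ} {a b : ℕ → ℕ} (ha : ∀ i, H ≤ i → a i = 0)
    (hb : ∀ i, H ≤ i → b i = 0) (hB : ∀ i j, a i * b j ≤ B) (k : ℕ) :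
    cycN (2 * H) a b k ≤ H * B := by
  rw [cycN_eq ha hb]
  calc _ ≤ ∑ i ∈ range H, B := by
        refine sum_le_sum fun i _ => ?_
        by_cases hik : i ≤ k
        · have e : ∀ j, (i + j = k) = (k - i = j) := fun j => propext (by omega)
          simp_rw [e]
          rw [sum_ite_eq]
          split
          · exact hB _ _
          · exact Nat.zero_le _
        · rw [sum_eq_zero]
          · exact Nat.zero_le _
          · intro j _
            rw [if_neg (by omega)]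
    _ = H * B := by rw [sum_const, card_range, smul_eq_mul]

theorem sum_digits (x p H : ℕ) :
    ∑ i ∈ range H, x / 2 ^ (p * i) % 2 ^ p * 2 ^ (p * i) = x % 2 ^ (p * H) := by
  induction H with
  | zero => simp [Nat.mod_one]
  | succ H ih =>
    rw [sum_range_succ, ih, Nat.mul_succ, pow_add, Nat.mod_mul]
    ring

/-! ### One level -/

theorem pcs_lt (u : ℕ) (x : ℕ → ℕ) (β i : ℕ) : pcs u x β i < 2 ^ lpP u := by
  unfold pcs
  split
  · exact Nat.mod_lt _ (by positivity)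
  · positivity

theorem lpD_eq (u : ℕ) : lpD u = 2 ^ (u / 2 + 4) := by
  rw [lpD, pow_add, Nat.mul_comm]
  norm_num

theorem lpW_eq (u : ℕ) : lpW u = 2 * lpD u := by
  unfold lpW lpD
  omega

theorem lpK_eq (u : ℕ) : lpK u = 2 ^ lpk u := by
  rw [lpK, lpk, pow_add, Nat.mul_comm]
  norm_num

theorem lpK_eq' (u : ℕ) : lpK u = 2 * lpH u := by
  unfold lpK lpH
  omega

theorem lpD_eq' (u : ℕ) : lpD u = 4 * lpP u := by
  unfold lpD lpP
  omega

theorem lpH_mul_lpP (u : ℕ) : lpP u * lpH u = 32 * 2 ^ u := by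
  have h : 2 ^ (u / 2) * 2 ^ (u - u / 2) = 2 ^ u := by
    rw [← pow_add]
    congr 1
    omega
  rw [lpP, lpH, ← h]
  ring

theorem lpH_le (u : ℕ) : lpH u ≤ 2 ^ (2 * lpP u) := by
  have h1 : 2 ^ (u - u / 2) ≤ 2 ^ (u / 2 + 1) := Nat.pow_le_pow_right (by norm_num) (by omega)
  have h2 : lpH u ≤ lpD u := by
    unfold lpH lpD
    rw [pow_succ] at h1
    omega
  have h3 : lpD u = 4 * lpP u := lpD_eq' u
  have h4 : lpP u < 2 ^ lpP u := Nat.lt_two_pow_self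
  have h5 : 4 ≤ 2 ^ lpP u := by
    calc 4 = 2 ^ 2 := by norm_num
      _ ≤ 2 ^ lpP u := by
        refine Nat.pow_le_pow_right (by norm_num) ?_
        have : 0 < 2 ^ (u / 2) := by positivity
        unfold lpP
        omega
  calc lpH u ≤ 4 * lpP u := by omega
    _ ≤ 2 ^ lpP u * 2 ^ lpP u := Nat.mul_le_mul h5 h4.le
    _ = 2 ^ (2 * lpP u) := by rw [← pow_add, Nat.two_mul]

theorem cycN_pcs_lt (u : ℕ) (x y : ℕ → ℕ) (β k : ℕ) :
    cycN (lpK u) (pcs u x β) (pcs u y β) k < 2 ^ lpD u := by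
  have ha : ∀ (x : ℕ → ℕ) i, lpH u ≤ i → pcs u x β i = 0 := fun x i hi => by
    rw [pcs, if_neg (by omega)]
  have h1 : 0 < lpH u := by unfold lpH; positivity
  have h3 : 1 ≤ 2 ^ lpP u := Nat.one_le_two_pow
  have h2 : (2 ^ lpP u - 1) * (2 ^ lpP u - 1) < 2 ^ lpP u * 2 ^ lpP u :=
    Nat.mul_lt_mul'' (by omega) (by omega)
  rw [lpK_eq']
  calc _ ≤ lpH u * ((2 ^ lpP u - 1) * (2 ^ lpP u - 1)) :=
        cycN_le (ha x) (ha y) (fun i j => Nat.mul_le_mul
          (Nat.le_sub_one_of_lt (pcs_lt u x β i)) (Nat.le_sub_one_of_lt (pcs_lt u y β j))) k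
    _ < lpH u * (2 ^ lpP u * 2 ^ lpP u) := Nat.mul_lt_mul_of_pos_left h2 h1
    _ ≤ 2 ^ (2 * lpP u) * (2 ^ lpP u * 2 ^ lpP u) := Nat.mul_le_mul_right _ (lpH_le u)
    _ = 2 ^ lpD u := by
      rw [← pow_add, ← pow_add, lpD_eq']
      congr 1
      ring

/-- **One level of the method of Schönhage and Strassen.** -/
theorem levelPure : LevelPure := by
  intro u x y hu hx hy β
  have hW0 := lpW_eq u
  have hD0 := lpD_eq u
  have hK0 := lpK_eq u
  have hκ : lpk u ≤ (u / 2 + 4) + 1 := by unfold lpk; omega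
  have hκ2 : lpk u ≤ 2 * lpD u := by
    have : u / 2 + 4 < 2 ^ (u / 2 + 4) := Nat.lt_two_pow_self
    omega
  have hpW : ∀ (x : ℕ → ℕ) (β i : ℕ), pcs u x β i < 2 ^ (2 * 2 ^ (u / 2 + 4)) := by
    intro x β i
    refine (pcs_lt u x β i).trans_le (Nat.pow_le_pow_right (by norm_num) ?_)
    rw [← hD0, lpD_eq']
    omega
  obtain ⟨δ, hδ⟩ : ∃ δ, δ = u / 2 + 4 := ⟨_, rfl⟩
  obtain ⟨κ, hκ0⟩ : ∃ κ, κ = lpk u := ⟨_, rfl⟩
  rw [← hδ] at hD0 hκ hpW
  rw [← hκ0] at hK0 hκ hκ2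
  have key : ∀ i < lpK u, cof u (fun j => leaf u x j * leaf u y j) β i =
      cycN (lpK u) (pcs u x β) (pcs u y β) i := by
    intro i hi
    have hleaf : ∀ (x : ℕ → ℕ) j, leaf u x j < 2 ^ (2 * 2 ^ δ) := by
      intro x j
      unfold leaf
      rw [hW0, hD0]
      exact fwdIter_lt _ _ (hpW x) _ _ _
    have hz : ∀ j, leaf u x j * leaf u y j < 2 ^ (2 * (2 * 2 ^ δ)) := by
      intro j
      calc leaf u x j * leaf u y j < 2 ^ (2 * 2 ^ δ) * 2 ^ (2 * 2 ^ δ) :=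
            Nat.mul_lt_mul'' (hleaf x j) (hleaf y j)
        _ = 2 ^ (2 * (2 * 2 ^ δ)) := by rw [← pow_add]; congr 1; ring
    have h1 : ∀ j, (((redW (2 * 2 ^ δ) (leaf u x j * leaf u y j) : ℕ)) : RD (2 ^ δ)) =
        fwdIterR (2 ^ δ) (2 ^ κ) κ (fun β => cyc (2 ^ κ)
          (fun i => ((pcs u x β i : ℕ) : RD (2 ^ δ)))
          (fun i => ((pcs u y β i : ℕ) : RD (2 ^ δ)))) j 0 := by
      intro j
      have h0 : 0 < 2 ^ κ / 2 ^ κ := by
        rw [Nat.div_self (by positivity)]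
        norm_num
      rw [cast_redW (hz j), cyc_fwdIterR hκ _ _ le_rfl j h0, Nat.div_self (by positivity),
        cyc_one, Nat.cast_mul]
      congr 1
      · unfold leaf
        rw [hW0, hD0, hK0, ← hκ0]
        exact cast_fwdIter hκ (hpW x) le_rfl j h0
      · unfold leaf
        rw [hW0, hD0, hK0, ← hκ0]
        exact cast_fwdIter hκ (hpW y) le_rfl j h0
    have h2 := cast_invIter hκ (G := fun j _ => redW (2 * 2 ^ δ) (leaf u x j * leaf u y j))
      (fun _ _ => redW_lt _ _) _ h1 le_rfl β (i := i) (by rw [← hK0]; exact hi)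
    rw [Nat.sub_self, fwdIterR] at h2
    have h3 : invIter (2 * 2 ^ δ) (2 ^ δ) κ
        (fun j _ => redW (2 * 2 ^ δ) (leaf u x j * leaf u y j)) β i < 2 ^ (2 * 2 ^ δ) :=
      invIter_lt _ (fun _ _ => redW_lt _ _) _ _ _
    have h4 := cast_nrm (D := 2 ^ δ) (κ := κ) h3 (by rw [← hD0]; exact hκ2)
    rw [h2, mul_right_comm, two_pow_split (by rw [← hD0]; exact hκ2), one_mul,
      ← cast_cycN] at h4
    have h5 := (ZMod.natCast_eq_natCast_iff _ _ _).1 h4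
    have h6 : cycN (2 ^ κ) (pcs u x β) (pcs u y β) i < 2 ^ 2 ^ δ + 1 := by
      have := cycN_pcs_lt u x y β i
      rw [hK0, hD0] at this
      omega
    have h7 := Nat.ModEq.eq_of_lt_of_lt h5 (Nat.lt_succ_of_le (nrm_le _ _ _)) h6
    unfold cof
    rw [hW0, hD0, hK0, ← hκ0]
    exact h7
  refine ⟨fun i hi => by rw [key i hi]; exact cycN_pcs_lt u x y β i, ?_⟩
  have ha : ∀ (x : ℕ → ℕ) i, lpH u ≤ i → pcs u x β i = 0 := fun x i hi => by
    rw [pcs, if_neg (by omega)]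
  have hs : ∀ x : ℕ → ℕ, (∀ β, x β < 2 ^ (32 * 2 ^ u)) →
      ∑ i ∈ range (lpH u), pcs u x β i * 2 ^ (lpP u * i) = x β := by
    intro x hx
    have h1 : ∑ i ∈ range (lpH u), pcs u x β i * 2 ^ (lpP u * i) =
        ∑ i ∈ range (lpH u), x β / 2 ^ (lpP u * i) % 2 ^ lpP u * 2 ^ (lpP u * i) :=
      sum_congr rfl fun i hi => by rw [pcs, if_pos (mem_range.1 hi)]
    rw [h1, sum_digits, lpH_mul_lpP, Nat.mod_eq_of_lt (hx β)]
  calc ∑ i ∈ range (lpK u), cof u (fun j => leaf u x j * leaf u y j) β i * 2 ^ (lpP u * i)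
      = ∑ i ∈ range (lpK u), cycN (lpK u) (pcs u x β) (pcs u y β) i * 2 ^ (lpP u * i) :=
        sum_congr rfl fun i hi => by rw [key i (mem_range.1 hi)]
    _ = x β * y β := by
      rw [lpK_eq', cycN_sum (ha x) (ha y), hs x hx, hs y hy]

end Vale.Agent.P338.SS
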