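import Vale.Agent.P338.SSPar
import Vale.Agent.P338.SSPure

/-!
# P338, third part: one level of the multiplication
-/

namespace Vale.Agent.P338.SS

variable {E : Type}

/-! ### The embedding of the small stores -/

/-- The names of the stacks. -/
def le : L → Q
  | .hb => .HB
  | .qq => .QQ
  | .ww => .WW
  | .st => .ST
  | .pp => .PP
  | .dd => .DD
  | .kp => .KP
  | .uu => .UU
  | .fr => .FR
  | .x => .X
  | .f1 => .F1
  | .f2 => .F2
  | .f3 => .F3
  | .f4 => .F4

theorem le_inj : Function.Injective le := by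
  intro a b h
  cases a <;> cases b <;> simp_all [le]

/-- The small part of a store. -/
def LV.of (s : SQ E) : LV E where
  hb := s .HB
  qq := s .QQ
  ww := s .WW
  st := s .ST
  pp := s .PP
  dd := s .DD
  kp := s .KP
  uu := s .UU
  fr := s .FR
  x := s .X
  f1 := s .F1
  f2 := s .F2
  f3 := s .F3
  f4 := s .F4

theorem ovw_of (s : SQ E) : ovw le (LV.of s).s s = s := by
  have : (LV.of s).s = fun i => s (le i) := by
    funext i
    cases i <;> rfl
  rw [this]
  exact ovw_self le_inj s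

theorem clean_ovw {s : SQ E} (hs : Clean s) {v : LV E} (h1 : v.f1 = []) (h2 : v.f2 = [])
    (h3 : v.f3 = []) (h4 : v.f4 = []) : Clean (ovw le v.s s) := by
  intro r hr
  by_cases h : ∃ i, le i = r
  · obtain ⟨i, rfl⟩ := h
    rw [ovw_apply le_inj]
    cases i
    case f1 => exact h1
    case f2 => exact h2
    case f3 => exact h3
    case f4 => exact h4
    all_goals exact absurd hr (by decide)
  · rw [ovw_of_not _ _ h]
    exact hs r hr

theorem ovw_le (v : LV E) (s : SQ E) (i : L) : ovw le v.s s (le i) = v.s i :=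
  ovw_apply le_inj _ _ _

theorem RunsE.conv {κ ι Γ : Type} {e : κ → ι} {S : Store ι Γ} {p : Prog ι Γ}
    {s s' s₁ s₂ : Store κ Γ} {t t' : ℕ}
    (h : RunsE e S p s s' t) (h₁ : s = s₁) (h₂ : s' = s₂) (ht : t ≤ t') :
    RunsE e S p s₁ s₂ t' := by
  subst h₁; subst h₂; exact h.mono ht

theorem RunsE.loop_le {κ ι Γ : Type} {e : κ → ι} (he : Function.Injective e)
    {S : Store ι Γ} {c : (κ → Option Γ) → Bool} {p : Prog ι Γ} (n : ℕ)
    (st : ℕ → Store κ Γ) (T : ℕ)
    (hc : ∀ k < n, c (tops (st k)) = true) (hn : c (tops (st n)) = false)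
    (hb : ∀ k < n, RunsE e S p (st k) (st (k + 1)) T) :
    RunsE e S (Prog.loop (fun tp => c fun i => tp (e i)) p) (st 0) (st n) (n * (T + 2)) := by
  refine Runs.loop_iter_le n (fun k => ovw e (st k) S) T ?_ ?_ hb
  · intro k hk
    rw [tops_ovw he]; exact hc k hk
  · rw [tops_ovw he]; exact hn

/-! ### The parameters -/

theorem par_spec : ParSpec (parL.map le : PQ E) 2000 := by
  intro u s hs hu h0 hp
  have r := RunsE.small le_inj s (runs_parL (LV.of s) hu h0 (hp Q.QQ (by simp))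
    (hp Q.WW (by simp)) (hp Q.ST (by simp)) (hp Q.PP (by simp)) (hp Q.DD (by simp))
    (hp Q.KP (by simp)) (hs Q.F1 (by decide)) (hs Q.F2 (by decide)) (hs Q.F3 (by decide))
    (hs Q.F4 (by decide)))
  refine runs_conv r (ovw_of s) ?_ le_rfl
  have e : ({ LV.of s with
      qq := una (lpH u)
      ww := una (lpW u)
      st := una (lpD u / lpH u)
      pp := una (lpP u)
      dd := una (lpD u)
      kp := una (lpk u) } : LV E).s =
      Function.update (Function.update (Function.update (Function.update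
      (Function.update (Function.update (LV.of s).s L.qq (una (lpH u))) L.ww (una (lpW u)))
        L.st (una (lpD u / lpH u))) L.pp (una (lpP u))) L.dd (una (lpD u)))
        L.kp (una (lpk u)) := by
    funext m; cases m <;> simp [LV.s]
  rw [e, ovw_update le_inj, ovw_update le_inj, ovw_update le_inj, ovw_update le_inj,
    ovw_update le_inj, ovw_update le_inj, ovw_of]
  rfl

/-! ### The passes on small stores -/

/-- The scratch stacks of a small store are empty. -/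
structure LV.Ok (v : LV E) : Prop where
  f1 : v.f1 = []
  f2 : v.f2 = []
  f3 : v.f3 = []
  f4 : v.f4 = []

theorem runs_fwdE {p : PQ E} {C : ℕ} (hp : FwdSpec p C) {s : SQ E} (hs : Clean s)
    {v v' : LV E} (hv : v.Ok) {h q W st : ℕ} {F : ℕ → ℕ → ℕ} (hq : 1 ≤ q) (hW : 1 ≤ W)
    (hst : q * st ≤ W) (hF : ∀ β i, F β i < 2 ^ W) (h1 : v.hb = una h) (h2 : v.qq = una q)
    (h3 : v.ww = una W) (h4 : v.st = una st) (h5 : v.x = bits (arr h (2 * q) W F))
    (h6 : Function.update v.s L.x (bits (arr (2 * h) q W (fwdF W q st F))) = v'.s) :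
    RunsE le s p v.s v'.s (C * (h * q * W + 1)) := by
  have r := hp h q W st F (ovw le v.s s) (clean_ovw hs hv.f1 hv.f2 hv.f3 hv.f4) hq hW hst hF
    ((ovw_le v s L.hb).trans h1) ((ovw_le v s L.qq).trans h2) ((ovw_le v s L.ww).trans h3)
    ((ovw_le v s L.st).trans h4) ((ovw_le v s L.x).trans h5)
  refine runs_conv r rfl ?_ le_rfl
  rw [← h6, ovw_update le_inj]
  rfl

theorem runs_invE {p : PQ E} {C : ℕ} (hp : InvSpec p C) {s : SQ E} (hs : Clean s)
    {v v' : LV E} (hv : v.Ok) {h q W st : ℕ} {F : ℕ → ℕ → ℕ} (hq : 1 ≤ q) (hW : 1 ≤ W)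
    (hst : q * st ≤ W) (hF : ∀ β i, F β i < 2 ^ W) (h1 : v.hb = una h) (h2 : v.qq = una q)
    (h3 : v.ww = una W) (h4 : v.st = una st) (h5 : v.x = bits (arr (2 * h) q W F))
    (h6 : Function.update v.s L.x (bits (arr h (2 * q) W (invF W q st F))) = v'.s) :
    RunsE le s p v.s v'.s (C * (h * q * W + 1)) := by
  have r := hp h q W st F (ovw le v.s s) (clean_ovw hs hv.f1 hv.f2 hv.f3 hv.f4) hq hW hst hF
    ((ovw_le v s L.hb).trans h1) ((ovw_le v s L.qq).trans h2) ((ovw_le v s L.ww).trans h3)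
    ((ovw_le v s L.st).trans h4) ((ovw_le v s L.x).trans h5)
  refine runs_conv r rfl ?_ le_rfl
  rw [← h6, ovw_update le_inj]
  rfl

theorem runs_splitE {p : PQ E} {C : ℕ} (hp : SplitSpec p C) {s : SQ E} (hs : Clean s)
    {v v' : LV E} (hv : v.Ok) {h H P : ℕ} {F : ℕ → ℕ → ℕ} (hH : 1 ≤ H) (hP : 1 ≤ P)
    (hF : ∀ β i, F β i < 2 ^ P) (h1 : v.hb = una h) (h2 : v.qq = una H)
    (h3 : v.pp = una P) (h5 : v.x = bits (arr h H P F))
    (h6 : Function.update v.s L.x (bits (arr h (2 * H) (8 * P) fun β i =>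
      if i < H then F β i else 0)) = v'.s) :
    RunsE le s p v.s v'.s (C * (h * H * P + 1)) := by
  have r := hp h H P F (ovw le v.s s) (clean_ovw hs hv.f1 hv.f2 hv.f3 hv.f4) hH hP hF
    ((ovw_le v s L.hb).trans h1) ((ovw_le v s L.qq).trans h2) ((ovw_le v s L.pp).trans h3)
    ((ovw_le v s L.x).trans h5)
  refine runs_conv r rfl ?_ le_rfl
  rw [← h6, ovw_update le_inj]
  rfl

theorem runs_redE {p : PQ E} {C : ℕ} (hp : RedSpec p C) {s : SQ E} (hs : Clean s)
    {v v' : LV E} (hv : v.Ok) {N W : ℕ} {z : ℕ → ℕ} (hW : 1 ≤ W)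
    (hz : ∀ j, z j < 2 ^ (2 * W)) (h1 : v.hb = una N) (h3 : v.ww = una W)
    (h5 : v.x = bits (arr N 1 (2 * W) fun j _ => z j))
    (h6 : Function.update v.s L.x (bits (arr N 1 W fun j _ => redW W (z j))) = v'.s) :
    RunsE le s p v.s v'.s (C * (N * W + 1)) := by
  have r := hp N W z (ovw le v.s s) (clean_ovw hs hv.f1 hv.f2 hv.f3 hv.f4) hW hz
    ((ovw_le v s L.hb).trans h1) ((ovw_le v s L.ww).trans h3) ((ovw_le v s L.x).trans h5)
  refine runs_conv r rfl ?_ le_rfl
  rw [← h6, ovw_update le_inj]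
  rfl

theorem runs_normE {p : PQ E} {C : ℕ} (hp : NormSpec p C) {s : SQ E} (hs : Clean s)
    {v v' : LV E} (hv : v.Ok) {h K D κ : ℕ} {F : ℕ → ℕ → ℕ} (hK : 1 ≤ K) (hD : 1 ≤ D)
    (hκ : κ ≤ D) (hF : ∀ β i, F β i < 2 ^ (2 * D))
    (hn : ∀ β < h, ∀ i < K, nrm D κ (F β i) < 2 ^ D)
    (h1 : v.hb = una h) (h2 : v.qq = una K) (h3 : v.ww = una (2 * D)) (h4 : v.dd = una D)
    (h4' : v.kp = una κ) (h5 : v.x = bits (arr h K (2 * D) F))
    (h6 : Function.update v.s L.x (bits (arr h K D fun β i => nrm D κ (F β i))) = v'.s) :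
    RunsE le s p v.s v'.s (C * (h * K * D + 1)) := by
  have r := hp h K D κ F (ovw le v.s s) (clean_ovw hs hv.f1 hv.f2 hv.f3 hv.f4) hK hD hκ hF hn
    ((ovw_le v s L.hb).trans h1) ((ovw_le v s L.qq).trans h2) ((ovw_le v s L.ww).trans h3)
    ((ovw_le v s L.dd).trans h4) ((ovw_le v s L.kp).trans h4') ((ovw_le v s L.x).trans h5)
  refine runs_conv r rfl ?_ le_rfl
  rw [← h6, ovw_update le_inj]
  rfl

theorem runs_asmE {p : PQ E} {C : ℕ} (hp : AsmSpec p C) {s : SQ E} (hs : Clean s)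
    {v v' : LV E} (hv : v.Ok) {h K P : ℕ} {c : ℕ → ℕ → ℕ} (hK : 1 ≤ K) (hP : 1 ≤ P)
    (hc : ∀ β < h, ∀ i < K, c β i < 2 ^ (4 * P))
    (hn : ∀ β < h, ∑ i ∈ Finset.range K, c β i * 2 ^ (P * i) < 2 ^ (K * P))
    (h1 : v.hb = una h) (h2 : v.qq = una K) (h3 : v.dd = una (4 * P)) (h4 : v.pp = una P)
    (h5 : v.x = bits (arr h K (4 * P) c))
    (h6 : Function.update v.s L.x (bits (arr h 1 (K * P) fun β _ =>
      ∑ i ∈ Finset.range K, c β i * 2 ^ (P * i))) = v'.s) :
    RunsE le s p v.s v'.s (C * (h * K * P + 1)) := by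
  have r := hp h K P c (ovw le v.s s) (clean_ovw hs hv.f1 hv.f2 hv.f3 hv.f4) hK hP hc hn
    ((ovw_le v s L.hb).trans h1) ((ovw_le v s L.qq).trans h2) ((ovw_le v s L.dd).trans h3)
    ((ovw_le v s L.pp).trans h4) ((ovw_le v s L.x).trans h5)
  refine runs_conv r rfl ?_ le_rfl
  rw [← h6, ovw_update le_inj]
  rfl

end Vale.Agent.P338.SS
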