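import Vale.Agent.P338.SSIface
import Vale.Agent.P338.Emb
import Vale.Agent.P338.TopLib

/-!
# P338, third part: the parameters of a level
-/

namespace Vale.Agent.P338.SS

/-! ### Numbers in unary -/

section

variable {E ι : Type}

theorem u_succ (n : ℕ) : (una (n + 1) : List (SSym E)) = mk :: una n := rfl

theorem u_zero : (una 0 : List (SSym E)) = [] := rfl

theorem u_isEmpty (n : ℕ) : (una n : List (SSym E)).isEmpty = decide (n = 0) := by
  cases n <;> simp [una, List.replicate_succ]

theorem u_app (m n : ℕ) : (una m ++ una n : List (SSym E)) = una (m + n) := by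
  simp [una]

theorem u_rev (n : ℕ) : (una n : List (SSym E)).reverse = una n := by
  simp [una]

theorem u_drop (m n : ℕ) : (una m : List (SSym E)).drop n = una (m - n) := by
  simp [una]

theorem runs_conv {Γ : Type} {p : Prog ι Γ} {s s' s₁ s₂ : Store ι Γ} {t t' : ℕ}
    (h : Runs p s s' t) (h₁ : s = s₁) (h₂ : s' = s₂) (ht : t ≤ t') : Runs p s₁ s₂ t' := by
  subst h₁; subst h₂; exact h.mono ht

variable [DecidableEq ι]

/-- Double the number on `a`, with the scratch stack `t`. -/
def dblU (a t : ι) : Prog ι (SSym E) :=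
  (Prog.rev a t).seq (Prog.loop (nonempty t) ((Prog.pop t).seq ((Prog.push a mk).seq
    (Prog.push a mk))))

theorem runs_dblU {a t : ι} (hat : a ≠ t) (s : Store ι (SSym E)) {n : ℕ}
    (ha : s a = una n) (ht : s t = []) :
    Runs (dblU a t) s (Function.update s a (una (2 * n))) (10 * n + 1) := by
  have r1 := Runs.rev (i := a) (j := t) hat s
  have r2 := Runs.loop_iter_le (c := nonempty t) (p := (Prog.pop t).seq ((Prog.push a mk).seq
    (Prog.push a mk))) n
    (fun k => Function.update (Function.update s a (una (2 * k))) t (una (n - k))) 5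
    (by
      intro k hk
      rw [nonempty_tops, Function.update_self, u_isEmpty]
      simp; omega)
    (by
      rw [nonempty_tops, Function.update_self, u_isEmpty]
      simp)
    (by
      intro k hk
      obtain ⟨j, hj⟩ : ∃ j, n - k = j + 1 := ⟨n - k - 1, by omega⟩
      have hj' : n - (k + 1) = j := by omega
      have s1 := Runs.pop t
        (Function.update (Function.update s a (una (2 * k))) t (una (n - k)))
      have s2 := Runs.push a mk
        (Function.update (Function.update s a (una (2 * k))) t (una j))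
      have s3 := Runs.push a mk
        (Function.update (Function.update s a (una (2 * k + 1))) t (una j))
      refine runs_conv ((s1.of_eq
        (s'' := Function.update (Function.update s a (una (2 * k))) t (una j)) ?_).seq
        ((s2.of_eq (s'' := Function.update (Function.update s a (una (2 * k + 1))) t
          (una j)) ?_).seq s3)) rfl ?_ (by omega)
      · rw [hj, u_succ]
        funext m; simp only [Function.update_apply]; split_ifs <;> simp_all
      · rw [u_succ]
        funext m; simp only [Function.update_apply]; split_ifs <;> simp_all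
      · simp only [hj', show 2 * (k + 1) = 2 * k + 1 + 1 by ring, u_succ]
        funext m; simp only [Function.update_apply]; split_ifs <;> simp_all)
  refine runs_conv ((r1.of_eq (s'' := Function.update (Function.update s a (una (2 * 0))) t
    (una (n - 0))) ?_).seq r2) rfl ?_ ?_
  · rw [ha, ht, u_rev, List.append_nil]
    rfl
  · rw [Nat.sub_self, u_zero]
    funext m; simp only [Function.update_apply]; split_ifs <;> simp_all
  · rw [ha, length_una]; omega

/-- Halve the number on `a`, with the scratch stack `t`. -/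
def halfU (a t : ι) : Prog ι (SSym E) :=
  (Prog.loop (nonempty a) ((Prog.pop a).seq
    (Prog.ite (nonempty a) (Prog.mov a t) Prog.skip))).seq (Prog.rev t a)

theorem runs_halfLoop {a t : ι} (hat : a ≠ t) (n : ℕ) : ∀ (s : Store ι (SSym E)) (j : ℕ),
    s a = una n → s t = una j →
    Runs (Prog.loop (nonempty a) ((Prog.pop a).seq
      (Prog.ite (nonempty a) (Prog.mov a t) Prog.skip))) s
      (Function.update (Function.update s a []) t (una (j + n / 2))) (6 * n) := by
  induction n using Nat.strong_induction_on with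
  | _ n ih =>
    intro s j ha ht
    rcases n with _ | _ | n
    · refine (Runs.loopF ?_).of_eq ?_
      · rw [nonempty_tops, ha, u_isEmpty]; simp
      · funext m; simp only [Function.update_apply]; split_ifs <;> simp_all [u_zero]
    · have s1 := Runs.pop a s
      have s2 := Runs.iteF (c := nonempty a) (p := Prog.mov a t) (by
        rw [nonempty_tops, Function.update_self, ha]; rfl)
        (Runs.skip (Function.update s a (s a).tail))
      have s3 := Runs.loopF (c := nonempty a) (p := (Prog.pop a).seq
        (Prog.ite (nonempty a) (Prog.mov a t) Prog.skip))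
        (s := Function.update s a (s a).tail) (by
        rw [nonempty_tops, Function.update_self, ha]; rfl)
      refine runs_conv (Runs.loopT (c := nonempty a) (by rw [nonempty_tops, ha]; rfl)
        (s1.seq s2) s3) rfl ?_ (by omega)
      rw [ha]
      funext m; simp only [Function.update_apply]; split_ifs <;> simp_all [una]
    · have s1 := Runs.pop a s
      have s2 := Runs.iteT (c := nonempty a) (q := Prog.skip) (by
        rw [nonempty_tops, Function.update_self, ha]; rfl)
        (Runs.mov hat (Function.update s a (s a).tail) (a := mk) (l := una n) (by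
          rw [Function.update_self, ha]; rfl))
      have s3 := ih n (by omega) (Function.update (Function.update
        (Function.update s a (s a).tail) a (una n)) t
        (mk :: (Function.update s a (s a).tail) t)) (j + 1) (by
          rw [Function.update_of_ne hat, Function.update_self]) (by
          rw [Function.update_self, Function.update_of_ne hat.symm, ht]; rfl)
      refine runs_conv (Runs.loopT (c := nonempty a) (by rw [nonempty_tops, ha]; rfl)
        (s1.seq s2) s3) rfl ?_ (by omega)
      rw [show j + 1 + n / 2 = j + (n + 1 + 1) / 2 by omega]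
      funext m; simp only [Function.update_apply]; split_ifs <;> simp_all

theorem runs_halfU {a t : ι} (hat : a ≠ t) (s : Store ι (SSym E)) {n : ℕ}
    (ha : s a = una n) (ht : s t = []) :
    Runs (halfU a t) s (Function.update s a (una (n / 2))) (10 * n + 1) := by
  have r1 := runs_halfLoop hat n s 0 ha (by rw [ht]; rfl)
  have r2 := Runs.rev (i := t) (j := a) (Ne.symm hat)
    (Function.update (Function.update s a []) t (una (0 + n / 2)))
  refine runs_conv (r1.seq r2) rfl ?_ ?_
  · funext m; simp only [Function.update_apply]; split_ifs <;> simp_all [u_rev]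
  · rw [Function.update_self, length_una]; omega

/-- Double the number on `a` once for every mark of `c`. -/
def powU (c a t : ι) : Prog ι (SSym E) :=
  Prog.loop (nonempty c) ((Prog.pop c).seq (dblU a t))

theorem runs_powU {c a t : ι} (hca : c ≠ a) (hct : c ≠ t) (hat : a ≠ t)
    (s : Store ι (SSym E)) {n k : ℕ} (hc : s c = una k) (ha : s a = una n) (ht : s t = []) :
    Runs (powU c a t) s (Function.update (Function.update s c []) a (una (n * 2 ^ k)))
      (k * (10 * (n * 2 ^ k) + 5)) := by
  have r1 := Runs.loop_iter_le (c := nonempty c) (p := (Prog.pop c).seq (dblU a t)) k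
    (fun i => Function.update (Function.update s c (una (k - i))) a (una (n * 2 ^ i)))
    (10 * (n * 2 ^ k) + 3)
    (by
      intro i hi
      rw [nonempty_tops, Function.update_of_ne hca, Function.update_self, u_isEmpty]
      simp; omega)
    (by
      rw [nonempty_tops, Function.update_of_ne hca, Function.update_self, u_isEmpty]
      simp)
    (by
      intro i hi
      obtain ⟨j, hj⟩ : ∃ j, k - i = j + 1 := ⟨k - i - 1, by omega⟩
      have hj' : k - (i + 1) = j := by omega
      have s1 := Runs.pop c
        (Function.update (Function.update s c (una (k - i))) a (una (n * 2 ^ i)))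
      have s2 := runs_dblU (a := a) (t := t) hat
        (Function.update (Function.update s c (una j)) a (una (n * 2 ^ i)))
        (n := n * 2 ^ i) (by rw [Function.update_self])
        (by rw [Function.update_of_ne hat.symm, Function.update_of_ne hct.symm, ht])
      refine runs_conv ((s1.of_eq (s'' := Function.update (Function.update s c (una j)) a
        (una (n * 2 ^ i))) ?_).seq s2) rfl ?_ ?_
      · rw [hj, u_succ]
        funext m; simp only [Function.update_apply]; split_ifs <;> simp_all
      · rw [hj', show n * 2 ^ (i + 1) = 2 * (n * 2 ^ i) by ring]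
        funext m; simp only [Function.update_apply]; split_ifs <;> simp_all
      · have : n * 2 ^ i ≤ n * 2 ^ k :=
          Nat.mul_le_mul_left _ (Nat.pow_le_pow_right (by norm_num) hi.le)
        omega)
  refine runs_conv r1 ?_ ?_ (by ring_nf; omega)
  · simp only [Nat.sub_zero, pow_zero, Nat.mul_one]
    rw [← hc, ← ha]
    simp
  · simp [u_zero]

end

/-! ### The small stores -/

/-- The stacks used by the level programs. -/
inductive L : Type
  | hb | qq | ww | st | pp | dd | kp | uu | fr | x | f1 | f2 | f3 | f4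
deriving DecidableEq

/-- The contents of the stacks. -/
structure LV (E : Type) : Type where
  hb : List (SSym E)
  qq : List (SSym E)
  ww : List (SSym E)
  st : List (SSym E)
  pp : List (SSym E)
  dd : List (SSym E)
  kp : List (SSym E)
  uu : List (SSym E)
  fr : List (SSym E)
  x : List (SSym E)
  f1 : List (SSym E)
  f2 : List (SSym E)
  f3 : List (SSym E)
  f4 : List (SSym E)

variable {E : Type}

/-- The contents of the stacks, as a store. -/
def LV.s (v : LV E) : Store L (SSym E)
  | .hb => v.hb
  | .qq => v.qq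
  | .ww => v.ww
  | .st => v.st
  | .pp => v.pp
  | .dd => v.dd
  | .kp => v.kp
  | .uu => v.uu
  | .fr => v.fr
  | .x => v.x
  | .f1 => v.f1
  | .f2 => v.f2
  | .f3 => v.f3
  | .f4 => v.f4

theorem runs_cp (a b t : L) (hab : a ≠ b) (hat : a ≠ t) (hbt : b ≠ t)
    (v v' : LV E) {n : ℕ} (ha : v.s a = una n) (ht : v.s t = [])
    (hv : Function.update v.s b (una n ++ v.s b) = v'.s) :
    Runs (Prog.copyOnto a b t) v.s v'.s (6 * n + 1) := by
  refine runs_conv (Runs.copyOnto hab hat hbt v.s ht) rfl ?_ ?_
  · rw [ha]; exact hv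
  · rw [ha, length_una]

theorem runs_push (k : ℕ) (a : L) (v v' : LV E)
    (hv : Function.update v.s a (una k ++ v.s a) = v'.s) :
    Runs (Prog.pushN k a mk) v.s v'.s (2 * k + 1) :=
  runs_conv (Runs.pushN k a mk v.s) rfl hv le_rfl

theorem runs_dbl (a t : L) (hat : a ≠ t) (v v' : LV E) {n : ℕ} (ha : v.s a = una n)
    (ht : v.s t = []) (hv : Function.update v.s a (una (2 * n)) = v'.s) :
    Runs (dblU a t) v.s v'.s (10 * n + 1) :=
  runs_conv (runs_dblU hat v.s ha ht) rfl hv le_rfl

theorem runs_half (a t : L) (hat : a ≠ t) (v v' : LV E) {n : ℕ} (ha : v.s a = una n)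
    (ht : v.s t = []) (hv : Function.update v.s a (una (n / 2)) = v'.s) :
    Runs (halfU a t) v.s v'.s (10 * n + 1) :=
  runs_conv (runs_halfU hat v.s ha ht) rfl hv le_rfl

theorem runs_pow (c a t : L) (hca : c ≠ a) (hct : c ≠ t) (hat : a ≠ t) (v v' : LV E)
    {n k : ℕ} (hc : v.s c = una k) (ha : v.s a = una n) (ht : v.s t = [])
    (hv : Function.update (Function.update v.s c []) a (una (n * 2 ^ k)) = v'.s) :
    Runs (powU c a t) v.s v'.s (k * (10 * (n * 2 ^ k) + 5)) :=
  runs_conv (runs_powU hca hct hat v.s hc ha ht) rfl hv le_rfl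

theorem runs_sub (a b : L) (hab : a ≠ b) (v v' : LV E) {n k : ℕ} (ha : v.s a = una n)
    (hb : v.s b = una k)
    (hv : Function.update (Function.update v.s a (una (n - k))) b (una (k - n)) = v'.s) :
    Runs (Prog.subtr a b) v.s v'.s (3 * n) := by
  refine runs_conv (Runs.subtr hab v.s) rfl ?_ ?_
  · rw [ha, hb, length_una, length_una, u_drop, u_drop]; exact hv
  · rw [ha, hb, length_una, length_una]; omega

theorem runs_clr (a : L) (v v' : LV E) {n : ℕ} (ha : v.s a = una n)
    (hv : Function.update v.s a [] = v'.s) : Runs (Prog.clear a) v.s v'.s (3 * n) := by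
  refine runs_conv (Runs.clear a v.s) rfl hv ?_
  rw [ha, length_una]

/-! ### The parameters -/

/-- The halves of `u`. -/
def parA : Prog L (SSym E) :=
  (Prog.copyOnto .uu .f3 .f1).seq <|
  (halfU .f3 .f1).seq <|
  (Prog.copyOnto .uu .f1 .f2).seq <|
  (Prog.copyOnto .f3 .f2 .f4).seq <|
  (Prog.subtr .f1 .f2)

/-- `PP`, `DD`, `WW`. -/
def parB : Prog L (SSym E) :=
  (Prog.pushN 4 .pp mk).seq <|
  (Prog.copyOnto .f3 .f2 .f4).seq <|
  (powU .f2 .pp .f4).seq <|
  (Prog.copyOnto .pp .dd .f4).seq <|
  (dblU .dd .f4).seq <|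
  (dblU .dd .f4).seq <|
  (Prog.copyOnto .dd .ww .f4).seq <|
  (dblU .ww .f4)

/-- `QQ`, `KP`. -/
def parC : Prog L (SSym E) :=
  (Prog.pushN 8 .qq mk).seq <|
  (Prog.copyOnto .f1 .f2 .f4).seq <|
  (powU .f2 .qq .f4).seq <|
  (Prog.copyOnto .f1 .kp .f4).seq <|
  (Prog.pushN 4 .kp mk)

/-- `ST`. -/
def parD : Prog L (SSym E) :=
  (Prog.pushN 2 .st mk).seq <|
  (Prog.subtr .f1 .f3).seq <|
  (Prog.ite (nonempty .f1) (Prog.pop .st) Prog.skip).seq <|
  (Prog.clear .f1)

/-- The computation of the parameters. -/
def parL : Prog L (SSym E) := parA.seq (parB.seq (parC.seq parD))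

theorem st_eq (u : ℕ) : lpD u / lpH u = 2 - u % 2 := by
  unfold lpD lpH
  rcases Nat.even_or_odd' u with ⟨k, rfl | rfl⟩
  · have h1 : 2 * k / 2 = k := by omega
    have h2 : 2 * k - k = k := by omega
    rw [h1, h2, show 16 * 2 ^ k = 2 * (8 * 2 ^ k) by ring,
      Nat.mul_div_cancel _ (by positivity)]
    omega
  · have h1 : (2 * k + 1) / 2 = k := by omega
    have h2 : 2 * k + 1 - k = k + 1 := by omega
    rw [h1, h2, show 16 * 2 ^ k = 8 * 2 ^ (k + 1) by ring, Nat.div_self (by positivity)]
    omega

theorem time_par {u : ℕ} (hu : 1 ≤ u) :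
    u ≤ 2 ^ u ∧ 2 ^ (u / 2) ≤ 2 ^ u ∧ 2 ^ (u - u / 2) ≤ 2 ^ u ∧
      (u / 2) * 2 ^ (u / 2) ≤ 2 ^ u ∧ (u - u / 2) * 2 ^ (u - u / 2) ≤ 2 ^ u := by
  have h0 : ∀ n : ℕ, n < 2 ^ n := fun n => Nat.lt_two_pow_self
  refine ⟨(h0 u).le, Nat.pow_le_pow_right (by norm_num) (by omega),
    Nat.pow_le_pow_right (by norm_num) (by omega), ?_, ?_⟩
  · calc (u / 2) * 2 ^ (u / 2) ≤ 2 ^ (u / 2) * 2 ^ (u / 2) :=
          Nat.mul_le_mul_right _ (h0 _).le
      _ = 2 ^ (u / 2 + u / 2) := (pow_add _ _ _).symm
      _ ≤ 2 ^ u := Nat.pow_le_pow_right (by norm_num) (by omega)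
  · obtain ⟨a, ha⟩ : ∃ a, u - u / 2 = a + 1 := ⟨u - u / 2 - 1, by omega⟩
    rw [ha]
    calc (a + 1) * 2 ^ (a + 1) ≤ 2 ^ a * 2 ^ (a + 1) :=
          Nat.mul_le_mul_right _ (h0 a)
      _ = 2 ^ (a + (a + 1)) := (pow_add _ _ _).symm
      _ ≤ 2 ^ u := Nat.pow_le_pow_right (by norm_num) (by omega)

theorem runs_parA (v : LV E) {u : ℕ} (h0 : v.uu = una u)
    (h7 : v.f1 = []) (h8 : v.f2 = []) (h9 : v.f3 = []) (h10 : v.f4 = []) :
    Runs parA v.s ({ v with f3 := una (u / 2), f1 := una (u - u / 2) } : LV E).s
      (50 * u + 20) := by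
  have r1 := runs_cp .uu .f3 .f1 (by decide) (by decide) (by decide) v
    ({ v with f3 := una u } : LV E) (n := u) h0 h7
    (by funext m; cases m <;> simp [LV.s, h9])
  have r2 := runs_half .f3 .f1 (by decide) ({ v with f3 := una u } : LV E)
    ({ v with f3 := una (u / 2) } : LV E) (n := u) rfl h7
    (by funext m; cases m <;> simp [LV.s])
  have r3 := runs_cp .uu .f1 .f2 (by decide) (by decide) (by decide)
    ({ v with f3 := una (u / 2) } : LV E) ({ v with f3 := una (u / 2), f1 := una u } : LV E)
    (n := u) h0 h8 (by funext m; cases m <;> simp [LV.s, h7])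
  have r4 := runs_cp .f3 .f2 .f4 (by decide) (by decide) (by decide)
    ({ v with f3 := una (u / 2), f1 := una u } : LV E)
    ({ v with f3 := una (u / 2), f1 := una u, f2 := una (u / 2) } : LV E)
    (n := (u / 2)) rfl h10 (by funext m; cases m <;> simp [LV.s, h8])
  have r5 := runs_sub .f1 .f2 (by decide)
    ({ v with f3 := una (u / 2), f1 := una u, f2 := una (u / 2) } : LV E)
    ({ v with f3 := una (u / 2), f1 := una (u - u / 2) } : LV E) (n := u) (k := (u / 2))
    rfl rfl (by
      rw [show u / 2 - u = 0 by omega]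
      funext m; cases m <;> simp [LV.s, h8, u_zero])
  exact runs_conv (r1.seq <| r2.seq <| r3.seq <| r4.seq <| r5) rfl rfl (by omega)

theorem runs_parB (v : LV E) {a : ℕ} (h2 : v.ww = []) (h4 : v.pp = [])
    (h5 : v.dd = []) (h8 : v.f2 = []) (h9 : v.f3 = una a) (h10 : v.f4 = []) :
    Runs parB v.s ({ v with
      ww := una (32 * 2 ^ a)
      pp := una (4 * 2 ^ a)
      dd := una (16 * 2 ^ a) } : LV E).s (40 * (a * 2 ^ a) + 11 * a + 500 * 2 ^ a + 50) := by
  have r6 := runs_push 4 .pp v ({ v with pp := una 4 } : LV E)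
    (by funext m; cases m <;> simp [LV.s, h4])
  have r7 := runs_cp .f3 .f2 .f4 (by decide) (by decide) (by decide)
    ({ v with pp := una 4 } : LV E) ({ v with pp := una 4, f2 := una a } : LV E)
    (n := a) h9 h10 (by funext m; cases m <;> simp [LV.s, h8])
  have r8 := runs_pow .f2 .pp .f4 (by decide) (by decide) (by decide)
    ({ v with pp := una 4, f2 := una a } : LV E) ({ v with pp := una (4 * 2 ^ a) } : LV E)
    (n := 4) (k := a) rfl rfl h10 (by funext m; cases m <;> simp [LV.s, h8])
  have r9 := runs_cp .pp .dd .f4 (by decide) (by decide) (by decide)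
    ({ v with pp := una (4 * 2 ^ a) } : LV E)
    ({ v with pp := una (4 * 2 ^ a), dd := una (4 * 2 ^ a) } : LV E)
    (n := 4 * 2 ^ a) rfl h10 (by funext m; cases m <;> simp [LV.s, h5])
  have r10 := runs_dbl .dd .f4 (by decide)
    ({ v with pp := una (4 * 2 ^ a), dd := una (4 * 2 ^ a) } : LV E)
    ({ v with pp := una (4 * 2 ^ a), dd := una (8 * 2 ^ a) } : LV E)
    (n := 4 * 2 ^ a) rfl h10 (by
      rw [show 2 * (4 * 2 ^ a) = 8 * 2 ^ a by ring]
      funext m; cases m <;> simp [LV.s])
  have r11 := runs_dbl .dd .f4 (by decide)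
    ({ v with pp := una (4 * 2 ^ a), dd := una (8 * 2 ^ a) } : LV E)
    ({ v with pp := una (4 * 2 ^ a), dd := una (16 * 2 ^ a) } : LV E)
    (n := 8 * 2 ^ a) rfl h10 (by
      rw [show 2 * (8 * 2 ^ a) = 16 * 2 ^ a by ring]
      funext m; cases m <;> simp [LV.s])
  have r12 := runs_cp .dd .ww .f4 (by decide) (by decide) (by decide)
    ({ v with pp := una (4 * 2 ^ a), dd := una (16 * 2 ^ a) } : LV E)
    ({ v with
        pp := una (4 * 2 ^ a)
        dd := una (16 * 2 ^ a)
        ww := una (16 * 2 ^ a) } : LV E)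
    (n := 16 * 2 ^ a) rfl h10 (by funext m; cases m <;> simp [LV.s, h2])
  have r13 := runs_dbl .ww .f4 (by decide)
    ({ v with
        pp := una (4 * 2 ^ a)
        dd := una (16 * 2 ^ a)
        ww := una (16 * 2 ^ a) } : LV E)
    ({ v with
        pp := una (4 * 2 ^ a)
        dd := una (16 * 2 ^ a)
        ww := una (32 * 2 ^ a) } : LV E)
    (n := 16 * 2 ^ a) rfl h10 (by
      rw [show 2 * (16 * 2 ^ a) = 32 * 2 ^ a by ring]
      funext m; cases m <;> simp [LV.s])
  refine runs_conv (r6.seq <| r7.seq <| r8.seq <| r9.seq <| r10.seq <| r11.seq <|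
    r12.seq <| r13) rfl rfl ?_
  have e1 : a * (10 * (4 * 2 ^ a) + 5) = 40 * (a * 2 ^ a) + 5 * a := by ring
  rw [e1]
  omega

theorem runs_parC (v : LV E) {b : ℕ} (h1 : v.qq = []) (h6 : v.kp = [])
    (h7 : v.f1 = una b) (h8 : v.f2 = []) (h10 : v.f4 = []) :
    Runs parC v.s ({ v with qq := una (8 * 2 ^ b), kp := una (b + 4) } : LV E).s
      (80 * (b * 2 ^ b) + 17 * b + 50) := by
  have r14 := runs_push 8 .qq v ({ v with qq := una 8 } : LV E)
    (by funext m; cases m <;> simp [LV.s, h1])
  have r15 := runs_cp .f1 .f2 .f4 (by decide) (by decide) (by decide)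
    ({ v with qq := una 8 } : LV E) ({ v with f2 := una b, qq := una 8 } : LV E)
    (n := b) h7 h10 (by funext m; cases m <;> simp [LV.s, h8])
  have r16 := runs_pow .f2 .qq .f4 (by decide) (by decide) (by decide)
    ({ v with f2 := una b, qq := una 8 } : LV E) ({ v with qq := una (8 * 2 ^ b) } : LV E)
    (n := 8) (k := b) rfl rfl h10 (by funext m; cases m <;> simp [LV.s, h8])
  have r17 := runs_cp .f1 .kp .f4 (by decide) (by decide) (by decide)
    ({ v with qq := una (8 * 2 ^ b) } : LV E)
    ({ v with qq := una (8 * 2 ^ b), kp := una b } : LV E)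
    (n := b) h7 h10 (by funext m; cases m <;> simp [LV.s, h6])
  have r18 := runs_push 4 .kp
    ({ v with qq := una (8 * 2 ^ b), kp := una b } : LV E)
    ({ v with qq := una (8 * 2 ^ b), kp := una (b + 4) } : LV E)
    (by funext m; cases m <;> simp [LV.s, u_app, Nat.add_comm 4 b])
  refine runs_conv (r14.seq <| r15.seq <| r16.seq <| r17.seq r18) rfl rfl ?_
  have e2 : b * (10 * (8 * 2 ^ b) + 5) = 80 * (b * 2 ^ b) + 5 * b := by ring
  rw [e2]
  omega

theorem runs_parD (v : LV E) {u : ℕ} (h3 : v.st = [])
    (h7 : v.f1 = una (u - u / 2)) (h9 : v.f3 = una (u / 2)) :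
    Runs parD v.s ({ v with st := una (2 - u % 2), f1 := [], f3 := [] } : LV E).s
      (3 * u + 50) := by
  have r19 := runs_push 2 .st v ({ v with st := una 2 } : LV E)
    (by funext m; cases m <;> simp [LV.s, h3])
  have r20 := runs_sub .f1 .f3 (by decide)
    ({ v with st := una 2 } : LV E) ({ v with f1 := una (u % 2), f3 := [], st := una 2 } : LV E)
    (n := u - u / 2) (k := u / 2) h7 h9
    (by
      rw [show u - u / 2 - u / 2 = u % 2 by omega, show u / 2 - (u - u / 2) = 0 by omega]
      funext m; cases m <;> simp [LV.s, u_zero])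
  have r21 : Runs (Prog.ite (nonempty .f1) (Prog.pop .st) Prog.skip)
      ({ v with f1 := una (u % 2), f3 := [], st := una 2 } : LV E).s
      ({ v with f1 := una (u % 2), f3 := [], st := una (2 - u % 2) } : LV E).s 2 := by
    rcases Nat.mod_two_eq_zero_or_one u with h | h
    · rw [h]
      exact Runs.iteF (c := nonempty L.f1) (by rw [nonempty_tops]; rfl) (Runs.skip _)
    · rw [h]
      refine runs_conv (Runs.iteT (c := nonempty L.f1) (q := Prog.skip)
        (by rw [nonempty_tops]; rfl) (Runs.pop _ _)) rfl ?_ le_rfl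
      funext m; cases m <;> simp [LV.s, una]
  have r22 := runs_clr .f1
      ({ v with f1 := una (u % 2), f3 := [], st := una (2 - u % 2) } : LV E)
      ({ v with f1 := [], f3 := [], st := una (2 - u % 2) } : LV E) (n := u % 2) rfl
      (by funext m; cases m <;> simp [LV.s])
  exact runs_conv (r19.seq <| r20.seq <| r21.seq r22) rfl rfl (by omega)

theorem runs_parL (v : LV E) {u : ℕ} (hu : 1 ≤ u) (h0 : v.uu = una u) (h1 : v.qq = [])
    (h2 : v.ww = []) (h3 : v.st = []) (h4 : v.pp = []) (h5 : v.dd = []) (h6 : v.kp = [])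
    (h7 : v.f1 = []) (h8 : v.f2 = []) (h9 : v.f3 = []) (h10 : v.f4 = []) :
    Runs parL v.s ({ v with
      qq := una (lpH u)
      ww := una (lpW u)
      st := una (lpD u / lpH u)
      pp := una (lpP u)
      dd := una (lpD u)
      kp := una (lpk u) } : LV E).s (2000 * 2 ^ u) := by
  rw [st_eq]
  unfold lpH lpW lpP lpD lpk
  have r1 := runs_parA v h0 h7 h8 h9 h10
  have r2 := runs_parB ({ v with f3 := una (u / 2), f1 := una (u - u / 2) } : LV E)
    (a := u / 2) h2 h4 h5 h8 rfl h10
  have r3 := runs_parC ({ v with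
      f3 := una (u / 2)
      f1 := una (u - u / 2)
      ww := una (32 * 2 ^ (u / 2))
      pp := una (4 * 2 ^ (u / 2))
      dd := una (16 * 2 ^ (u / 2)) } : LV E) (b := u - u / 2) h1 h6 rfl h8 h10
  have r4 := runs_parD ({ v with
      f3 := una (u / 2)
      f1 := una (u - u / 2)
      ww := una (32 * 2 ^ (u / 2))
      pp := una (4 * 2 ^ (u / 2))
      dd := una (16 * 2 ^ (u / 2))
      qq := una (8 * 2 ^ (u - u / 2))
      kp := una (u - u / 2 + 4) } : LV E) (u := u) h3 rfl rfl
  refine runs_conv (r1.seq (r2.seq (r3.seq r4))) rfl ?_ ?_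
  · funext m; cases m <;> simp [LV.s, h7, h9]
  · obtain ⟨t1, t2, t3, t4, t5⟩ := time_par hu
    have h1 : 1 ≤ 2 ^ u := Nat.one_le_two_pow
    omega

end Vale.Agent.P338.SS
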