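import Vale.Agent.P338.SSStage

/-!
# P338, third part: the passes that perform one stage
-/

namespace Vale.Agent.P338.SS

open S2

/-! ### Moving a rectangle -/

section

variable {ι Γ : Type} [DecidableEq ι]

/-- Move `|u| * |w|` symbols from `a` to `b`. -/
def takeNN (u w a b t t' : ι) : Prog ι Γ := Prog.forr u t (takeN w a b t')

theorem runs_takeNN {u w a b t t' : ι} (h : [u, w, a, b, t, t'].Nodup) (c : Γ) {n W : ℕ}
    (l₁ l₂ : List Γ) (hl : l₁.length = n * W) (s : Store ι Γ) (hu : s u = List.replicate n c)
    (hw : s w = List.replicate W c) (ht : s t = []) (ht' : s t' = []) (ha : s a = l₁ ++ l₂) :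
    Runs (takeNN u w a b t t') s
      (Function.update (Function.update s a l₂) b (l₁.reverse ++ s b))
      (n * (8 * W + 8) + 1) := by
  simp only [List.nodup_cons, List.mem_cons, List.not_mem_nil, or_false, not_or,
    List.nodup_nil, and_true] at h
  obtain ⟨⟨a1, a2, a3, a4, a5⟩, ⟨b1, b2, b3, b4⟩, ⟨c1, c2, c3⟩, ⟨d1, d2⟩, e1, -⟩ := h
  have h := Runs.forr' (u := u) (t := t) a4 (body := takeN w a b t') n c
    (fun k => Function.update (Function.update s a (l₁.drop (k * W) ++ l₂)) b
      ((l₁.take (k * W)).reverse ++ s b)) (fun _ => 8 * W + 1)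
    (fun k _ => by rw [Function.update_of_ne a3, Function.update_of_ne a2, hu])
    (fun k _ => by rw [Function.update_of_ne (Ne.symm d1), Function.update_of_ne
      (Ne.symm c2), ht])
    (by
      intro k hk l l'
      have hk' : k * W + W ≤ l₁.length := by
        rw [hl, ← Nat.succ_mul]
        exact Nat.mul_le_mul_right _ hk
      have e0 : l₁.drop (k * W) = (l₁.drop (k * W)).take W ++ l₁.drop ((k + 1) * W) := by
        conv_lhs => rw [← List.take_append_drop W (l₁.drop (k * W))]
        rw [List.drop_drop, Nat.succ_mul]
      have e2 : ((l₁.drop (k * W)).take W).length = W := by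
        rw [List.length_take, List.length_drop]
        omega
      have e3 : l₁.take ((k + 1) * W) = l₁.take (k * W) ++ (l₁.drop (k * W)).take W := by
        rw [Nat.succ_mul, List.take_add]
      have r1 := runs_takeN (u := w) (a := a) (b := b) (t := t') b1 b2 b4 c1 c3 d2 c
        ((l₁.drop (k * W)).take W) (l₁.drop ((k + 1) * W) ++ l₂)
        (Function.update (Function.update (Function.update (Function.update s a
          (l₁.drop (k * W) ++ l₂)) b ((l₁.take (k * W)).reverse ++ s b)) u l) t l')
        (by
          rw [e2, Function.update_of_ne b3, Function.update_of_ne (Ne.symm a1),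
            Function.update_of_ne b2, Function.update_of_ne b1, hw])
        (by
          rw [Function.update_of_ne (Ne.symm e1), Function.update_of_ne (Ne.symm a5),
            Function.update_of_ne (Ne.symm d2), Function.update_of_ne (Ne.symm c3), ht'])
        (by
          rw [Function.update_of_ne c2, Function.update_of_ne (Ne.symm a2),
            Function.update_of_ne c1, Function.update_self, ← List.append_assoc, ← e0])
      refine (r1.mono (by rw [e2])).of_eq ?_
      rw [e3, List.reverse_append]
      funext m
      simp only [Function.update_apply]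
      by_cases q1 : m = b
      · subst q1; simp [Ne.symm a3, d1]
      by_cases q2 : m = a
      · subst q2; simp [Ne.symm a2, c1, c2]
      simp [q1, q2])
  simp only [Finset.sum_const, Finset.card_range, smul_eq_mul] at h
  have e0 : Function.update (Function.update s a (l₁.drop (0 * W) ++ l₂)) b
      ((l₁.take (0 * W)).reverse ++ s b) = s := by
    rw [Nat.zero_mul, List.drop_zero, List.take_zero, ← ha, Function.update_eq_self,
      List.reverse_nil, List.nil_append, Function.update_eq_self]
  rw [e0] at h
  refine (h.mono ?_).of_eq ?_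
  · have : n * (8 * W + 8) = n * (8 * W + 1 + 4) + 3 * n := by ring
    omega
  · rw [← hl, List.drop_length, List.take_length, List.nil_append]

end

variable {E : Type}

/-! ### One block -/

/-- The scratch stacks of a slot program. -/
def slSc : List Q := [Q.T1, Q.T2, Q.T3, Q.P, Q.V, Q.C1, Q.C2, Q.F6]

/-- The environment of a slot program. -/
def SEnv (s : SQ E) (W st : ℕ) : Prop :=
  s Q.WW = una W ∧ s Q.ST = una st ∧ ∀ r ∈ slSc, s r = []

/-- A slot program: the `k`-th execution takes `f k` from `A` and `f (k + q)` from `X`, and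
puts `g₁ k` on `O` and `g₂ k` on `O2`. -/
def SlotSpec (sl : PQ E) (q W st : ℕ) (f g₁ g₂ e : ℕ → ℕ) (T : ℕ) : Prop :=
  ∀ (k : ℕ) (s : SQ E) (ra rx : List (SSym E)), k < q → SEnv s W st →
    s Q.A = bits (bitsOf W (f k)) ++ ra → s Q.X = bits (bitsOf W (f (k + q))) ++ rx →
    s Q.EE = una (e k) →
    Runs sl s (Function.update (Function.update (Function.update (Function.update
      (Function.update s Q.A ra) Q.X rx)
      Q.O ((bits (bitsOf W (g₁ k))).reverse ++ s Q.O))
      Q.O2 ((bits (bitsOf W (g₂ k))).reverse ++ s Q.O2))
      Q.EE (una (e (k + 1)))) T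

/-- The loop of a block. -/
def innerP (sl : PQ E) : PQ E := Prog.forr Q.QQ Q.F5 sl

theorem bits_append (l l' : List Bool) : (bits (l ++ l') : List (SSym E)) = bits l ++ bits l' :=
  by simp [bits]

theorem bits_reverse (l : List Bool) : (bits l : List (SSym E)).reverse = bits l.reverse := by
  simp [bits]

theorem runs_innerP {sl : PQ E} {q W st : ℕ} {f g₁ g₂ e : ℕ → ℕ} {T : ℕ}
    (hsl : SlotSpec sl q W st f g₁ g₂ e T) (s : SQ E) (rx : List (SSym E))
    (hs : SEnv s W st) (hQ : s Q.QQ = una q) (h5 : s Q.F5 = [])
    (hA : s Q.A = bits (cat q fun i => bitsOf W (f i)))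
    (hX : s Q.X = bits (cat q fun i => bitsOf W (f (i + q))) ++ rx)
    (hE : s Q.EE = una (e 0)) :
    Runs (innerP sl) s (Function.update (Function.update (Function.update (Function.update
      (Function.update s Q.A []) Q.X rx)
      Q.O ((bits (cat q fun i => bitsOf W (g₁ i))).reverse ++ s Q.O))
      Q.O2 ((bits (cat q fun i => bitsOf W (g₂ i))).reverse ++ s Q.O2))
      Q.EE (una (e q))) (q * (T + 7) + 1) := by
  obtain ⟨hW, hS, hsc⟩ := hs
  have h := Runs.forr' (u := Q.QQ) (t := Q.F5) (by decide) (body := sl) q mk
    (fun k => Function.update (Function.update (Function.update (Function.update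
      (Function.update s Q.A (bits (cat (q - k) fun i => bitsOf W (f (k + i)))))
      Q.X (bits (cat (q - k) fun i => bitsOf W (f (k + i + q))) ++ rx))
      Q.O ((bits (cat k fun i => bitsOf W (g₁ i))).reverse ++ s Q.O))
      Q.O2 ((bits (cat k fun i => bitsOf W (g₂ i))).reverse ++ s Q.O2))
      Q.EE (una (e k))) (fun _ => T)
    (fun k _ => by simp [hQ, una]) (fun k _ => by simp [h5])
    (by
      intro k hk l l'
      obtain ⟨m, hm⟩ : ∃ m, q - k = m + 1 := ⟨q - k - 1, by omega⟩
      have hm' : q - (k + 1) = m := by omega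
      have e1 : ∀ g : ℕ → ℕ, (cat (q - k) fun i => bitsOf W (g (k + i))) =
          bitsOf W (g k) ++ cat (q - (k + 1)) fun i => bitsOf W (g (k + 1 + i)) := by
        intro g
        rw [hm, hm', cat_succ']
        simp only [Nat.add_zero]
        congr 1
        exact cat_congr fun i _ => by rw [Nat.add_right_comm, Nat.add_assoc]
      have e2 := e1 f
      have e3 := e1 (fun i => f (i + q))
      have r1 := hsl k (Function.update (Function.update (Function.update (Function.update
        (Function.update (Function.update
      (Function.update s Q.A (bits (cat (q - k) fun i => bitsOf W (f (k + i)))))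
      Q.X (bits (cat (q - k) fun i => bitsOf W (f (k + i + q))) ++ rx))
      Q.O ((bits (cat k fun i => bitsOf W (g₁ i))).reverse ++ s Q.O))
      Q.O2 ((bits (cat k fun i => bitsOf W (g₂ i))).reverse ++ s Q.O2))
      Q.EE (una (e k))) Q.QQ l) Q.F5 l')
        (bits (cat (q - (k + 1)) fun i => bitsOf W (f (k + 1 + i))))
        (bits (cat (q - (k + 1)) fun i => bitsOf W (f (k + 1 + i + q))) ++ rx) hk
        (by
          refine ⟨by simp [hW], by simp [hS], ?_⟩
          intro r hr
          have := hsc r hr
          simp only [slSc, List.mem_cons, List.not_mem_nil, or_false] at hr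
          rcases hr with rfl | rfl | rfl | rfl | rfl | rfl | rfl | rfl <;> simp [this])
        (by simp [e2, bits_append]) (by simp [e3, bits_append]) (by simp)
      refine r1.of_eq ?_
      funext r
      cases r <;> simp [cat_succ, bits_append])
  simp only [Finset.sum_const, Finset.card_range, smul_eq_mul] at h
  have e0 : (Function.update (Function.update (Function.update (Function.update
      (Function.update s Q.A (bits (cat (q - 0) fun i => bitsOf W (f (0 + i)))))
      Q.X (bits (cat (q - 0) fun i => bitsOf W (f (0 + i + q))) ++ rx))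
      Q.O ((bits (cat 0 fun i => bitsOf W (g₁ i))).reverse ++ s Q.O))
      Q.O2 ((bits (cat 0 fun i => bitsOf W (g₂ i))).reverse ++ s Q.O2))
      Q.EE (una (e 0))) = s := by
    funext r
    cases r <;> simp [hA, hX, hE, bits]
  rw [e0] at h
  refine (h.mono ?_).of_eq ?_
  · have : q * (T + 7) = q * (T + 4) + 3 * q := by ring
    omega
  · funext r
    cases r <;> simp [bits]

/-- One block of a stage. -/
def blockP (ini sl : PQ E) : PQ E :=
  ini.seq ((takeNN Q.QQ Q.WW Q.X Q.T1 Q.F5 Q.F6).seq ((Prog.rev Q.T1 Q.A).seq
    ((innerP sl).seq ((Prog.clear Q.EE).seq (mvOnto Q.O2 Q.O Q.T1)))))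

theorem runs_blockP {ini sl : PQ E} {q W st : ℕ} {f g₁ g₂ e : ℕ → ℕ} {T Ti eB : ℕ}
    (hsl : SlotSpec sl q W st f g₁ g₂ e T) (s : SQ E) (rx : List (SSym E))
    (hini : Runs ini s (Function.update s Q.EE (una (e 0))) Ti) (heB : e q ≤ eB)
    (hs : SEnv s W st) (hQ : s Q.QQ = una q) (h5 : s Q.F5 = [])
    (hA : s Q.A = []) (hO2 : s Q.O2 = []) (hE : s Q.EE = [])
    (hX : s Q.X = bits (cat (2 * q) fun i => bitsOf W (f i)) ++ rx) :
    Runs (blockP ini sl) s (Function.update (Function.update s Q.X rx)
      Q.O ((bits ((cat q fun i => bitsOf W (g₁ i)) ++ cat q fun i => bitsOf W (g₂ i))).reverse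
        ++ s Q.O)) (q * (T + 17 * W + 15) + Ti + 3 * eB + 8) := by
  obtain ⟨hW, hS, hsc⟩ := hs
  have h1 : s Q.T1 = [] := hsc _ (by decide)
  have h6 : s Q.F6 = [] := hsc _ (by decide)
  have e1 : (cat (2 * q) fun i => bitsOf W (f i)) =
      (cat q fun i => bitsOf W (f i)) ++ cat q fun i => bitsOf W (f (i + q)) := by
    rw [two_mul, cat_add]
    congr 1
    exact cat_congr fun i _ => by rw [Nat.add_comm]
  rw [e1, bits_append, List.append_assoc] at hX
  have hl : (cat q fun i => bitsOf W (f i)).length = q * W :=
    length_cat_of fun i _ => by simp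
  have hl2 : (cat q fun i => bitsOf W (g₂ i)).length = q * W :=
    length_cat_of fun i _ => by simp
  have r2 := runs_takeNN (u := Q.QQ) (w := Q.WW) (a := Q.X) (b := Q.T1) (t := Q.F5)
    (t' := Q.F6) (by decide) mk (n := q) (W := W) (bits (cat q fun i => bitsOf W (f i)))
    (bits (cat q fun i => bitsOf W (f (i + q))) ++ rx) (by rw [length_bits, hl])
    (Function.update s Q.EE (una (e 0))) (by simp [hQ, una]) (by simp [hW, una])
    (by simp [h5]) (by simp [h6]) (by simp [hX])
  have r3 := Runs.rev (i := Q.T1) (j := Q.A) (by decide)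
    (Function.update (Function.update (Function.update s Q.EE (una (e 0))) Q.X
      (bits (cat q fun i => bitsOf W (f (i + q))) ++ rx)) Q.T1
      ((bits (cat q fun i => bitsOf W (f i))).reverse ++
        (Function.update s Q.EE (una (e 0))) Q.T1))
  have r4 := runs_innerP hsl
    (Function.update (Function.update (Function.update s Q.EE (una (e 0))) Q.X
      (bits (cat q fun i => bitsOf W (f (i + q))) ++ rx)) Q.A
      (bits (cat q fun i => bitsOf W (f i)))) rx
    (by
      refine ⟨by simp [hW], by simp [hS], ?_⟩
      intro r hr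
      have := hsc r hr
      simp only [slSc, List.mem_cons, List.not_mem_nil, or_false] at hr
      rcases hr with rfl | rfl | rfl | rfl | rfl | rfl | rfl | rfl <;> simp [this])
    (by simp [hQ]) (by simp [h5]) (by simp) (by simp) (by simp)
  have r5 := Runs.clear Q.EE (Function.update (Function.update (Function.update
      (Function.update s Q.X rx)
      Q.O ((bits (cat q fun i => bitsOf W (g₁ i))).reverse ++ s Q.O))
      Q.O2 ((bits (cat q fun i => bitsOf W (g₂ i))).reverse))
      Q.EE (una (e q)))
  have r6 := runs_mvOnto (a := Q.O2) (b := Q.O) (t := Q.T1) (by decide) (by decide)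
    (by decide) (Function.update (Function.update (Function.update s Q.X rx)
      Q.O ((bits (cat q fun i => bitsOf W (g₁ i))).reverse ++ s Q.O))
      Q.O2 ((bits (cat q fun i => bitsOf W (g₂ i))).reverse)) (by simp [h1])
  refine ((hini.seq (r2.seq ((r3.of_eq ?_).seq ((r4.of_eq ?_).seq
    ((r5.of_eq ?_).seq r6))))).mono ?_).of_eq ?_
  · funext r
    cases r <;> simp [h1, hA]
  · funext r
    cases r <;> simp [hO2, hA]
  · funext r
    cases r <;> simp [hE]
  · simp only [Function.update_apply, reduceCtorEq, if_false, if_true, h1, List.append_nil,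
      List.length_reverse, length_bits, hl, hl2, length_una]
    have e5 : q * (T + 17 * W + 15) = q * (8 * W + 8) + 3 * (q * W) + q * (T + 7) +
      6 * (q * W) := by ring
    omega
  · funext r
    cases r <;> simp [hO2, bits]

end Vale.Agent.P338.SS
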