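import Vale.Agent.P338.SSIface
import Vale.Agent.P338.S2Sub
import Vale.Agent.P338.MoveLib

/-!
# P338, third part: scanning two stacks; addition and subtraction modulo `2 ^ W - 1`; rotation
-/

namespace Vale.Agent.P338.SS

open S2

variable {E ι : Type}

/-! ### Scans -/

/-- A transition function: two digits and two flags to two digits and two flags. -/
abbrev Tf : Type := Bool → Bool → Bool → Bool → Bool × Bool × Bool × Bool

/-- The effect of a scan on lists. -/
def scn (f : Tf) : List Bool → List Bool → Bool → Bool → List Bool × List Bool × Bool × Bool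
  | a :: as, b :: bs, c, d =>
    ((f a b c d).1 :: (scn f as bs (f a b c d).2.2.1 (f a b c d).2.2.2).1,
      (f a b c d).2.1 :: (scn f as bs (f a b c d).2.2.1 (f a b c d).2.2.2).2.1,
      (scn f as bs (f a b c d).2.2.1 (f a b c d).2.2.2).2.2.1,
      (scn f as bs (f a b c d).2.2.1 (f a b c d).2.2.2).2.2.2)
  | _, _, c, d => ([], [], c, d)

theorem length_scn (f : Tf) (as : List Bool) : ∀ (bs : List Bool) (c d : Bool),
    as.length = bs.length → (scn f as bs c d).1.length = as.length ∧
      (scn f as bs c d).2.1.length = as.length := by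
  induction as with
  | nil => intro bs c d _; cases bs <;> exact ⟨rfl, rfl⟩
  | cons a as ih =>
    intro bs c d h
    cases bs with
    | nil => simp at h
    | cons b bs =>
      have := ih bs (f a b c d).2.2.1 (f a b c d).2.2.2 (by simpa using h)
      exact ⟨by simp [scn, this.1], by simp [scn, this.2]⟩

variable [DecidableEq ι]

/-- The operation that changes a flag. -/
def flagOp (new old : Bool) : Op (SSym E) :=
  if new then (if old then Op.keep else Op.push mk)
  else (if old then Op.pop else Op.keep)

theorem flagOp_app (new old : Bool) :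
    (flagOp new old : Op (SSym E)).app (flg old) = flg new := by
  cases new <;> cases old <;> rfl

/-- One step of a scan. -/
def scanStep (f : Tf) (A B O₁ O₂ C D : ι) : Prog ι (SSym E) :=
  Prog.act fun tp l =>
    if l = A then Op.pop
    else if l = B then Op.pop
    else if l = O₁ then Op.push (sb (f (tb (tp A)) (tb (tp B)) (tp C).isSome (tp D).isSome).1)
    else if l = O₂ then
      Op.push (sb (f (tb (tp A)) (tb (tp B)) (tp C).isSome (tp D).isSome).2.1)
    else if l = C then
      flagOp (f (tb (tp A)) (tb (tp B)) (tp C).isSome (tp D).isSome).2.2.1 (tp C).isSome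
    else if l = D then
      flagOp (f (tb (tp A)) (tb (tp B)) (tp C).isSome (tp D).isSome).2.2.2 (tp D).isSome
    else Op.keep

theorem isSome_flg (b : Bool) : (flg b : List (SSym E)).head?.isSome = b := by
  cases b <;> rfl

theorem runs_scanStep (f : Tf) {A B O₁ O₂ C D : ι} (h : [A, B, O₁, O₂, C, D].Nodup)
    (s : Store ι (SSym E)) (a b c d : Bool) (as bs : List (SSym E))
    (hA : s A = sb a :: as) (hB : s B = sb b :: bs) (hC : s C = flg c) (hD : s D = flg d) :
    Runs (scanStep f A B O₁ O₂ C D) s
      (Function.update (Function.update (Function.update (Function.update (Function.update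
        (Function.update s A as) B bs) O₁ (sb (f a b c d).1 :: s O₁))
        O₂ (sb (f a b c d).2.1 :: s O₂)) C (flg (f a b c d).2.2.1))
        D (flg (f a b c d).2.2.2)) 1 := by
  refine (Runs.act _ _).of_eq ?_
  simp only [List.nodup_cons, List.mem_cons, List.not_mem_nil, or_false, not_or,
    List.nodup_nil, and_true] at h
  obtain ⟨⟨h1, h2, h3, h4, h5⟩, ⟨h6, h7, h8, h9⟩, ⟨h10, h11, h12⟩, ⟨h13, h14⟩, h15, -⟩ := h
  have eA : tops s A = some (sb a) := by simp [hA]
  have eB : tops s B = some (sb b) := by simp [hB]
  have eC : (tops s C).isSome = c := by rw [tops_apply, hC, isSome_flg]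
  have eD : (tops s D).isSome = d := by rw [tops_apply, hD, isSome_flg]
  funext l
  simp only [eA, eB, eC, eD, tb_sb, Function.update_apply]
  by_cases q1 : l = A
  · subst q1; simp [h1, h2, h3, h4, h5, hA]
  by_cases q2 : l = B
  · subst q2; simp [q1, h6, h7, h8, h9, hB]
  by_cases q3 : l = O₁
  · subst q3; simp [q1, q2, h10, h11, h12]
  by_cases q4 : l = O₂
  · subst q4; simp [q1, q2, q3, h13, h14]
  by_cases q5 : l = C
  · subst q5; simp [q1, q2, q3, q4, h15, hC, flagOp_app]
  by_cases q6 : l = D
  · subst q6; simp [q1, q2, q3, q4, q5, hD, flagOp_app]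
  simp [q1, q2, q3, q4, q5, q6]

/-- Scan `A` and `B` until `A` is empty. -/
def scan (f : Tf) (A B O₁ O₂ C D : ι) : Prog ι (SSym E) :=
  Prog.loop (nonempty A) (scanStep f A B O₁ O₂ C D)

theorem runs_scan (f : Tf) {A B O₁ O₂ C D : ι} (h : [A, B, O₁, O₂, C, D].Nodup)
    (as : List Bool) : ∀ (bs : List Bool) (c d : Bool) (s : Store ι (SSym E)),
    as.length = bs.length → s A = bits as → s B = bits bs → s C = flg c → s D = flg d →
    Runs (scan f A B O₁ O₂ C D) s
      (Function.update (Function.update (Function.update (Function.update (Function.update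
        (Function.update s A []) B []) O₁ (bits (scn f as bs c d).1.reverse ++ s O₁))
        O₂ (bits (scn f as bs c d).2.1.reverse ++ s O₂)) C (flg (scn f as bs c d).2.2.1))
        D (flg (scn f as bs c d).2.2.2)) (3 * as.length) := by
  have hn := h
  simp only [List.nodup_cons, List.mem_cons, List.not_mem_nil, or_false, not_or,
    List.nodup_nil, and_true] at h
  obtain ⟨⟨h1, h2, h3, h4, h5⟩, ⟨h6, h7, h8, h9⟩, ⟨h10, h11, h12⟩, ⟨h13, h14⟩, h15, -⟩ := h
  induction as with
  | nil =>
    intro bs c d s hl hA hB hC hD
    cases bs with
    | cons b bs => simp at hl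
    | nil =>
      refine (Runs.loopF ?_).of_eq ?_
      · rw [nonempty_tops, hA]; rfl
      · funext l
        simp only [Function.update_apply, scn, List.reverse_nil]
        by_cases q6 : l = D
        · subst q6; simp [hD]
        by_cases q5 : l = C
        · subst q5; simp [q6, hC]
        by_cases q4 : l = O₂
        · subst q4; simp [q6, q5, bits]
        by_cases q3 : l = O₁
        · subst q3; simp [q6, q5, q4, bits]
        by_cases q2 : l = B
        · subst q2; simp [q6, q5, q4, q3, hB, bits]
        by_cases q1 : l = A
        · subst q1; simp [q6, q5, q4, q3, q2, hA, bits]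
        simp [q1, q2, q3, q4, q5, q6]
  | cons a as ih =>
    intro bs c d s hl hA hB hC hD
    cases bs with
    | nil => simp at hl
    | cons b bs =>
      have r1 := runs_scanStep f hn s a b c d (bits as) (bits bs) hA hB hC hD
      have r2 := ih bs (f a b c d).2.2.1 (f a b c d).2.2.2 _ (by simpa using hl)
        (by
          show (Function.update (Function.update (Function.update (Function.update
            (Function.update (Function.update s A (bits as)) B (bits bs)) O₁
            (sb (f a b c d).1 :: s O₁)) O₂ (sb (f a b c d).2.1 :: s O₂)) C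
            (flg (f a b c d).2.2.1)) D (flg (f a b c d).2.2.2)) A = bits as
          simp [h1, h2, h3, h4, h5]) (by simp [h6, h7, h8, h9])
        (by simp [h15]) (by simp)
      have r3 := Runs.loopT (c := nonempty A) (p := scanStep f A B O₁ O₂ C D)
        (by rw [nonempty_tops, hA]; rfl) r1 r2
      refine (r3.mono ?_).of_eq ?_
      · simp only [List.length_cons]; omega
      · funext l
        simp only [Function.update_apply, scn]
        by_cases q6 : l = D
        · subst q6; simp
        by_cases q5 : l = C
        · subst q5; simp [q6]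
        by_cases q4 : l = O₂
        · subst q4; simp [q6, q5, bits]
        by_cases q3 : l = O₁
        · subst q3; simp [q6, q5, q4, bits]
        by_cases q2 : l = B
        · subst q2; simp [q6, q5, q4, q3]
        by_cases q1 : l = A
        · subst q1; simp [q6, q5, q4, q3, q2]
        simp [q1, q2, q3, q4, q5, q6]

/-! ### Addition and subtraction -/

/-- The carry of `a + b + c`. -/
def maj (a b c : Bool) : Bool := (a && b) || (a && c) || (b && c)

/-- First sweep: copy both numbers, compute the carries of `a + b` and of `a + (not b)`. -/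
def fCar : Tf := fun a b c d => (a, b, maj a b c, maj a (!b) d)

/-- Second sweep: the digits of `a + b + c` and of `a + (not b) + d`. -/
def fSum : Tf := fun a b c d => (a ^^ (b ^^ c), a ^^ (!b ^^ d), maj a b c, maj a (!b) d)

theorem scn_fCar_copy (as : List Bool) : ∀ (bs : List Bool) (c d : Bool),
    as.length = bs.length → (scn fCar as bs c d).1 = as ∧ (scn fCar as bs c d).2.1 = bs := by
  induction as with
  | nil =>
    intro bs c d h
    cases bs with
    | nil => exact ⟨rfl, rfl⟩
    | cons b bs => simp at h
  | cons a as ih =>
    intro bs c d h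
    cases bs with
    | nil => simp at h
    | cons b bs =>
      have := ih bs (fCar a b c d).2.2.1 (fCar a b c d).2.2.2 (by simpa using h)
      constructor
      · simp only [scn]; rw [this.1]; rfl
      · simp only [scn]; rw [this.2]; rfl

theorem scn_flags (as : List Bool) : ∀ (bs : List Bool) (c d : Bool),
    (scn fCar as bs c d).2.2 = (scn fSum as bs c d).2.2 := by
  induction as with
  | nil => intro bs c d; cases bs <;> rfl
  | cons a as ih =>
    intro bs c d
    cases bs with
    | nil => rfl
    | cons b bs =>
      have h : (fCar a b c d).2.2 = (fSum a b c d).2.2 := rfl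
      simp only [scn]
      rw [h, ih]

theorem scn_fSum_add (as : List Bool) : ∀ (bs : List Bool) (c d : Bool),
    as.length = bs.length →
    natOf (scn fSum as bs c d).1 + 2 ^ as.length * (scn fSum as bs c d).2.2.1.toNat =
      natOf as + natOf bs + c.toNat := by
  induction as with
  | nil =>
    intro bs c d h
    cases bs with
    | nil => simp [scn]
    | cons b bs => simp at h
  | cons a as ih =>
    intro bs c d h
    cases bs with
    | nil => simp at h
    | cons b bs =>
      have h1 := ih bs (fSum a b c d).2.2.1 (fSum a b c d).2.2.2 (by simpa using h)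
      simp only [scn, natOf_cons, List.length_cons, pow_succ]
      have h2 : (fSum a b c d).1.toNat + 2 * (fSum a b c d).2.2.1.toNat =
          a.toNat + b.toNat + c.toNat := by
        cases a <;> cases b <;> cases c <;> rfl
      generalize (fSum a b c d).2.2.1 = c' at h1 h2
      generalize (fSum a b c d).2.2.2 = d' at h1
      have h3 : 2 ^ as.length * 2 * (scn fSum as bs c' d').2.2.1.toNat =
          2 * (2 ^ as.length * (scn fSum as bs c' d').2.2.1.toNat) := by ring
      omega

theorem scn_fSum_sub (as : List Bool) : ∀ (bs : List Bool) (c d : Bool),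
    as.length = bs.length →
    natOf (scn fSum as bs c d).2.1 + 2 ^ as.length * (scn fSum as bs c d).2.2.2.toNat +
      natOf bs + 1 = natOf as + 2 ^ as.length + d.toNat := by
  induction as with
  | nil =>
    intro bs c d h
    cases bs with
    | nil => simp [scn, Nat.add_comm]
    | cons b bs => simp at h
  | cons a as ih =>
    intro bs c d h
    cases bs with
    | nil => simp at h
    | cons b bs =>
      have h1 := ih bs (fSum a b c d).2.2.1 (fSum a b c d).2.2.2 (by simpa using h)
      simp only [scn, natOf_cons, List.length_cons, pow_succ]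
      have h2 : (fSum a b c d).2.1.toNat + 2 * (fSum a b c d).2.2.2.toNat + b.toNat =
          a.toNat + 1 + d.toNat := by
        cases a <;> cases b <;> cases d <;> rfl
      generalize (fSum a b c d).2.2.1 = c' at h1
      generalize (fSum a b c d).2.2.2 = d' at h1 h2
      have h3 : 2 ^ as.length * 2 * (scn fSum as bs c' d').2.2.2.toNat =
          2 * (2 ^ as.length * (scn fSum as bs c' d').2.2.2.toNat) := by ring
      omega

theorem car_eq {W a b : ℕ} (ha : a < 2 ^ W) (hb : b < 2 ^ W) :
    ((scn fCar (bitsOf W a) (bitsOf W b) false false).2.2.1).toNat = (a + b) / 2 ^ W := by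
  rw [scn_flags]
  have h := scn_fSum_add (bitsOf W a) (bitsOf W b) false false (by simp)
  have h1 := natOf_lt (scn fSum (bitsOf W a) (bitsOf W b) false false).1
  rw [(length_scn _ _ _ _ _ (by simp)).1] at h1
  rw [natOf_bitsOf_of_lt ha, natOf_bitsOf_of_lt hb] at h
  simp only [length_bitsOf, Bool.toNat_false, Nat.add_zero] at h h1
  rw [← h]
  rw [Nat.add_mul_div_left _ _ (by positivity), Nat.div_eq_of_lt h1, Nat.zero_add]

theorem car_eq' {W a b : ℕ} (ha : a < 2 ^ W) (hb : b < 2 ^ W) :
    ((scn fCar (bitsOf W a) (bitsOf W b) false false).2.2.2).toNat =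
      (a + (2 ^ W - 1 - b)) / 2 ^ W := by
  rw [scn_flags]
  have h := scn_fSum_sub (bitsOf W a) (bitsOf W b) false false (by simp)
  have h1 := natOf_lt (scn fSum (bitsOf W a) (bitsOf W b) false false).2.1
  rw [(length_scn _ _ _ _ _ (by simp)).2] at h1
  rw [natOf_bitsOf_of_lt ha, natOf_bitsOf_of_lt hb] at h
  simp only [length_bitsOf, Bool.toNat_false, Nat.add_zero] at h h1
  have h2 : a + (2 ^ W - 1 - b) = natOf (scn fSum (bitsOf W a) (bitsOf W b) false false).2.1 +
      2 ^ W * (scn fSum (bitsOf W a) (bitsOf W b) false false).2.2.2.toNat := by omega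
  rw [h2, Nat.add_mul_div_left _ _ (by positivity), Nat.div_eq_of_lt h1, Nat.zero_add]

theorem sum_eq {W a b : ℕ} (ha : a < 2 ^ W) (hb : b < 2 ^ W) (c d : Bool)
    (hc : c.toNat = (a + b) / 2 ^ W) :
    (scn fSum (bitsOf W a) (bitsOf W b) c d).1 = bitsOf W (addW W a b) := by
  have h := scn_fSum_add (bitsOf W a) (bitsOf W b) c d (by simp)
  have hl := (length_scn fSum (bitsOf W a) (bitsOf W b) c d (by simp)).1
  have h1 := natOf_lt (scn fSum (bitsOf W a) (bitsOf W b) c d).1
  rw [hl] at h1
  rw [natOf_bitsOf_of_lt ha, natOf_bitsOf_of_lt hb] at h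
  simp only [length_bitsOf] at h h1 hl
  apply natOf_inj (by rw [hl, length_bitsOf])
  unfold addW
  rw [natOf_bitsOf_of_lt (Nat.mod_lt _ (by positivity)), ← hc, ← h, Nat.add_mul_mod_self_left,
    Nat.mod_eq_of_lt h1]

theorem dif_eq {W a b : ℕ} (ha : a < 2 ^ W) (hb : b < 2 ^ W) (c d : Bool)
    (hd : d.toNat = (a + (2 ^ W - 1 - b)) / 2 ^ W) :
    (scn fSum (bitsOf W a) (bitsOf W b) c d).2.1 = bitsOf W (subW W a b) := by
  have h := scn_fSum_sub (bitsOf W a) (bitsOf W b) c d (by simp)
  have hl := (length_scn fSum (bitsOf W a) (bitsOf W b) c d (by simp)).2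
  have h1 := natOf_lt (scn fSum (bitsOf W a) (bitsOf W b) c d).2.1
  rw [hl] at h1
  rw [natOf_bitsOf_of_lt ha, natOf_bitsOf_of_lt hb] at h
  simp only [length_bitsOf] at h h1 hl
  apply natOf_inj (by rw [hl, length_bitsOf])
  have h2 : a + (2 ^ W - 1 - b) + d.toNat =
      natOf (scn fSum (bitsOf W a) (bitsOf W b) c d).2.1 +
      2 ^ W * (scn fSum (bitsOf W a) (bitsOf W b) c d).2.2.2.toNat := by omega
  unfold subW addW
  rw [natOf_bitsOf_of_lt (Nat.mod_lt _ (by positivity)), ← hd, h2, Nat.add_mul_mod_self_left,
    Nat.mod_eq_of_lt h1]

/-- Addition and subtraction modulo `2 ^ W - 1` of the numbers on `P` and `V`: the sum goes to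
`r₁`, the difference to `r₂` (both reversed). -/
def core (P V T₁ T₂ C D r₁ r₂ : ι) : Prog ι (SSym E) :=
  (scan fCar P V T₁ T₂ C D).seq ((Prog.rev T₁ P).seq ((Prog.rev T₂ V).seq
    ((scan fSum P V r₁ r₂ C D).seq ((Prog.clear C).seq (Prog.clear D)))))

theorem runs_core {P V T₁ T₂ C D r₁ r₂ : ι} (h : [P, V, T₁, T₂, C, D, r₁, r₂].Nodup)
    (s : Store ι (SSym E)) {W a b : ℕ} (ha : a < 2 ^ W) (hb : b < 2 ^ W)
    (hP : s P = bits (bitsOf W a)) (hV : s V = bits (bitsOf W b)) (h1 : s T₁ = [])
    (h2 : s T₂ = []) (hC : s C = []) (hD : s D = []) :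
    Runs (core P V T₁ T₂ C D r₁ r₂) s
      (Function.update (Function.update (Function.update (Function.update s P []) V [])
        r₁ (bits (bitsOf W (addW W a b)).reverse ++ s r₁))
        r₂ (bits (bitsOf W (subW W a b)).reverse ++ s r₂)) (12 * W + 11) := by
  simp only [List.nodup_cons, List.mem_cons, List.not_mem_nil, or_false, not_or,
    List.nodup_nil, and_true] at h
  obtain ⟨⟨a1, a2, a3, a4, a5, a6, a7⟩, ⟨b1, b2, b3, b4, b5, b6⟩, ⟨c1, c2, c3, c4, c5⟩,
    ⟨d1, d2, d3, d4⟩, ⟨e1, e2, e3⟩, ⟨f1, f2⟩, g1, -⟩ := h
  obtain ⟨c, hc⟩ : ∃ c, c = (scn fCar (bitsOf W a) (bitsOf W b) false false).2.2.1 := ⟨_, rfl⟩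
  obtain ⟨d, hd⟩ : ∃ d, d = (scn fCar (bitsOf W a) (bitsOf W b) false false).2.2.2 := ⟨_, rfl⟩
  have r1 := runs_scan fCar (A := P) (B := V) (O₁ := T₁) (O₂ := T₂) (C := C) (D := D)
    (by simp [a1, a2, a3, a4, a5, b1, b2, b3, b4, c1, c2, c3, d1, d2, e1])
    (bitsOf W a) (bitsOf W b) false false s (by simp) hP hV hC hD
  obtain ⟨q1, q2⟩ := scn_fCar_copy (bitsOf W a) (bitsOf W b) false false (by simp)
  rw [q1, q2, h1, h2, ← hc, ← hd] at r1
  simp only [List.append_nil] at r1
  have r2 := Runs.rev (i := T₁) (j := P) (Ne.symm a2)
    (Function.update (Function.update (Function.update (Function.update (Function.update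
      (Function.update s P []) V []) T₁ (bits (bitsOf W a).reverse)) T₂
        (bits (bitsOf W b).reverse)) C (flg c)) D (flg d))
  have e2' : Function.update (Function.update (Function.update (Function.update
      (Function.update (Function.update (Function.update
      (Function.update s P []) V []) T₁ (bits (bitsOf W a).reverse)) T₂
        (bits (bitsOf W b).reverse)) C (flg c)) D (flg d)) T₁ []) P
      ((bits (bitsOf W a).reverse : List (SSym E)).reverse ++ []) =
      Function.update (Function.update (Function.update (Function.update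
        (Function.update s P (bits (bitsOf W a))) V []) T₂
        (bits (bitsOf W b).reverse)) C (flg c)) D (flg d) := by
    funext l
    simp only [Function.update_apply]
    by_cases q1 : l = P
    · subst q1; simp [a1, a3, a4, a5, bits]
    by_cases q2 : l = T₁
    · subst q2; simp [q1, Ne.symm b1, c1, c2, c3, h1]
    simp [q1, q2]
  have eT1 : (Function.update (Function.update (Function.update (Function.update
      (Function.update (Function.update s P []) V []) T₁ (bits (bitsOf W a).reverse)) T₂
        (bits (bitsOf W b).reverse)) C (flg c)) D (flg d)) T₁ =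
        bits (bitsOf W a).reverse := by
    simp [c1, c2, c3]
  have eP : (Function.update (Function.update (Function.update (Function.update
      (Function.update (Function.update s P []) V []) T₁ (bits (bitsOf W a).reverse)) T₂
        (bits (bitsOf W b).reverse)) C (flg c)) D (flg d)) P = [] := by
    simp [a1, a2, a3, a4, a5]
  rw [eT1, eP, e2'] at r2
  have r3 := Runs.rev (i := T₂) (j := V) (Ne.symm b2)
    (Function.update (Function.update (Function.update (Function.update
        (Function.update s P (bits (bitsOf W a))) V []) T₂
        (bits (bitsOf W b).reverse)) C (flg c)) D (flg d))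
  have e3' : Function.update (Function.update (Function.update (Function.update
      (Function.update (Function.update
        (Function.update s P (bits (bitsOf W a))) V []) T₂
        (bits (bitsOf W b).reverse)) C (flg c)) D (flg d)) T₂ []) V
      ((bits (bitsOf W b).reverse : List (SSym E)).reverse ++ []) =
      Function.update (Function.update (Function.update
        (Function.update s P (bits (bitsOf W a))) V (bits (bitsOf W b))) C (flg c))
        D (flg d) := by
    funext l
    simp only [Function.update_apply]
    by_cases q1 : l = V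
    · subst q1; simp [b3, b4, bits]
    by_cases q2 : l = T₂
    · subst q2; simp [q1, Ne.symm a3, d1, d2, h2]
    simp [q1, q2]
  have eT2 : (Function.update (Function.update (Function.update (Function.update
        (Function.update s P (bits (bitsOf W a))) V []) T₂
        (bits (bitsOf W b).reverse)) C (flg c)) D (flg d)) T₂ =
        bits (bitsOf W b).reverse := by
    simp [d1, d2]
  have eV : (Function.update (Function.update (Function.update (Function.update
        (Function.update s P (bits (bitsOf W a))) V []) T₂
        (bits (bitsOf W b).reverse)) C (flg c)) D (flg d)) V = [] := by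
    simp [b2, b3, b4]
  rw [eT2, eV, e3'] at r3
  have r4 := runs_scan fSum (A := P) (B := V) (O₁ := r₁) (O₂ := r₂) (C := C) (D := D)
    (by simp [a1, a4, a5, a6, a7, b3, b4, b5, b6, g1, Ne.symm e2, Ne.symm e3, Ne.symm f1,
        Ne.symm f2, e1])
    (bitsOf W a) (bitsOf W b) c d
    (Function.update (Function.update (Function.update
        (Function.update s P (bits (bitsOf W a))) V (bits (bitsOf W b))) C (flg c))
        D (flg d)) (by simp) (by simp [a1, a4, a5]) (by simp [b3, b4]) (by simp [e1])
      (by simp)
  rw [sum_eq ha hb c d (by rw [hc]; exact car_eq ha hb),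
    dif_eq ha hb c d (by rw [hd]; exact car_eq' ha hb)] at r4
  have r5 := Runs.clear C (Function.update (Function.update (Function.update (Function.update
    (Function.update (Function.update (Function.update (Function.update (Function.update
        (Function.update s P (bits (bitsOf W a))) V (bits (bitsOf W b))) C (flg c))
        D (flg d)) P []) V []) r₁ (bits (bitsOf W (addW W a b)).reverse ++
          (Function.update (Function.update (Function.update
        (Function.update s P (bits (bitsOf W a))) V (bits (bitsOf W b))) C (flg c))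
        D (flg d)) r₁)) r₂ (bits (bitsOf W (subW W a b)).reverse ++
          (Function.update (Function.update (Function.update
        (Function.update s P (bits (bitsOf W a))) V (bits (bitsOf W b))) C (flg c))
        D (flg d)) r₂)) C (flg (scn fSum (bitsOf W a) (bitsOf W b) c d).2.2.1))
      D (flg (scn fSum (bitsOf W a) (bitsOf W b) c d).2.2.2))
  have r6 := Runs.clear D (Function.update (Function.update (Function.update (Function.update
    (Function.update (Function.update (Function.update (Function.update (Function.update
    (Function.update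
        (Function.update s P (bits (bitsOf W a))) V (bits (bitsOf W b))) C (flg c))
        D (flg d)) P []) V []) r₁ (bits (bitsOf W (addW W a b)).reverse ++
          (Function.update (Function.update (Function.update
        (Function.update s P (bits (bitsOf W a))) V (bits (bitsOf W b))) C (flg c))
        D (flg d)) r₁)) r₂ (bits (bitsOf W (subW W a b)).reverse ++
          (Function.update (Function.update (Function.update
        (Function.update s P (bits (bitsOf W a))) V (bits (bitsOf W b))) C (flg c))
        D (flg d)) r₂)) C (flg (scn fSum (bitsOf W a) (bitsOf W b) c d).2.2.1))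
      D (flg (scn fSum (bitsOf W a) (bitsOf W b) c d).2.2.2)) C [])
  have l1 : ∀ b : Bool, (flg b : List (SSym E)).length ≤ 1 := by
    intro b; cases b <;> simp
  refine ((r1.seq (r2.seq (r3.seq (r4.seq (r5.seq r6))))).mono ?_).of_eq ?_
  · have l2 := l1 (scn fSum (bitsOf W a) (bitsOf W b) c d).2.2.1
    have l3 := l1 (scn fSum (bitsOf W a) (bitsOf W b) c d).2.2.2
    rw [Function.update_of_ne e1, Function.update_self, Function.update_of_ne (Ne.symm e1),
      Function.update_self]
    simp only [length_bits, List.length_reverse, length_bitsOf]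
    omega
  · funext l
    simp only [Function.update_apply]
    by_cases q1 : l = P
    · subst q1; simp [a1, a4, a5, a6, a7]
    by_cases q2 : l = V
    · subst q2; simp [b3, b4, b5, b6]
    by_cases q3 : l = C
    · subst q3; simp [hC, e1, e2, e3]
    by_cases q4 : l = D
    · subst q4; simp [hD, f1, f2]
    by_cases q5 : l = r₁
    · subst q5; simp [q1, q2, q3, q4, g1]
    by_cases q6 : l = r₂
    · subst q6; simp [q1, q2, q3, q4]
    simp [q1, q2, q3, q4, q5, q6]

end Vale.Agent.P338.SS
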