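import Vale.Agent.P338.SSScan

/-!
# P338, third part: the stages of the transform
-/

namespace Vale.Agent.P338.SS

open S2

variable {E : Type}

/-- The end-around addition and subtraction on the stacks `P` and `V`. -/
def coreQ (r₁ r₂ : Q) : PQ E := core Q.P Q.V Q.T1 Q.T2 Q.C1 Q.C2 r₁ r₂

/-- Rotation of the number on `T2` (alone there) by `|EE|` places, to `V`. -/
def rotQ : PQ E :=
  (takeN Q.EE Q.T2 Q.T1 Q.F6).seq ((Prog.rev Q.T1 Q.V).seq
    ((Prog.rev Q.T2 Q.T1).seq (Prog.rev Q.T1 Q.V)))

theorem runs_rotQ (s : SQ E) {W v e : ℕ} (hv : v < 2 ^ W) (he : e ≤ W)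
    (h2 : s Q.T2 = bits (bitsOf W v)) (hE : s Q.EE = una e) (h1 : s Q.T1 = [])
    (hV : s Q.V = []) (h6 : s Q.F6 = []) :
    Runs rotQ s (Function.update (Function.update s Q.T2 []) Q.V
      (bits (bitsOf W (rotN W e v)))) (17 * W + 4) := by
  have hl : ((bitsOf W v).take e).length = e := by simp [he]
  have e0 : (bits (bitsOf W v) : List (SSym E)) =
      bits ((bitsOf W v).take e) ++ bits ((bitsOf W v).drop e) := by
    unfold bits
    rw [← List.map_append, List.take_append_drop]
  have r1 := runs_takeN (u := Q.EE) (a := Q.T2) (b := Q.T1) (t := Q.F6) (by decide)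
    (by decide) (by decide) (by decide) (by decide) (by decide) mk
    (bits ((bitsOf W v).take e)) (bits ((bitsOf W v).drop e)) s
    (by rw [hE, length_bits, hl]; rfl) h6 (by rw [h2, e0])
  rw [length_bits, hl, h1, List.append_nil] at r1
  have r2 := Runs.rev (i := Q.T1) (j := Q.V) (by decide)
    (Function.update (Function.update s Q.T2 (bits ((bitsOf W v).drop e))) Q.T1
      (bits ((bitsOf W v).take e)).reverse)
  have r3 := Runs.rev (i := Q.T2) (j := Q.T1) (by decide)
    (Function.update (Function.update s Q.T2 (bits ((bitsOf W v).drop e))) Q.V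
      (bits ((bitsOf W v).take e)))
  have r4 := Runs.rev (i := Q.T1) (j := Q.V) (by decide)
    (Function.update (Function.update (Function.update s Q.T2 []) Q.T1
      (bits ((bitsOf W v).drop e)).reverse) Q.V (bits ((bitsOf W v).take e)))
  refine ((r1.seq ((r2.of_eq ?_).seq ((r3.of_eq ?_).seq r4))).mono ?_).of_eq ?_
  · funext r
    cases r <;> simp [h1, hV]
  · funext r
    cases r <;> simp [h1]
  · simp [hl]
    omega
  · funext r
    cases r <;> simp [h1]
    rw [← rot_bitsOf he hv]
    simp [rot, bits]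

/-- Load a number from `x` to `d` (alone there), through `T1`. -/
def ldQ (x d : Q) : PQ E := (takeN Q.WW x Q.T1 Q.F6).seq (Prog.rev Q.T1 d)

theorem runs_ldQ {x d : Q} (hx : x ∉ [Q.WW, Q.T1, Q.F6]) (hd : d ∉ [Q.WW, Q.T1, Q.F6])
    (hxd : x ≠ d) (s : SQ E) {W v : ℕ} {rest : List (SSym E)}
    (hX : s x = bits (bitsOf W v) ++ rest) (hW : s Q.WW = una W) (h1 : s Q.T1 = [])
    (h6 : s Q.F6 = []) (hD : s d = []) :
    Runs (ldQ x d) s (Function.update (Function.update s x rest) d (bits (bitsOf W v)))
      (11 * W + 2) := by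
  simp only [List.mem_cons, List.not_mem_nil, or_false, not_or] at hx hd
  obtain ⟨x1, x2, x3⟩ := hx
  obtain ⟨d1, d2, d3⟩ := hd
  have r1 := runs_takeN (u := Q.WW) (a := x) (b := Q.T1) (t := Q.F6) (Ne.symm x1)
    (by decide) (by decide) x2 x3 (by decide) mk
    (bits (bitsOf W v)) rest s (by rw [hW]; simp [una]) h6 hX
  have r2 := Runs.rev (i := Q.T1) (j := d) (Ne.symm d2)
    (Function.update (Function.update s x rest) Q.T1
      ((bits (bitsOf W v)).reverse ++ s Q.T1))
  refine ((r1.seq r2).mono ?_).of_eq ?_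
  · simp [h1]; omega
  · funext l
    simp only [Function.update_apply]
    by_cases q1 : l = d
    · subst q1; simp [Ne.symm hxd, d2, hD, h1]
    by_cases q2 : l = Q.T1
    · subst q2; simp [q1, Ne.symm x2, h1]
    simp [q1, q2]

/-- One pair of numbers of a stage: sum to `O`, rotated difference to `O2`. -/
def fSlot : PQ E :=
  (ldQ Q.A Q.P).seq ((ldQ Q.X Q.V).seq ((coreQ Q.O Q.T3).seq ((Prog.rev Q.T3 Q.T2).seq
    (rotQ.seq ((Prog.rev Q.V Q.O2).seq (dropN Q.ST Q.EE Q.F6))))))

theorem runs_fSlot (s : SQ E) {W a b e st : ℕ} {ra rx : List (SSym E)} (ha : a < 2 ^ W)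
    (hb : b < 2 ^ W) (he : e ≤ W) (hst : st ≤ W) (hA : s Q.A = bits (bitsOf W a) ++ ra)
    (hX : s Q.X = bits (bitsOf W b) ++ rx) (hW : s Q.WW = una W) (hE : s Q.EE = una e)
    (hS : s Q.ST = una st) (h1 : s Q.T1 = []) (h2 : s Q.T2 = []) (h3 : s Q.T3 = [])
    (hP : s Q.P = []) (hV : s Q.V = []) (hC : s Q.C1 = []) (hD : s Q.C2 = [])
    (h6 : s Q.F6 = []) :
    Runs fSlot s
      (Function.update (Function.update (Function.update (Function.update
        (Function.update s Q.A ra) Q.X rx)
        Q.O (bits (bitsOf W (addW W a b)).reverse ++ s Q.O))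
        Q.O2 (bits (bitsOf W (rotN W e (subW W a b))).reverse ++ s Q.O2))
        Q.EE (una (e - st))) (65 * W + 26) := by
  have r1 := runs_ldQ (x := Q.A) (d := Q.P) (by decide) (by decide) (by decide) s hA hW h1 h6 hP
  have r2 := runs_ldQ (x := Q.X) (d := Q.V) (by decide) (by decide) (by decide)
    (Function.update (Function.update s Q.A ra) Q.P (bits (bitsOf W a))) (W := W) (v := b)
    (rest := rx) (by simp [hX]) (by simp [hW]) (by simp [h1]) (by simp [h6]) (by simp [hV])
  have r3 := runs_core (P := Q.P) (V := Q.V) (T₁ := Q.T1) (T₂ := Q.T2) (C := Q.C1)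
    (D := Q.C2) (r₁ := Q.O) (r₂ := Q.T3) (by decide)
    (Function.update (Function.update (Function.update (Function.update s Q.A ra) Q.P
      (bits (bitsOf W a))) Q.X rx) Q.V (bits (bitsOf W b))) ha hb (by simp) (by simp)
    (by simp [h1]) (by simp [h2]) (by simp [hC]) (by simp [hD])
  have hsub : subW W a b < 2 ^ W := Nat.mod_lt _ (by positivity)
  have r4 := Runs.rev (i := Q.T3) (j := Q.T2) (by decide)
    (Function.update (Function.update (Function.update (Function.update s Q.A ra) Q.X rx)
      Q.O (bits (bitsOf W (addW W a b)).reverse ++ s Q.O))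
      Q.T3 (bits (bitsOf W (subW W a b)).reverse))
  have r5 := runs_rotQ
    (Function.update (Function.update (Function.update (Function.update s Q.A ra) Q.X rx)
      Q.O (bits (bitsOf W (addW W a b)).reverse ++ s Q.O))
      Q.T2 (bits (bitsOf W (subW W a b)))) (v := subW W a b) hsub he (by simp)
    (by simp [hE]) (by simp [h1]) (by simp [hV]) (by simp [h6])
  have r6 := Runs.rev (i := Q.V) (j := Q.O2) (by decide)
    (Function.update (Function.update (Function.update (Function.update s Q.A ra) Q.X rx)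
      Q.O (bits (bitsOf W (addW W a b)).reverse ++ s Q.O))
      Q.V (bits (bitsOf W (rotN W e (subW W a b)))))
  have r7 := runs_dropN (u := Q.ST) (a := Q.EE) (t := Q.F6) (by decide) (by decide)
    (by decide) mk st
    (Function.update (Function.update (Function.update (Function.update s Q.A ra) Q.X rx)
      Q.O (bits (bitsOf W (addW W a b)).reverse ++ s Q.O))
      Q.O2 ((bits (bitsOf W (rotN W e (subW W a b)))).reverse ++ s Q.O2)) (by simp [hS, una])
      (by simp [h6])
  refine ((r1.seq (r2.seq ((r3.of_eq ?_).seq ((r4.of_eq ?_).seq ((r5.of_eq ?_).seq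
    ((r6.of_eq ?_).seq r7)))))).mono ?_).of_eq ?_
  · funext r
    cases r <;> simp [hP, hV, h3]
  · funext r
    cases r <;> simp [h2, h3, bits]
  · funext r
    cases r <;> simp [h2]
  · funext r
    cases r <;> simp [hV]
  · simp
    omega
  · funext r
    cases r <;> simp [hE, una, bits]

/-- One pair of numbers of an inverse stage: sum to `O`, difference to `O2`. -/
def iSlot : PQ E :=
  (ldQ Q.A Q.P).seq ((ldQ Q.X Q.T2).seq (rotQ.seq ((coreQ Q.O Q.O2).seq
    (Prog.copyOnto Q.ST Q.EE Q.T1))))

theorem runs_iSlot (s : SQ E) {W a b e st : ℕ} {ra rx : List (SSym E)} (ha : a < 2 ^ W)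
    (hb : b < 2 ^ W) (he : e ≤ W) (hst : st ≤ W) (hA : s Q.A = bits (bitsOf W a) ++ ra)
    (hX : s Q.X = bits (bitsOf W b) ++ rx) (hW : s Q.WW = una W) (hE : s Q.EE = una e)
    (hS : s Q.ST = una st) (h1 : s Q.T1 = []) (h2 : s Q.T2 = [])
    (hP : s Q.P = []) (hV : s Q.V = []) (hC : s Q.C1 = []) (hD : s Q.C2 = [])
    (h6 : s Q.F6 = []) :
    Runs iSlot s
      (Function.update (Function.update (Function.update (Function.update
        (Function.update s Q.A ra) Q.X rx)
        Q.O (bits (bitsOf W (addW W a (rotN W e b))).reverse ++ s Q.O))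
        Q.O2 (bits (bitsOf W (subW W a (rotN W e b))).reverse ++ s Q.O2))
        Q.EE (una (e + st))) (65 * W + 26) := by
  have r1 := runs_ldQ (x := Q.A) (d := Q.P) (by decide) (by decide) (by decide) s hA hW h1 h6 hP
  have r2 := runs_ldQ (x := Q.X) (d := Q.T2) (by decide) (by decide) (by decide)
    (Function.update (Function.update s Q.A ra) Q.P (bits (bitsOf W a))) (W := W) (v := b)
    (rest := rx) (by simp [hX]) (by simp [hW]) (by simp [h1]) (by simp [h6]) (by simp [h2])
  have hrot : rotN W e b < 2 ^ W := rotN_lt he hb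
  have r3 := runs_rotQ
    (Function.update (Function.update (Function.update (Function.update s Q.A ra) Q.P
      (bits (bitsOf W a))) Q.X rx) Q.T2 (bits (bitsOf W b))) hb he (by simp)
    (by simp [hE]) (by simp [h1]) (by simp [hV]) (by simp [h6])
  have r4 := runs_core (P := Q.P) (V := Q.V) (T₁ := Q.T1) (T₂ := Q.T2) (C := Q.C1)
    (D := Q.C2) (r₁ := Q.O) (r₂ := Q.O2) (by decide)
    (Function.update (Function.update (Function.update (Function.update s Q.A ra) Q.P
      (bits (bitsOf W a))) Q.X rx) Q.V (bits (bitsOf W (rotN W e b)))) ha hrot (by simp)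
    (by simp) (by simp [h1]) (by simp [h2]) (by simp [hC]) (by simp [hD])
  have r5 := Runs.copyOnto (a := Q.ST) (b := Q.EE) (t := Q.T1) (by decide) (by decide)
    (by decide)
    (Function.update (Function.update (Function.update (Function.update s Q.A ra) Q.X rx)
      Q.O (bits (bitsOf W (addW W a (rotN W e b))).reverse ++ s Q.O))
      Q.O2 (bits (bitsOf W (subW W a (rotN W e b))).reverse ++ s Q.O2)) (by simp [h1])
  refine ((r1.seq (r2.seq ((r3.of_eq ?_).seq ((r4.of_eq ?_).seq r5)))).mono ?_).of_eq ?_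
  · funext r
    cases r <;> simp [h2]
  · funext r
    cases r <;> simp [hP, hV]
  · simp [hS]
    omega
  · funext r
    cases r <;> simp [hE, hS, una, Nat.add_comm]

end Vale.Agent.P338.SS
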