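import Vale.Agent.P338.SSDown

/-!
# P338, third part: one level of the multiplication, up
-/

namespace Vale.Agent.P338.SS

variable {E : Type}

/-! ### The frame -/

/-- The top of the stack is a mark. -/
def isMk (i : L) : (L → Option (SSym E)) → Bool := fun tp =>
  match tp i with
  | some (Sum.inl Base.mark) => true
  | _ => false

/-- Read a frame. -/
def popF : Prog L (SSym E) :=
  (Prog.loop (isMk .fr) (Prog.mov .fr .uu)).seq (Prog.pop .fr)

theorem runs_popF {v : LV E} {u : ℕ} {fr : List (SSym E)} (h1 : v.uu = [])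
    (h2 : v.fr = frm u ++ fr) :
    Runs popF v.s ({ v with uu := una u, fr := fr } : LV E).s (3 * u + 2) := by
  have r1 := Runs.loop_iter_le (c := isMk L.fr) (p := Prog.mov .fr .uu) u
    (fun k => ({ v with uu := una k, fr := una (u - k) ++ Sum.inl (Base.num 7) :: fr } :
      LV E).s) 1
    (by
      intro k hk
      obtain ⟨j, hj⟩ : ∃ j, u - k = j + 1 := ⟨u - k - 1, by omega⟩
      have : tops ({ v with uu := una k, fr := una (u - k) ++ Sum.inl (Base.num 7) :: fr } :
        LV E).s L.fr = some mk := by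
        show (una (u - k) ++ Sum.inl (Base.num 7) :: fr : List (SSym E)).head? = _
        rw [hj]; rfl
      simp only [isMk, this]
      rfl)
    (by
      have : tops ({ v with uu := una u, fr := una (u - u) ++ Sum.inl (Base.num 7) :: fr } :
        LV E).s L.fr = some (Sum.inl (Base.num 7)) := by
        show (una (u - u) ++ Sum.inl (Base.num 7) :: fr : List (SSym E)).head? = _
        rw [Nat.sub_self]; rfl
      simp only [isMk, this])
    (by
      intro k hk
      obtain ⟨j, hj⟩ : ∃ j, u - k = j + 1 := ⟨u - k - 1, by omega⟩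
      have hj' : u - (k + 1) = j := by omega
      refine (Runs.mov (i := L.fr) (j := L.uu) (by decide) _ (a := mk)
        (l := una j ++ Sum.inl (Base.num 7) :: fr) ?_).of_eq ?_
      · show una (u - k) ++ Sum.inl (Base.num 7) :: fr = _
        rw [hj]; rfl
      · rw [hj']
        funext m; cases m <;> simp [LV.s, u_succ])
  have r2 := Runs.pop L.fr ({ v with
    uu := una u
    fr := una (u - u) ++ Sum.inl (Base.num 7) :: fr } : LV E).s
  refine runs_conv (r1.seq r2) ?_ ?_ (by omega)
  · funext m; cases m <;> simp [LV.s, h1, h2, frm, u_zero]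
  · funext m; cases m <;> simp [LV.s, u_zero]

/-! ### The stages -/

/-- One stage of the inverse transform. -/
noncomputable def stageU (inv : PQ E) : PQ E :=
  (((Prog.pop L.uu).seq (halfU L.hb L.f1)).map le).seq (inv.seq
    (((dblU L.qq L.f1).seq (halfU L.st L.f1)).map le))

/-- The small store before stage `i`. -/
def ust (v : LV E) (u h : ℕ) (G : ℕ → ℕ → ℕ) (i : ℕ) : LV E := { v with
  x := bits (arr (h * 2 ^ (lpk u - i)) (2 ^ i) (lpW u) (invIter (lpW u) (lpD u) i G))
  hb := una (h * 2 ^ (lpk u - i))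
  qq := una (2 ^ i)
  st := una (lpD u / 2 ^ i)
  uu := una (lpk u - i) }

theorem runs_stageU {inv : PQ E} {C : ℕ} (hf : InvSpec inv C) {s : SQ E} (hs : Clean s)
    {v : LV E} (hv : v.Ok) {u h : ℕ} (G : ℕ → ℕ → ℕ) (hG : ∀ β i, G β i < 2 ^ lpW u)
    (hh : 1 ≤ h) (hw : v.ww = una (lpW u)) {i : ℕ} (hi : i < lpk u) :
    RunsE le s (stageU inv) (ust v u h G i).s (ust v u h G (i + 1)).s
      ((9 * C + 38) * (h * (32 * 2 ^ u))) := by
  have hP2 := pow_halves u
  obtain ⟨h1, h2, h3, h4⟩ := hv
  have hle : 2 ^ i * (lpD u / 2 ^ i) ≤ lpD u := Nat.mul_div_le _ _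
  have hh2 : h * 2 ^ (lpk u - i) = 2 * (h * 2 ^ (lpk u - (i + 1))) := by
    rw [show lpk u - i = lpk u - (i + 1) + 1 by omega, pow_succ]; ring
  have r1 : Runs (Prog.pop L.uu) (ust v u h G i).s
      ({ ust v u h G i with uu := una (lpk u - (i + 1)) } : LV E).s 1 :=
    (Runs.pop L.uu _).of_eq (by
      obtain ⟨j, hj⟩ : ∃ j, lpk u - i = j + 1 := ⟨lpk u - i - 1, by omega⟩
      have hj' : lpk u - (i + 1) = j := by omega
      unfold ust
      rw [hj, hj']
      funext m; cases m <;> simp [LV.s, u_succ])
  have r2 := runs_half L.hb L.f1 (by decide)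
    ({ ust v u h G i with uu := una (lpk u - (i + 1)) } : LV E)
    ({ ust v u h G i with
        uu := una (lpk u - (i + 1))
        hb := una (h * 2 ^ (lpk u - (i + 1))) } : LV E)
    (n := h * 2 ^ (lpk u - i)) rfl h1 (by
      rw [hh2, Nat.mul_div_cancel_left _ (by norm_num)]
      funext m; cases m <;> simp [LV.s, ust])
  have r3 := runs_invE hf hs
    (v := ({ ust v u h G i with
        uu := una (lpk u - (i + 1))
        hb := una (h * 2 ^ (lpk u - (i + 1))) } : LV E))
    (v' := ({ ust v u h G i with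
        uu := una (lpk u - (i + 1))
        hb := una (h * 2 ^ (lpk u - (i + 1)))
        x := bits (arr (h * 2 ^ (lpk u - (i + 1))) (2 ^ (i + 1)) (lpW u)
          (invIter (lpW u) (lpD u) (i + 1) G)) } : LV E))
    ⟨h1, h2, h3, h4⟩ (h := h * 2 ^ (lpk u - (i + 1))) (q := 2 ^ i) (W := lpW u)
    (st := lpD u / 2 ^ i)
    (F := invIter (lpW u) (lpD u) i G) Nat.one_le_two_pow
    (by unfold lpW; have := Nat.one_le_two_pow (n := u / 2); omega)
    (hle.trans (by unfold lpD lpW; omega)) (invIter_lt _ hG i) rfl rfl hw rfl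
    (by show bits (arr (h * 2 ^ (lpk u - i)) (2 ^ i) (lpW u) _) = _; rw [hh2])
    (by
      rw [show 2 ^ (i + 1) = 2 * 2 ^ i by ring]
      funext m; cases m <;> simp [LV.s, ust, invIter])
  have r4 := runs_dbl L.qq L.f1 (by decide)
    ({ ust v u h G i with
        uu := una (lpk u - (i + 1))
        hb := una (h * 2 ^ (lpk u - (i + 1)))
        x := bits (arr (h * 2 ^ (lpk u - (i + 1))) (2 ^ (i + 1)) (lpW u)
          (invIter (lpW u) (lpD u) (i + 1) G)) } : LV E)
    ({ ust v u h G i with
        uu := una (lpk u - (i + 1))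
        hb := una (h * 2 ^ (lpk u - (i + 1)))
        qq := una (2 ^ (i + 1))
        x := bits (arr (h * 2 ^ (lpk u - (i + 1))) (2 ^ (i + 1)) (lpW u)
          (invIter (lpW u) (lpD u) (i + 1) G)) } : LV E)
    (n := 2 ^ i) rfl h1 (by
      rw [← pow_succ']
      funext m; cases m <;> simp [LV.s, ust])
  have r5 := runs_half L.st L.f1 (by decide)
    ({ ust v u h G i with
        uu := una (lpk u - (i + 1))
        hb := una (h * 2 ^ (lpk u - (i + 1)))
        qq := una (2 ^ (i + 1))
        x := bits (arr (h * 2 ^ (lpk u - (i + 1))) (2 ^ (i + 1)) (lpW u)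
          (invIter (lpW u) (lpD u) (i + 1) G)) } : LV E)
    (ust v u h G (i + 1))
    (n := lpD u / 2 ^ i) rfl h1 (by
      rw [Nat.div_div_eq_div_mul, ← pow_succ]
      funext m; cases m <;> simp [LV.s, ust])
  refine RunsE.conv ((RunsE.small le_inj s (r1.seq r2)).seq (r3.seq
    (RunsE.small le_inj s (r4.seq r5)))) rfl rfl ?_
  -- the time
  obtain ⟨N, hN⟩ : ∃ N, N = h * (32 * 2 ^ u) := ⟨_, rfl⟩
  have hN1 : 1 ≤ N := by
    rw [hN]
    exact Nat.mul_pos hh (by positivity)
  have e1 : h * 2 ^ (lpk u - (i + 1)) * 2 ^ i * lpW u = 8 * N := by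
    rw [Nat.mul_assoc h, ← pow_add, show lpk u - (i + 1) + i = u - u / 2 + 3 by
      unfold lpk at *; omega, hN, ← hP2, lpW, pow_add]
    ring
  have e2 : h * 2 ^ (lpk u - i) ≤ N := by
    have : 2 ^ (lpk u - i) ≤ 32 * 2 ^ u := by
      calc 2 ^ (lpk u - i) ≤ 2 ^ (5 + u) :=
            Nat.pow_le_pow_right (by norm_num) (by unfold lpk; omega)
        _ = 32 * 2 ^ u := by rw [pow_add]; norm_num
    rw [hN]
    exact Nat.mul_le_mul_left _ this
  have e3 : 2 ^ i ≤ N := by
    have : 2 ^ i ≤ 1 * (32 * 2 ^ u) := by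
      rw [Nat.one_mul]
      calc 2 ^ i ≤ 2 ^ (5 + u) :=
            Nat.pow_le_pow_right (by norm_num) (by unfold lpk at *; omega)
        _ = 32 * 2 ^ u := by rw [pow_add]; norm_num
    rw [hN]
    exact this.trans (Nat.mul_le_mul_right _ hh)
  have e4 : lpD u / 2 ^ i ≤ N := by
    have h5 : lpD u / 2 ^ i ≤ lpD u := Nat.div_le_self _ _
    have : lpD u ≤ 1 * (32 * 2 ^ u) := by
      unfold lpD
      have : 2 ^ (u / 2) ≤ 2 ^ u := Nat.pow_le_pow_right (by norm_num) (by omega)
      omega
    rw [hN]
    exact h5.trans (this.trans (Nat.mul_le_mul_right _ hh))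
  rw [e1, ← hN]
  have e5 : (9 * C + 38) * N = C * (8 * N) + C * N + 38 * N := by ring
  have e6 : C * (8 * N + 1) = C * (8 * N) + C := by ring
  have e7 : C ≤ C * N := Nat.le_mul_of_pos_right C hN1
  omega

/-! ### Preparation and end -/

/-- Preparation of the inverse transform. -/
def prepU : Prog L (SSym E) :=
  (Prog.clear .qq).seq <| (Prog.pushN 1 .qq mk).seq <| (Prog.clear .st).seq <|
  (Prog.copyOnto .dd .st .f1).seq <| (Prog.clear .uu).seq <| (Prog.copyOnto .kp .uu .f1)

theorem runs_prepU {v : LV E} (hv : v.Ok) {a b c d u : ℕ} (h1 : v.st = una a)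
    (h2 : v.qq = una b) (h3 : v.kp = una c) (h4 : v.dd = una d) (h5 : v.uu = una u) :
    Runs prepU v.s ({ v with qq := una 1, st := una d, uu := una c } : LV E).s
      (3 * (a + b + u) + 6 * (c + d) + 10) := by
  obtain ⟨g1, g2, g3, g4⟩ := hv
  have r1 := runs_clr .qq v ({ v with qq := [] } : LV E) h2
    (by funext m; cases m <;> simp [LV.s])
  have r2 := runs_push 1 .qq ({ v with qq := [] } : LV E) ({ v with qq := una 1 } : LV E)
    (by funext m; cases m <;> simp [LV.s])
  have r3 := runs_clr .st ({ v with qq := una 1 } : LV E)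
    ({ v with qq := una 1, st := [] } : LV E) h1 (by funext m; cases m <;> simp [LV.s])
  have r4 := runs_cp .dd .st .f1 (by decide) (by decide) (by decide)
    ({ v with qq := una 1, st := [] } : LV E) ({ v with qq := una 1, st := una d } : LV E)
    (n := d) h4 g1 (by funext m; cases m <;> simp [LV.s])
  have r5 := runs_clr .uu ({ v with qq := una 1, st := una d } : LV E)
    ({ v with qq := una 1, st := una d, uu := [] } : LV E) h5
    (by funext m; cases m <;> simp [LV.s])
  have r6 := runs_cp .kp .uu .f1 (by decide) (by decide) (by decide)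
    ({ v with qq := una 1, st := una d, uu := [] } : LV E)
    ({ v with qq := una 1, st := una d, uu := una c } : LV E)
    (n := c) h3 g1 (by funext m; cases m <;> simp [LV.s])
  exact runs_conv (r1.seq <| r2.seq <| r3.seq <| r4.seq <| r5.seq r6) rfl rfl (by omega)

/-- The end of a level. -/
def endU : Prog L (SSym E) :=
  (Prog.clear .qq).seq <| (Prog.clear .ww).seq <| (Prog.clear .st).seq <|
  (Prog.clear .pp).seq <| (Prog.clear .dd).seq <| (Prog.clear .kp)

theorem runs_endU {v : LV E} {a b c d e f : ℕ} (h1 : v.qq = una a)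
    (h2 : v.ww = una b) (h3 : v.st = una c) (h4 : v.pp = una d) (h5 : v.dd = una e)
    (h6 : v.kp = una f) :
    Runs endU v.s ({ v with
      qq := []
      ww := []
      st := []
      pp := []
      dd := []
      kp := [] } : LV E).s (3 * (a + b + c + d + e + f) + 5) := by
  have r1 := runs_clr .qq v ({ v with qq := [] } : LV E) h1
    (by funext m; cases m <;> simp [LV.s])
  have r2 := runs_clr .ww ({ v with qq := [] } : LV E) ({ v with qq := [], ww := [] } : LV E)
    h2 (by funext m; cases m <;> simp [LV.s])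
  have r3 := runs_clr .st ({ v with qq := [], ww := [] } : LV E)
    ({ v with qq := [], ww := [], st := [] } : LV E)
    h3 (by funext m; cases m <;> simp [LV.s])
  have r4 := runs_clr .pp ({ v with qq := [], ww := [], st := [] } : LV E)
    ({ v with qq := [], ww := [], st := [], pp := [] } : LV E)
    h4 (by funext m; cases m <;> simp [LV.s])
  have r5 := runs_clr .dd ({ v with qq := [], ww := [], st := [], pp := [] } : LV E)
    ({ v with qq := [], ww := [], st := [], pp := [], dd := [] } : LV E)
    h5 (by funext m; cases m <;> simp [LV.s])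
  have r6 := runs_clr .kp ({ v with qq := [], ww := [], st := [], pp := [], dd := [] } : LV E)
    ({ v with qq := [], ww := [], st := [], pp := [], dd := [], kp := [] } : LV E)
    h6 (by funext m; cases m <;> simp [LV.s])
  exact runs_conv (r1.seq <| r2.seq <| r3.seq <| r4.seq <| r5.seq r6) rfl rfl (by omega)

end Vale.Agent.P338.SS
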