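import Vale.Agent.P338.Insts
import Vale.Agent.P338.SwapEnv

/-!
# P338: the index-dependent schedules and the kernel, in the form needed by the swap program
-/

namespace Vale.Agent.P338

variable {J E : Type} [DecidableEq J]

/-- Put `|HH|` copies of the string on `Q1` on `SCH`, and empty `Q1`. -/
def repSch : List (Cmd E) := [.rep R.HH R.Q1 R.SCH, .clr R.Q1]

theorem repSch_spec (s : St J E) (h : ℕ) (L : List Instr) (hh : s.at R.HH = una h)
    (hQ : s.at R.Q1 = []) (hS : s.at R.SCH = []) (h1 : s.at R.S1 = []) (h2 : s.at R.S2 = []) :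
    Runs (cmds repSch) (s.set R.Q1 (sch L)) (s.set R.SCH (sch (cat h fun _ => L)))
      (h * (6 * L.length + 8) + 3 * L.length + 4) := by
  simp only [St.at] at hh hQ hS h1 h2
  refine (cmds_spec repSch (s.set R.Q1 (sch L)) ?_).of_eq ?_ |>.mono ?_
  · simp [repSch, oks, Cmd.ok, hh, h1, h2]
  · have e : (rep h (sch L) : List (SSym E)) = sch (cat h fun _ => L) := by
      rw [cat_const]
      simp [rep, sch, List.map_flatten]
    simp only [repSch, effs, Cmd.eff]
    rw [← e]
    refine St.ext' (fun r => ?_) (fun j => by simp)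
    by_cases q1 : r = R.SCH
    · subst q1; simp [hh, hS]
    · by_cases q2 : r = R.Q1
      · subst q2; simp [hQ]
      · simp [q1, q2]
  · simp [repSch, costs, Cmd.cost, Cmd.eff, hh]
    omega

theorem gnScratch_sub : ∀ r ∈ gnScratch, r ∈ envScratch := by decide

theorem Env.gn {s : St J E} {h p q m : ℕ} (H : Env s h p q m) : s.Empty gnScratch :=
  fun r hr => H.empty r (gnScratch_sub r hr)

/-- A program that puts the string for one block on `Q1` gives one that puts the whole
schedule on `SCH`. -/
theorem genSpec_of {pg : Pr J E} {L : ℕ → ℕ → List Instr} {C c : ℕ}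
    (hpg : ∀ (h p q m : ℕ) (s : St J E), 1 ≤ h → 1 ≤ p → 1 ≤ q → mulSize h p q ≤ m →
      Env s h p q m → Runs pg s (s.set R.Q1 (sch (L p q))) (C * (q * rr p ^ 3)))
    (hL : ∀ p q, 1 ≤ p → 1 ≤ q → (L p q).length ≤ c * (q * rr p ^ 3)) :
    GenSpec (pg.seq (cmds repSch)) (fun h p q => cat h fun _ => L p q) (C + 9 * c + 13) := by
  intro h p q m s hh hp hq hm H
  have hS := H.empty R.SCH (by decide)
  have hQ := H.empty R.Q1 (by decide)
  have hS1 := H.empty R.S1 (by decide)
  have hS2 := H.empty R.S2 (by decide)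
  have r1 := hpg h p q m s hh hp hq hm H
  have r2 := repSch_spec s h (L p q) H.HH hQ hS hS1 hS2
  refine (r1.seq r2).mono ?_
  have hr : 1 ≤ q * rr p ^ 3 := Nat.mul_pos hq (by unfold rr; positivity)
  have hm' : h * (q * rr p ^ 3) ≤ m := by
    refine le_trans ?_ hm
    unfold mulSize
    nlinarith
  have e1 := hL p q hp hq
  have e2 : C * (q * rr p ^ 3) ≤ C * m := by
    refine Nat.mul_le_mul_left _ (le_trans ?_ hm')
    exact Nat.le_mul_of_pos_left _ hh
  have e3 : h * (6 * (L p q).length + 8) ≤ (6 * c + 8) * m := by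
    calc h * (6 * (L p q).length + 8) ≤ h * (6 * (c * (q * rr p ^ 3)) + 8 * (q * rr p ^ 3)) := by
          apply Nat.mul_le_mul_left; omega
      _ = (6 * c + 8) * (h * (q * rr p ^ 3)) := by ring
      _ ≤ (6 * c + 8) * m := Nat.mul_le_mul_left _ hm'
  have e4 : 3 * (L p q).length ≤ 3 * c * m := by
    calc 3 * (L p q).length ≤ 3 * (c * (q * rr p ^ 3)) := by omega
      _ = 3 * c * (q * rr p ^ 3) := by ring
      _ ≤ 3 * c * (h * (q * rr p ^ 3)) :=
          Nat.mul_le_mul_left _ (Nat.le_mul_of_pos_left _ hh)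
      _ ≤ 3 * c * m := Nat.mul_le_mul_left _ hm'
  have e5 : 1 ≤ m := le_trans (Nat.mul_pos hh hr) hm'
  have e6 : (C + 9 * c + 13) * m = C * m + (6 * c + 8) * m + 3 * c * m + 5 * m := by ring
  omega

/-! ### The four schedules -/

/-- The schedule of the first rotation of the rows. -/
def gSkew : Pr J E := (rowsTo R.Q1 beOne).seq (cmds repSch)

theorem gSkew_spec : GenSpec (gSkew : Pr J E)
    (fun h p q => rowsSch h (rr p) (16 * q * rr p) fun i => rr p - i) (16000 + 9 * 32 + 13) := by
  have h0 := genSpec_of (J := J) (E := E) (pg := rowsTo R.Q1 beOne)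
    (L := fun p q => cat (rr p) fun i => rotSch (rr p * (16 * q * rr p))
      ((rr p - i) * (16 * q * rr p))) (C := 16000) (c := 32)
    (by
      intro h p q m s hh hp hq hm H
      have hr4 : 4 ≤ rr p := four_le_rr p
      have r1 := rowsTo_spec R.Q1 (by decide) s (16 * q * rr p) (rr p) 1 beOne
        (Or.inl ⟨rfl, rfl⟩) H.gn (H.empty R.Q1 (by decide))
        (Nat.mul_pos (by omega) (by omega)) (by omega) H.WW H.RR
      refine (r1.mono (le_of_eq (by ring))).of_eq ?_
      congr 2
      refine cat_congr fun k hk => ?_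
      rw [Nat.mul_one, Nat.mod_eq_of_lt hk])
    (by
      intro p q hp hq
      have hr4 : 4 ≤ rr p := four_le_rr p
      rw [length_cat_of (L := rr p * (16 * q * rr p) + 1) fun i hi =>
        length_rotSch (Nat.mul_le_mul_right _ (Nat.sub_le _ _))]
      have : rr p ≤ 16 * (q * rr p ^ 3) := by
        have h2 : rr p ≤ rr p ^ 3 := Nat.le_self_pow (by norm_num) _
        nlinarith
      nlinarith)
  exact h0

/-- The schedule of the last rotation of the rows. -/
def gUnskew : Pr J E := (rowsTo R.Q1 beBack).seq (cmds repSch)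

theorem back_mod {r k : ℕ} (hk : k < r) : r - (k * (r - 1)) % r = backAmt r k := by
  unfold backAmt
  split
  · next h => subst h; simp
  · next h =>
    have e : k * (r - 1) = (r - k) + (k - 1) * r := by
      obtain ⟨d, rfl⟩ : ∃ d, k = d + 1 := ⟨k - 1, by omega⟩
      obtain ⟨f, rfl⟩ : ∃ f, r = d + 1 + f := ⟨r - (d + 1), by omega⟩
      have : d + 1 + f - 1 = d + f := by omega
      rw [this, Nat.add_sub_cancel_left, Nat.add_sub_cancel]
      ring
    rw [e, Nat.add_mul_mod_self_right, Nat.mod_eq_of_lt (by omega)]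
    omega

theorem gUnskew_spec : GenSpec (gUnskew : Pr J E)
    (fun h p q => rowsSch h (rr p) (16 * q * rr p) (backAmt (rr p))) (16000 + 9 * 32 + 13) := by
  have h0 := genSpec_of (J := J) (E := E) (pg := rowsTo R.Q1 beBack)
    (L := fun p q => cat (rr p) fun i => rotSch (rr p * (16 * q * rr p))
      (backAmt (rr p) i * (16 * q * rr p))) (C := 16000) (c := 32)
    (by
      intro h p q m s hh hp hq hm H
      have hr4 : 4 ≤ rr p := four_le_rr p
      have r1 := rowsTo_spec R.Q1 (by decide) s (16 * q * rr p) (rr p) (rr p - 1) beBack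
        (Or.inr ⟨rfl, rfl⟩) H.gn (H.empty R.Q1 (by decide))
        (Nat.mul_pos (by omega) (by omega)) (by omega) H.WW H.RR
      refine (r1.mono (le_of_eq (by ring))).of_eq ?_
      congr 2
      refine cat_congr fun k hk => ?_
      rw [back_mod hk])
    (by
      intro p q hp hq
      have hr4 : 4 ≤ rr p := four_le_rr p
      rw [length_cat_of (L := rr p * (16 * q * rr p) + 1) fun i hi =>
        length_rotSch (Nat.mul_le_mul_right _ (by unfold backAmt; split <;> omega))]
      have : rr p ≤ 16 * (q * rr p ^ 3) := by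
        have h2 : rr p ≤ rr p ^ 3 := Nat.le_self_pow (by norm_num) _
        nlinarith
      nlinarith)
  exact h0

/-- The schedule of the rotations of the slots by squares. -/
def gTwSq : Pr J E := (twSqTo R.Q1).seq (cmds repSch)

theorem gTwSq_spec : GenSpec (gTwSq : Pr J E)
    (fun h p q => twSch h (rr p) (16 * q * rr p) fun i j => 4 * q * (2 * rr p - uSq (rr p) i j))
    (4000 + 9 * 32 + 13) := by
  have h0 := genSpec_of (J := J) (E := E) (pg := twSqTo R.Q1)
    (L := fun p q => cat (rr p) fun i => cat (rr p) fun j => rotSch (16 * q * rr p)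
      (4 * q * (2 * rr p - uSq (rr p) i j))) (C := 4000) (c := 32)
    (by
      intro h p q m s hh hp hq hm H
      have hr4 : 4 ≤ rr p := four_le_rr p
      have r1 := twSqTo_spec R.Q1 (by decide) s (4 * q) (rr p) H.gn
        (H.empty R.Q1 (by decide)) (by omega) (by omega) H.K3 H.RR H.DD
      refine (r1.mono (le_of_eq (by ring))).of_eq ?_
      have e : 4 * (4 * q * rr p) = 16 * q * rr p := by ring
      rw [e]
      rfl)
    (by
      intro p q hp hq
      have hr4 : 4 ≤ rr p := four_le_rr p
      rw [length_cat_of (L := rr p * (16 * q * rr p + 1)) fun i hi =>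
        length_cat_of (L := 16 * q * rr p + 1) fun j hj => length_rotSch ?_]
      · have h2 : rr p * rr p ≤ rr p ^ 3 := by nlinarith
        nlinarith
      · calc 4 * q * (2 * rr p - uSq (rr p) i j) ≤ 4 * q * (2 * rr p) :=
              Nat.mul_le_mul_left _ (Nat.sub_le _ _)
          _ ≤ 16 * q * rr p := by nlinarith)
  exact h0

/-- The schedule of the rotations of the slots between the two convolutions. -/
def gTwMix : Pr J E := (twMixTo R.Q1).seq (cmds repSch)

theorem gTwMix_spec : GenSpec (gTwMix : Pr J E)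
    (fun h p q => twSch h (rr p) (16 * q * rr p) fun i j => 4 * q * (2 * rr p - uMix (rr p) i j))
    (4000 + 9 * 32 + 13) := by
  have h0 := genSpec_of (J := J) (E := E) (pg := twMixTo R.Q1)
    (L := fun p q => cat (rr p) fun i => cat (rr p) fun j => rotSch (16 * q * rr p)
      (4 * q * (2 * rr p - uMix (rr p) i j))) (C := 4000) (c := 32)
    (by
      intro h p q m s hh hp hq hm H
      have hr4 : 4 ≤ rr p := four_le_rr p
      have r1 := twMixTo_spec R.Q1 (by decide) s (4 * q) (rr p) H.gn
        (H.empty R.Q1 (by decide)) (by omega) (by omega) H.K3 H.RR H.DD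
      refine (r1.mono (le_of_eq (by ring))).of_eq ?_
      have e : 4 * (4 * q * rr p) = 16 * q * rr p := by ring
      rw [e]
      rfl)
    (by
      intro p q hp hq
      have hr4 : 4 ≤ rr p := four_le_rr p
      rw [length_cat_of (L := rr p * (16 * q * rr p + 1)) fun i hi =>
        length_cat_of (L := 16 * q * rr p + 1) fun j hj => length_rotSch ?_]
      · have h2 : rr p * rr p ≤ rr p ^ 3 := by nlinarith
        nlinarith
      · calc 4 * q * (2 * rr p - uMix (rr p) i j) ≤ 4 * q * (2 * rr p) :=
              Nat.mul_le_mul_left _ (Nat.sub_le _ _)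
          _ ≤ 16 * q * rr p := by nlinarith)
  exact h0

/-- The kernel. -/
def gKer : Pr J E := kerTo R.KER

theorem gKer_spec : KerSpec (gKer : Pr J E) 4000 := by
  intro h p q m s hh hp hq hm H hK
  have hr4 : 4 ≤ rr p := four_le_rr p
  have e : 4 * (4 * q * rr p) = 16 * q * rr p := by ring
  have r1 := kerTo_spec R.KER (by decide) s (4 * q) (rr p) H.gn hK (by omega) (by omega)
    (H.empty R.Q2 (by decide)) (H.empty R.Q3 (by decide)) H.K3 H.RR H.DD (by rw [e]; exact H.WW)
  rw [e] at r1
  refine r1.mono ?_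
  have : h * (q * rr p ^ 3) ≤ m := by
    refine le_trans ?_ hm
    unfold mulSize
    have e : 48 * h * rr p ^ 3 * q = 48 * (h * (q * rr p ^ 3)) := by ring
    rw [e]
    exact Nat.le_mul_of_pos_left _ (by norm_num)
  have h2 : q * rr p ^ 3 ≤ h * (q * rr p ^ 3) := Nat.le_mul_of_pos_left _ hh
  calc 1000 * (4 * q * rr p ^ 3) = 4000 * (q * rr p ^ 3) := by ring
    _ ≤ 4000 * m := Nat.mul_le_mul_left _ (h2.trans this)

end Vale.Agent.P338
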