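import Vale.Agent.P338.Ring
import Vale.Agent.P338.Sched

/-!
# P338: the swap of two adjacent digits as a chain of passes on bit lists
-/

namespace Vale.Agent.P338

/-! ### The parameters -/

theorem two_le_rho (p : ℕ) : 2 ≤ rho p := by unfold rho; omega

theorem le_rr (p : ℕ) : p ≤ rr p := by
  unfold rr rho
  have h : (p - 1) / 4 < 2 ^ Nat.size ((p - 1) / 4) := Nat.lt_size_self _
  rw [pow_add]
  omega

theorem four_le_rr (p : ℕ) : 4 ≤ rr p := by
  unfold rr
  calc 4 = 2 ^ 2 := by norm_num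
    _ ≤ 2 ^ rho p := Nat.pow_le_pow_right (by norm_num) (two_le_rho p)

/-- The relations between the parameters of a swap. -/
structure Par (p q r ρ g D M W : ℕ) : Prop where
  hp : 1 ≤ p
  hq : 1 ≤ q
  hr : r = rr p
  hρ : ρ = rho p
  hg : g = 4 * q
  hD : D = 4 * q * r
  hM : M = p * q
  hW : W = 16 * q * r

theorem Par.mk' {p q : ℕ} (hp : 1 ≤ p) (hq : 1 ≤ q) :
    Par p q (rr p) (rho p) (4 * q) (4 * q * rr p) (p * q) (16 * q * rr p) :=
  ⟨hp, hq, rfl, rfl, rfl, rfl, rfl, rfl⟩

section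

variable {p q r ρ g D M W : ℕ}

theorem Par.r_eq (P : Par p q r ρ g D M W) : r = 2 ^ ρ := by rw [P.hr, P.hρ]; rfl

theorem Par.two_le (P : Par p q r ρ g D M W) : 2 ≤ ρ := by rw [P.hρ]; exact two_le_rho p

theorem Par.p_le (P : Par p q r ρ g D M W) : p ≤ r := by rw [P.hr]; exact le_rr p

theorem Par.four_le (P : Par p q r ρ g D M W) : 4 ≤ r := by rw [P.hr]; exact four_le_rr p

theorem Par.D_eq (P : Par p q r ρ g D M W) : D = g * r := by rw [P.hD, P.hg]

theorem Par.W_eq (P : Par p q r ρ g D M W) : W = 4 * D := by rw [P.hW, P.hD]; ring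

theorem Par.W_eq' (P : Par p q r ρ g D M W) : W = 4 * (g * r) := by rw [P.W_eq, P.D_eq]

theorem Par.le (P : Par p q r ρ g D M W) : ρ + M + 3 ≤ D := by
  have h1 : ρ < r := by rw [P.r_eq]; exact Nat.lt_two_pow_self
  have h2 : M ≤ r * q := by rw [P.hM]; exact Nat.mul_le_mul_right _ P.p_le
  have h3 : r ≤ r * q := Nat.le_mul_of_pos_right _ P.hq
  have h4 : D = 4 * (r * q) := by rw [P.hD]; ring
  have h5 := P.four_le
  omega

theorem Par.two_le_D (P : Par p q r ρ g D M W) : 2 ≤ D := by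
  have := P.le
  omega

theorem Par.M_le (P : Par p q r ρ g D M W) : ρ + M ≤ W := by
  have := P.le
  have := P.W_eq
  omega

/-- The size of the operands. -/
theorem Par.size (P : Par p q r ρ g D M W) (h : ℕ) :
    h * (3 * (r * r * W)) = mulSize h p q := by
  rw [mulSize, P.hW, ← P.hr]
  ring

/-- `h` blocks of `r × r` slots of `W` bits. -/
def lay (h r W : ℕ) (v : ℕ → ℕ → ℕ → ℕ) : List Bool := data h r fun a i j => bitsOf W (v a i j)

theorem lay_congr {h r W : ℕ} {v v' : ℕ → ℕ → ℕ → ℕ}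
    (H : ∀ a < h, ∀ i < r, ∀ j < r, v a i j = v' a i j) : lay h r W v = lay h r W v' := by
  refine cat_congr fun a ha => cat_congr fun i hi => cat_congr fun j hj => ?_
  show bitsOf W (v a i j) = bitsOf W (v' a i j)
  rw [H a ha i hi j hj]

theorem data_congr {h r : ℕ} {e e' : ℕ → ℕ → ℕ → List Bool}
    (H : ∀ a < h, ∀ i < r, ∀ j < r, e a i j = e' a i j) : data h r e = data h r e' :=
  cat_congr fun a ha => cat_congr fun i hi => cat_congr fun j hj => H a ha i hi j hj

theorem length_lay (h r W : ℕ) (v : ℕ → ℕ → ℕ → ℕ) :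
    (lay h r W v).length = h * (r * r * W) := by
  refine length_cat_of fun a _ => ?_
  rw [length_cat_of (L := r * W) fun i _ => length_cat_of fun j _ => length_bitsOf _ _]
  ring

theorem length_data {h p M : ℕ} {e : ℕ → ℕ → ℕ → List Bool}
    (he : ∀ a < h, ∀ i < p, ∀ j < p, (e a i j).length = M) :
    (data h p e).length = h * (p * p * M) := by
  refine length_cat_of fun a ha => ?_
  rw [length_cat_of (L := p * M) fun i hi => length_cat_of fun j hj => he a ha i hi j hj]
  ring

/-! ### The values in the passes -/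

/-- The exponents in the passes 2 and 6. -/
def uSq (r i _j : ℕ) : ℕ := i ^ 2 % (2 * r)

/-- The exponents in the pass 4. -/
def uMix (r k j : ℕ) : ℕ := (2 * k ^ 2 + 2 * (r - k) * j) % (2 * r)

theorem uSq_lt {r : ℕ} (hr : 1 ≤ r) (i j : ℕ) : uSq r i j < 2 * r := Nat.mod_lt _ (by omega)

theorem uMix_lt {r : ℕ} (hr : 1 ≤ r) (i j : ℕ) : uMix r i j < 2 * r := Nat.mod_lt _ (by omega)

theorem uSq_modEq (r i j : ℕ) : (uSq r i j : ℤ) ≡ (i : ℤ) ^ 2 [ZMOD ((2 * r : ℕ) : ℤ)] := by
  unfold uSq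
  push_cast
  exact Int.mod_modEq _ _

theorem uMix_modEq {r k : ℕ} (hk : k < r) (j : ℕ) :
    (uMix r k j : ℤ) ≡ 2 * (k : ℤ) ^ 2 - 2 * k * j [ZMOD ((2 * r : ℕ) : ℤ)] := by
  unfold uMix
  have h1 : (((2 * k ^ 2 + 2 * (r - k) * j) % (2 * r) : ℕ) : ℤ) ≡
      ((2 * k ^ 2 + 2 * (r - k) * j : ℕ) : ℤ) [ZMOD ((2 * r : ℕ) : ℤ)] := by
    rw [Int.natCast_mod]
    exact Int.mod_modEq _ _
  refine h1.trans ?_
  have h2 : ((r - k : ℕ) : ℤ) = (r : ℤ) - k := by omega
  refine (Int.modEq_iff_dvd.2 ⟨-(j : ℤ), ?_⟩)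
  push_cast
  rw [h2]
  ring

/-- Rotating every slot. -/
def rotV (g r : ℕ) (u : ℕ → ℕ → ℕ) (v : ℕ → ℕ → ℕ → ℕ) (a i j : ℕ) : ℕ :=
  rotN (4 * (g * r)) (g * (2 * r - u i j)) (v a i j)

theorem foldV_rotV (g r : ℕ) (u : ℕ → ℕ → ℕ) (v : ℕ → ℕ → ℕ → ℕ) :
    foldV (g * r) (rotV g r u v) = twV g r u v := rfl

/-- The numbers that are represented by the entries. -/
def nums (e : ℕ → ℕ → ℕ → List Bool) (a i j : ℕ) : ℕ := natOf (e a i j)

/-- The effect of the passes on the values. -/
def stepV (g r : ℕ) : ℕ → (ℕ → ℕ → ℕ → ℕ) → ℕ → ℕ → ℕ → ℕ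
  | 0 => skewV r
  | 1 => rotV g r (uSq r)
  | 2 => foldV (g * r)
  | 3 => conv g r
  | 4 => rotV g r (uMix r)
  | 5 => foldV (g * r)
  | 6 => conv g r
  | 7 => rotV g r (uSq r)
  | 8 => foldV (g * r)
  | 9 => foldV (g * r)
  | _ => unskewV r

/-- The values after `n` passes. -/
def stg (g r p : ℕ) (e : ℕ → ℕ → ℕ → List Bool) : ℕ → ℕ → ℕ → ℕ → ℕ
  | 0 => padV p (nums e)
  | n + 1 => stepV g r n (stg g r p e n)

theorem stg_zero (g r p : ℕ) (e : ℕ → ℕ → ℕ → List Bool) :
    stg g r p e 0 = padV p (nums e) := rfl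
theorem stg_one (g r p : ℕ) (e : ℕ → ℕ → ℕ → List Bool) :
    stg g r p e 1 = skewV r (stg g r p e 0) := rfl
theorem stg_two (g r p : ℕ) (e : ℕ → ℕ → ℕ → List Bool) :
    stg g r p e 2 = rotV g r (uSq r) (stg g r p e 1) := rfl
theorem stg_three (g r p : ℕ) (e : ℕ → ℕ → ℕ → List Bool) :
    stg g r p e 3 = foldV (g * r) (stg g r p e 2) := rfl
theorem stg_four (g r p : ℕ) (e : ℕ → ℕ → ℕ → List Bool) :
    stg g r p e 4 = conv g r (stg g r p e 3) := rfl
theorem stg_five (g r p : ℕ) (e : ℕ → ℕ → ℕ → List Bool) :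
    stg g r p e 5 = rotV g r (uMix r) (stg g r p e 4) := rfl
theorem stg_six (g r p : ℕ) (e : ℕ → ℕ → ℕ → List Bool) :
    stg g r p e 6 = foldV (g * r) (stg g r p e 5) := rfl
theorem stg_seven (g r p : ℕ) (e : ℕ → ℕ → ℕ → List Bool) :
    stg g r p e 7 = conv g r (stg g r p e 6) := rfl
theorem stg_eight (g r p : ℕ) (e : ℕ → ℕ → ℕ → List Bool) :
    stg g r p e 8 = rotV g r (uSq r) (stg g r p e 7) := rfl
theorem stg_nine (g r p : ℕ) (e : ℕ → ℕ → ℕ → List Bool) :
    stg g r p e 9 = foldV (g * r) (stg g r p e 8) := rfl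
theorem stg_ten (g r p : ℕ) (e : ℕ → ℕ → ℕ → List Bool) :
    stg g r p e 10 = foldV (g * r) (stg g r p e 9) := rfl
theorem stg_eleven (g r p : ℕ) (e : ℕ → ℕ → ℕ → List Bool) :
    stg g r p e 11 = unskewV r (stg g r p e 10) := rfl

theorem stg_eq (g r p : ℕ) (e : ℕ → ℕ → ℕ → List Bool) :
    stg g r p e 11 = swapV g r p (uSq r) (uMix r) (nums e) := rfl

/-- Pass 0. -/
theorem Par.tr_pad (P : Par p q r ρ g D M W) {h : ℕ} {e : ℕ → ℕ → ℕ → List Bool}
    (he : ∀ a < h, ∀ i < p, ∀ j < p, (e a i j).length = M) :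
    Tr (padSch h p r M W) (data h p e) (lay h r W (stg g r p e 0)) := by
  refine (Tr.pad P.p_le he).congr rfl ?_
  refine data_congr fun a ha i hi j hj => ?_
  rw [stg_zero]
  unfold padded padV nums
  split
  · next hij =>
    have hM := P.M_le
    have hl := he a ha i hij.1 j hij.2
    rw [show W = M + (W - M) by omega, bitsOf_add_zeros (by rw [← hl]; exact natOf_lt _),
      bitsOf_natOf_of hl, Nat.add_sub_cancel_left]
  · rw [bitsOf_zero]

/-- Pass 1. -/
theorem tr_skew {h r W : ℕ} (v : ℕ → ℕ → ℕ → ℕ) :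
    Tr (rowsSch h r W fun i => r - i) (lay h r W v) (lay h r W (skewV r v)) :=
  Tr.rows (fun _ _ _ _ _ _ => length_bitsOf _ _) fun _ _ => Nat.sub_le _ _

/-- The amounts in pass 7. -/
def backAmt (r i : ℕ) : ℕ := if i = 0 then r else i

/-- Pass 7. -/
theorem tr_unskew {h r W : ℕ} (v : ℕ → ℕ → ℕ → ℕ) :
    Tr (rowsSch h r W (backAmt r)) (lay h r W v) (lay h r W (unskewV r v)) := by
  refine (Tr.rows (fun _ _ _ _ _ _ => length_bitsOf _ _) fun i hi => ?_).congr rfl ?_
  · unfold backAmt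
    split <;> omega
  · refine lay_congr fun a _ i _ j _ => ?_
    unfold unskewV backAmt
    split
    · next h0 => rw [h0, Nat.add_mod_right, Nat.add_zero]
    · rfl

/-- Rotating the slots. -/
theorem Par.tr_rot (P : Par p q r ρ g D M W) {h : ℕ} {u : ℕ → ℕ → ℕ}
    {v : ℕ → ℕ → ℕ → ℕ} (hv : ∀ a < h, ∀ i < r, ∀ j < r, v a i j < 2 ^ W) :
    Tr (twSch h r W fun i j => g * (2 * r - u i j)) (lay h r W v)
      (lay h r W (rotV g r u v)) := by
  have hW := P.W_eq'
  refine (Tr.tw hv fun i _ j _ => ?_).congr rfl ?_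
  · calc g * (2 * r - u i j) ≤ g * (2 * r) := Nat.mul_le_mul_left _ (Nat.sub_le _ _)
      _ = 2 * (g * r) := by ring
      _ ≤ W := by omega
  · unfold lay rotV
    rw [hW]

/-- Folding the slots. -/
theorem Par.tr_fold (P : Par p q r ρ g D M W) {h : ℕ} (v : ℕ → ℕ → ℕ → ℕ) :
    Tr (foldsSch h r D) (lay h r W v) (lay h r W (foldV (g * r) v)) := by
  have hW := P.W_eq
  have hD := P.D_eq
  refine (Tr.folds (v := v) P.two_le_D).congr ?_ ?_
  · rw [lay, hW]
  · rw [lay, hW, ← hD]
    rfl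

/-- Extending the blocks by zeros. -/
theorem tr_ext {h r W : ℕ} (v : ℕ → ℕ → ℕ → ℕ) :
    Tr (extSch h (r * r * W)) (lay h r W v) (xaList h r W v) :=
  Tr.ext fun a _ => by
    rw [length_cat_of (L := r * W) fun i _ => length_cat_of fun j _ => length_bitsOf _ _]
    ring

/-- Selecting the convolutions from the product. -/
theorem Par.tr_mid (P : Par p q r ρ g D M W) {h m : ℕ} {v : ℕ → ℕ → ℕ → ℕ}
    (hm : mulSize h p q ≤ m)
    (hv : ∀ a < h, ∀ i < r, ∀ j < r, v a i j ≤ 2 ^ (D + 2)) :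
    ∃ y rest : List Bool,
      bitsOf (2 * m) (natOf (xaList h r W v ++ List.replicate (m - mulSize h p q) false) *
        natOf (kerList r g W ++ List.replicate (m - 2 * (r * r * W)) false)) = y ++ rest ∧
      y.length = mulSize h p q ∧ rest.length = 2 * m - mulSize h p q ∧
      Tr (midSch h (r * r * W)) y (lay h r W (conv g r v)) := by
  have h1 := P.le
  have h2 := P.D_eq
  have h3 := P.W_eq'
  rw [natOf_append_zeros, natOf_append_zeros]
  obtain ⟨A₁, A₃, hA₁, hA₃, hmul⟩ := mul_kernel (K := 2 * m) (h := h) P.r_eq h3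
    (by omega) (by rw [P.size]; omega) (by rw [← h2]; exact hv)
  refine ⟨_, _, hmul, ?_, ?_, ?_⟩
  · rw [← P.size]
    refine length_cat_of fun a _ => ?_
    rw [List.length_append, List.length_append, hA₁, hA₃,
      length_cat_of (L := r * W) fun i _ => length_cat_of fun j _ => length_bitsOf _ _]
    ring
  · rw [List.length_replicate, P.size]
  · refine (Tr.mid (x := A₁) (z := A₃) (fun a _ => hA₁ a) (fun a _ => ?_)
      (fun a _ => hA₃ a)).congr (cat_congr fun a _ => List.append_assoc _ _ _) rfl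
    rw [length_cat_of (L := r * W) fun i _ => length_cat_of fun j _ => length_bitsOf _ _]
    ring

/-- The bounds for the values: before a rotation. -/
theorem Par.stg_lt (P : Par p q r ρ g D M W) {h : ℕ} {e : ℕ → ℕ → ℕ → List Bool}
    (he : ∀ a < h, ∀ i < p, ∀ j < p, (e a i j).length = M) {n : ℕ}
    (hn : n = 1 ∨ n = 4 ∨ n = 7) : ∀ a < h, ∀ i < r, ∀ j < r, stg g r p e n a i j < 2 ^ W := by
  have hle := P.le
  have hD := P.D_eq
  have hW' := P.W_eq'
  intro a ha i hi j hj
  rcases hn with rfl | rfl | rfl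
  · rw [stg_one, stg_zero]
    unfold skewV padV nums
    split
    · next hij =>
      refine (natOf_lt _).trans_le ?_
      rw [he a ha _ hij.1 _ hij.2]
      exact Nat.pow_le_pow_right (by norm_num) (by have := P.M_le; omega)
    · positivity
  · exact conv_lt P.r_eq hW' (by omega) hi fun i' _ => foldV_le _ _ _ _ _
  · exact conv_lt P.r_eq hW' (by omega) hi fun i' _ => foldV_le _ _ _ _ _

/-- The bounds for the values: before a convolution. -/
theorem Par.stg_le (P : Par p q r ρ g D M W) (e : ℕ → ℕ → ℕ → List Bool) {n : ℕ}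
    (hn : n = 3 ∨ n = 6) (a i j : ℕ) : stg g r p e n a i j ≤ 2 ^ (D + 2) := by
  rw [P.D_eq]
  rcases hn with rfl | rfl <;> exact foldV_le _ _ _ _ _

/-- Pass 8. -/
theorem Par.tr_unpad (P : Par p q r ρ g D M W) {h : ℕ} {e : ℕ → ℕ → ℕ → List Bool}
    (he : ∀ a < h, ∀ i < p, ∀ j < p, (e a i j).length = M) :
    Tr (unpadSch h p r ρ M W) (lay h r W (stg g r p e 11)) (data h p fun a i j => e a j i) := by
  have hle := P.le
  have hD := P.D_eq
  have hr4 := P.four_le
  refine (Tr.unpad P.p_le P.M_le fun _ _ _ _ _ _ => length_bitsOf _ _).congr rfl ?_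
  refine data_congr fun a ha i hi j hj => ?_
  have hM := P.M_le
  rw [drop_bitsOf (by omega), take_bitsOf (by omega), ← bitsOf_mod, stg_eq,
    swapV_spec (x := nums e) P.r_eq P.two_le (by rw [← hD]; exact hle) P.p_le
      (fun i hi j hj => ?_)
      (fun i _ j _ => ⟨(uSq_lt (by omega) i j).le, uSq_modEq r i j⟩)
      (fun i hi j _ => ⟨(uMix_lt (by omega) i j).le, uMix_modEq hi j⟩) hi hj]
  · unfold nums
    exact bitsOf_natOf_of (he a ha j hj i hi)
  · unfold nums
    rw [← he a ha i hi j hj]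
    exact natOf_lt _

/-! ### The schedules in the form in which they are generated -/

/-- A row of the kernel. -/
theorem ker_row {g r W u : ℕ} (hu : u ≤ 2 * r) (hW : W = 4 * (g * r))
    (hgr : 1 ≤ g * r) :
    bitsOf W (2 ^ (g * (2 * r - u))) ++ List.replicate ((r - 1) * W) false =
      List.replicate (g * (2 * r - u)) false ++ [true] ++ List.replicate (g * u) false ++
        List.replicate (2 * (g * r) - 1 + (r - 1) * W) false := by
  have h1 : g * (2 * r - u) + g * u = 2 * (g * r) := by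
    rw [← Nat.mul_add, Nat.sub_add_cancel hu]
    ring
  have h2 : bitsOf W (2 ^ (g * (2 * r - u))) = List.replicate (g * (2 * r - u)) false ++
      [true] ++ List.replicate (g * u + (2 * (g * r) - 1)) false := by
    apply natOf_inj
    · simp
      omega
    · rw [natOf_bitsOf_of_lt (Nat.pow_lt_pow_right (by norm_num) (by omega)), natOf_append_zeros,
        natOf_append]
      simp [natOf_cons]
  rw [h2, ← List.replicate_append_replicate (n := g * u), ← List.append_assoc,
    List.append_assoc _ (List.replicate (2 * (g * r) - 1) false),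
    List.replicate_append_replicate]

/-- A block rotation in a rotation pass. -/
theorem rotSch_tw {g r W u : ℕ} (hu : u ≤ 2 * r) (hW : W = 4 * (g * r)) :
    rotSch W (g * (2 * r - u)) = List.replicate (g * (2 * r - u)) Instr.toT ++
      List.replicate (g * u) Instr.toOut ++
        (List.replicate (2 * (g * r)) Instr.toOut ++ [Instr.flush]) := by
  have h1 : g * (2 * r - u) + g * u = 2 * (g * r) := by
    rw [← Nat.mul_add, Nat.sub_add_cancel hu]
    ring
  rw [rotSch, show W - g * (2 * r - u) = g * u + 2 * (g * r) by omega,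
    ← List.replicate_append_replicate]
  simp only [List.append_assoc]

/-- A row rotation. -/
theorem rotSch_row (r W i : ℕ) :
    rotSch (r * W) (i * W) = List.replicate (W * i) Instr.toT ++
      List.replicate (W * (r - i)) Instr.toOut ++ [Instr.flush] := by
  rw [rotSch, ← Nat.sub_mul, Nat.mul_comm i W, Nat.mul_comm (r - i) W]

/-! ### The lengths -/

theorem Par.W_pos (P : Par p q r ρ g D M W) : 64 ≤ W := by
  have h1 := P.four_le
  have h2 := P.hq
  have h3 : 1 * 4 ≤ q * r := Nat.mul_le_mul h2 h1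
  have h4 : W = 16 * (q * r) := by rw [P.hW]; ring
  omega

/-- A third of the size of the operands. -/
theorem Par.size3 (P : Par p q r ρ g D M W) (h : ℕ) :
    3 * (h * (r * (r * W))) = mulSize h p q := by
  rw [← P.size]
  ring

theorem Par.one_le_size (P : Par p q r ρ g D M W) {h : ℕ} (hh : 1 ≤ h) :
    1 ≤ mulSize h p q := by
  have h1 : 1 ≤ r := by have := P.four_le; omega
  have h2 : 1 ≤ W := by have := P.W_pos; omega
  have h3 : 1 * (1 * (1 * 1)) ≤ h * (r * (r * W)) :=
    Nat.mul_le_mul hh (Nat.mul_le_mul h1 (Nat.mul_le_mul h1 h2))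
  have := P.size3 h
  omega

theorem Par.len_lay (P : Par p q r ρ g D M W) (h : ℕ) (v : ℕ → ℕ → ℕ → ℕ) :
    (lay h r W v).length ≤ mulSize h p q := by
  rw [length_lay, ← P.size3 h, show h * (r * r * W) = h * (r * (r * W)) by ring]
  omega

theorem Par.len_data (P : Par p q r ρ g D M W) {h : ℕ} {e : ℕ → ℕ → ℕ → List Bool}
    (he : ∀ a < h, ∀ i < p, ∀ j < p, (e a i j).length = M) :
    (data h p e).length ≤ mulSize h p q := by
  rw [length_data he, ← P.size3 h]
  have h1 := P.p_le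
  have h2 : M ≤ W := by have := P.M_le; omega
  calc h * (p * p * M) ≤ h * (r * r * W) :=
        Nat.mul_le_mul_left _ (Nat.mul_le_mul (Nat.mul_le_mul h1 h1) h2)
    _ = h * (r * (r * W)) := by ring
    _ ≤ 3 * (h * (r * (r * W))) := by omega

theorem Par.len_pad (P : Par p q r ρ g D M W) (h : ℕ) :
    (padSch h p r M W).length ≤ mulSize h p q := by
  rw [length_padSch P.p_le (by have := P.M_le; omega), ← P.size3 h]
  omega

theorem Par.len_unpad (P : Par p q r ρ g D M W) (h : ℕ) :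
    (unpadSch h p r ρ M W).length ≤ mulSize h p q := by
  rw [length_unpadSch P.p_le P.M_le, ← P.size3 h]
  omega

theorem Par.len_rows (P : Par p q r ρ g D M W) (h : ℕ) {e : ℕ → ℕ} (he : ∀ i < r, e i ≤ r) :
    (rowsSch h r W e).length ≤ mulSize h p q := by
  rw [length_rowsSch he, ← P.size3 h]
  have h1 : 1 ≤ r * W := Nat.mul_pos (by have := P.four_le; omega) (by have := P.W_pos; omega)
  calc h * (r * (r * W + 1)) ≤ h * (r * (3 * (r * W))) :=
        Nat.mul_le_mul_left _ (Nat.mul_le_mul_left _ (by omega))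
    _ = 3 * (h * (r * (r * W))) := by ring

theorem Par.len_skew (P : Par p q r ρ g D M W) (h : ℕ) :
    (rowsSch h r W fun i => r - i).length ≤ mulSize h p q :=
  P.len_rows h fun _ _ => Nat.sub_le _ _

theorem Par.len_unskew (P : Par p q r ρ g D M W) (h : ℕ) :
    (rowsSch h r W (backAmt r)).length ≤ mulSize h p q :=
  P.len_rows h fun i hi => by
    unfold backAmt
    split <;> omega

theorem Par.len_rot (P : Par p q r ρ g D M W) (h : ℕ) (u : ℕ → ℕ → ℕ) :
    (twSch h r W fun i j => g * (2 * r - u i j)).length ≤ mulSize h p q := by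
  have hW := P.W_eq'
  rw [length_twSch fun i _ j _ => ?_, ← P.size3 h]
  · have h1 := P.W_pos
    calc h * (r * (r * (W + 1))) ≤ h * (r * (r * (3 * W))) :=
          Nat.mul_le_mul_left _ (Nat.mul_le_mul_left _ (Nat.mul_le_mul_left _ (by omega)))
      _ = 3 * (h * (r * (r * W))) := by ring
  · calc g * (2 * r - u i j) ≤ g * (2 * r) := Nat.mul_le_mul_left _ (Nat.sub_le _ _)
      _ = 2 * (g * r) := by ring
      _ ≤ W := by omega

theorem Par.len_folds (P : Par p q r ρ g D M W) (h : ℕ) :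
    (foldsSch h r D).length ≤ mulSize h p q := by
  rw [length_foldsSch P.two_le_D, ← P.size3 h]
  have h1 := P.W_pos
  have h2 := P.W_eq
  calc h * (r * (r * (8 * D + 4))) ≤ h * (r * (r * (3 * W))) :=
        Nat.mul_le_mul_left _ (Nat.mul_le_mul_left _ (Nat.mul_le_mul_left _ (by omega)))
    _ = 3 * (h * (r * (r * W))) := by ring

theorem Par.len_ext (P : Par p q r ρ g D M W) (h : ℕ) :
    (extSch h (r * r * W)).length = mulSize h p q := by
  rw [length_extSch, ← P.size h]
  ring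

theorem Par.len_mid (P : Par p q r ρ g D M W) (h : ℕ) :
    (midSch h (r * r * W)).length = mulSize h p q := by
  rw [length_midSch, ← P.size h]
  ring

theorem Par.len_xa (P : Par p q r ρ g D M W) (h : ℕ) (v : ℕ → ℕ → ℕ → ℕ) :
    (xaList h r W v).length = mulSize h p q := by
  rw [length_xaList, P.size]

theorem Par.len_ker (P : Par p q r ρ g D M W) {h : ℕ} (hh : 1 ≤ h) :
    (kerList r g W).length ≤ mulSize h p q := by
  rw [length_kerList (by have := P.four_le; omega), ← P.size3 h,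
    show 2 * (r * r * W) = 2 * (1 * (r * (r * W))) by ring]
  have := Nat.mul_le_mul_right (r * (r * W)) hh
  omega

end

end Vale.Agent.P338
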